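import Vale.Agent.P353.U.All
import Vale.Agent.P353.Ex.Bridge
import Vale.Agent.P353.BFSSBridge

/-! # P353, `N = 2`: existence, uniqueness and decay, from `SmStmt` -/

open MeasureTheory Filter Topology

namespace Vale.Agent.P353.BFSS

variable {F : Type*} [NormedAddCommGroup F] [InnerProductSpace ℂ F]

/-- `dim ker H_2 = 1` and the decay of the threshold state -/
theorem threshold_of (M : Model 2 3 F) (hs : U.SmStmt M.toOld.toSetup) :
    ∃ Φ : Conf 3 → F, M.IsZeroEnergyState Φ ∧ ¬ (∀ᵐ x ∂leb 3, Φ x = 0) ∧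
      (∀ Ψ, M.IsZeroEnergyState Ψ → ∃ c : ℂ, ∀ᵐ x ∂leb 3, Ψ x = c • Φ x) ∧
      (∀ s : ℝ, 0 ≤ s → s < 9 → Integrable (fun x => ‖x‖ ^ s * ‖Φ x‖ ^ 2) (leb 3)) := by
  have hF : FiniteDimensional ℂ F := M.toOld.finiteDimensional
  obtain ⟨Φ, h1, h2, h3⟩ := one_state M (U.All.uniq_all M.toOld.toSetup hs) (exists_state M)
  exact ⟨Φ, h1, h2, h3, fun s hs0 hs9 => (main M).2 Φ h1 s hs0 hs9⟩

end Vale.Agent.P353.BFSS
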