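import Vale.Agent.P353.U.Sm4

/-! # P353, uniqueness for `N = 2`: smoothness, homogeneity and covariance of `om`, `vv` (D-sm) -/

open MeasureTheory Filter Topology
open scoped ContDiff

namespace Vale.Agent.P353

variable {F : Type*} [NormedAddCommGroup F] [InnerProductSpace ℂ F]

/-- derivative of a quadratic polynomial along a line -/
lemma Dl.of_line {G : Type*} [NormedAddCommGroup G] [NormedSpace ℂ G] {f : X3 → G} {x v : X3}
    {a b : G} (h : ∀ t : ℝ, f (x + t • v) = f x + (t : ℂ) • a + ((t : ℂ) ^ 2) • b) :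
    Dl f x v a := by
  have h4 : HasDerivAt (fun t : ℝ => f x + (t : ℂ) • a + ((t : ℂ) ^ 2) • b) a 0 := by
    have h5 : HasDerivAt (fun t : ℝ => (t : ℂ)) 1 (0 : ℝ) := by
      simpa using (hasDerivAt_id (0 : ℝ)).ofReal_comp
    have h6 : HasDerivAt (fun t : ℝ => (t : ℂ) ^ 2) 0 (0 : ℝ) := by
      simpa using h5.fun_pow 2
    simpa using ((h5.smul_const a).const_add (f x)).fun_add (h6.smul_const b)
  unfold Dl
  rw [show (fun t : ℝ => f (x + t • v)) = _ from funext h]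
  exact h4

lemma Dl.subop {f g : X3 → F →L[ℂ] F} {x v : X3} {a b : F →L[ℂ] F} (hf : Dl f x v a)
    (hg : Dl g x v b) : Dl (fun y => f y - g y) x v (a - b) := HasDerivAt.fun_sub hf hg

lemma Dl.smulop {c : X3 → ℂ} {f : X3 → F →L[ℂ] F} {x v : X3} {a : F →L[ℂ] F} (hc : Dl c x v 0)
    (hf : Dl f x v a) : Dl (fun y => c y • f y) x v (c x • a) := Dl.csmul hc hf

lemma Dl.subvec {f g : X3 → F} {x v : X3} {a b : F} (hf : Dl f x v a)
    (hg : Dl g x v b) : Dl (fun y => f y - g y) x v (a - b) := HasDerivAt.fun_sub hf hg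

lemma Dl.smulvec {c : X3 → ℂ} {f : X3 → F} {x v : X3} {a : F} (hc : Dl c x v 0)
    (hf : Dl f x v a) : Dl (fun y => c y • f y) x v (c x • a) := Dl.csmul hc hf


lemma Dl.of_line_op {f : X3 → F →L[ℂ] F} {x v : X3} {a b : F →L[ℂ] F}
    (h : ∀ t : ℝ, f (x + t • v) = f x + (t : ℂ) • a + ((t : ℂ) ^ 2) • b) :
    Dl f x v a := Dl.of_line h

lemma Dl.of_lin_op {f : X3 → F →L[ℂ] F} (ha : ∀ x y, f (x + y) = f x + f y)
    (hs : ∀ (t : ℝ) x, f (t • x) = (t : ℂ) • f x) (x v : X3) : Dl f x v (f v) := by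
  refine Dl.of_line_op (b := 0) fun t => ?_
  rw [ha, hs, smul_zero, add_zero]

lemma Dl.of_bilin_op {f : X3 → X3 → F →L[ℂ] F} (ha : ∀ x y z, f (x + y) z = f x z + f y z)
    (hb : ∀ x y z, f x (y + z) = f x y + f x z)
    (hs : ∀ (t : ℝ) x y, f (t • x) y = (t : ℂ) • f x y)
    (hs' : ∀ (t : ℝ) x y, f x (t • y) = (t : ℂ) • f x y) (x v : X3) :
    Dl (fun y => f y y) x v (f v x + f x v) := by
  refine Dl.of_line_op (b := f v v) fun t => ?_
  rw [ha, hb, hb, hs, hs, hs', hs', smul_smul, smul_add, sq]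
  abel

lemma sm_abs_comm (T P Q P' Q' : F →L[ℂ] F) (c1 c2 c3 : ℂ)
    (h1 : T * P - P * T = Complex.I • P') (h2 : T * Q - Q * T = Complex.I • Q') :
    T * (c1 • (c2 • P - c3 • Q)) - (c1 • (c2 • P - c3 • Q)) * T =
      Complex.I • (c1 • (c2 • P' - c3 • Q')) := by
  refine sm_lin_smul _ _ _ _ ?_
  have h1 := sm_lin_smul T _ _ c2 h1
  have h2 := sm_lin_smul T _ _ c3 h2
  rw [smul_sub, ← h1, ← h2, mul_sub, sub_mul]
  abel

lemma sm_abs_om [CompleteSpace F] {Z : X3 → F →L[ℂ] F} {c : X3 → ℂ} {x v : X3}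
    {Z' T : F →L[ℂ] F} {Ω : F} (hZ : Dl Z x v Z') (hc : Dl c x v 0)
    (hcomm : ∀ y, Commute (Z y) (Z x)) (hK : T * Z x - Z x * T = Complex.I • Z')
    (hKc : Commute Z' (Z x)) (hΩ : T Ω = 0)
    (hd : DifferentiableAt ℝ (fun y => c y • (NormedSpace.exp (Z y)) Ω) x) :
    (-Complex.I) • fderiv ℝ (fun y => c y • (NormedSpace.exp (Z y)) Ω) x v +
      T (c x • (NormedSpace.exp (Z x)) Ω) = 0 := by
  have hE := Dl.exp hZ hcomm
  have hEΩ := Dl.clm hE (Dl.const Ω x v)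
  rw [map_zero, add_zero] at hEΩ
  have hom : Dl (fun y => c y • (NormedSpace.exp (Z y)) Ω) x v
      (c x • ((Z' * NormedSpace.exp (Z x)) Ω)) := Dl.smulvec hc hEΩ
  rw [(Dl.of_diff v hd).unique hom]
  have hc := sm_exp_comm hK (hKc.smul_left Complex.I)
  have hc2 := congrArg (fun X : F →L[ℂ] F => X Ω) hc
  simp only [mul_apply_eq_comp, _root_.add_apply, _root_.smul_apply, hΩ, map_zero, zero_add,
    smul_mul_assoc] at hc2
  rw [map_smul, hc2, mul_apply_eq_comp]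
  module

lemma sm_abs_vv {w : X3 → F} {z : X3 → F →L[ℂ] F} {c : X3 → ℂ} {x v : X3}
    {z' T : F →L[ℂ] F} {D : F} (hw : Dl w x v D) (hz : Dl z x v z') (hc : Dl c x v 0)
    (hT : (-Complex.I) • D + T (w x) = 0) (hK : T * z x - z x * T = Complex.I • z')
    (hd : DifferentiableAt ℝ (fun y => w y - c y • z y (w y)) x) :
    (-Complex.I) • fderiv ℝ (fun y => w y - c y • z y (w y)) x v +
      T (w x - c x • z x (w x)) = 0 := by
  have hv : Dl (fun y => w y - c y • z y (w y)) x v (D - c x • (z' (w x) + z x D)) :=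
    Dl.subvec hw (Dl.smulvec hc (Dl.clm hz hw))
  rw [(Dl.of_diff v hd).unique hv]
  have hFX := congrArg (fun X : F →L[ℂ] F => X (w x)) hK
  simp only [mul_apply_eq_comp, _root_.sub_apply, _root_.smul_apply] at hFX
  have hT : T (w x) = Complex.I • D := by
    rw [neg_smul, neg_add_eq_zero] at hT
    exact hT.symm
  rw [hT, map_smul] at hFX
  rw [map_sub, map_smul, hT]
  have e : T (z x (w x)) = Complex.I • z' (w x) + Complex.I • z x D := sub_eq_iff_eq_add.1 hFX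
  rw [e]
  module

namespace Setup

variable (S : Setup F)

lemma Dl_zP1 (x v : X3) : Dl S.zP1 x v (S.zP1 v) := Dl.of_lin_op S.zP1_add S.zP1_smul x v

lemma Dl_zP2 (x v : X3) : Dl (fun y => S.zP2 y y) x v (S.zP2 v x + S.zP2 x v) :=
  Dl.of_bilin_op S.zP2_add_left S.zP2_add_right S.zP2_smul_left S.zP2_smul_right x v

lemma Fx_add_op (x y : X3) : S.Fx (x + y) = S.Fx x + S.Fx y := by
  rw [Fx_sum, Fx_sum, Fx_sum, ← smul_add, ← Finset.sum_add_distrib]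
  refine congrArg _ (Finset.sum_congr rfl fun q _ => ?_)
  unfold Fxa
  simp only [← Finset.sum_add_distrib]
  refine Finset.sum_congr rfl fun A _ => Finset.sum_congr rfl fun B _ =>
    Finset.sum_congr rfl fun C _ => ?_
  rw [← add_smul]
  refine congrArg (· • _) ?_
  rw [PiLp.add_apply]
  push_cast
  ring

/-- the derivative of `Z` along an infinitesimal symmetry -/
noncomputable def Zd (x v : X3) : F →L[ℂ] F := ((‖x‖ ^ 2 / (2 * rho6sq x) : ℝ) : ℂ) •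
    ((Complex.I * ((1 / ‖x‖ : ℝ) : ℂ)) • S.zP1 v -
      ((1 / ‖x‖ ^ 2 : ℝ) : ℂ) • (S.zP2 v x + S.zP2 x v))

lemma sm_abs_mem (P Q : F →L[ℂ] F) (c1 c2 c3 : ℂ) (hP : P ∈ S.bspan) (hQ : Q ∈ S.bspan) :
    c1 • (c2 • P - c3 • Q) ∈ S.bspan :=
  Submodule.smul_mem _ _ (Submodule.sub_mem _ (Submodule.smul_mem _ _ hP)
    (Submodule.smul_mem _ _ hQ))

lemma ZZ_mem (x : X3) : S.ZZ x ∈ S.bspan := by
  rw [S.ZZ_eq]
  exact S.sm_abs_mem _ _ _ _ _ (S.zP1_mem x) (S.zP2_mem x x)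

lemma Zd_mem (x v : X3) : S.Zd x v ∈ S.bspan := by
  unfold Zd
  exact S.sm_abs_mem _ _ _ _ _ (S.zP1_mem v) (Submodule.add_mem _ (S.zP2_mem v x)
    (S.zP2_mem x v))

variable {S}

lemma SmC.comm_ZZ {L : X3 →L[ℝ] X3} {T : F →L[ℂ] F} (h : S.SmC L T) (x : X3) :
    T * S.ZZ x - S.ZZ x * T = Complex.I • S.Zd x (L x) := by
  rw [S.ZZ_eq]
  unfold Zd
  exact sm_abs_comm _ _ _ _ _ _ _ _ (h.P1 x) (h.P2 x)

lemma SmC.dl_norm {L : X3 →L[ℝ] X3} {T : F →L[ℂ] F} (h : S.SmC L T) {x : X3}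
    (hx : 0 < rho6sq x) : Dl (fun y : X3 => ‖y‖) x (L x) 0 := Dl.norm (sm_ne_zero hx) (h.inn x)

lemma SmC.dl_ZZ {L : X3 →L[ℝ] X3} {T : F →L[ℂ] F} (h : S.SmC L T) {x : X3}
    (hx : 0 < rho6sq x) : Dl S.ZZ x (L x) (S.Zd x (L x)) := by
  have h0 : ‖x‖ ≠ 0 := norm_ne_zero_iff.2 (sm_ne_zero hx)
  have hn := h.dl_norm hx
  have hr : Dl rho6sq x (L x) 0 := Dl.rho (h.rho x)
  have c1 : Dl (fun y : X3 => ((‖y‖ ^ 2 / (2 * rho6sq y) : ℝ) : ℂ)) x (L x) 0 :=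
    Dl.ofReal (Dl.div_zero (hn.pow_zero' 2) ((Dl.const 2 x _).mul_zero' hr) (by positivity))
  have c2 : Dl (fun y : X3 => Complex.I * ((1 / ‖y‖ : ℝ) : ℂ)) x (L x) 0 := by
    have e := HasDerivAt.const_mul Complex.I (Dl.ofReal (Dl.div_zero (Dl.const 1 x _) hn h0))
    rw [mul_zero] at e
    exact e
  have c3 : Dl (fun y : X3 => ((1 / ‖y‖ ^ 2 : ℝ) : ℂ)) x (L x) 0 :=
    Dl.ofReal (Dl.div_zero (Dl.const 1 x _) (hn.pow_zero' 2) (pow_ne_zero 2 h0))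
  rw [show S.ZZ = _ from funext S.ZZ_eq]
  exact Dl.smulop c1 (Dl.subop (Dl.smulop c2 (S.Dl_zP1 x _)) (Dl.smulop c3 (S.Dl_zP2 x _)))

theorem SmC.om_cov [CompleteSpace F] {L : X3 →L[ℝ] X3} {T : F →L[ℂ] F} (h : S.SmC L T) {Ω : F}
    (hΩ : T Ω = 0) {x : X3} (hx : 0 < rho6sq x) :
    (-Complex.I) • fderiv ℝ (S.om Ω) x (L x) + T (S.om Ω x) = 0 := by
  have h0 : ‖x‖ ≠ 0 := norm_ne_zero_iff.2 (sm_ne_zero hx)
  have hn := h.dl_norm hx
  have hr : Dl rho6sq x (L x) 0 := Dl.rho (h.rho x)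
  have c0 : Dl (fun y : X3 => (((rho6sq y / ‖y‖ ^ 2) ^ 2 / 16 : ℝ) : ℂ)) x (L x) 0 :=
    Dl.ofReal (Dl.div_zero ((Dl.div_zero hr (hn.pow_zero' 2) (pow_ne_zero 2 h0)).pow_zero' 2)
      (Dl.const 16 x _) (by norm_num))
  exact sm_abs_om (h.dl_ZZ hx) c0 (fun y => S.bspan_comm (S.ZZ_mem y) (S.ZZ_mem x))
    (h.comm_ZZ x) (S.bspan_comm (S.Zd_mem x (L x)) (S.ZZ_mem x)) hΩ
    ((S.om_contDiffAt Ω hx).differentiableAt (by simp))

theorem SmC.vv_cov [CompleteSpace F] {L : X3 →L[ℝ] X3} {T : F →L[ℂ] F} (h : S.SmC L T) {Ω : F}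
    (hΩ : T Ω = 0) {x : X3} (hx : 0 < rho6sq x) :
    (-Complex.I) • fderiv ℝ (S.vv Ω) x (L x) + T (S.vv Ω x) = 0 := by
  have hn := h.dl_norm hx
  have hxh : Dl P353.xh x (L x) (L (P353.xh x)) := by
    have h1 := Dl.of_xh (w := L (WithLp.toLp 2 fun p => ∑ B, Gr x p.2 B * x (p.1, B))) hx
      (h.inn x) (h.xh x)
    have e : P353.xh x = (1 / ‖x‖ ^ 2) •
        (WithLp.toLp 2 fun p => ∑ B, Gr x p.2 B * x (p.1, B)) := by
      ext p
      rw [PiLp.smul_apply, smul_eq_mul]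
      unfold P353.xh
      simp only
      ring
    rw [e, map_smul]
    exact h1
  have hw : Dl (fun y => S.om Ω (P353.xh y)) x (L x)
      (fderiv ℝ (S.om Ω) (P353.xh x) (L (P353.xh x))) :=
    Dl.comp ((S.om_contDiffAt Ω (sm_rho6_xh hx)).differentiableAt (by simp)) hxh
  have hz : Dl (fun y => y - P353.xh y) x (L x) (L (x - P353.xh x)) := by
    have h1 : Dl (fun y : X3 => y) x (L x) (L x) := sm_line x (L x)
    rw [map_sub]
    exact h1.sub hxh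
  have hF : Dl (fun y => S.Fx (y - P353.xh y)) x (L x) (S.Fx (L (x - P353.xh x))) := by
    have hd : DifferentiableAt ℝ S.Fx (x - P353.xh x) :=
      (contDiff_Fx S).differentiable (by simp) _
    have h1 := Dl.comp (f := S.Fx) (g := fun y => y - P353.xh y) hd hz
    have h2 : Dl S.Fx (x - P353.xh x) (L (x - P353.xh x)) (S.Fx (L (x - P353.xh x))) :=
      Dl.of_lin_op S.Fx_add_op S.Fx_smul_op _ _
    rw [(Dl.of_diff (L (x - P353.xh x)) hd).unique h2] at h1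
    exact h1
  have hc : Dl (fun y : X3 => ((1 / (2 * S.κ * ‖y‖) : ℝ) : ℂ)) x (L x) 0 := by
    have hk := S.κ_pos
    have h0 : ‖x‖ ≠ 0 := norm_ne_zero_iff.2 (sm_ne_zero hx)
    exact Dl.ofReal (Dl.div_zero (Dl.const 1 x _) ((Dl.const (2 * S.κ) x _).mul_zero' hn)
      (by positivity))
  exact sm_abs_vv hw hF hc (h.om_cov hΩ (sm_rho6_xh hx)) (h.FX (x - P353.xh x))
    ((S.vv_contDiffAt Ω hx).differentiableAt (by simp))

end Setup

namespace U

open Setup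

/-- **D-sm** -/
theorem sm [FiniteDimensional ℂ F] (S : Setup F) : SmStmt S := by
  have : CompleteSpace F := FiniteDimensional.complete ℂ F
  intro Ω hΩ
  refine ⟨fun x hx => (S.om_contDiffAt Ω hx).contDiffWithinAt,
    fun x hx => (S.vv_contDiffAt Ω hx).contDiffWithinAt, fun x hx => sm_rho6_xh hx,
    fun x t ht => ⟨S.om_smul Ω ht x, S.vv_smul Ω ht x⟩, fun n y hn h => sm_xh_cone hn y h,
    fun x hx => ⟨fun C => ?_, fun k l hkl => ?_⟩⟩
  · have h := S.smC_gauge C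
    have h0 : S.cS C Ω = 0 := by rw [S.cS_vac hΩ C]
    rw [G_eq, G_eq]
    exact ⟨h.om_cov h0 hx, h.vv_cov h0 hx⟩
  · have h := S.smC_rot hkl
    have h0 : S.Skl k l Ω = 0 := S.Skl_vac hΩ hkl
    rw [S.J_eq, S.J_eq]
    exact ⟨h.om_cov h0 hx, h.vv_cov h0 hx⟩

end U
end Vale.Agent.P353
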