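import Vale.Agent.P353.U.StmtA

/-! # P353, uniqueness for `N = 2`: A1, A6, A7, A8 -/

open MeasureTheory Filter Topology
open scoped ContDiff Matrix

namespace Vale.Agent.P353

variable {F : Type*} [NormedAddCommGroup F] [InnerProductSpace ℂ F]

namespace Setup

variable (S : Setup F)

lemma contDiff_MM_a1 (β : Fin 16) : ContDiff ℝ ∞ (S.MM β) := by
  unfold MM
  refine ContDiff.sum fun i _ => ContDiff.sum fun A _ => ?_
  exact (contDiff_ofReal (contDiff_const.mul (contDiff_coord _))).smul contDiff_const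

lemma Q_add_a1 (β : Fin 16) {u v : X3 → F} {x : X3} (hu : DifferentiableAt ℝ u x)
    (hv : DifferentiableAt ℝ v x) :
    S.Q β (fun y => u y + v y) x = S.Q β u x + S.Q β v x := by
  simp only [Q, pd_add hu hv, map_add, Finset.sum_add_distrib, smul_add]
  abel

lemma Q_csmul_a1 (β : Fin 16) (c : ℂ) {v : X3 → F} {x : X3} (hv : DifferentiableAt ℝ v x) :
    S.Q β (fun y => c • v y) x = c • S.Q β v x := by
  have h : ∀ i A, pd i A (fun y => c • v y) x = c • pd i A v x := by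
    intro i A
    unfold pd
    rw [fderiv_fun_const_smul hv]
    rfl
  simp only [Q, h, map_smul, ← Finset.smul_sum, smul_add]
  rw [smul_comm]

/-- the matrix `∑_i a_i x_i^A γ^i` -/
noncomputable def PA_a1 (A : Fin 3) (x : X3) : Matrix (Fin 16) (Fin 16) ℂ :=
  ∑ i, ((aw i * x (i, A) : ℝ) : ℂ) • S.g i

lemma PA_transpose_a1 (A : Fin 3) (x : X3) : (S.PA_a1 A x)ᵀ = S.PA_a1 A x := by
  simp only [PA_a1, Matrix.transpose_sum, Matrix.transpose_smul, S.g_symm]

lemma PA_sq_a1 (A : Fin 3) (x : X3) :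
    S.PA_a1 A x * S.PA_a1 A x = ((∑ i, (aw i * x (i, A)) ^ 2 : ℝ) : ℂ) • 1 := by
  set c : Fin 9 → ℂ := fun i => ((aw i * x (i, A) : ℝ) : ℂ) with hc
  have e1 : S.PA_a1 A x * S.PA_a1 A x = ∑ i, ∑ j, (c i * c j) • (S.g i * S.g j) := by
    simp only [PA_a1, Finset.sum_mul_sum, smul_mul_smul_comm]
    rfl
  have e2 : S.PA_a1 A x * S.PA_a1 A x = ∑ i, ∑ j, (c i * c j) • (S.g j * S.g i) := by
    rw [e1, Finset.sum_comm]
    refine Finset.sum_congr rfl fun i _ => Finset.sum_congr rfl fun j _ => ?_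
    rw [mul_comm (c j)]
  have e3 : (2 : ℂ) • (S.PA_a1 A x * S.PA_a1 A x) =
      (2 : ℂ) • (((∑ i, (aw i * x (i, A)) ^ 2 : ℝ) : ℂ) • (1 : Matrix (Fin 16) (Fin 16) ℂ)) := by
    rw [two_smul]
    nth_rewrite 1 [e1]
    rw [e2, ← Finset.sum_add_distrib]
    simp only [← Finset.sum_add_distrib, ← smul_add, S.g_anti]
    have : ∀ i, ∑ j, (c i * c j) • (if i = j then (2 : Matrix (Fin 16) (Fin 16) ℂ) else 0) =
        (c i * c i) • (2 : Matrix (Fin 16) (Fin 16) ℂ) := by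
      intro i
      rw [Finset.sum_eq_single i]
      · rw [if_pos rfl]
      · intro j _ hj
        rw [if_neg (Ne.symm hj), smul_zero]
      · intro h
        exact absurd (Finset.mem_univ _) h
    simp only [this, ← Finset.sum_smul]
    have h2 : (2 : Matrix (Fin 16) (Fin 16) ℂ) = (2 : ℂ) • 1 := by
      rw [two_smul, one_add_one_eq_two]
    rw [h2, smul_comm]
    congr 2
    rw [Complex.ofReal_sum]
    refine Finset.sum_congr rfl fun i _ => ?_
    rw [hc, Complex.ofReal_pow, sq]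
  have h2 : (2 : ℂ) ≠ 0 := two_ne_zero
  exact smul_right_injective _ h2 e3

lemma MM_eq_a1 (β : Fin 16) (x : X3) : S.MM β x = ∑ A, S.vec (S.PA_a1 A x * S.Gam) A β := by
  simp only [MM, PA_a1, Finset.sum_mul, Matrix.smul_mul, S.vec_sum, S.vec_smul]
  rw [Finset.sum_comm]

lemma PAG_mul_a1 (A : Fin 3) (x : X3) : S.PA_a1 A x * S.Gam * (S.PA_a1 A x * S.Gam)ᵀ =
    ((∑ i, (aw i * x (i, A)) ^ 2 : ℝ) : ℂ) • 1 := by
  rw [Matrix.transpose_mul, S.PA_transpose_a1, S.Gam_transpose]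
  calc S.PA_a1 A x * S.Gam * (-S.Gam * S.PA_a1 A x)
      = -(S.PA_a1 A x * (S.Gam * S.Gam) * S.PA_a1 A x) := by
        simp only [Matrix.neg_mul, Matrix.mul_neg, mul_assoc]
    _ = S.PA_a1 A x * S.PA_a1 A x := by
        rw [S.Gam_sq, Matrix.mul_neg, Matrix.neg_mul, neg_neg, mul_one]
    _ = _ := S.PA_sq_a1 A x

lemma MM_anti_a1 (α β : Fin 16) (x : X3) : S.MM α x * S.MM β x + S.MM β x * S.MM α x =
    if α = β then ((∑ i, ∑ A, (aw i * x (i, A)) ^ 2 : ℝ) : ℂ) • (1 : F →L[ℂ] F) else 0 := by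
  have e1 : S.MM α x * S.MM β x + S.MM β x * S.MM α x =
      ∑ A, ∑ B, (if A = B then ((S.PA_a1 A x * S.Gam * (S.PA_a1 B x * S.Gam)ᵀ) α β) •
        (1 : F →L[ℂ] F) else 0) := by
    rw [S.MM_eq_a1 α, S.MM_eq_a1 β, Finset.sum_mul_sum, Finset.sum_mul_sum]
    rw [Finset.sum_comm (f := fun B A => S.vec (S.PA_a1 B x * S.Gam) B β *
      S.vec (S.PA_a1 A x * S.Gam) A α), ← Finset.sum_add_distrib]
    simp only [← Finset.sum_add_distrib, S.vec_anti]
  have e2 : ∀ A : Fin 3, ∑ B, (if A = B then ((S.PA_a1 A x * S.Gam * (S.PA_a1 B x * S.Gam)ᵀ) α β) •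
        (1 : F →L[ℂ] F) else 0) =
      if α = β then ((∑ i, (aw i * x (i, A)) ^ 2 : ℝ) : ℂ) • (1 : F →L[ℂ] F) else 0 := by
    intro A
    rw [Finset.sum_ite_eq, if_pos (Finset.mem_univ _), S.PAG_mul_a1, Matrix.smul_apply,
      Matrix.one_apply]
    by_cases h : α = β
    · rw [if_pos h, if_pos h, smul_eq_mul, mul_one]
    · rw [if_neg h, if_neg h, smul_zero, zero_smul]
  rw [e1, Finset.sum_congr rfl fun A _ => e2 A]
  by_cases h : α = β
  · simp only [if_pos h, ← Finset.sum_smul]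
    congr 1
    rw [← Complex.ofReal_sum, Finset.sum_comm]
  · simp only [if_neg h, Finset.sum_const_zero]

/-- `tr (Γ γ^{ij}) = 0` -/
lemma trace_Gam_g2_a1 (i j : Fin 9) : (S.Gam * S.g2 i j).trace = 0 := by
  obtain ⟨k, hk, hki, hkj⟩ : ∃ k : Fin 9, 3 ≤ k.val ∧ k ≠ i ∧ k ≠ j := by
    revert i j
    decide
  have h1 : S.g k * S.Gam = -(S.Gam * S.g k) := S.g_Gam_anti hk
  have hi : S.g k * S.g i = -(S.g i * S.g k) := S.g_ac hki
  have hj : S.g k * S.g j = -(S.g j * S.g k) := S.g_ac hkj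
  have hij : ∀ p q : Fin 9, S.g k * S.g p = -(S.g p * S.g k) → S.g k * S.g q = -(S.g q * S.g k) →
      S.g k * (S.g p * S.g q) = S.g p * S.g q * S.g k := by
    intro p q hp hq
    rw [← mul_assoc, hp, neg_mul, mul_assoc, hq, mul_neg, neg_neg, mul_assoc]
  have h2 : S.g k * S.g2 i j = S.g2 i j * S.g k := by
    unfold CS.g2
    rw [Matrix.mul_smul, Matrix.smul_mul, mul_sub, sub_mul, hij i j hi hj, hij j i hj hi]
  have h3 : S.g k * (S.Gam * S.g2 i j) = -(S.Gam * S.g2 i j * S.g k) := by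
    rw [← mul_assoc, h1, neg_mul, mul_assoc, h2, mul_assoc]
  have h4 : (S.Gam * S.g2 i j).trace = -(S.Gam * S.g2 i j).trace := by
    calc (S.Gam * S.g2 i j).trace = (S.g k * S.g k * (S.Gam * S.g2 i j)).trace := by
          rw [S.g_sq', one_mul]
      _ = (S.g k * (S.g k * (S.Gam * S.g2 i j))).trace := by rw [mul_assoc]
      _ = (S.g k * (S.Gam * S.g2 i j) * S.g k).trace := by rw [Matrix.trace_mul_comm]
      _ = -(S.Gam * S.g2 i j * S.g k * S.g k).trace := by
          rw [h3, Matrix.neg_mul, Matrix.trace_neg]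
      _ = -(S.Gam * S.g2 i j).trace := by rw [mul_assoc, S.g_sq', mul_one]
  exact self_eq_neg.1 h4

/-- `tr γ^j = 0` -/
lemma trace_g_a1 (j : Fin 9) : (S.g j).trace = 0 := by
  obtain ⟨k, hkj⟩ : ∃ k : Fin 9, k ≠ j := by
    revert j
    decide
  have h1 : S.g k * S.g j = -(S.g j * S.g k) := S.g_ac hkj
  have h4 : (S.g j).trace = -(S.g j).trace := by
    calc (S.g j).trace = (S.g k * S.g k * S.g j).trace := by rw [S.g_sq', one_mul]
      _ = (S.g k * (S.g k * S.g j)).trace := by rw [mul_assoc]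
      _ = (S.g k * S.g j * S.g k).trace := by rw [Matrix.trace_mul_comm]
      _ = -(S.g j * S.g k * S.g k).trace := by rw [h1, Matrix.neg_mul, Matrix.trace_neg]
      _ = -(S.g j).trace := by rw [mul_assoc, S.g_sq', mul_one]
  exact self_eq_neg.1 h4

lemma gGam_im_a1 (i : Fin 9) (α β : Fin 16) : ((S.g i * S.Gam) α β).im = 0 :=
  mul_im_zero (S.g_im i) S.Gam_real α β

lemma MM_symm_a1 (β : Fin 16) (x : X3) (v w : F) :
    inner ℂ (S.MM β x v) w = inner ℂ v (S.MM β x w) := by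
  simp only [MM, _root_.sum_apply, _root_.smul_apply, sum_inner,
    inner_sum, inner_smul_left, inner_smul_right, S.vec_symm _ (S.gGam_im_a1 _), Complex.conj_ofReal]

lemma Tst.MM_a1 {u : X3 → F} (hu : Tst u) (β : Fin 16) : Tst (fun x => S.MM β x (u x)) :=
  hu.clm (S.contDiff_MM_a1 β)

lemma Tst.csmul_a1 {u : X3 → F} (hu : Tst u) (c : ℂ) : Tst (fun x => c • u x) := by
  refine ⟨contDiff_const.smul hu.1, hu.2.mono ?_⟩
  intro x hx
  simp only [Function.mem_support] at hx ⊢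
  intro h0
  exact hx (by rw [h0, smul_zero])

lemma Tst.Qm_a1 {u : X3 → F} (hu : Tst u) (m : ℝ) (β : Fin 16) : Tst (S.Qm m β u) :=
  (hu.Q S β).add ((Tst.MM_a1 S hu β).csmul_a1 m)

lemma Tst.W_a1 {u : X3 → F} (hu : Tst u) (β : Fin 16) : Tst (fun x => S.W β x (u x)) :=
  hu.clm (S.contDiff_W β)

lemma Q0_eq_a1 (β : Fin 16) (u : X3 → F) (x : X3) :
    S.Q0 β u x = S.Q β u x - S.W β x (u x) := by
  simp only [Q0, Q, add_sub_cancel_right]

lemma Tst.Q0_a1 {u : X3 → F} (hu : Tst u) (β : Fin 16) : Tst (S.Q0 β u) := by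
  have h := (hu.Q S β).sub (Tst.W_a1 S hu β)
  have e : S.Q0 β u = fun x => S.Q β u x - S.W β x (u x) := funext fun x => S.Q0_eq_a1 β u x
  rw [e]
  exact h

lemma Qm_symm_a1 (m : ℝ) (β : Fin 16) {u v : X3 → F} (hu : Tst u) (hv : Tst v) :
    ∫ x, inner ℂ (S.Qm m β u x) (v x) = ∫ x, inner ℂ (u x) (S.Qm m β v x) := by
  have h1 : ∀ x, inner ℂ (S.Qm m β u x) (v x) =
      inner ℂ (S.Q β u x) (v x) + (m : ℂ) * inner ℂ (S.MM β x (u x)) (v x) := by
    intro x
    simp only [Qm, inner_add_left, inner_smul_left, Complex.conj_ofReal]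
  have h2 : ∀ x, inner ℂ (u x) (S.Qm m β v x) =
      inner ℂ (u x) (S.Q β v x) + (m : ℂ) * inner ℂ (S.MM β x (u x)) (v x) := by
    intro x
    simp only [Qm, inner_add_right, inner_smul_right, S.MM_symm_a1]
  have i1 : Integrable (fun x => (m : ℂ) * inner ℂ (S.MM β x (u x)) (v x)) :=
    ((Tst.MM_a1 S hu β).inner_int hv.1.continuous).const_mul _
  simp only [h1, h2]
  rw [integral_add ((hu.Q S β).inner_int hv.1.continuous) i1,
    integral_add (hu.inner_int (hv.Q S β).1.continuous) i1, Q_symm S β u v hu hv.1]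

lemma Q0_symm_a1 (β : Fin 16) {u v : X3 → F} (hu : Tst u) (hv : Tst v) :
    ∫ x, inner ℂ (S.Q0 β u x) (v x) = ∫ x, inner ℂ (u x) (S.Q0 β v x) := by
  have h1 : ∀ x, inner ℂ (S.Q0 β u x) (v x) =
      inner ℂ (S.Q β u x) (v x) - inner ℂ (S.W β x (u x)) (v x) := by
    intro x
    rw [S.Q0_eq_a1, inner_sub_left]
  have h2 : ∀ x, inner ℂ (u x) (S.Q0 β v x) =
      inner ℂ (u x) (S.Q β v x) - inner ℂ (S.W β x (u x)) (v x) := by
    intro x
    rw [S.Q0_eq_a1, inner_sub_right, S.W_symm]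
  have i1 : Integrable (fun x => inner ℂ (S.W β x (u x)) (v x)) :=
    (Tst.W_a1 S hu β).inner_int hv.1.continuous
  simp only [h1, h2]
  rw [integral_sub ((hu.Q S β).inner_int hv.1.continuous) i1,
    integral_sub (hu.inner_int (hv.Q S β).1.continuous) i1, Q_symm S β u v hu hv.1]

end Setup

lemma ofReal_nsq_a1 (f : X3 → F) : ((nsq f : ℝ) : ℂ) = ∫ x, inner ℂ (f x) (f x) := by
  rw [nsq, ← integral_complex_ofReal]
  refine integral_congr_ae (Filter.Eventually.of_forall fun x => ?_)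
  simp only [inner_self_eq_norm_sq_to_K]
  norm_cast

/-- `-∫⟨u, Δu⟩ = ∑ ‖∂_i^A u‖²` -/
lemma lap_parts_a1 {u : X3 → F} (hu : Setup.Tst u) :
    ∫ x, inner ℂ (u x) (∑ i, ∑ A, pd i A (pd i A u) x) =
      -((∑ i, ∑ A, nsq (pd i A u) : ℝ) : ℂ) := by
  have i1 : ∀ i A, Integrable (fun x => inner ℂ (u x) (pd i A (pd i A u) x)) := fun i A =>
    hu.inner_int (contDiff_pd (contDiff_pd hu.1)).continuous
  simp only [inner_sum]
  rw [integral_finsetSum _ fun i _ => integrable_finsetSum _ fun A _ => i1 i A,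
    Complex.ofReal_sum, ← Finset.sum_neg_distrib]
  refine Finset.sum_congr rfl fun i _ => ?_
  rw [integral_finsetSum _ fun A _ => i1 i A, Complex.ofReal_sum, ← Finset.sum_neg_distrib]
  refine Finset.sum_congr rfl fun A _ => ?_
  rw [ofReal_nsq_a1, integral_inner_pd u (pd i A u) (hu.1.of_le (by simp))
    ((contDiff_pd hu.1).of_le (by simp)) hu.2 i A, neg_neg]

namespace U

theorem a1 (S : Setup F) (h : A1aStmt S) (h'' : A1bStmt S) : A1Stmt S := by
  intro m α β u hu x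
  have hQ : ∀ γ, ContDiff ℝ ∞ (S.Q γ u) := fun γ => S.contDiff_Q γ hu
  have hM : ∀ γ, ContDiff ℝ ∞ (fun y => S.MM γ y (u y)) := fun γ =>
    Setup.contDiff_clm_apply' (S.contDiff_MM_a1 γ) hu
  have e : ∀ γ δ, S.Qm m γ (S.Qm m δ u) x = S.Q γ (S.Q δ u) x +
      (m : ℂ) • (S.Q γ (fun y => S.MM δ y (u y)) x + S.MM γ x (S.Q δ u x)) +
      ((m : ℂ) * m) • S.MM γ x (S.MM δ x (u x)) := by
    intro γ δ
    have d1 : DifferentiableAt ℝ (S.Q δ u) x := (hQ δ).differentiable (by simp) x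
    have d2 : DifferentiableAt ℝ (fun y => S.MM δ y (u y)) x :=
      (hM δ).differentiable (by simp) x
    have e1 : S.Q γ (S.Qm m δ u) x = S.Q γ (S.Q δ u) x +
        (m : ℂ) • S.Q γ (fun y => S.MM δ y (u y)) x := by
      have e2 : S.Qm m δ u = fun y => S.Q δ u y + (m : ℂ) • S.MM δ y (u y) := rfl
      have d3 : DifferentiableAt ℝ (fun y => (m : ℂ) • S.MM δ y (u y)) x := d2.const_smul (m : ℂ)
      rw [e2, S.Q_add_a1 γ d1 d3, S.Q_csmul_a1 γ (m : ℂ) d2]
    have e3 : S.Qm m γ (S.Qm m δ u) x =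
        S.Q γ (S.Qm m δ u) x + (m : ℂ) • S.MM γ x (S.Q δ u x + (m : ℂ) • S.MM δ x (u x)) := rfl
    rw [e3, e1, map_add, map_smul]
    module
  have ha := h α β u hu x
  have hb := h'' α β u hu x
  have hc : S.MM α x (S.MM β x (u x)) + S.MM β x (S.MM α x (u x)) =
      (if α = β then ((∑ i, ∑ A, (aw i * x (i, A)) ^ 2 : ℝ) : ℂ) • (u x) else 0) := by
    have h1 := congrArg (fun T : F →L[ℂ] F => T (u x)) (S.MM_anti_a1 α β x)
    have h2 : (S.MM α x * S.MM β x + S.MM β x * S.MM α x) (u x) =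
      S.MM α x (S.MM β x (u x)) + S.MM β x (S.MM α x (u x)) := rfl
    rw [← h2]
    refine h1.trans ?_
    by_cases hab : α = β
    · simp only [if_pos hab]
      rfl
    · simp only [if_neg hab]
      rfl
  have hs : S.Qm m α (S.Qm m β u) x + S.Qm m β (S.Qm m α u) x =
      (S.Q α (S.Q β u) x + S.Q β (S.Q α u) x) +
      (m : ℂ) • (S.Q α (fun y => S.MM β y (u y)) x + S.MM α x (S.Q β u x) +
        S.Q β (fun y => S.MM α y (u y)) x + S.MM β x (S.Q α u x)) +
      ((m : ℂ) * m) • (S.MM α x (S.MM β x (u x)) + S.MM β x (S.MM α x (u x))) := by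
    rw [e α β, e β α]
    module
  rw [hs, ha, hb, hc]
  by_cases hab : α = β
  · simp only [if_pos hab, Setup.Hm, Setup.Vm]
    push_cast
    module
  · simp only [if_neg hab]
    module

theorem a7 (S : Setup F) (h : A1Stmt S) : A7Stmt S := by
  intro m u hu x
  have e : ∀ β, (2 : ℂ) • S.Qm m β (S.Qm m β u) x = (2 : ℂ) • S.Hm m u x +
      (m : ℂ) • (∑ i, ∑ j, ((rc i j : ℂ) * (S.Gam * S.g2 i j) β β) • S.J i j u x) +
      (2 * S.κ : ℂ) • ∑ j, ∑ C, (S.g j β β * (x (j, C) : ℂ)) • S.G C u x := by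
    intro β
    have := h m β β u hu x
    rw [if_pos rfl, ← two_smul ℂ] at this
    exact this
  have t1 : ∑ β, ∑ i, ∑ j, ((rc i j : ℂ) * (S.Gam * S.g2 i j) β β) • S.J i j u x = 0 := by
    rw [Finset.sum_comm]
    refine Finset.sum_eq_zero fun i _ => ?_
    rw [Finset.sum_comm]
    refine Finset.sum_eq_zero fun j _ => ?_
    rw [← Finset.sum_smul, ← Finset.mul_sum]
    have : ∑ β, (S.Gam * S.g2 i j) β β = (S.Gam * S.g2 i j).trace := rfl
    rw [this, S.trace_Gam_g2_a1, mul_zero, zero_smul]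
  have t2 : ∑ β, ∑ j, ∑ C, (S.g j β β * (x (j, C) : ℂ)) • S.G C u x = 0 := by
    rw [Finset.sum_comm]
    refine Finset.sum_eq_zero fun j _ => ?_
    rw [Finset.sum_comm]
    refine Finset.sum_eq_zero fun C _ => ?_
    rw [← Finset.sum_smul, ← Finset.sum_mul]
    have : ∑ β, (S.g j) β β = (S.g j).trace := rfl
    rw [this, S.trace_g_a1, zero_mul, zero_smul]
  have hsum : (2 : ℂ) • ∑ β, S.Qm m β (S.Qm m β u) x = (2 : ℂ) • ((16 : ℂ) • S.Hm m u x) := by
    have t3 : ∑ β : Fin 16, (2 * S.κ : ℂ) • ∑ j, ∑ C,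
        (S.g j β β * (x (j, C) : ℂ)) • S.G C u x = 0 := by
      rw [← Finset.smul_sum, t2, smul_zero]
    rw [Finset.smul_sum, Finset.sum_congr rfl fun β _ => e β, Finset.sum_add_distrib,
      Finset.sum_add_distrib, t3, ← Finset.smul_sum, ← Finset.smul_sum, t1, smul_zero,
      add_zero, add_zero, Finset.sum_const, Finset.card_univ, Fintype.card_fin,
      ← Nat.cast_smul_eq_nsmul ℂ, smul_smul, smul_smul]
    norm_num
  exact smul_right_injective F (two_ne_zero : (2 : ℂ) ≠ 0) hsum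

theorem a8 (S : Setup F) : A8Stmt S := by
  intro u hu
  have h0 : ∀ x, ∑ β, S.Q0 β (S.Q0 β u) x = -((8 : ℂ) • ∑ i, ∑ A, pd i A (pd i A u) x) := by
    intro x
    have hpd : ∀ (β : Fin 16) (j : Fin 9) (B : Fin 3), pd j B (S.Q0 β u) x =
        (-Complex.I) • ∑ i, ∑ A, S.vec (S.g i) A β (pd j B (pd i A u) x) := by
      intro β j B
      have hd : ∀ i A, DifferentiableAt ℝ (pd i A u) x := fun i A =>
        (contDiff_pd hu.1).differentiable (by simp) x
      have hdv : ∀ i A, DifferentiableAt ℝ (fun y => S.vec (S.g i) A β (pd i A u y)) x :=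
        fun i A => ((S.vec (S.g i) A β).restrictScalars ℝ).differentiableAt.comp x (hd i A)
      have e : S.Q0 β u = fun y => (-Complex.I) • ∑ i, ∑ A, S.vec (S.g i) A β (pd i A u y) := rfl
      have h3 : pd j B (fun y => (-Complex.I) • ∑ i, ∑ A, S.vec (S.g i) A β (pd i A u y)) x =
          (-Complex.I) • pd j B (fun y => ∑ i, ∑ A, S.vec (S.g i) A β (pd i A u y)) x := by
        unfold pd
        rw [fderiv_fun_const_smul]
        · rfl
        · exact DifferentiableAt.fun_sum fun i _ => DifferentiableAt.fun_sum fun A _ => hdv i A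
      rw [e, h3]
      congr 1
      rw [pd_sum _ (fun i _ => DifferentiableAt.fun_sum fun A _ => hdv i A)]
      refine Finset.sum_congr rfl fun i _ => ?_
      rw [pd_sum _ (fun A _ => hdv i A)]
      refine Finset.sum_congr rfl fun A _ => ?_
      rw [pd_clm _ (hd i A)]
    have h1 : ∀ β, S.Q0 β (S.Q0 β u) x =
        -(∑ j, ∑ B, ∑ i, ∑ A, S.vec (S.g j) B β (S.vec (S.g i) A β (pd j B (pd i A u) x))) := by
      intro β
      conv_lhs => rw [Setup.Q0]
      simp only [hpd, map_smul, map_sum, ← Finset.smul_sum, smul_smul]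
      rw [neg_mul_neg, Complex.I_mul_I, neg_one_smul]
    rw [Finset.sum_congr rfl fun β _ => h1 β, Finset.sum_neg_distrib,
      S.second_order (fun j B i A => pd j B (pd i A u) x) (fun i A j B => pd_comm hu.1 i j A B x)]
  have h1 : ((∑ β, nsq (S.Q0 β u) : ℝ) : ℂ) =
      ∫ x, inner ℂ (u x) (∑ β, S.Q0 β (S.Q0 β u) x) := by
    simp only [inner_sum]
    rw [integral_finsetSum]
    · rw [Complex.ofReal_sum]
      refine Finset.sum_congr rfl fun β _ => ?_
      rw [ofReal_nsq_a1, S.Q0_symm_a1 β hu (Setup.Tst.Q0_a1 S hu β)]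
    · intro β _
      exact hu.inner_int (Setup.Tst.Q0_a1 S (Setup.Tst.Q0_a1 S hu β) β).1.continuous
  have h2 : ((∑ β, nsq (S.Q0 β u) : ℝ) : ℂ) = ((8 * ∑ i, ∑ A, nsq (pd i A u) : ℝ) : ℂ) := by
    rw [h1]
    simp only [h0, inner_neg_right, inner_smul_right]
    rw [integral_neg, integral_const_mul, lap_parts_a1 hu]
    push_cast
    ring
  exact Complex.ofReal_injective h2

theorem a6 (S : Setup F) (h : A7Stmt S) : A6Stmt S := by
  intro m u hu
  have h1 : ((∑ β, nsq (S.Qm m β u) : ℝ) : ℂ) =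
      ∫ x, inner ℂ (u x) (∑ β, S.Qm m β (S.Qm m β u) x) := by
    simp only [inner_sum]
    rw [integral_finsetSum]
    · rw [Complex.ofReal_sum]
      refine Finset.sum_congr rfl fun β _ => ?_
      rw [ofReal_nsq_a1, S.Qm_symm_a1 m β hu (Setup.Tst.Qm_a1 S hu m β)]
    · intro β _
      exact hu.inner_int (Setup.Tst.Qm_a1 S (Setup.Tst.Qm_a1 S hu m β) m β).1.continuous
  have hVc : Continuous (fun x => S.Vm m x) := by
    have h1 : ContDiff ℝ ∞ (fun x => S.Vm m x) := by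
      unfold Setup.Vm det3
      refine (((contDiff_V S).add (contDiff_const.mul ?_)).add (contDiff_const.mul ?_))
      · refine ContDiff.sum fun A _ => ContDiff.sum fun B _ => ContDiff.sum fun C _ => ?_
        exact ((contDiff_const.mul (Setup.contDiff_coord _)).mul (Setup.contDiff_coord _)).mul
          (Setup.contDiff_coord _)
      · refine ContDiff.sum fun i _ => ContDiff.sum fun A _ => ?_
        exact (contDiff_const.mul (Setup.contDiff_coord _)).pow 2
    exact h1.continuous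
  have hF : Setup.Tst (fun x => S.Fx x (u x)) := hu.clm (contDiff_Fx S)
  have hG : Setup.Tst (fun x => S.FG (u x)) := hu.clm (T := fun _ => S.FG) contDiff_const
  have h2 : ∀ x, inner ℂ (u x) (∑ β, S.Qm m β (S.Qm m β u) x) =
      -(8 : ℂ) * inner ℂ (u x) (∑ i, ∑ A, pd i A (pd i A u) x) +
      (16 : ℂ) * ((S.Vm m x * ‖u x‖ ^ 2 : ℝ) : ℂ) + (16 : ℂ) * inner ℂ (u x) (S.Fx x (u x))
        - ((12 * m : ℝ) : ℂ) * inner ℂ (u x) (S.FG (u x)) := by
    intro x
    rw [h m u hu.1 x, Setup.Hm]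
    simp only [inner_smul_right, inner_add_right, inner_sub_right, inner_self_eq_norm_sq_to_K]
    push_cast
    simp only [Complex.coe_algebraMap]
    ring
  have i1 : Integrable (fun x => -(8 : ℂ) * inner ℂ (u x) (∑ i, ∑ A, pd i A (pd i A u) x)) := by
    refine (hu.inner_int ?_).const_mul _
    exact continuous_finsetSum _ fun i _ => continuous_finsetSum _ fun A _ =>
      (contDiff_pd (contDiff_pd hu.1)).continuous
  have i2 : Integrable (fun x => (16 : ℂ) * ((S.Vm m x * ‖u x‖ ^ 2 : ℝ) : ℂ)) :=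
    (hu.mul_norm_sq_int hVc).ofReal.const_mul _
  have i3 : Integrable (fun x => (16 : ℂ) * inner ℂ (u x) (S.Fx x (u x))) :=
    (hu.inner_int hF.1.continuous).const_mul _
  have i4 : Integrable (fun x => ((12 * m : ℝ) : ℂ) * inner ℂ (u x) (S.FG (u x))) :=
    (hu.inner_int hG.1.continuous).const_mul _
  have h3 : ((∑ β, nsq (S.Qm m β u) : ℝ) : ℂ) =
      (8 : ℂ) * ((∑ i, ∑ A, nsq (pd i A u) : ℝ) : ℂ) +
      (16 : ℂ) * ((∫ x, S.Vm m x * ‖u x‖ ^ 2 : ℝ) : ℂ) +
      (16 : ℂ) * (∫ x, inner ℂ (u x) (S.Fx x (u x)))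
      - ((12 * m : ℝ) : ℂ) * ∫ x, inner ℂ (u x) (S.FG (u x)) := by
    rw [h1]
    simp only [h2]
    have i12 : Integrable (fun x => -(8 : ℂ) * inner ℂ (u x) (∑ i, ∑ A, pd i A (pd i A u) x) +
        (16 : ℂ) * ((S.Vm m x * ‖u x‖ ^ 2 : ℝ) : ℂ)) := i1.add i2
    have i123 : Integrable (fun x => -(8 : ℂ) * inner ℂ (u x) (∑ i, ∑ A, pd i A (pd i A u) x) +
        (16 : ℂ) * ((S.Vm m x * ‖u x‖ ^ 2 : ℝ) : ℂ) +
        (16 : ℂ) * inner ℂ (u x) (S.Fx x (u x))) := i12.add i3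
    rw [integral_sub i123 i4, integral_add i12 i3, integral_add i1 i2,
      integral_const_mul, integral_const_mul, integral_const_mul, integral_const_mul,
      integral_complex_ofReal, lap_parts_a1 hu]
    ring
  have h5 := congrArg Complex.re h3
  rw [Complex.ofReal_re] at h5
  rw [h5]
  simp only [Complex.sub_re, Complex.add_re, Complex.mul_re, Complex.ofReal_re,
    Complex.ofReal_im, zero_mul, sub_zero, mul_zero]
  norm_num

end U
end Vale.Agent.P353
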