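import Vale.Agent.P353.U.StmtA
import Vale.Agent.P353.Gamma

/-! # P353, uniqueness for `N = 2`: statement A1b (the part of the anticommutator linear in `m`) -/

open MeasureTheory Filter Topology
open scoped ContDiff Matrix

namespace Vale.Agent.P353.U

variable {F : Type*} [NormedAddCommGroup F] [InnerProductSpace ℂ F]

namespace A1b

/-- sign: `γ^i Γ = sg i • Γ γ^i` -/
noncomputable def sg (i : Fin 9) : ℂ := if i.val < 3 then 1 else -1

/-- `t_{ijk} = det (x_i, x_j, x_k)` -/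
noncomputable def tt (x : X3) (i j k : Fin 9) : ℝ :=
  ∑ A, ∑ B, ∑ C, (eps A B C : ℝ) * x (i, A) * x (j, B) * x (k, C)

lemma tt_swap12 (x : X3) (i j k : Fin 9) : tt x j i k = -tt x i j k := by
  unfold tt
  rw [Finset.sum_comm, ← Finset.sum_neg_distrib]
  refine Finset.sum_congr rfl fun A _ => ?_
  rw [← Finset.sum_neg_distrib]
  refine Finset.sum_congr rfl fun B _ => ?_
  rw [← Finset.sum_neg_distrib]
  refine Finset.sum_congr rfl fun C _ => ?_
  have he : eps B A C = -eps A B C := by revert A B C; decide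
  rw [he]; push_cast; ring

lemma tt_swap23 (x : X3) (i j k : Fin 9) : tt x i k j = -tt x i j k := by
  unfold tt
  rw [← Finset.sum_neg_distrib]
  refine Finset.sum_congr rfl fun A _ => ?_
  rw [Finset.sum_comm, ← Finset.sum_neg_distrib]
  refine Finset.sum_congr rfl fun B _ => ?_
  rw [← Finset.sum_neg_distrib]
  refine Finset.sum_congr rfl fun C _ => ?_
  have he : eps A C B = -eps A B C := by revert A B C; decide
  rw [he]; push_cast; ring

lemma tt_12 (x : X3) (i k : Fin 9) : tt x i i k = 0 := by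
  have := tt_swap12 x i i k
  linarith

lemma tt_23 (x : X3) (i k : Fin 9) : tt x i k k = 0 := by
  have := tt_swap23 x i k k
  linarith

lemma tt_13 (x : X3) (i k : Fin 9) : tt x i k i = 0 := by
  have h1 := tt_swap12 x i k i
  have h2 := tt_23 x k i
  rw [h2] at h1
  linarith

lemma tt_FF (S : Setup F) (x : X3) (i j k : Fin 9) :
    ∑ A, S.FF A i j x * x (k, A) = S.κ * tt x i j k := by
  have h : tt x i j k = tt x k i j := by
    rw [tt_swap12 x i k j, tt_swap23 x i j k, neg_neg]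
  rw [h]
  unfold tt Setup.FF
  rw [Finset.mul_sum]
  refine Finset.sum_congr rfl fun A _ => ?_
  rw [mul_assoc, Finset.sum_mul]
  congr 1
  refine Finset.sum_congr rfl fun B _ => ?_
  rw [Finset.sum_mul]
  refine Finset.sum_congr rfl fun C _ => ?_
  ring

lemma tt_det3 (x : X3) : tt x 0 1 2 = det3 x := rfl

variable (S : Setup F)

lemma g_Gam (i : Fin 9) : S.g i * S.Gam = sg i • (S.Gam * S.g i) := by
  unfold sg
  split_ifs with h
  · rw [S.g_Gam_comm h, one_smul]
  · rw [S.g_Gam_anti (by omega), neg_smul, one_smul]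

/-- matrix identity for the first order terms -/
lemma first_mat (i j : Fin 9) :
    (aw j : ℂ) • (S.g i * S.Gam * S.g j - S.g j * S.Gam * S.g i) =
      (2 * (rc i j : ℂ)) • (S.Gam * S.g2 i j) := by
  rw [g_Gam S i, g_Gam S j, Matrix.smul_mul, Matrix.smul_mul, mul_assoc, mul_assoc]
  unfold sg aw rc CS.g2
  by_cases hi : i.val < 3 <;> by_cases hj : j.val < 3
  · rw [if_pos hi, if_pos hj, if_pos hj, if_pos ⟨hi, hj⟩, one_smul, one_smul, Matrix.mul_smul,
      smul_smul, mul_sub]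
    congr 1
    norm_num
  · have hne : i ≠ j := by rintro rfl; exact hj hi
    have h1 : ¬ (3 ≤ i.val ∧ 3 ≤ j.val) := by omega
    rw [if_pos hi, if_neg hj, if_neg hj, if_neg (by tauto), if_neg h1, S.g_ac hne]
    simp
  · have hne : i ≠ j := by rintro rfl; exact hi hj
    have h1 : ¬ (3 ≤ i.val ∧ 3 ≤ j.val) := by omega
    rw [if_neg hi, if_pos hj, if_pos hj, if_neg (by tauto), if_neg h1, S.g_ac hne]
    simp
  · have h1 : (3 ≤ i.val ∧ 3 ≤ j.val) := by omega
    rw [if_neg hi, if_neg hj, if_neg hj, if_neg (by tauto), if_pos h1, Matrix.mul_smul,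
      smul_smul, mul_sub]
    rw [← smul_sub, smul_smul]
    congr 1
    norm_num

/-- `t_{ijk} γ^i γ^j γ^k` -/
noncomputable def PP (x : X3) (i j k : Fin 9) : Matrix (Fin 16) (Fin 16) ℂ :=
  ((tt x i j k : ℝ) : ℂ) • (S.g i * S.g j * S.g k)

lemma PP_swap12 (x : X3) (i j k : Fin 9) : PP S x j i k = PP S x i j k := by
  unfold PP
  by_cases h : i = j
  · subst h; rfl
  · rw [tt_swap12, S.g_ac h]
    simp

lemma PP_swap23 (x : X3) (i j k : Fin 9) : PP S x i k j = PP S x i j k := by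
  unfold PP
  by_cases h : j = k
  · subst h; rfl
  · rw [tt_swap23, mul_assoc, mul_assoc, S.g_ac h]
    simp

lemma PP_cyc (x : X3) (i j k : Fin 9) : PP S x j k i = PP S x i j k := by
  rw [← PP_swap23 S x j k i, PP_swap12]

lemma PP_12 (x : X3) (i k : Fin 9) : PP S x i i k = 0 := by
  unfold PP; rw [tt_12]; simp

lemma PP_23 (x : X3) (i k : Fin 9) : PP S x i k k = 0 := by
  unfold PP; rw [tt_23]; simp

lemma PP_13 (x : X3) (i k : Fin 9) : PP S x i k i = 0 := by
  unfold PP; rw [tt_13]; simp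

lemma term_eq (x : X3) (i j k : Fin 9) :
    ((tt x i j k : ℝ) : ℂ) • (S.g2 i j * S.Gam * S.g k + S.g k * S.Gam * S.g2 i j) =
      (sg i * sg j + sg k) • (S.Gam * PP S x i j k) := by
  by_cases hij : i = j
  · subst hij; rw [PP_12, tt_12]; simp
  by_cases hjk : j = k
  · subst hjk; rw [PP_23, tt_23]; simp
  by_cases hik : i = k
  · subst hik; rw [PP_13, tt_13]; simp
  have h2 : S.g2 i j = S.g i * S.g j := by rw [CS.g2_eq, if_neg hij]; simp
  have e1 : S.g2 i j * S.Gam * S.g k = (sg i * sg j) • (S.Gam * (S.g i * S.g j * S.g k)) := by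
    rw [h2, mul_assoc (S.g i), g_Gam S j, Matrix.mul_smul, ← mul_assoc (S.g i), g_Gam S i]
    simp only [Matrix.smul_mul, smul_smul, mul_assoc]
    rw [mul_comm (sg j)]
  have e2 : S.g k * S.Gam * S.g2 i j = sg k • (S.Gam * (S.g i * S.g j * S.g k)) := by
    rw [h2, g_Gam S k, Matrix.smul_mul]
    congr 1
    rw [mul_assoc, ← mul_assoc (S.g k), S.g_ac (Ne.symm hik), neg_mul, mul_assoc (S.g i),
      S.g_ac (Ne.symm hjk)]
    simp only [mul_neg, neg_neg, mul_assoc]
  rw [e1, e2, ← add_smul, smul_comm]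
  congr 1
  unfold PP
  rw [Matrix.mul_smul]

lemma sum3 {M : Type*} [AddCommMonoid M] (f : Fin 9 → M) :
    ∑ i : Fin 9, (if i.val < 3 then f i else 0) = f 0 + f 1 + f 2 := by
  rw [Fin.sum_univ_castSucc, Fin.sum_univ_castSucc, Fin.sum_univ_castSucc, Fin.sum_univ_castSucc,
    Fin.sum_univ_castSucc, Fin.sum_univ_castSucc, Fin.sum_univ_three]
  simp [Fin.last]

/-- the weight of `P_{ijk}` after symmetrisation -/
lemma weight (i j k : Fin 9) :
    (aw k : ℂ) * (sg i * sg j + sg k) + (aw i : ℂ) * (sg j * sg k + sg i) +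
      (aw j : ℂ) * (sg k * sg i + sg j) =
      12 * ((if i.val < 3 then 1 else 0) * (if j.val < 3 then 1 else 0) *
        (if k.val < 3 then 1 else 0)) := by
  unfold aw sg
  by_cases hi : i.val < 3 <;> by_cases hj : j.val < 3 <;> by_cases hk : k.val < 3 <;>
    simp only [hi, hj, hk, if_true, if_false] <;> push_cast <;> norm_num

/-- cyclic relabelling of a triple sum -/
lemma sum_cyc {M : Type*} [AddCommMonoid M] (f : Fin 9 → Fin 9 → Fin 9 → M) :
    ∑ i, ∑ j, ∑ k, f j k i = ∑ i, ∑ j, ∑ k, f i j k := by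
  calc ∑ i, ∑ j, ∑ k, f j k i = ∑ j, ∑ i, ∑ k, f j k i := Finset.sum_comm
    _ = ∑ j, ∑ k, ∑ i, f j k i := Finset.sum_congr rfl fun j _ => Finset.sum_comm

lemma sum_PP (x : X3) :
    ∑ i : Fin 9, ∑ j : Fin 9, ∑ k : Fin 9,
      (((if i.val < 3 then 1 else 0) * (if j.val < 3 then 1 else 0) *
        (if k.val < 3 then 1 else 0) : ℂ)) • PP S x i j k = (6 : ℂ) • PP S x 0 1 2 := by
  have h1 : ∀ i j k : Fin 9, (((if i.val < 3 then 1 else 0) * (if j.val < 3 then 1 else 0) *
        (if k.val < 3 then 1 else 0) : ℂ)) • PP S x i j k =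
        if i.val < 3 then (if j.val < 3 then (if k.val < 3 then PP S x i j k else 0) else 0)
        else 0 := by
    intro i j k
    by_cases hi : i.val < 3 <;> by_cases hj : j.val < 3 <;> by_cases hk : k.val < 3 <;>
      simp [hi, hj, hk]
  simp only [h1]
  have h2 : ∀ i j : Fin 9, ∑ k : Fin 9, (if i.val < 3 then (if j.val < 3 then
      (if k.val < 3 then PP S x i j k else 0) else 0) else 0) =
      if i.val < 3 then (if j.val < 3 then
        (PP S x i j 0 + PP S x i j 1 + PP S x i j 2) else 0) else 0 := by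
    intro i j
    by_cases hi : i.val < 3 <;> by_cases hj : j.val < 3
    · simp only [hi, hj, if_true]; rw [sum3]
    · simp [hi, hj]
    · simp [hi]
    · simp [hi]
  simp only [h2]
  have h3 : ∀ i : Fin 9, ∑ j : Fin 9, (if i.val < 3 then (if j.val < 3 then
        (PP S x i j 0 + PP S x i j 1 + PP S x i j 2) else 0) else 0) =
      if i.val < 3 then ((PP S x i 0 0 + PP S x i 0 1 + PP S x i 0 2) +
        (PP S x i 1 0 + PP S x i 1 1 + PP S x i 1 2) +
        (PP S x i 2 0 + PP S x i 2 1 + PP S x i 2 2)) else 0 := by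
    intro i
    by_cases hi : i.val < 3
    · simp only [hi, if_true]; rw [sum3]
    · simp [hi]
  simp only [h3]
  rw [sum3]
  have a1 : PP S x 0 2 1 = PP S x 0 1 2 := PP_swap23 S x 0 1 2
  have a2 : PP S x 1 0 2 = PP S x 0 1 2 := PP_swap12 S x 0 1 2
  have a3 : PP S x 1 2 0 = PP S x 0 1 2 := PP_cyc S x 0 1 2
  have a4 : PP S x 2 0 1 = PP S x 0 1 2 := (PP_cyc S x 2 0 1).symm
  have a5 : PP S x 2 1 0 = PP S x 0 1 2 := by rw [PP_swap12 S x 1 2 0, a3]
  simp only [PP_12, PP_23, PP_13, a1, a2, a3, a4, a5]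
  module

/-- the matrix identity for the zero order terms -/
lemma zero_mat (x : X3) :
    ∑ i, ∑ j, ∑ k, ((aw k : ℂ) * ((tt x i j k : ℝ) : ℂ)) •
      (S.g2 i j * S.Gam * S.g k + S.g k * S.Gam * S.g2 i j) =
      (-(24 * det3 x : ℝ) : ℂ) • 1 := by
  have h1 : ∀ i j k, ((aw k : ℂ) * ((tt x i j k : ℝ) : ℂ)) •
      (S.g2 i j * S.Gam * S.g k + S.g k * S.Gam * S.g2 i j) =
      S.Gam * (((aw k : ℂ) * (sg i * sg j + sg k)) • PP S x i j k) := by
    intro i j k
    rw [mul_smul, term_eq, smul_smul, Matrix.mul_smul]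
  simp only [h1, ← Matrix.mul_sum]
  have h2 : (3 : ℂ) • ∑ i, ∑ j, ∑ k, ((aw k : ℂ) * (sg i * sg j + sg k)) • PP S x i j k =
      (12 * 6 : ℂ) • PP S x 0 1 2 := by
    have e4 : (3 : ℂ) • ∑ i, ∑ j, ∑ k, ((aw k : ℂ) * (sg i * sg j + sg k)) • PP S x i j k =
      ∑ i, ∑ j, ∑ k, (12 * ((if i.val < 3 then 1 else 0) * (if j.val < 3 then 1 else 0) *
        (if k.val < 3 then 1 else 0)) : ℂ) • PP S x i j k := by
      have : ∀ i j k, (12 * ((if i.val < 3 then 1 else 0) * (if j.val < 3 then 1 else 0) *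
        (if k.val < 3 then 1 else 0)) : ℂ) • PP S x i j k =
        ((aw k : ℂ) * (sg i * sg j + sg k)) • PP S x i j k +
        ((aw i : ℂ) * (sg j * sg k + sg i)) • PP S x j k i +
        ((aw j : ℂ) * (sg k * sg i + sg j)) • PP S x k i j := by
        intro i j k
        rw [← weight, PP_cyc S x i j k,
          show PP S x k i j = PP S x i j k from (PP_cyc S x k i j).symm]
        module
      simp only [this, Finset.sum_add_distrib]
      have f1 : ∑ i, ∑ j, ∑ k, ((aw i : ℂ) * (sg j * sg k + sg i)) • PP S x j k i =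
          ∑ i, ∑ j, ∑ k, ((aw k : ℂ) * (sg i * sg j + sg k)) • PP S x i j k :=
        sum_cyc (fun j k i => ((aw i : ℂ) * (sg j * sg k + sg i)) • PP S x j k i)
      have f2 : ∑ i, ∑ j, ∑ k, ((aw j : ℂ) * (sg k * sg i + sg j)) • PP S x k i j =
          ∑ i, ∑ j, ∑ k, ((aw k : ℂ) * (sg i * sg j + sg k)) • PP S x i j k :=
        (sum_cyc (fun i j k => ((aw j : ℂ) * (sg k * sg i + sg j)) • PP S x k i j)).symm
      rw [f1, f2]
      module
    rw [e4, mul_smul, ← sum_PP S x]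
    simp only [Finset.smul_sum, smul_smul]
  have h3 : ∑ i, ∑ j, ∑ k, ((aw k : ℂ) * (sg i * sg j + sg k)) • PP S x i j k =
      (24 : ℂ) • PP S x 0 1 2 := by
    have := congrArg (fun w => (1 / 3 : ℂ) • w) h2
    simp only [smul_smul] at this
    norm_num at this
    exact this
  rw [h3, PP, tt_det3]
  have h4 : S.g 0 * S.g 1 * S.g 2 = S.Gam := rfl
  rw [h4, Matrix.mul_smul, Matrix.mul_smul, S.Gam_sq, smul_neg, smul_neg, smul_smul, ← neg_smul]
  congr 1
  push_cast
  ring

/-- `{(Nθ^A)_α, M_β(x)}` -/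
lemma vec_MM (N : Matrix (Fin 16) (Fin 16) ℂ) (A : Fin 3) (α β : Fin 16) (x : X3) :
    S.vec N A α * S.MM β x + S.MM β x * S.vec N A α =
      (-(∑ j, ((aw j * x (j, A) : ℝ) : ℂ) * (N * S.Gam * S.g j) α β)) • (1 : F →L[ℂ] F) := by
  unfold Setup.MM
  rw [Finset.mul_sum, Finset.sum_mul, ← Finset.sum_add_distrib, neg_smul, Finset.sum_smul,
    ← Finset.sum_neg_distrib]
  refine Finset.sum_congr rfl fun j _ => ?_
  rw [Finset.mul_sum, Finset.sum_mul, ← Finset.sum_add_distrib]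
  simp only [mul_smul_comm, smul_mul_assoc, ← smul_add, S.vec_anti, smul_ite, smul_zero,
    Finset.sum_ite_eq, Finset.mem_univ, if_true]
  have h : N * (S.g j * S.Gam)ᵀ = -(N * S.Gam * S.g j) := by
    rw [Matrix.transpose_mul, S.Gam_transpose, S.g_symm, neg_mul, mul_neg, mul_assoc]
  rw [h, Matrix.neg_apply, neg_smul, smul_neg, smul_smul]

lemma fderiv_MM (b : Fin 16) (x : X3) (i : Fin 9) (A : Fin 3) :
    fderiv ℝ (S.MM b) x (EuclideanSpace.single (i, A) (1 : ℝ)) =
      (aw i : ℂ) • S.vec (S.g i * S.Gam) A b := by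
  have hd : HasFDerivAt (S.MM b) (∑ k, ∑ B, ((Complex.ofRealCLM.comp (aw k •
      (EuclideanSpace.proj (𝕜 := ℝ) (k, B) : X3 →L[ℝ] ℝ))).smulRight
        (S.vec (S.g k * S.Gam) B b))) x := by
    unfold Setup.MM
    refine HasFDerivAt.fun_sum fun k _ => HasFDerivAt.fun_sum fun B _ => ?_
    have h1 := (Complex.ofRealCLM.hasFDerivAt (x := aw k * x (k, B))).comp x
      ((Setup.hasFDerivAt_coord (k, B) x).const_mul (aw k))
    exact h1.smul_const (S.vec (S.g k * S.Gam) B b)
  rw [hd.fderiv]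
  simp only [_root_.sum_apply, ContinuousLinearMap.smulRight_apply,
    ContinuousLinearMap.comp_apply, Complex.ofRealCLM_apply, _root_.smul_apply, PiLp.proj_apply,
    PiLp.single_apply, smul_eq_mul, Prod.mk.injEq, mul_ite, mul_one, mul_zero]
  rw [Finset.sum_eq_single i, Finset.sum_eq_single A]
  · simp
  · intro B _ hB; simp [hB]
  · intro h; exact absurd (Finset.mem_univ _) h
  · intro k _ hk; simp [hk]
  · intro h; exact absurd (Finset.mem_univ _) h

lemma contDiff_MM (b : Fin 16) : ContDiff ℝ ∞ (S.MM b) := by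
  unfold Setup.MM
  refine ContDiff.sum fun i _ => ContDiff.sum fun A _ => ?_
  exact (Setup.contDiff_ofReal (contDiff_const.mul (Setup.contDiff_coord _))).smul contDiff_const

lemma pd_MM (b : Fin 16) {u : X3 → F} (hu : ContDiff ℝ ∞ u) (i : Fin 9) (A : Fin 3) (x : X3) :
    pd i A (fun y => S.MM b y (u y)) x =
      (aw i : ℂ) • S.vec (S.g i * S.Gam) A b (u x) + S.MM b x (pd i A u x) := by
  rw [pd_clm_apply ((contDiff_MM S b).differentiable (by simp) x)
    (hu.differentiable (by simp) x), fderiv_MM]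
  rfl

lemma Q_MM (a b : Fin 16) {u : X3 → F} (hu : ContDiff ℝ ∞ u) (x : X3) :
    S.Q a (fun y => S.MM b y (u y)) x + S.MM b x (S.Q a u x) =
      ((-Complex.I) • ∑ i, ∑ A, (aw i : ℂ) •
        (S.vec (S.g i) A a * S.vec (S.g i * S.Gam) A b)) (u x) +
      (-Complex.I) • ∑ i, ∑ A, (S.vec (S.g i) A a * S.MM b x + S.MM b x * S.vec (S.g i) A a)
        (pd i A u x) + (S.W a x * S.MM b x + S.MM b x * S.W a x) (u x) := by
  unfold Setup.Q
  simp only [pd_MM S b hu, map_add, map_smul, map_sum, Finset.sum_add_distrib, smul_add,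
    _root_.smul_apply, _root_.sum_apply, _root_.add_apply, mul_apply_eq_comp]
  abel

lemma mat_anti {M : Matrix (Fin 16) (Fin 16) ℂ} {N : Matrix (Fin 16) (Fin 16) ℂ} (h : Mᵀ = N)
    (a b : Fin 16) : M b a = N a b := by
  rw [← h]; rfl

lemma first_coef (a b : Fin 16) (x : X3) (i : Fin 9) (A : Fin 3) :
    (S.vec (S.g i) A a * S.MM b x + S.MM b x * S.vec (S.g i) A a) +
      (S.vec (S.g i) A b * S.MM a x + S.MM a x * S.vec (S.g i) A b) =
      (-(2 * ∑ j, (x (j, A) : ℂ) * ((rc i j : ℂ) * (S.Gam * S.g2 i j) a b))) •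
        (1 : F →L[ℂ] F) := by
  rw [vec_MM, vec_MM, ← add_smul]
  congr 1
  rw [← neg_add, ← Finset.sum_add_distrib, Finset.mul_sum]
  congr 1
  refine Finset.sum_congr rfl fun j _ => ?_
  have h1 : (S.g i * S.Gam * S.g j)ᵀ = -(S.g j * S.Gam * S.g i) := by
    rw [Matrix.transpose_mul, Matrix.transpose_mul, S.Gam_transpose, S.g_symm, S.g_symm, neg_mul,
      mul_neg, mul_assoc]
  rw [mat_anti h1 a b]
  have h2 := congrFun (congrFun (first_mat S i j) a) b
  simp only [Matrix.smul_apply, Matrix.sub_apply, smul_eq_mul] at h2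
  rw [Matrix.neg_apply]
  push_cast
  linear_combination (x (j, A) : ℂ) * h2

/-- orbital part of the rotation generators -/
lemma first_sum (a b : Fin 16) (x : X3) (D : Fin 9 → Fin 3 → F) :
    ∑ i, ∑ A, (-(2 * ∑ j, (x (j, A) : ℂ) * ((rc i j : ℂ) * (S.Gam * S.g2 i j) a b))) • D i A =
      ∑ i, ∑ j, ((rc i j : ℂ) * (S.Gam * S.g2 i j) a b) •
        ∑ A, ((x (i, A) : ℂ) • D j A - (x (j, A) : ℂ) • D i A) := by
  have hrc : ∀ i j : Fin 9, rc j i = rc i j := by
    intro i j
    unfold rc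
    by_cases hi : i.val < 3 <;> by_cases hj : j.val < 3 <;> simp [hi, hj, and_comm]
  have e1 : ∑ i, ∑ j, ((rc i j : ℂ) * (S.Gam * S.g2 i j) a b) • ∑ A, (x (i, A) : ℂ) • D j A =
      -∑ i, ∑ j, ((rc i j : ℂ) * (S.Gam * S.g2 i j) a b) • ∑ A, (x (j, A) : ℂ) • D i A := by
    rw [Finset.sum_comm, ← Finset.sum_neg_distrib]
    refine Finset.sum_congr rfl fun i _ => ?_
    rw [← Finset.sum_neg_distrib]
    refine Finset.sum_congr rfl fun j _ => ?_
    rw [hrc i j, S.g2_swap j i, mul_neg, Matrix.neg_apply, mul_neg, neg_smul]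
  simp only [Finset.sum_sub_distrib, smul_sub, e1]
  rw [← neg_add', ← two_smul ℂ, Finset.smul_sum, ← Finset.sum_neg_distrib]
  refine Finset.sum_congr rfl fun i _ => ?_
  simp only [Finset.smul_sum, smul_smul]
  rw [Finset.sum_comm, ← Finset.sum_neg_distrib]
  refine Finset.sum_congr rfl fun A _ => ?_
  rw [← Finset.sum_smul, ← neg_smul, Finset.mul_sum]
  congr 2
  refine Finset.sum_congr rfl fun j _ => ?_
  ring

lemma zero_coef (a b : Fin 16) (x : X3) :
    (S.W a x * S.MM b x + S.MM b x * S.W a x) + (S.W b x * S.MM a x + S.MM a x * S.W b x) =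
      (if a = b then ((12 * S.κ * det3 x : ℝ) : ℂ) else 0) • (1 : F →L[ℂ] F) := by
  have h1 : ∀ a b, S.W a x * S.MM b x + S.MM b x * S.W a x =
      (-(∑ A, ∑ j, ((aw j * x (j, A) : ℝ) : ℂ) * (S.NA A x * S.Gam * S.g j) a b)) •
        (1 : F →L[ℂ] F) := by
    intro a b
    rw [S.W_eq_NA, Finset.sum_mul, Finset.mul_sum, ← Finset.sum_add_distrib]
    simp only [vec_MM]
    rw [← Finset.sum_smul, Finset.sum_neg_distrib]
  rw [h1 a b, h1 b a, ← add_smul]
  congr 1
  rw [← neg_add, ← Finset.sum_add_distrib]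
  simp only [← Finset.sum_add_distrib, ← mul_add]
  have h2 : ∀ A j, (S.NA A x * S.Gam * S.g j) a b + (S.NA A x * S.Gam * S.g j) b a =
      (1 / 2 : ℂ) * ∑ i, ∑ k, ((S.FF A i k x : ℝ) : ℂ) *
        (S.g2 i k * S.Gam * S.g j + S.g j * S.Gam * S.g2 i k) a b := by
    intro A j
    have ht : (S.NA A x * S.Gam * S.g j)ᵀ = S.g j * S.Gam * S.NA A x := by
      rw [Matrix.transpose_mul, Matrix.transpose_mul, S.Gam_transpose, S.g_symm, S.NA_transpose,
        neg_mul_neg, mul_assoc]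
    rw [mat_anti ht a b, ← Matrix.add_apply]
    have e : S.NA A x * S.Gam * S.g j + S.g j * S.Gam * S.NA A x =
        (1 / 2 : ℂ) • ∑ i, ∑ k, ((S.FF A i k x : ℝ) : ℂ) •
        (S.g2 i k * S.Gam * S.g j + S.g j * S.Gam * S.g2 i k) := by
      unfold Setup.NA
      simp only [smul_add, Finset.sum_add_distrib, Matrix.smul_mul, Matrix.mul_smul,
        Matrix.sum_mul, Matrix.mul_sum]
    rw [e]
    simp only [Matrix.smul_apply, Matrix.sum_apply, smul_eq_mul]
  simp only [h2]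
  have h3 := congrFun (congrFun (zero_mat S x) a) b
  simp only [Matrix.smul_apply, Matrix.sum_apply, smul_eq_mul] at h3
  have h4 : ∑ A, ∑ j, ((aw j * x (j, A) : ℝ) : ℂ) * ((1 / 2 : ℂ) * ∑ i, ∑ k,
      ((S.FF A i k x : ℝ) : ℂ) * (S.g2 i k * S.Gam * S.g j + S.g j * S.Gam * S.g2 i k) a b) =
      (S.κ / 2 : ℂ) * ∑ i, ∑ k, ∑ j, ((aw j : ℂ) * ((tt x i k j : ℝ) : ℂ)) *
        (S.g2 i k * S.Gam * S.g j + S.g j * S.Gam * S.g2 i k) a b := by
    simp only [Finset.mul_sum]
    rw [Finset.sum_comm]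
    have : ∀ j, ∑ A, ∑ i, ∑ k, ((aw j * x (j, A) : ℝ) : ℂ) * ((1 / 2 : ℂ) *
      (((S.FF A i k x : ℝ) : ℂ) *
        (S.g2 i k * S.Gam * S.g j + S.g j * S.Gam * S.g2 i k) a b)) =
        ∑ i, ∑ k, (S.κ / 2 : ℂ) * (((aw j : ℂ) * ((tt x i k j : ℝ) : ℂ)) *
        (S.g2 i k * S.Gam * S.g j + S.g j * S.Gam * S.g2 i k) a b) := by
      intro j
      rw [Finset.sum_comm]
      refine Finset.sum_congr rfl fun i _ => ?_
      rw [Finset.sum_comm]
      refine Finset.sum_congr rfl fun k _ => ?_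
      have h5 := congrArg (fun r : ℝ => (r : ℂ)) (tt_FF S x i k j)
      simp only at h5
      push_cast at h5
      calc _ = (aw j : ℂ) * (1 / 2) * (S.g2 i k * S.Gam * S.g j +
            S.g j * S.Gam * S.g2 i k) a b * ∑ A, (S.FF A i k x : ℂ) * (x (j, A) : ℂ) := by
            rw [Finset.mul_sum]
            refine Finset.sum_congr rfl fun A _ => ?_
            push_cast
            ring
        _ = _ := by rw [h5]; ring
    rw [Finset.sum_congr rfl fun j _ => this j, Finset.sum_comm]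
    refine Finset.sum_congr rfl fun i _ => ?_
    rw [Finset.sum_comm]
  rw [h4, h3, Matrix.one_apply]
  by_cases h : a = b
  · simp only [h, if_true]; push_cast; ring
  · simp [h]

end A1b

/-- **A1b** -/
theorem a1b (S : Setup F) (h : FBmnStmt S) : A1bStmt S := by
  intro α β u hu x
  have e0 : S.Q α (fun y => S.MM β y (u y)) x + S.MM α x (S.Q β u x) +
      S.Q β (fun y => S.MM α y (u y)) x + S.MM β x (S.Q α u x) =
      (S.Q α (fun y => S.MM β y (u y)) x + S.MM β x (S.Q α u x)) +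
      (S.Q β (fun y => S.MM α y (u y)) x + S.MM α x (S.Q β u x)) := by abel
  rw [e0, A1b.Q_MM S α β hu x, A1b.Q_MM S β α hu x]
  have t1 : ((-Complex.I) • ∑ i, ∑ A, (aw i : ℂ) •
        (S.vec (S.g i) A α * S.vec (S.g i * S.Gam) A β)) (u x) +
      ((-Complex.I) • ∑ i, ∑ A, (aw i : ℂ) •
        (S.vec (S.g i) A β * S.vec (S.g i * S.Gam) A α)) (u x) =
      (∑ i, ∑ j, ((rc i j : ℂ) * (S.Gam * S.g2 i j) α β) • S.Skl i j (u x)) -
      (if α = β then (3 / 2 : ℂ) • S.FG (u x) else 0) := by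
    have h1 := congrArg (fun T : F →L[ℂ] F => T (u x)) (h α β)
    simp only [smul_add, Finset.sum_add_distrib, _root_.add_apply, _root_.sub_apply,
      _root_.sum_apply, _root_.smul_apply] at h1
    rw [← _root_.add_apply, ← smul_add]
    simp only [_root_.add_apply, _root_.sum_apply, _root_.smul_apply]
    rw [smul_add, h1]
    congr 1
    split_ifs <;> simp
  have t2 : (-Complex.I) • ∑ i, ∑ A, (S.vec (S.g i) A α * S.MM β x + S.MM β x *
        S.vec (S.g i) A α) (pd i A u x) +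
      (-Complex.I) • ∑ i, ∑ A, (S.vec (S.g i) A β * S.MM α x + S.MM α x *
        S.vec (S.g i) A β) (pd i A u x) =
      (-Complex.I) • ∑ i, ∑ j, ((rc i j : ℂ) * (S.Gam * S.g2 i j) α β) •
        ∑ A, ((x (i, A) : ℂ) • pd j A u x - (x (j, A) : ℂ) • pd i A u x) := by
    rw [← smul_add, ← A1b.first_sum S α β x (fun i A => pd i A u x)]
    congr 1
    rw [← Finset.sum_add_distrib]
    refine Finset.sum_congr rfl fun i _ => ?_
    rw [← Finset.sum_add_distrib]
    refine Finset.sum_congr rfl fun A _ => ?_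
    rw [← _root_.add_apply, A1b.first_coef]
    rfl
  have t3 : (S.W α x * S.MM β x + S.MM β x * S.W α x) (u x) +
      (S.W β x * S.MM α x + S.MM α x * S.W β x) (u x) =
      (if α = β then ((12 * S.κ * det3 x : ℝ) : ℂ) else 0) • u x := by
    rw [← _root_.add_apply, A1b.zero_coef]
    rfl
  have t4 : ∑ i, ∑ j, ((rc i j : ℂ) * (S.Gam * S.g2 i j) α β) • S.J i j u x =
      (-Complex.I) • (∑ i, ∑ j, ((rc i j : ℂ) * (S.Gam * S.g2 i j) α β) •
        ∑ A, ((x (i, A) : ℂ) • pd j A u x - (x (j, A) : ℂ) • pd i A u x)) +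
      ∑ i, ∑ j, ((rc i j : ℂ) * (S.Gam * S.g2 i j) α β) • S.Skl i j (u x) := by
    unfold Setup.J
    simp only [smul_add, Finset.sum_add_distrib]
    congr 1
    rw [Finset.smul_sum]
    refine Finset.sum_congr rfl fun i _ => ?_
    rw [Finset.smul_sum]
    refine Finset.sum_congr rfl fun j _ => ?_
    rw [smul_comm]
  rw [t4]
  have e1 : ∀ a b c a' b' c' : F, (a + b + c) + (a' + b' + c') = (a + a') + (b + b') + (c + c') := by
    intro a b c a' b' c'; abel
  rw [e1, t1, t2, t3]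
  by_cases hab : α = β
  · simp only [hab, if_true]
    push_cast
    module
  · simp only [hab, if_false]
    module

end Vale.Agent.P353.U
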