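import Vale.Agent.P353.U.StmtA
import Vale.Agent.P353.BridgeB
import Vale.Agent.P353.RotB

/-! # P353, uniqueness: A4, the commutator of `H_m` with the supercharges -/

open MeasureTheory Filter Topology
open scoped ContDiff Matrix

namespace Vale.Agent.P353.U

variable {F : Type*} [NormedAddCommGroup F] [InnerProductSpace ℂ F] (S : Setup F)

namespace A4

lemma contDiff_MM (β : Fin 16) : ContDiff ℝ ∞ (S.MM β) := by
  unfold Setup.MM
  refine ContDiff.sum fun i _ => ContDiff.sum fun A _ => ?_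
  exact (Setup.contDiff_ofReal (contDiff_const.mul (Setup.contDiff_coord _))).smul contDiff_const

lemma contDiff_Qm (m : ℝ) (β : Fin 16) {u : X3 → F} (hu : ContDiff ℝ ∞ u) :
    ContDiff ℝ ∞ (S.Qm m β u) := by
  unfold Setup.Qm
  exact (S.contDiff_Q β hu).add (contDiff_const.smul
    (Setup.contDiff_clm_apply' (contDiff_MM S β) hu))

lemma contDiff_G (C : Fin 3) {u : X3 → F} (hu : ContDiff ℝ ∞ u) : ContDiff ℝ ∞ (S.G C u) := by
  unfold Setup.G
  refine ContDiff.add (contDiff_const.smul (ContDiff.sum fun i _ => ContDiff.sum fun A _ =>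
    ContDiff.sum fun B _ => ?_)) (Setup.contDiff_clm_apply' contDiff_const hu)
  exact (contDiff_const.mul (Setup.contDiff_ofReal (Setup.contDiff_coord _))).smul
    (contDiff_pd hu)

lemma diff {u : X3 → F} (hu : ContDiff ℝ ∞ u) (x : X3) : DifferentiableAt ℝ u x :=
  hu.differentiable (by simp) x

lemma Qm_add (m : ℝ) (β : Fin 16) {u v : X3 → F} (hu : ContDiff ℝ ∞ u) (hv : ContDiff ℝ ∞ v)
    (x : X3) : S.Qm m β (fun y => u y + v y) x = S.Qm m β u x + S.Qm m β v x := by
  simp only [Setup.Qm, S.Q_add (diff hu x) (diff hv x), map_add, smul_add]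
  abel

lemma Qm_sub (m : ℝ) (β : Fin 16) {u v : X3 → F} (hu : ContDiff ℝ ∞ u) (hv : ContDiff ℝ ∞ v)
    (x : X3) : S.Qm m β (fun y => u y - v y) x = S.Qm m β u x - S.Qm m β v x := by
  simp only [Setup.Qm, S.Q_sub (diff hu x) (diff hv x), map_sub, smul_sub]
  abel

lemma Qm_cs (m : ℝ) (β : Fin 16) (c : ℂ) {u : X3 → F} (hu : ContDiff ℝ ∞ u) (x : X3) :
    S.Qm m β (fun y => c • u y) x = c • S.Qm m β u x := by
  simp only [Setup.Qm, S.Q_cs c (diff hu x), map_smul, smul_add, smul_comm c]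

lemma Qm_zero (m : ℝ) (β : Fin 16) (x : X3) : S.Qm m β (fun _ => (0 : F)) x = 0 := by
  have h := Qm_cs S m β 0 (u := fun _ => (0 : F)) contDiff_const x
  simpa using h

lemma Qm_sum {ι : Type*} (s : Finset ι) (m : ℝ) (β : Fin 16) (u : ι → X3 → F)
    (hu : ∀ i ∈ s, ContDiff ℝ ∞ (u i)) (x : X3) :
    S.Qm m β (fun y => ∑ i ∈ s, u i y) x = ∑ i ∈ s, S.Qm m β (u i) x := by
  classical
  induction s using Finset.induction_on with
  | empty => simpa using Qm_zero S m β x
  | insert i s hi ih =>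
    have h1 : ∀ i ∈ s, ContDiff ℝ ∞ (u i) := fun j hj => hu j (Finset.mem_insert_of_mem hj)
    have h2 : (fun y => ∑ j ∈ insert i s, u j y) = fun y => u i y + ∑ j ∈ s, u j y := by
      funext y
      rw [Finset.sum_insert hi]
    rw [h2, Qm_add S m β (hu i (Finset.mem_insert_self i s)) (ContDiff.sum h1), ih h1,
      Finset.sum_insert hi]

lemma Qm_coord (m : ℝ) (β : Fin 16) (j : Fin 9) (C : Fin 3) {u : X3 → F} (hu : ContDiff ℝ ∞ u)
    (x : X3) : S.Qm m β (fun y => (y (j, C) : ℂ) • u y) x = (x (j, C) : ℂ) • S.Qm m β u x -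
      Complex.I • S.vec (S.g j) C β (u x) := by
  have h1 := Q_smul S β (fun y : X3 => y (j, C)) u x
    ((Setup.contDiff_coord (j, C)).differentiable (by simp) x) (diff hu x)
  have h2 : ∀ i A, pdr i A (fun y : X3 => y (j, C)) x = if i = j ∧ A = C then 1 else 0 := by
    intro i A
    unfold pdr
    rw [(Setup.hasFDerivAt_coord (j, C) x).fderiv]
    simp [Prod.ext_iff, eq_comm]
  have h3 : ∑ i, ∑ A, ((pdr i A (fun y : X3 => y (j, C)) x : ℝ) : ℂ) •
      S.vec (S.g i) A β (u x) = S.vec (S.g j) C β (u x) := by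
    rw [Finset.sum_eq_single j, Finset.sum_eq_single C]
    · rw [h2]; simp
    · intro A _ hA
      rw [h2]; simp [hA]
    · simp
    · intro i _ hi
      refine Finset.sum_eq_zero fun A _ => ?_
      rw [h2]; simp [hi]
    · simp
  rw [h3] at h1
  simp only [Setup.Qm, h1, map_smul, smul_add, smul_comm ((x (j, C) : ℝ) : ℂ)]
  abel

lemma rc_zero {i j : Fin 9} (h : ¬ (i.val < 3 ↔ j.val < 3)) : rc i j = 0 := by
  unfold rc
  rw [if_neg (by omega), if_neg (by omega)]

lemma sum_rc : ∑ i : Fin 9, ∑ j : Fin 9, (if i = j then (0 : ℂ) else (rc i j : ℂ)) = -18 := by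
  have h : ∀ i j : Fin 9, (if i = j then (0 : ℂ) else (rc i j : ℂ)) =
      (((if i = j then 0 else if i.val < 3 ∧ j.val < 3 then 2 else
        if 3 ≤ i.val ∧ 3 ≤ j.val then -1 else 0 : ℤ) : ℤ) : ℂ) := by
    intro i j
    unfold rc
    split_ifs <;> norm_num
  simp only [h]
  rw [show ((-18 : ℂ)) = (((-18 : ℤ)) : ℂ) by norm_num]
  simp only [← Int.cast_sum]
  congr 1

/-- the matrix identity behind the rotation terms -/
lemma mat_id (i j : Fin 9) : (rc i j : ℂ) • ((S.Gam * S.g2 i j)ᵀ * S.g2 i j) =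
    (if i = j then (0 : ℂ) else (rc i j : ℂ)) • (-S.Gam) := by
  by_cases hij : i = j
  · subst hij
    have h0 : S.g2 i i = 0 := by simp [CS.g2]
    rw [h0, if_pos rfl, Matrix.mul_zero, smul_zero, zero_smul]
  · rw [if_neg hij]
    by_cases hs : (i.val < 3 ↔ j.val < 3)
    · congr 1
      have hS : Same i j := ⟨hij, hs⟩
      rw [Matrix.transpose_mul, S.g2_transpose', S.Gam_transpose, Matrix.neg_mul, Matrix.mul_neg,
        neg_neg, S.Gam_comm_g2 hS, Matrix.mul_assoc, S.g2_sq hij, Matrix.mul_neg, Matrix.mul_one]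
    · rw [rc_zero hs]; simp

end A4

open A4

/-- **A4** `[H_m, Q_α] = -(im/2)(ΓQ)_α - iκ∑_C θ_α^C G_C`. -/
theorem a4 (h1 : A1Stmt S) (h2 : A2Stmt S) (h3 : A3Stmt S) (h7 : A7Stmt S) : A4Stmt S := by
  intro m a u hu x
  -- smoothness
  have sQ : ∀ β {v : X3 → F}, ContDiff ℝ ∞ v → ContDiff ℝ ∞ (S.Qm m β v) :=
    fun β v hv => contDiff_Qm S m β hv
  have sH : ContDiff ℝ ∞ (S.Hm m u) := by
    have e : S.Hm m u = fun y => (1 / 16 : ℂ) • ∑ β, S.Qm m β (S.Qm m β u) y := by
      funext y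
      rw [h7 m u hu y, smul_smul]
      norm_num
    rw [e]
    exact contDiff_const.smul (ContDiff.sum fun β _ => sQ β (sQ β hu))
  -- the operator `A_β = {Q_β, Q_a}`
  set A : Fin 16 → (X3 → F) → X3 → F := fun β v y =>
    (if β = a then (2 : ℂ) • S.Hm m v y else 0) +
    (m : ℂ) • (∑ i, ∑ j, ((rc i j : ℂ) * (S.Gam * S.g2 i j) β a) • S.J i j v y) +
    (2 * S.κ : ℂ) • ∑ j, ∑ C, (S.g j β a * (y (j, C) : ℂ)) • S.G C v y with hA
  have hAe : ∀ β {v : X3 → F}, ContDiff ℝ ∞ v → ∀ y,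
      S.Qm m β (S.Qm m a v) y + S.Qm m a (S.Qm m β v) y = A β v y :=
    fun β v hv y => h1 m β a v hv y
  have hAs : ∀ β, ContDiff ℝ ∞ (A β u) := by
    intro β
    have e : A β u = fun y => S.Qm m β (S.Qm m a u) y + S.Qm m a (S.Qm m β u) y := by
      funext y
      exact (hAe β hu y).symm
    rw [e]
    exact (sQ β (sQ a hu)).add (sQ a (sQ β hu))
  have key : ∀ β, S.Qm m β (S.Qm m β (S.Qm m a u)) x - S.Qm m a (S.Qm m β (S.Qm m β u)) x =
      S.Qm m β (A β u) x - A β (S.Qm m β u) x := by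
    intro β
    have e1 : S.Qm m β (S.Qm m a u) = fun y => A β u y - S.Qm m a (S.Qm m β u) y := by
      funext y
      rw [← hAe β hu y]
      abel
    have e2 : S.Qm m β (S.Qm m β (S.Qm m a u)) x = S.Qm m β (A β u) x -
        S.Qm m β (S.Qm m a (S.Qm m β u)) x := by
      rw [e1, Qm_sub S m β (hAs β) (sQ a (sQ β hu))]
    rw [e2, ← hAe β (sQ β hu) x]
    abel
  -- evaluation of the right side
  have term : ∀ β, S.Qm m β (A β u) x - A β (S.Qm m β u) x =
      (if β = a then (2 : ℂ) • (S.Qm m a (S.Hm m u) x - S.Hm m (S.Qm m a u) x) else 0) +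
      (m : ℂ) • (∑ i, ∑ j, ((rc i j : ℂ) * (S.Gam * S.g2 i j) β a) •
        (-(Complex.I / 2) • ∑ γ, S.g2 i j β γ • S.Qm m γ u x)) +
      (2 * S.κ : ℂ) • ∑ j, ∑ C, S.g j β a • (-(Complex.I • S.vec (S.g j) C β (S.G C u x))) := by
    intro β
    have c1 : ContDiff ℝ ∞ (fun y => (if β = a then (2 : ℂ) • S.Hm m u y else 0)) := by
      split_ifs
      · exact contDiff_const.smul sH
      · exact contDiff_const
    have c2 : ∀ i j, ContDiff ℝ ∞ (fun y => ((rc i j : ℂ) * (S.Gam * S.g2 i j) β a) •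
        S.J i j u y) := fun i j => contDiff_const.smul (S.contDiff_J i j hu)
    have c3 : ∀ j C, ContDiff ℝ ∞ (fun y : X3 => (S.g j β a * (y (j, C) : ℂ)) • S.G C u y) :=
      fun j C => (contDiff_const.mul (Setup.contDiff_ofReal (Setup.contDiff_coord _))).smul
        (contDiff_G S C hu)
    have q1 : S.Qm m β (fun y => (if β = a then (2 : ℂ) • S.Hm m u y else 0)) x =
        if β = a then (2 : ℂ) • S.Qm m a (S.Hm m u) x else 0 := by
      by_cases hβ : β = a
      · simp only [if_pos hβ]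
        rw [Qm_cs S m β 2 sH, hβ]
      · simp only [if_neg hβ]
        exact Qm_zero S m β x
    have q2 : S.Qm m β (fun y => (m : ℂ) • (∑ i, ∑ j, ((rc i j : ℂ) *
        (S.Gam * S.g2 i j) β a) • S.J i j u y)) x =
        (m : ℂ) • (∑ i, ∑ j, ((rc i j : ℂ) * (S.Gam * S.g2 i j) β a) •
          S.Qm m β (S.J i j u) x) := by
      rw [Qm_cs S m β _ (ContDiff.sum fun i _ => ContDiff.sum fun j _ => c2 i j),
        Qm_sum S _ m β _ (fun i _ => ContDiff.sum fun j _ => c2 i j)]
      congr 1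
      refine Finset.sum_congr rfl fun i _ => ?_
      rw [Qm_sum S _ m β _ (fun j _ => c2 i j)]
      refine Finset.sum_congr rfl fun j _ => ?_
      rw [Qm_cs S m β _ (S.contDiff_J i j hu)]
    have q3 : S.Qm m β (fun y => (2 * S.κ : ℂ) • ∑ j, ∑ C,
        (S.g j β a * (y (j, C) : ℂ)) • S.G C u y) x =
        (2 * S.κ : ℂ) • ∑ j, ∑ C, S.g j β a • ((x (j, C) : ℂ) • S.Qm m β (S.G C u) x -
          Complex.I • S.vec (S.g j) C β (S.G C u x)) := by
      rw [Qm_cs S m β _ (ContDiff.sum fun j _ => ContDiff.sum fun C _ => c3 j C),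
        Qm_sum S _ m β _ (fun j _ => ContDiff.sum fun C _ => c3 j C)]
      congr 1
      refine Finset.sum_congr rfl fun j _ => ?_
      rw [Qm_sum S _ m β _ (fun C _ => c3 j C)]
      refine Finset.sum_congr rfl fun C _ => ?_
      have e : (fun y : X3 => (S.g j β a * (y (j, C) : ℂ)) • S.G C u y) =
          fun y => S.g j β a • ((y (j, C) : ℂ) • S.G C u y) := by
        funext y
        rw [smul_smul]
      have sC : ContDiff ℝ ∞ (fun y : X3 => (y (j, C) : ℂ) • S.G C u y) :=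
        (Setup.contDiff_ofReal (Setup.contDiff_coord _)).smul (contDiff_G S C hu)
      rw [e]
      exact (Qm_cs S m β (S.g j β a) sC x).trans (by rw [Qm_coord S m β j C (contDiff_G S C hu)])
    have q4 : S.Qm m β (A β u) x =
        (if β = a then (2 : ℂ) • S.Qm m a (S.Hm m u) x else 0) +
        (m : ℂ) • (∑ i, ∑ j, ((rc i j : ℂ) * (S.Gam * S.g2 i j) β a) •
          S.Qm m β (S.J i j u) x) +
        (2 * S.κ : ℂ) • ∑ j, ∑ C, S.g j β a • ((x (j, C) : ℂ) • S.Qm m β (S.G C u) x -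
          Complex.I • S.vec (S.g j) C β (S.G C u x)) := by
      have d2 : ContDiff ℝ ∞ (fun y => (m : ℂ) • (∑ i, ∑ j, ((rc i j : ℂ) *
          (S.Gam * S.g2 i j) β a) • S.J i j u y)) :=
        contDiff_const.smul (ContDiff.sum fun i _ => ContDiff.sum fun j _ => c2 i j)
      have d3 : ContDiff ℝ ∞ (fun y : X3 => (2 * S.κ : ℂ) • ∑ j, ∑ C,
          (S.g j β a * (y (j, C) : ℂ)) • S.G C u y) :=
        contDiff_const.smul (ContDiff.sum fun j _ => ContDiff.sum fun C _ => c3 j C)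
      have w1 := Qm_add S m β (c1.add d2) d3 x
      rw [Qm_add S m β c1 d2 x, q1, q2, q3] at w1
      exact w1
    have r2 : ∀ i j, ((rc i j : ℂ) * (S.Gam * S.g2 i j) β a) • S.Qm m β (S.J i j u) x -
        ((rc i j : ℂ) * (S.Gam * S.g2 i j) β a) • S.J i j (S.Qm m β u) x =
        ((rc i j : ℂ) * (S.Gam * S.g2 i j) β a) •
          (-(Complex.I / 2) • ∑ γ, S.g2 i j β γ • S.Qm m γ u x) := by
      intro i j
      by_cases hs : Same i j
      · rw [← smul_sub, neg_smul, ← h2 m i j hs β u hu x, neg_sub]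
      · have hz : (rc i j : ℂ) * (S.Gam * S.g2 i j) β a = 0 := by
          by_cases hij : i = j
          · subst hij
            have h0 : S.g2 i i = 0 := by simp [CS.g2]
            rw [h0]; simp
          · rw [rc_zero (fun hh => hs ⟨hij, hh⟩)]; simp
        rw [hz]; simp
    have r3 : ∀ j C, S.g j β a • ((x (j, C) : ℂ) • S.Qm m β (S.G C u) x -
          Complex.I • S.vec (S.g j) C β (S.G C u x)) -
        (S.g j β a * (x (j, C) : ℂ)) • S.G C (S.Qm m β u) x =
        S.g j β a • (-(Complex.I • S.vec (S.g j) C β (S.G C u x))) := by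
      intro j C
      rw [h3 m C β u hu x, mul_smul, smul_sub, smul_neg]
      abel
    rw [q4]
    simp only [hA]
    rw [show ∀ p q r p' q' r' : F, p + q + r - (p' + q' + r') = (p - p') + (q - q') + (r - r') from
      fun p q r p' q' r' => by abel]
    rw [← smul_sub, ← smul_sub]
    simp only [← Finset.sum_sub_distrib, r2, r3]
    congr 2
    by_cases hβ : β = a
    · rw [if_pos hβ, if_pos hβ, if_pos hβ, smul_sub, hβ]
    · rw [if_neg hβ, if_neg hβ, if_neg hβ, sub_zero]
  -- summation over `β`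
  have hsum : (16 : ℂ) • (S.Hm m (S.Qm m a u) x - S.Qm m a (S.Hm m u) x) =
      ∑ β, (S.Qm m β (S.Qm m β (S.Qm m a u)) x - S.Qm m a (S.Qm m β (S.Qm m β u)) x) := by
    rw [Finset.sum_sub_distrib, h7 m (S.Qm m a u) (sQ a hu) x, smul_sub,
      ← Qm_cs S m a 16 sH, ← Qm_sum S _ m a _ (fun β _ => sQ β (sQ β hu))]
    congr 2
    funext y
    exact (h7 m u hu y).symm
  have t2 : ∑ β, (∑ i, ∑ j, ((rc i j : ℂ) * (S.Gam * S.g2 i j) β a) •
        (-(Complex.I / 2) • ∑ γ, S.g2 i j β γ • S.Qm m γ u x)) =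
      (-9 * Complex.I) • ∑ γ, S.Gam a γ • S.Qm m γ u x := by
    have e1 : ∀ i j, ∑ β, ((rc i j : ℂ) * (S.Gam * S.g2 i j) β a) •
        (-(Complex.I / 2) • ∑ γ, S.g2 i j β γ • S.Qm m γ u x) =
        (if i = j then (0 : ℂ) else (rc i j : ℂ)) • ((Complex.I / 2) •
          ∑ γ, S.Gam a γ • S.Qm m γ u x) := by
      intro i j
      have e2 : ∀ γ, ((rc i j : ℂ) • ((S.Gam * S.g2 i j)ᵀ * S.g2 i j)) a γ =
          ((if i = j then (0 : ℂ) else (rc i j : ℂ)) • (-S.Gam)) a γ := by
        intro γ; rw [mat_id]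
      simp only [Matrix.smul_apply, Matrix.mul_apply, Matrix.transpose_apply, Matrix.neg_apply,
        smul_eq_mul] at e2
      simp only [Finset.smul_sum, smul_smul]
      rw [Finset.sum_comm]
      refine Finset.sum_congr rfl fun γ _ => ?_
      rw [← Finset.sum_smul]
      congr 1
      have e3 := e2 γ
      simp only [Matrix.mul_apply] at e3 ⊢
      calc ∑ β, (rc i j : ℂ) * (∑ k, S.Gam β k * S.g2 i j k a) * (-(Complex.I / 2) * S.g2 i j β γ)
          = -(Complex.I / 2) * ((rc i j : ℂ) * ∑ β, (∑ k, S.Gam β k * S.g2 i j k a) *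
              S.g2 i j β γ) := by
            rw [Finset.mul_sum, Finset.mul_sum]
            refine Finset.sum_congr rfl fun β _ => ?_
            ring
        _ = _ := by
            rw [e3]; ring
    rw [Finset.sum_comm]
    have e4 : ∀ i, ∑ β, ∑ j, ((rc i j : ℂ) * (S.Gam * S.g2 i j) β a) •
        (-(Complex.I / 2) • ∑ γ, S.g2 i j β γ • S.Qm m γ u x) =
        ∑ j, (if i = j then (0 : ℂ) else (rc i j : ℂ)) • ((Complex.I / 2) •
          ∑ γ, S.Gam a γ • S.Qm m γ u x) := by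
      intro i
      rw [Finset.sum_comm]
      exact Finset.sum_congr rfl fun j _ => e1 i j
    rw [Finset.sum_congr rfl fun i _ => e4 i]
    simp only [← Finset.sum_smul]
    rw [sum_rc, smul_smul]
    congr 1
    ring
  have t3 : ∑ β, (∑ j, ∑ C, S.g j β a • (-(Complex.I • S.vec (S.g j) C β (S.G C u x)))) =
      (-9 * Complex.I) • ∑ C, S.th a C (S.G C u x) := by
    have e1 : ∀ j C, ∑ β, S.g j β a • (-(Complex.I • S.vec (S.g j) C β (S.G C u x))) =
        (-Complex.I) • S.th a C (S.G C u x) := by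
      intro j C
      have e2 := S.vec_mul (S.g j) (S.g j) C a
      rw [S.g_sqE, S.vec_one] at e2
      rw [e2]
      simp only [_root_.sum_apply, _root_.smul_apply, Finset.smul_sum]
      refine Finset.sum_congr rfl fun β _ => ?_
      have e3 : S.g j β a = S.g j a β := by
        conv_lhs => rw [← S.g_symm j]
        rfl
      rw [e3, smul_neg, neg_smul, smul_comm]
    rw [Finset.sum_comm]
    have e4 : ∀ j, ∑ β, ∑ C, S.g j β a • (-(Complex.I • S.vec (S.g j) C β (S.G C u x))) =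
        ∑ C, (-Complex.I) • S.th a C (S.G C u x) := by
      intro j
      rw [Finset.sum_comm]
      exact Finset.sum_congr rfl fun C _ => e1 j C
    rw [Finset.sum_congr rfl fun j _ => e4 j, ← Finset.smul_sum, Finset.sum_const,
      Finset.card_univ, Fintype.card_fin, ← Nat.cast_smul_eq_nsmul ℂ, smul_smul]
    congr 1
    push_cast
    ring
  have tot : (16 : ℂ) • (S.Hm m (S.Qm m a u) x - S.Qm m a (S.Hm m u) x) =
      (2 : ℂ) • (S.Qm m a (S.Hm m u) x - S.Hm m (S.Qm m a u) x) +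
      (m : ℂ) • ((-9 * Complex.I) • ∑ γ, S.Gam a γ • S.Qm m γ u x) +
      (2 * S.κ : ℂ) • ((-9 * Complex.I) • ∑ C, S.th a C (S.G C u x)) := by
    rw [hsum, Finset.sum_congr rfl fun β _ => (key β).trans (term β), Finset.sum_add_distrib,
      Finset.sum_add_distrib, Finset.sum_ite_eq' Finset.univ a, if_pos (Finset.mem_univ a),
      ← Finset.smul_sum, ← Finset.smul_sum, t2, t3]
  set D := S.Hm m (S.Qm m a u) x - S.Qm m a (S.Hm m u) x with hD
  have hD' : S.Qm m a (S.Hm m u) x - S.Hm m (S.Qm m a u) x = -D := by rw [hD]; abel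
  rw [hD'] at tot
  have h18 : (18 : ℂ) • D = (m : ℂ) • ((-9 * Complex.I) • ∑ γ, S.Gam a γ • S.Qm m γ u x) +
      (2 * S.κ : ℂ) • ((-9 * Complex.I) • ∑ C, S.th a C (S.G C u x)) := by
    have : (18 : ℂ) • D = (16 : ℂ) • D + (2 : ℂ) • D := by rw [← add_smul]; norm_num
    rw [this, tot, smul_neg]
    abel
  have hfin : D = (1 / 18 : ℂ) • ((18 : ℂ) • D) := by rw [smul_smul]; norm_num
  rw [hfin, h18, smul_add, smul_smul, smul_smul, smul_smul, smul_smul, sub_eq_add_neg, ← neg_smul]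
  congr 2 <;> ring

end Vale.Agent.P353.U
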