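import Vale.Agent.P353.U.StmtA

/-! # P353, uniqueness for `N = 2`: the spinors `ζ`, `η` of the gap argument (A5) -/

open Matrix

namespace Vale.Agent.P353.U

variable {F : Type*} [NormedAddCommGroup F] [InnerProductSpace ℂ F]

section gen

variable {n : Type*} [Fintype n]

/-- splitting off an eigenvector of an involution -/
lemma a5_step [DecidableEq n] (B : Matrix n n ℂ) (hB : B * B = 1) (v : n → ℂ) (hv : v ≠ 0) :
    ∃ w : n → ℂ, w ≠ 0 ∧ (∃ s : ℂ, s * s = 1 ∧ (starRingEnd ℂ) s = s ∧ B *ᵥ w = s • w) ∧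
      ∀ C : Matrix n n ℂ, C * B = B * C → ∀ c : ℂ, C *ᵥ v = c • v → C *ᵥ w = c • w := by
  by_cases h : v + B *ᵥ v = 0
  · refine ⟨v, hv, ⟨-1, by norm_num, by simp, ?_⟩, fun C _ c hc => hc⟩
    rw [neg_smul, one_smul]
    exact eq_neg_of_add_eq_zero_right h
  · refine ⟨v + B *ᵥ v, h, ⟨1, by norm_num, by simp, ?_⟩, ?_⟩
    · rw [Matrix.mulVec_add, Matrix.mulVec_mulVec, hB, Matrix.one_mulVec, one_smul, add_comm]
    · intro C hC c hc
      rw [Matrix.mulVec_add, hc, Matrix.mulVec_mulVec, hC, ← Matrix.mulVec_mulVec, hc,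
        Matrix.mulVec_smul, smul_add]

/-- an expectation value vanishes -/
lemma a5_zero (A C : Matrix n n ℂ) (hA : Aᴴ = -A) (hAC : C * A = -(A * C)) (v : n → ℂ) (s : ℂ)
    (hs : s * s = 1) (hs' : (starRingEnd ℂ) s = s) (hv : A *ᵥ v = (-Complex.I * s) • v) :
    star v ⬝ᵥ (C *ᵥ v) = 0 := by
  have h1 : star v ⬝ᵥ ((C * A) *ᵥ v) = (-Complex.I * s) * (star v ⬝ᵥ (C *ᵥ v)) := by
    rw [← Matrix.mulVec_mulVec, hv, Matrix.mulVec_smul, dotProduct_smul, smul_eq_mul]
  have h2 : star v ⬝ᵥ ((A * C) *ᵥ v) = -((Complex.I * s) * (star v ⬝ᵥ (C *ᵥ v))) := by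
    rw [← Matrix.mulVec_mulVec, Matrix.dotProduct_mulVec]
    have h3 : star v ᵥ* A = star (Aᴴ *ᵥ v) := by
      rw [Matrix.star_mulVec, Matrix.conjTranspose_conjTranspose]
    rw [h3, hA, Matrix.neg_mulVec, hv, star_neg, star_smul, neg_dotProduct, smul_dotProduct]
    simp only [star_mul', star_neg, smul_eq_mul, Complex.star_def, Complex.conj_I, hs']
    ring
  rw [hAC, Matrix.neg_mulVec, dotProduct_neg, h2] at h1
  have h4 : (Complex.I * s) * (star v ⬝ᵥ (C *ᵥ v)) = 0 := by linear_combination (1/2) * h1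
  have h5 : Complex.I * s ≠ 0 := by
    refine mul_ne_zero Complex.I_ne_zero ?_
    rintro rfl
    simp at hs
  exact (mul_eq_zero.mp h4).resolve_left h5

end gen

section gam

variable (S : Setup F)

lemma a5_g_conj (i : Fin 9) : (S.g i)ᴴ = S.g i := by
  ext a b
  rw [Matrix.conjTranspose_apply]
  have h1 : S.g i b a = S.g i a b := congrFun (congrFun (S.g_symm i) a) b
  rw [h1, Complex.star_def, Complex.conj_eq_iff_im.mpr (S.g_real i a b)]

lemma a5_g2_conj (i j : Fin 9) : (S.g2 i j)ᴴ = -S.g2 i j := by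
  unfold CS.g2
  rw [Matrix.conjTranspose_smul, Matrix.conjTranspose_sub, Matrix.conjTranspose_mul,
    Matrix.conjTranspose_mul, a5_g_conj, a5_g_conj, ← smul_neg, neg_sub]
  congr 1
  simp

lemma a5_Gam_conj : (S.Gam)ᴴ = -S.Gam := by
  rw [← S.Gam_transpose]
  ext a b
  rw [Matrix.conjTranspose_apply, Matrix.transpose_apply, Complex.star_def,
    Complex.conj_eq_iff_im.mpr (S.Gam_real b a)]

lemma a5_g2_ne {i j : Fin 9} (h : i ≠ j) : S.g2 i j = S.g i * S.g j := by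
  unfold CS.g2
  rw [S.g_ac h.symm, sub_neg_eq_add, ← two_smul ℂ, smul_smul]
  norm_num

lemma a5_g2_sq {i j : Fin 9} (h : i ≠ j) : S.g2 i j * S.g2 i j = -1 := by
  rw [a5_g2_ne S h]
  calc S.g i * S.g j * (S.g i * S.g j) = S.g i * (S.g j * S.g i) * S.g j := by
        simp only [mul_assoc]
    _ = S.g i * -(S.g i * S.g j) * S.g j := by rw [S.g_ac h.symm]
    _ = -(S.g i * S.g i * (S.g j * S.g j)) := by
        simp only [mul_assoc, mul_neg, neg_mul]
    _ = -1 := by rw [S.g_sq', S.g_sq', one_mul]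

lemma a5_anti {k l p : Fin 9} (h1 : k ≠ l) (h2 : k ≠ p) (h3 : l ≠ p) :
    S.g2 k l * S.g2 k p = -(S.g2 k p * S.g2 k l) := by
  rw [a5_g2_ne S h1, a5_g2_ne S h2]
  have e1 : S.g k * S.g l * (S.g k * S.g p) = -(S.g l * S.g p) := by
    calc S.g k * S.g l * (S.g k * S.g p) = S.g k * (S.g l * S.g k) * S.g p := by
          simp only [mul_assoc]
      _ = S.g k * -(S.g k * S.g l) * S.g p := by rw [S.g_ac h1.symm]
      _ = -(S.g k * S.g k * (S.g l * S.g p)) := by simp only [mul_assoc, mul_neg, neg_mul]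
      _ = -(S.g l * S.g p) := by rw [S.g_sq', one_mul]
  have e2 : S.g k * S.g p * (S.g k * S.g l) = -(S.g p * S.g l) := by
    calc S.g k * S.g p * (S.g k * S.g l) = S.g k * (S.g p * S.g k) * S.g l := by
          simp only [mul_assoc]
      _ = S.g k * -(S.g k * S.g p) * S.g l := by rw [S.g_ac h2.symm]
      _ = -(S.g k * S.g k * (S.g p * S.g l)) := by simp only [mul_assoc, mul_neg, neg_mul]
      _ = -(S.g p * S.g l) := by rw [S.g_sq', one_mul]
  rw [e1, e2, S.g_ac h3]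

lemma a5_comm {i j k l : Fin 9} (h1 : i ≠ j) (h2 : k ≠ l) (h3 : i ≠ k) (h4 : i ≠ l)
    (h5 : j ≠ k) (h6 : j ≠ l) : S.g2 i j * S.g2 k l = S.g2 k l * S.g2 i j := by
  rw [a5_g2_ne S h1, a5_g2_ne S h2]
  calc S.g i * S.g j * (S.g k * S.g l) = S.g i * (S.g j * S.g k) * S.g l := by
        simp only [mul_assoc]
    _ = -(S.g i * S.g k * (S.g j * S.g l)) := by
        rw [S.g_ac h5]; simp only [mul_assoc, mul_neg, neg_mul]
    _ = -(S.g k * (S.g i * S.g l) * S.g j) := by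
        rw [S.g_ac h3, S.g_ac h6]; simp only [mul_assoc, mul_neg, neg_mul, neg_neg]
    _ = S.g k * S.g l * (S.g i * S.g j) := by
        rw [S.g_ac h4]; simp only [mul_assoc, mul_neg, neg_mul, neg_neg]

lemma a5_g2_self (k : Fin 9) : S.g2 k k = 0 := by
  unfold CS.g2
  rw [sub_self, smul_zero]

/-- the partner of an index in its plane -/
def pt : Fin 9 → Fin 9 := ![0, 2, 1, 4, 3, 6, 5, 8, 7]

/-- a joint eigenvector -/
lemma a5_vec : ∃ (ζ : Fin 16 → ℂ) (σ : Fin 9 → ℂ), ζ ≠ 0 ∧ S.Gam *ᵥ ζ = (-Complex.I) • ζ ∧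
    ∀ k, k ≠ 0 → σ k * σ k = 1 ∧ (starRingEnd ℂ) (σ k) = σ k ∧
      S.g2 k (pt k) *ᵥ ζ = (-Complex.I * σ k) • ζ := by
  have hinv : ∀ A : Matrix (Fin 16) (Fin 16) ℂ, A * A = -1 →
      (Complex.I • A) * (Complex.I • A) = 1 := by
    intro A hA
    rw [smul_mul_smul_comm, hA, Complex.I_mul_I]
    simp
  -- the start
  have h00 : S.Gam 0 0 = 0 := by
    have h := congrFun (congrFun S.Gam_transpose 0) 0
    rw [Matrix.transpose_apply, Matrix.neg_apply] at h
    linear_combination (1/2) * h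
  set B0 : Matrix (Fin 16) (Fin 16) ℂ := Complex.I • S.Gam with hB0
  have hB0s : B0 * B0 = 1 := hinv _ S.Gam_sq
  set x : Fin 16 → ℂ := Pi.single 0 1 with hx
  set v0 : Fin 16 → ℂ := x + B0 *ᵥ x with hv0
  have hv0n : v0 ≠ 0 := by
    intro h
    have h1 := congrFun h 0
    rw [hv0, Pi.add_apply, hx, Matrix.mulVec_single_one, hB0] at h1
    simp [h00] at h1
  have hB0v : B0 *ᵥ v0 = v0 := by
    rw [hv0, Matrix.mulVec_add, Matrix.mulVec_mulVec, hB0s, Matrix.one_mulVec, add_comm]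
  have conv : ∀ (A : Matrix (Fin 16) (Fin 16) ℂ) (v : Fin 16 → ℂ) (s : ℂ),
      (Complex.I • A) *ᵥ v = s • v → A *ᵥ v = (-Complex.I * s) • v := by
    intro A v s h
    rw [Matrix.smul_mulVec] at h
    have h2 := congrArg (fun w => (-Complex.I) • w) h
    simp only [smul_smul] at h2
    rw [neg_mul, Complex.I_mul_I, neg_neg, one_smul] at h2
    exact h2
  have hG0 : S.Gam *ᵥ v0 = (-Complex.I) • v0 := by
    have := conv S.Gam v0 1 (by rw [one_smul]; exact hB0v)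
    rwa [mul_one] at this
  obtain ⟨v1, hv1n, ⟨s1, hs1, hs1', hv1⟩, hk1⟩ := a5_step (Complex.I • S.g2 1 2)
    (hinv _ (a5_g2_sq S (by decide))) v0 hv0n
  obtain ⟨v2, hv2n, ⟨s2, hs2, hs2', hv2⟩, hk2⟩ := a5_step (Complex.I • S.g2 3 4)
    (hinv _ (a5_g2_sq S (by decide))) v1 hv1n
  obtain ⟨v3, hv3n, ⟨s3, hs3, hs3', hv3⟩, hk3⟩ := a5_step (Complex.I • S.g2 5 6)
    (hinv _ (a5_g2_sq S (by decide))) v2 hv2n
  obtain ⟨v4, hv4n, ⟨s4, hs4, hs4', hv4⟩, hk4⟩ := a5_step (Complex.I • S.g2 7 8)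
    (hinv _ (a5_g2_sq S (by decide))) v3 hv3n
  have cm : ∀ A B : Matrix (Fin 16) (Fin 16) ℂ, A * B = B * A →
      A * (Complex.I • B) = (Complex.I • B) * A := by
    intro A B h
    rw [Matrix.mul_smul, Matrix.smul_mul, h]
  have cG : ∀ {k l : Fin 9}, Same k l → S.Gam * (Complex.I • S.g2 k l) =
      (Complex.I • S.g2 k l) * S.Gam := fun h => cm _ _ (S.Gam_comm_g2 h).symm
  -- propagate
  have G1 := hk1 _ (cG ⟨by decide, by decide⟩) _ hG0
  have G2 := hk2 _ (cG ⟨by decide, by decide⟩) _ G1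
  have G3 := hk3 _ (cG ⟨by decide, by decide⟩) _ G2
  have G4 := hk4 _ (cG ⟨by decide, by decide⟩) _ G3
  have cc : ∀ {i j k l : Fin 9}, i ≠ j → k ≠ l → i ≠ k → i ≠ l → j ≠ k → j ≠ l →
      S.g2 i j * (Complex.I • S.g2 k l) = (Complex.I • S.g2 k l) * S.g2 i j :=
    fun h1 h2 h3 h4 h5 h6 => cm _ _ (a5_comm S h1 h2 h3 h4 h5 h6)
  have P1 := conv _ _ _ hv1
  have P1 := hk2 _ (cc (by decide) (by decide) (by decide) (by decide) (by decide) (by decide)) _ P1
  have P1 := hk3 _ (cc (by decide) (by decide) (by decide) (by decide) (by decide) (by decide)) _ P1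
  have P1 := hk4 _ (cc (by decide) (by decide) (by decide) (by decide) (by decide) (by decide)) _ P1
  have P2 := conv _ _ _ hv2
  have P2 := hk3 _ (cc (by decide) (by decide) (by decide) (by decide) (by decide) (by decide)) _ P2
  have P2 := hk4 _ (cc (by decide) (by decide) (by decide) (by decide) (by decide) (by decide)) _ P2
  have P3 := conv _ _ _ hv3
  have P3 := hk4 _ (cc (by decide) (by decide) (by decide) (by decide) (by decide) (by decide)) _ P3
  have P4 := conv _ _ _ hv4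
  have neg : ∀ (a b : Fin 9) (s : ℂ), S.g2 a b *ᵥ v4 = (-Complex.I * s) • v4 →
      S.g2 b a *ᵥ v4 = (-Complex.I * (-s)) • v4 := by
    intro a b s h
    rw [S.g2_swap b a, Matrix.neg_mulVec, h, ← neg_smul]
    congr 1; ring
  have sq : ∀ s : ℂ, s * s = 1 → -s * -s = 1 := fun s h => by rw [neg_mul_neg, h]
  have cj : ∀ s : ℂ, (starRingEnd ℂ) s = s → (starRingEnd ℂ) (-s) = -s := fun s h => by
    rw [map_neg, h]
  refine ⟨v4, ![0, s1, -s1, s2, -s2, s3, -s3, s4, -s4], hv4n, G4, ?_⟩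
  intro k hk
  fin_cases k
  · exact absurd rfl hk
  · exact ⟨hs1, hs1', P1⟩
  · exact ⟨sq _ hs1, cj _ hs1', neg _ _ _ P1⟩
  · exact ⟨hs2, hs2', P2⟩
  · exact ⟨sq _ hs2, cj _ hs2', neg _ _ _ P2⟩
  · exact ⟨hs3, hs3', P3⟩
  · exact ⟨sq _ hs3, cj _ hs3', neg _ _ _ P3⟩
  · exact ⟨hs4, hs4', P4⟩
  · exact ⟨sq _ hs4, cj _ hs4', neg _ _ _ P4⟩

/-- twice the contribution of the pair `(k, l)` -/
def a5t (k l : Fin 9) : ℤ := if k ≠ 0 ∧ l = pt k then (if k.val < 3 then -2 else -1) else 0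

lemma a5t_sum : ∑ k, ∑ l, a5t k l = -10 := by decide

theorem a5 : A5Stmt S := by
  obtain ⟨ζ, σ, hζ, hΓ, hσ⟩ := a5_vec S
  set η : Fin 16 → ℂ := S.g2 0 1 *ᵥ ζ with hη
  have h01 : (0 : Fin 9) ≠ 1 := by decide
  have hηn : η ≠ 0 := by
    intro h
    apply hζ
    have h1 : S.g2 0 1 *ᵥ η = -ζ := by
      rw [hη, Matrix.mulVec_mulVec, a5_g2_sq S h01, Matrix.neg_mulVec, Matrix.one_mulVec]
    rw [h, Matrix.mulVec_zero] at h1
    exact neg_eq_zero.mp h1.symm
  have hΓη : S.Gam *ᵥ η = (-Complex.I) • η := by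
    rw [hη, Matrix.mulVec_mulVec, ← S.Gam_comm_g2 ⟨by decide, by decide⟩, ← Matrix.mulVec_mulVec, hΓ,
      Matrix.mulVec_smul]
  -- expectation values
  have hE0 : ∀ k l : Fin 9, k ≠ 0 → k ≠ l → l ≠ pt k → star ζ ⬝ᵥ (S.g2 k l *ᵥ ζ) = 0 := by
    intro k l hk hkl hl
    obtain ⟨h1, h2, h3⟩ := hσ k hk
    refine a5_zero (S.g2 k (pt k)) (S.g2 k l) (a5_g2_conj S _ _) (a5_anti S hkl ?_ hl) ζ (σ k)
      h1 h2 h3
    revert hk; fin_cases k <;> decide
  have hE : ∀ k l : Fin 9, ¬ (k ≠ 0 ∧ l = pt k) → star ζ ⬝ᵥ (S.g2 k l *ᵥ ζ) = 0 := by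
    intro k l h
    by_cases hkl : k = l
    · rw [hkl, a5_g2_self, Matrix.zero_mulVec, dotProduct_zero]
    · by_cases hk : k = 0
      · subst hk
        rw [S.g2_swap 0 l, Matrix.neg_mulVec, dotProduct_neg, hE0 l 0 (Ne.symm hkl) (Ne.symm hkl),
          neg_zero]
        have : l ≠ 0 := Ne.symm hkl
        revert this; fin_cases l <;> decide
      · exact hE0 k l hk hkl fun hl => h ⟨hk, hl⟩
  have hEp : ∀ k, k ≠ 0 → star ζ ⬝ᵥ (S.g2 k (pt k) *ᵥ ζ) = (-Complex.I * σ k) * (star ζ ⬝ᵥ ζ) := by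
    intro k hk
    rw [(hσ k hk).2.2, dotProduct_smul, smul_eq_mul]
  -- action on `η`
  have hηp : ∀ k, k ≠ 0 → S.g2 k (pt k) *ᵥ η =
      (if k.val < 3 then Complex.I * σ k else -Complex.I * σ k) • η := by
    intro k hk
    have h3 := (hσ k hk).2.2
    by_cases hk3 : k.val < 3
    · rw [if_pos hk3]
      have ha : S.g2 k (pt k) * S.g2 0 1 = -(S.g2 0 1 * S.g2 k (pt k)) := by
        have hk' : k = 1 ∨ k = 2 := by
          revert hk hk3; fin_cases k <;> decide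
        rcases hk' with rfl | rfl
        · rw [S.g2_swap 0 1]
          have h := a5_anti S (k := 1) (l := 2) (p := 0) (by decide) (by decide) (by decide)
          change S.g2 1 2 * -S.g2 1 0 = -(-S.g2 1 0 * S.g2 1 2)
          rw [mul_neg, neg_mul, h]
        · rw [S.g2_swap 0 1]
          have h := a5_anti S (k := 1) (l := 2) (p := 0) (by decide) (by decide) (by decide)
          change S.g2 2 1 * -S.g2 1 0 = -(-S.g2 1 0 * S.g2 2 1)
          rw [S.g2_swap 2 1, mul_neg, neg_mul, mul_neg, neg_mul, h]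
      rw [hη, Matrix.mulVec_mulVec, ha, Matrix.neg_mulVec, ← Matrix.mulVec_mulVec, h3,
        Matrix.mulVec_smul, ← neg_smul]
      congr 1; ring
    · rw [if_neg hk3]
      have ha : S.g2 k (pt k) * S.g2 0 1 = S.g2 0 1 * S.g2 k (pt k) := by
        have hk' : k ≠ 0 ∧ k ≠ 1 ∧ pt k ≠ 0 ∧ pt k ≠ 1 ∧ k ≠ pt k := by
          revert hk hk3; fin_cases k <;> decide
        obtain ⟨p1, p2, p3, p4, p5⟩ := hk'
        exact a5_comm S p5 (by decide) p1 p2 p3 p4
      rw [hη, Matrix.mulVec_mulVec, ha, ← Matrix.mulVec_mulVec, h3, Matrix.mulVec_smul]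
  -- orthogonality
  have horth : star η ⬝ᵥ ζ = 0 := by
    have h1 : star ζ ⬝ᵥ η = 0 := hE 0 1 (by simp)
    rw [Matrix.star_dotProduct, h1, star_zero]
  refine ⟨ζ, η, hζ, hηn, ?_, ?_, ?_, ?_⟩
  · intro α
    have h := congrFun hΓ α
    have h' : ∑ β, S.Gam α β * ζ β = -Complex.I * ζ α := h
    rw [h']
    linear_combination (-(ζ α)) * Complex.I_mul_I
  · intro α
    have h := congrFun hΓη α
    have h' : ∑ β, S.Gam α β * η β = -Complex.I * η α := h
    rw [h']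
    linear_combination (-(η α)) * Complex.I_mul_I
  · exact horth
  · intro α
    set N : ℂ := star ζ ⬝ᵥ ζ with hN
    have hNs : ∑ β, (starRingEnd ℂ) (ζ β) * ζ β = N := rfl
    have hc : ∀ k l : Fin 9, (∑ β, ∑ γ, (starRingEnd ℂ) (ζ β) * (S.Gam * S.g2 k l) β γ * ζ γ) =
        -Complex.I * (star ζ ⬝ᵥ (S.g2 k l *ᵥ ζ)) := by
      intro k l
      have h1 : (∑ β, ∑ γ, (starRingEnd ℂ) (ζ β) * (S.Gam * S.g2 k l) β γ * ζ γ) =
          star ζ ⬝ᵥ ((S.Gam * S.g2 k l) *ᵥ ζ) := by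
        simp only [dotProduct, Matrix.mulVec, Finset.mul_sum, mul_assoc]
        rfl
      have h3 : star ζ ᵥ* S.Gam = star ((S.Gam)ᴴ *ᵥ ζ) := by
        rw [Matrix.star_mulVec, Matrix.conjTranspose_conjTranspose]
      rw [h1, ← Matrix.mulVec_mulVec, Matrix.dotProduct_mulVec, h3, a5_Gam_conj, Matrix.neg_mulVec,
        hΓ, star_neg, star_smul, neg_dotProduct, smul_dotProduct]
      simp only [star_neg, smul_eq_mul, Complex.star_def, Complex.conj_I]
      ring
    have hterm : ∀ k l : Fin 9, (rc k l : ℂ) *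
        (∑ β, ∑ γ, (starRingEnd ℂ) (ζ β) * (S.Gam * S.g2 k l) β γ * ζ γ) *
        (-Complex.I / 2) * (∑ β, S.g2 k l α β * η β) = (a5t k l : ℂ) * (1 / 2 * N * η α) := by
      intro k l
      rw [hc]
      by_cases h : k ≠ 0 ∧ l = pt k
      · obtain ⟨hk, rfl⟩ := h
        have h4 : ∑ β, S.g2 k (pt k) α β * η β =
            (if k.val < 3 then Complex.I * σ k else -Complex.I * σ k) * η α :=
          congrFun (hηp k hk) α
        rw [hEp k hk, h4]
        have h5 := (hσ k hk).1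
        by_cases hk3 : k.val < 3
        · have h6 : (pt k).val < 3 := by revert hk hk3; fin_cases k <;> decide
          have e1 : rc k (pt k) = 2 := by rw [rc, if_pos ⟨hk3, h6⟩]
          have e2 : a5t k (pt k) = -2 := by rw [a5t, if_pos ⟨hk, rfl⟩, if_pos hk3]
          rw [e1, e2, if_pos hk3]
          push_cast
          linear_combination (-(N * η α)) * h5 +
            (N * η α * σ k ^ 2 * (1 - Complex.I ^ 2)) * Complex.I_mul_I
        · have h6 : ¬ (pt k).val < 3 := by revert hk hk3; fin_cases k <;> decide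
          have e1 : rc k (pt k) = -1 := by
            rw [rc, if_neg (fun h => hk3 h.1), if_pos (And.intro (by omega) (by omega))]
          have e2 : a5t k (pt k) = -1 := by rw [a5t, if_pos ⟨hk, rfl⟩, if_neg hk3]
          rw [e1, e2, if_neg hk3]
          push_cast
          linear_combination (-(1 / 2) * (N * η α)) * h5 +
            (1 / 2 * N * η α * σ k ^ 2 * (1 - Complex.I ^ 2)) * Complex.I_mul_I
      · rw [hE k l h, a5t, if_neg h]
        simp
    calc _ = ∑ k, ∑ l, (a5t k l : ℂ) * (1 / 2 * N * η α) :=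
          Finset.sum_congr rfl fun k _ => Finset.sum_congr rfl fun l _ => hterm k l
      _ = ((∑ k, ∑ l, a5t k l : ℤ) : ℂ) * (1 / 2 * N * η α) := by
          push_cast
          simp only [Finset.sum_mul]
      _ = _ := by
          rw [a5t_sum, hNs]
          push_cast
          ring

end gam

end Vale.Agent.P353.U
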