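import Vale.Agent.P353.U.GamLem

/-! # P353, uniqueness for `N = 2`: statements of part B (spectral theory for fixed `m > 0`)

`Setup F` with `F` finite dimensional. A function `Ψ : X3 → F` with `MemLp Ψ 2` represents an `L²` state. -/

open MeasureTheory Filter Topology
open scoped ContDiff

namespace Vale.Agent.P353.U

variable {F : Type*} [NormedAddCommGroup F] [InnerProductSpace ℂ F]

/-- **B-V** lower bound of the BMN potential: `V_m ≥ c m² dist(x, wells)²`.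
PROOF. Scaling: `V_m(x) = m⁴V_1(x/m)`, `dm m x = m·dm 1 (x/m)`; so `m = 1`.  With `F_{ij} = κ x_i×x_j`:
`V_1 = ½∑_{cyc (ijk) of I3}|F_{ij} + 2x_k|² + ½∑_{a∈I6}|x_a|² + ½(other |F_{ij}|² with i<j not both in I3)`.
(`V = ½∑_{i<j}|F_{ij}|²`, cross term `2x_k·F_{ij}` summed over the 3 cyclic = `6κ det3`.)
So `V_1 ≥ ½∑_{a∈I6}|x_a|² + ½ g(X)`, `X` = the 3×3 matrix `X_{Ai} = (κ/2)·x_i^A` (columns `x_i`, `i∈I3`) up to the factor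
`(4/κ)²`: with `y_i = -(κ/2)x_i`, `F_{ij} + 2x_k = (4/κ)(y_i×y_j - y_k)`.  Need
`∑_{cyc}|y_i×y_j - y_k|² ≥ c·min(|y|², dist(y, SO(3))²)` for `3×3` matrices `Y = (y_1,y_2,y_3)`: i.e.
`‖cof Y - Y‖² ≥ c min(‖Y‖², dist(Y,SO(3))²)`.  `cof(OYO') = O cof(Y) O'` for `O,O'∈SO(3)`; singular value
decomposition with `O,O'∈SO(3)`: `Y = O diag(τ) O'`, (τ may have a sign) and
`‖cof Y - Y‖² = ∑_{cyc}(τ_iτ_j - τ_k)²`, `dist(Y,SO(3))² ≤ ∑(τ_i-1)²`. But also the sign changes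
`(τ_1,τ_2,τ_3) → (-τ_1,-τ_2,τ_3)` are in `SO(3)` (so `(−1,−1,1)` is also in the orbit). Show
`∑_{cyc}(τ_iτ_j-τ_k)² ≥ c·min(∑τ_i², min over even sign changes ∑(τ_i-s_i)²)`: the zero set of the left side
is `{0} ∪ {(s_1,s_2,s_3): s_i=±1, s_1s_2s_3=1}`, at these points the Hessian is nondegenerate, and for
`|τ|→∞` the left side is `≥ c|τ|²` (if the smallest of the `|τ_i|`, say `|τ_3| ≤ |τ_1|,|τ_2|`, …
`(τ_1τ_2-τ_3)²+(τ_2τ_3-τ_1)²+(τ_3τ_1-τ_2)²`: for all `τ`: `≥ (1/C)(|τ_1|-1)²…`).  An alternative without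
SVD: compactness + expansion at the orbit using `Y = O S`, polar decomposition, `S` symmetric. Any proof is
fine; the constant `c > 0` may depend on `κ`. -/
def VBoundStmt (S : Setup F) : Prop := ∃ c : ℝ, 0 < c ∧ ∀ m : ℝ, 0 < m → ∀ x : X3,
  c * m ^ 2 * S.dm m x ^ 2 ≤ S.Vm m x

/-- **B0** coercivity, locally uniform in `m`: from A6 and B-V:
`|⟨u,Fx u⟩| ≤ C|x||u|²`, `‖FG‖ ≤ C`, and `dm m x ≥ |x| - 6m/κ`-ish, hence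
`V_m - C|x| ≥ c'|x|² - C'`. -/
def CoerStmt (S : Setup F) : Prop := ∀ a b : ℝ, 0 < a → ∃ c C : ℝ, 0 < c ∧ 0 ≤ C ∧
  ∀ m : ℝ, a ≤ m → m ≤ b → ∀ u : X3 → F, Setup.Tst u →
    c * ((∫ x, ‖x‖ ^ 2 * ‖u x‖ ^ 2) + ∑ i, ∑ A, nsq (pd i A u)) ≤
      C * nsq u + ∑ β, nsq (S.Qm m β u)

/-- **B-LR** local Rellich theorem (`F` finite dimensional). PROOF: multiply by cutoffs `χ_s`; for the functions
`v_n = χ_s u_n` (support in a ball, bounded in `L²` with bounded gradient) use the translation estimate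
and averages over small cells (`FiniteDim.lean`: `translation`, `cell`, `avg_bound`, …): the averages over
the finitely many cells of size `δ` meeting the ball form a bounded sequence in a finite dimensional space,
so a subsequence converges; `‖v_n - avg_δ v_n‖ ≤ Cδ‖∇v_n‖`. Diagonal argument in `δ = 1/k`, `s = k`; local
limits patch together. -/
def LRStmt (F : Type*) [NormedAddCommGroup F] [InnerProductSpace ℂ F] : Prop :=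
  ∀ u : ℕ → X3 → F, (∀ n, ContDiff ℝ ∞ (u n)) →
    (∀ s : ℝ, 0 < s → ∃ K : ℝ, ∀ n, (∫ x in Metric.ball (0 : X3) s, ‖u n x‖ ^ 2) +
      ∑ i, ∑ A, (∫ x in Metric.ball (0 : X3) s, ‖pd i A (u n) x‖ ^ 2) ≤ K) →
    ∃ φ : ℕ → ℕ, StrictMono φ ∧ ∃ Ψ : X3 → F, StronglyMeasurable Ψ ∧
      (∀ s : ℝ, 0 < s → IntegrableOn (fun x => ‖Ψ x‖ ^ 2) (Metric.ball (0 : X3) s)) ∧
      ∀ s : ℝ, 0 < s → Tendsto (fun n => ∫ x in Metric.ball (0 : X3) s, ‖u (φ n) x - Ψ x‖ ^ 2)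
        atTop (𝓝 0)

/-- **B-GR** global compactness: bounded energy and bounded second moment give an `L²`-convergent
subsequence. PROOF: B-LR plus tightness `∫_{|x|>s}|u|² ≤ K/s²`. -/
def GRStmt (F : Type*) [NormedAddCommGroup F] [InnerProductSpace ℂ F] : Prop :=
  ∀ (u : ℕ → X3 → F) (K : ℝ), (∀ n, Setup.Tst (u n)) →
    (∀ n, nsq (u n) + (∫ x, ‖x‖ ^ 2 * ‖u n x‖ ^ 2) + ∑ i, ∑ A, nsq (pd i A (u n)) ≤ K) →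
    ∃ φ : ℕ → ℕ, StrictMono φ ∧ ∃ Ψ : X3 → F, L2t (fun n => u (φ n)) Ψ

/-- **B1** existence of the resolvent `R = (1 + ∑Q_β²)⁻¹` (Riesz/Lax–Milgram on the closure of the graph).
PROOF. `𝓗 = L² × (L²)^{16}` (e.g. `WithLp 2` / `PiLp 2 (fun _ : Option (Fin 16) => Lp F 2)`), `𝓖` = closure of the
subspace `{(u, Q_βu) : u ∈ Tst}`. For `f ∈ L²` the functional `(w,Φ) ↦ ⟨f,w⟩` on the Hilbert space `𝓖` is
represented by `(w,Φ) = P_𝓖(f,0)` (orthogonal projection!). Put `Rf = w` = first component of `P_𝓖(f,0)`: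
linear, bounded; `⟨Rf,g⟩ = ⟨P(f,0),(g,0)⟩ = ⟨(f,0),P(g,0)⟩`; `(w,Φ)` is a limit of `(u_n,Q_βu_n)` and
`⟨(ζ,Qζ),(w,Φ)⟩ = ⟨(ζ,Qζ),(f,0)⟩ = ⟨ζ,f⟩`; `‖(w,Φ)‖² = Re⟨P(f,0),(f,0)⟩ = Re⟨Rf,f⟩`. -/
def ResStmt (S : Setup F) : Prop := ∀ m : ℝ, ∃ R, S.IsRes m R

/-- **B2** essential self-adjointness: only `0` is orthogonal to the range of `1 + ∑Q_β²` on test functions.
PROOF. Let `Ψ ⟂ range`; let `w = RΨ` (B1): `w, Q_βw ∈ L²` (strong limits), `∂w, |x|w ∈ L²` (B0) and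
`(1+∑Q²)w = Ψ` weakly. `w_{R,δ} = χ_R·(ρ_δ * w)` is a test function, and (A7: `∑Q² = 16H_m = -8Δ +` polynomial
potential) `(1+∑Q²)w_{R,δ} = χ_R ρ_δ*Ψ + χ_R[V_{tot},ρ_δ*]w - 16∇χ_R·∇(ρ_δ*w) - 8(Δχ_R)ρ_δ*w`; the commutator
is bounded on `|x| ≤ 2R` by `Cδ(1+R)³‖w‖`, the cutoff terms by `C/R(‖∂w‖+‖w‖)`. Choose `δ = R⁻⁴`, `R → ∞`:
`(1+∑Q²)w_{R,δ} → Ψ` in `L²`, so `0 = ⟨(1+∑Q²)w_{R,δ},Ψ⟩ → ‖Ψ‖²`. -/
def ESAStmt (S : Setup F) : Prop := ∀ m : ℝ, 0 < m → ∀ Ψ : X3 → F,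
  MemLp Ψ 2 (volume : Measure X3) →
  (∀ ζ, Setup.Tst ζ → ∫ x, inner ℂ (ζ x + ∑ β, S.Qm m β (S.Qm m β ζ) x) (Ψ x) = 0) → nsq Ψ = 0

/-- **B3** `R` is compact for `m > 0`. PROOF: `f_n` bounded; `Rf_n` is approximated within `1/n` in the graph
norm by `u_n ∈ Tst`; B0 gives the hypotheses of B-GR for `u_n`. -/
def RCompStmt (S : Setup F) [CompleteSpace F] : Prop := ∀ m : ℝ, 0 < m → ∀ R, S.IsRes m R →
  IsCompactOperator (R : Lp F 2 (volume : Measure X3) → Lp F 2 (volume : Measure X3))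

/-- **B4** `R` preserves invariance. PROOF: let `X ∈ {G_C, J_{kl}}` and `U_t` the corresponding one parameter
unitary group `U_tζ(x) = e^{its}ζ(R_{-t}x)` (`s` = spin part; landed for `J` as `Ut` in `RotA`–`RotF`, do the same
for `G_C`); `U_t` maps `Tst` to `Tst`, `d/dt U_tζ = iXU_tζ` (sign!), `∑Q_β²` commutes with `U_t` on test functions
(A2, A3: `[X,∑Q²]=0`; or differentiate). `f` is weakly invariant iff `U_tf = f` for all `t`. `U_tR = RU_t` by uniqueness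
of the weak solution (`w ∈ L²` with `⟨(1+∑Q²)ζ,w⟩ = ⟨ζ,f⟩ ∀ζ` is unique by B2). Hence `U_tRf = RU_tf = Rf`. -/
def RInvStmt (S : Setup F) : Prop := ∀ m : ℝ, 0 < m → ∀ R, S.IsRes m R →
  ∀ f : Lp F 2 (volume : Measure X3), S.wG f → S.wJ f → S.wG (R f) ∧ S.wJ (R f)

/-- **B5** abstract: a compact self-adjoint operator has an eigenvalue at least the Rayleigh quotient, in any
closed invariant subspace. (Mathlib: `IsSelfAdjoint`, `ContinuousLinearMap.rayleighQuotient`,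
`IsCompactOperator`, spectral theorem; apply to the restriction of `T` to `K`, and to
`T|_K` shift arguments: `sup ⟨Tv,v⟩ > c ≥ 0` is attained.) -/
def EigStmt.{v} : Prop := ∀ (H : Type v) [NormedAddCommGroup H] [InnerProductSpace ℂ H] [CompleteSpace H]
  (T : H →L[ℂ] H), (∀ f g, inner ℂ (T f) g = inner ℂ f (T g)) → IsCompactOperator T →
  ∀ K : Submodule ℂ H, IsClosed (K : Set H) → (∀ v ∈ K, T v ∈ K) → ∀ c : ℝ, 0 ≤ c →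
  ∀ v ∈ K, c * ‖v‖ ^ 2 < (inner ℂ (T v) v).re →
  ∃ μ : ℝ, c < μ ∧ ∃ w ∈ K, w ≠ 0 ∧ T w = (μ : ℂ) • w

/-- **B6** weak `L²` eigenfunctions are in the form domain.  PROOF: let `R` be as in B1, `w = R((1+e)Ψ)`; then
`⟨(1+∑Q²)ζ, Ψ - w⟩ = 0` for all `ζ` (move `Q_β` using the strong approximants of `w`), so `w = Ψ` by B2; the strong
approximants `(Φ_β)` of `w` satisfy `‖w‖²+∑‖Φ_β‖² = Re⟨w,(1+e)Ψ⟩ = (1+e)‖Ψ‖²`; they are the weak `Q_βΨ`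
(`∫⟨Q_βζ,u_n⟩ = ∫⟨ζ,Q_βu_n⟩`, landed symmetry of `Q`, `M_β(x)` self-adjoint). -/
def WEStmt (S : Setup F) : Prop := ∀ m e : ℝ, 0 < m → ∀ Ψ : X3 → F,
  MemLp Ψ 2 (volume : Measure X3) → S.wE m e Ψ →
  ∃ Φ : Fin 16 → X3 → F, S.Str m Ψ Φ ∧ (∀ β, S.wQ m β Ψ (Φ β)) ∧ ∑ β, nsq (Φ β) = e * nsq Ψ

/-- **B7** the gap: an invariant weak eigenfunction with `0 < e < 8m` vanishes (`e = 16λ`, `λ < m/2`).
PROOF. By B6 `Φ_β = Q_βΨ ∈ L²`. For `ξ ∈ ℂ^16` put `Q^ξ = ∑ξ_αQ_α`, `(Q^ξ)† = Q^{ξ̄}`; A4: `[H,Q^ξ] = ±(m/2)Q^ξ` on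
gauge invariant vectors if `iΓξ = ±ξ` (weakly: test with `ζ'`, the term `θ_α^CG_C` disappears since
`∑_Cθ^C_αG_C = ∑_CG_Cθ^C_α` and `wG`).
(1) if `iΓξ = -ξ`, `Q^ξΨ` is a weak eigenfunction with eigenvalue `16(λ - m/2) < 0`, so `Q^ξΨ = 0` by B6.
(2) `ζ, η` from A5, `Φ = Q^ηΨ`: weak eigenfunction with `16(λ+m/2)`, so B6 applies. `A = Q^ζ`, `A† = Q^{ζ̄}` and
`iΓζ̄ = -ζ̄`. `A†Φ = Q^{ζ̄}Q^ηΨ = {Q^{ζ̄},Q^η}Ψ = 0` by A1 (`⟨ζ,η⟩ = 0`, `JΨ=0`, `GΨ = 0`), weakly; the `G` term is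
`⟨x_j^CG_Cζ',Ψ⟩ = ⟨G_C(x_j^Cζ'),Ψ⟩ = 0` (sum over `C`).
(3) For gauge invariant test functions `v` (`G_Cv=0`): `‖Av‖² + ‖A†v‖² = ⟨v,{A†,A}v⟩ = 2|ζ|²⟨v,Hv⟩ + m∑rc(ζ†Γγ^{kl}ζ)⟨v,J_{kl}v⟩`
(A1; the `G`-term vanishes). Take `v = u_n` = gauge invariant approximants of `Φ` from B8 (second moment of `Φ` from B6, B0
and Fatou; `wG Φ` from `wG Ψ` and A3), `R_n → ∞`, `δ_n → 0`: `u_n → Φ`, `Q_βu_n → Q_βΦ`. Limits:
`2⟨u_n,Hu_n⟩ = (1/8)∑‖Q_βu_n‖² → (1/8)·16(λ+m/2)‖Φ‖²`; `⟨u_n,J_{kl}u_n⟩ → ⟨Φ,J_{kl}Φ⟩` where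
`J_{kl}Φ = J_{kl}Q^ηΨ = (i/2)∑_αη_α(γ^{kl}Q)_αΨ = -(i/2)Q^{γ^{kl}η}Ψ ∈ L²` weakly (A2, wJ; the form `⟨u,Jv⟩` is
continuous in the graph norm by B0: `|⟨u,Jv⟩| ≤ C(‖|x|u‖+‖u‖)(‖∂v‖+‖v‖)`), `‖A†u_n‖ → ‖A†Φ‖ = 0`.
Result with A5: `‖AΦ‖² = (2λ + m - 5m)|ζ|²‖Φ‖² ≤ 0` and `2λ < m < 4m`, so `Φ = 0`.
(4) `0 = Q^{η̄}Φ = {Q^{η̄},Q^η}Ψ = 2|η|²λΨ` (weakly), `Ψ = 0`. -/
def GapStmt (S : Setup F) : Prop := ∀ m e : ℝ, 0 < m → 0 < e → e < 8 * m → ∀ Ψ : X3 → F,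
  MemLp Ψ 2 (volume : Measure X3) → S.wG Ψ → S.wJ Ψ → S.wE m e Ψ → nsq Ψ = 0

/-- **B8** (INV lemma) approximation by (invariant) test functions with support in a ball.
PROOF. `ρ_ε` radial mollifier (`ε` small), `χ_R` radial cutoff (`= 1` for `|x| ≤ R/2`, `0` for `|x| ≥ R`, gradient `≤ C/R`;
`Tools.lean`), `u = χ_R·(ρ_ε*Ψ)`. `Q_β(ρ_ε*Ψ) = ρ_ε*Θ_β + [W_β+mM_β,ρ_ε*]Ψ` and
`|W(x)-W(x-y)| ≤ Cε(1+|x|)` for `|y| ≤ ε ≤ 1`, so the commutator is `≤ Cε‖(1+|x|)Ψ‖`; cutoff term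
`-i(γθ∇χ_R)_β(ρ_ε*Ψ)` is `≤ (C/R)‖1_{|x|≥R/2}ρ_ε*Ψ‖`; `‖ρ_ε*Ψ-Ψ‖ → 0`, `‖ρ_ε*Θ-Θ‖ → 0`.
Invariance: for `v ∈ F`, `⟨v,G_C(ρ_ε*Ψ)(x)⟩ = ∫⟨G_C^{(y)}(ρ_ε(x-y)v),Ψ(y)⟩dy = 0` because the radial kernel
`ρ_ε(x-y)` is killed by the sum of the rotation generators in `x` and in `y`. Similarly `J_{kl}`. -/
def InvLemStmt (S : Setup F) : Prop := ∀ m : ℝ, ∀ (Ψ : X3 → F) (Θ : Fin 16 → X3 → F),
  MemLp Ψ 2 (volume : Measure X3) → (∀ β, MemLp (Θ β) 2 (volume : Measure X3)) →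
  (∀ β, S.wQ m β Ψ (Θ β)) → Integrable (fun x => ‖x‖ ^ 2 * ‖Ψ x‖ ^ 2) →
  ∃ C : ℝ, ∀ R : ℝ, 1 ≤ R → ∀ δ : ℝ, 0 < δ → ∃ u : X3 → F, Setup.Tst u ∧
    (∀ x, R ≤ ‖x‖ → u x = 0) ∧ (S.wG Ψ → ∀ C x, S.G C u x = 0) ∧
    (S.wJ Ψ → ∀ k l, Same k l → ∀ x, S.J k l u x = 0) ∧
    nsq (fun x => u x - Ψ x) ≤ δ + C * ∫ x, (if R / 4 ≤ ‖x‖ then ‖Ψ x‖ ^ 2 else 0) ∧
    ∀ β, nsq (fun x => S.Qm m β u x - Θ β x) ≤ δ +
      C / R ^ 2 * (∫ x, (if R / 4 ≤ ‖x‖ then ‖Ψ x‖ ^ 2 else 0)) +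
      C * ∫ x, (if R / 4 ≤ ‖x‖ then ‖Θ β x‖ ^ 2 else 0)

/-- **B9** `Low m (8m)` gives three zero modes.  PROOF. `R` from B1, compact (B3), `K` = closed subspace of weakly
invariant `L²` functions ∩ `E^⊥`, where `E = {Ψ : Rf = f, invariant}` = invariant zero modes = `Em m`
(`Rf = f` ⟺ `∑‖Φ_β‖² = 0`; conversely `Em`⊂`E` by B6 with `e = 0`). If `dim E ≤ 2` there is
`u = ∑a_ju_j ≠ 0` orthogonal to `E`; `⟨u,u⟩² ≤ ⟨Ru,u⟩(nsq u + ∑nsq Q_βu)` (Cauchy–Schwarz in the graph space) gives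
`⟨Ru,u⟩ > ‖u‖²/(1+8m)`; B5 with `T = R` on `K` (invariant under `R`: B4, self-adjointness) gives an eigenvector `w`,
`Rw = μw`, `μ > 1/(1+8m)`, i.e. `wE m e w`, `e = 1/μ - 1 < 8m`; `e ≥ 0` as `∑‖Φ‖² = e‖w‖²`. If `e > 0`: B7 gives `w = 0`. If
`e = 0`: `w ∈ E ∩ E^⊥`. -/
def LowDimStmt (S : Setup F) : Prop := ∀ m : ℝ, 0 < m → S.Low m (8 * m) → S.Dim3 m

/-- **B10** `Dim3 m` gives `Low m c` for every `c > 0`. PROOF. Second moment of zero modes: B6 (`e = 0`) gives strong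
approximants with `Q_βu_n → 0`, B0 + Fatou give `∫|x|²|Ψ|² < ∞`; then B8 with `R → ∞, δ → 0`; the three
approximants are uniformly close, compactness of the unit sphere of `ℂ³` (or explicit constants: on the
3-dimensional space all norms are equivalent). -/
def DimLowStmt (S : Setup F) : Prop := ∀ m : ℝ, 0 < m → S.Dim3 m → ∀ c : ℝ, 0 < c → S.Low m c

/-- **Theorem B** PROOF: by B9, B10 and B0: for `m, m' ∈ [a,b]`, `|m-m'| ≤ δ`: `Low m c` with small `c` gives `Low m' (8m')`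
because `∑‖Q^{m'}u‖² ≤ 2∑‖Q^mu‖² + 2(m-m')²∑‖M_βu‖²`, `∑‖M_βu‖² ≤ C∫|x|²|u|² ≤ C'(‖u‖² + ∑‖Q^mu‖²)`.
Finitely many steps connect any two positive values. -/
def ThmBStmt (S : Setup F) : Prop := ∀ m : ℝ, 0 < m → S.Low m (8 * m) →
  ∀ m' : ℝ, 0 < m' → ∀ c : ℝ, 0 < c → S.Low m' c

end Vale.Agent.P353.U
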