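import Vale.Agent.P353.U.GamLem

/-! # P353, uniqueness for `N = 2`: statements of part C (semiclassical limit `m → ∞`) -/

open MeasureTheory Filter Topology
open scoped ContDiff

namespace Vale.Agent.P353.U

variable {F : Type*} [NormedAddCommGroup F] [InnerProductSpace ℂ F]

/-- rescaling around `m ξ` with the length `m^{-1/2}` -/
noncomputable def scl (m : ℝ) (ξ : X3) (u : X3 → F) (w : X3) : F := u (m • ξ + (Real.sqrt m)⁻¹ • w)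

/-- **C-Vac** vacuum lemma: for a maximal isotropic subspace `𝒜` of `ℂ^48` there is exactly one vector
(up to scalars) killed by all `θ(a) = ∑a_pθ_p`, `a ∈ 𝒜`.
PROOF. `{θ(a),θ(b)} = ∑a_pb_p`, `θ(a)† = θ(ā)`. Existence: take a basis `a_1,…` of `𝒜`; start with `v ≠ 0` and
successively replace `v` by `θ(a_j)v` if this is nonzero (it stays killed by the previous ones by anticommutation and
`θ(a_j)² = 0`). Uniqueness: let `Ω` be killed by `𝒜`, `Ω'` killed by `𝒜`, `Ω' ⟂ Ω`. Let `W` = span of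
all `θ(b_1)…θ(b_k)Ω`, `b_i ∈ 𝒜̄`. `W` is stable under `θ(b)`, `b∈𝒜̄` and under `θ(a)`, `a∈𝒜` (move `θ(a)` to the
right), hence under all `θ_p` (as `𝒜+𝒜̄ = ⊤`), so `W = ⊤` by irreducibility; but `⟨Ω',θ(b_1)…Ω⟩ = ⟨θ(b̄_1)Ω',…⟩ = 0` for
`k ≥ 1` and `⟨Ω',Ω⟩ = 0`: `Ω' ⟂ W`, so `Ω' = 0`. -/
def VacStmt (S : Setup F) : Prop := S.Irr → (∃ v : F, v ≠ 0) →
  ∀ 𝒜 : Submodule ℂ (Fin 16 × Fin 3 → ℂ),
    (∀ a ∈ 𝒜, ∀ b ∈ 𝒜, ∑ p, a p * b p = 0) →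
    (∀ z : Fin 16 × Fin 3 → ℂ, ∃ a ∈ 𝒜, ∃ b ∈ 𝒜, z = a + fun p => (starRingEnd ℂ) (b p)) →
    ∃ Ω : F, ‖Ω‖ = 1 ∧ (∀ a ∈ 𝒜, ∑ p : Fin 16 × Fin 3, a p • S.th p.1 p.2 Ω = 0) ∧
      ∀ v : F, (∀ a ∈ 𝒜, ∑ p : Fin 16 × Fin 3, a p • S.th p.1 p.2 v = 0) → ∃ c : ℂ, v = c • Ω

/-- **C-N0** the mass term at `0`: `N0 = (3/2)∑ b_α^A a_α^A ≥ 0`, kernel `= ℂΩ₀`.
PROOF: `∑_{α,A}b_αa_α = ¼∑θ(1+iΓ)ᵀ(1-iΓ)θ = ¼θ(1-iΓ)²θ = ½θ(1-iΓ)θ = 12 - ½iθΓθ` (`S.tot 1 = 24`), `b_α† = a_α`-type relations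
(`(a_α^A)† = b_α^A`), so `⟨v,N0v⟩ = (3/2)∑‖a_α^Av‖²`; C-Vac with `𝒜 = {a : iΓa = …}` spanned by the coefficient
vectors of the `a_α^A`. -/
def N0Stmt (S : Setup F) : Prop := S.Irr → (∃ v : F, v ≠ 0) →
  (∀ v : F, 0 ≤ (inner ℂ v (S.N0 v)).re) ∧ ∃ Ω : F, ‖Ω‖ = 1 ∧ (∀ A α, S.am A α Ω = 0) ∧
    S.N0 Ω = 0 ∧ (∀ v : F, (inner ℂ v (S.N0 v)).re = 0 → ∃ c : ℂ, v = c • Ω) ∧
    ∀ v : F, (∀ A α, S.am A α v = 0) → ∃ c : ℂ, v = c • Ω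

/-- **C-N1** the mass term at `ξ₀`: `N1 ≥ 0`, kernel one dimensional.
PROOF. `{χ_α,χ_β} = 3δ_{αβ}`; `θ'^A = θ^A - ⅓γ^Aχ` (`A ∈ I3`) satisfies `∑_Aγ^Aθ'^A = 0` and anticommutes with `χ`;
`∑θ^AΓθ^A = θ'Γθ' + ⅓χΓχ`, so `N1 = 38 - (7/4)iθ'Γθ' + (5/12)iχΓχ`. `θ'` spans a 32-dimensional real space, `χ` a
16-dimensional one: `28 - (7/4)iθ'Γθ' = (7/2)∑b'a'` with `a' = ½(1-iΓ)θ'` (`{θ'^A_α,θ'^B_β} = (δ_{AB} - ⅓γ^Aγ^B)_{αβ}`,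
trace `32`), `10 + (5/12)iχΓχ = (5/6)∑ … = (5/6)·∑_α (½(1+iΓ)χ)_α†(…)_α`. Sum of squares ≥ 0, kernel = joint kernel of
`(θ' - iΓθ')`, `(χ + iΓχ)`; C-Vac with `𝒜` the span of their coefficient vectors (dimension 16+8 = 24, isotropic). -/
def N1Stmt (S : Setup F) : Prop := S.Irr → (∃ v : F, v ≠ 0) →
  (∀ v : F, 0 ≤ (inner ℂ v (S.N1 v)).re) ∧ ∃ Ω : F, ‖Ω‖ = 1 ∧
    S.N1 Ω = 0 ∧ ∀ v : F, (inner ℂ v (S.N1 v)).re = 0 → ∃ c : ℂ, v = c • Ω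

/-- **C-En0** energy identity at `0`: `∑‖Qlin_β v‖² = 8∑‖(∂_i^A + a_ix_i^A)v‖² + 16⟨v,N0v⟩`.
PROOF: `Qlin 0 = Q0_β + M_β` (`DW 0 = 0`); `∑_β{Q0_β,M_β}`: from A1b or directly (`κ`-free):
`(1/16)∑Qlin² = -½Δ + ½∑a_i²|x_i|² - ¾iθΓθ`, and `½∑(-∂+ax)(∂+ax) = ½(-Δ+∑a²x²) - ½·3∑a_i = … - 18`. -/
def En0Stmt (S : Setup F) : Prop := ∀ v : X3 → F, Setup.Tst v →
  ∑ β, nsq (S.Qlin 0 β v) = 8 * (∑ i, ∑ A, nsq (fun x => pd i A v x + (A0 x i A : ℂ) • v x)) +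
    16 * (∫ x, inner ℂ (v x) (S.N0 (v x))).re

/-- **C-En1** energy identity at `ξ₀`: `∑‖Qlin_β v‖² = 8∑‖(∂_i^A + (A1x)_i^A)v‖² + 16⟨v,N1v⟩`.
PROOF: `(1/16)∑Qlin² = -½Δ + ½|A_1x|² + Fx(ξ₀) - ¾iθΓθ`: the potential is the quadratic part of `V_1` at `ξ₀`:
`½∑_{cyc}|κ(ξ_i×x_j + x_i×ξ_j) + 2x_k|² + ½∑_{I6}|x_a|² + ½∑_{i∈I3,a}|κξ_i×x_a|²` `= ½|A_1x|²`
(on the 3×3 block: `L x = 2(x+xᵀ) - 2 tr x·1`, `LᵀL = A_1²`; on `I6`: `1+8 = 9 = 3²`), `tr A_1 = 54+20+2 = 76`,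
`½tr A_1 = 38`, and `Fx(ξ₀) = iχΓχ - iθΓθ` since `Fx(ξ₀) = -iε_{ABC}θ^Aγ^Cθ^B = iθ^AΓγ^{AB}θ^B` and
`θ^AΓγ^Aγ^Bθ^B = χΓχ`. (The part of the anticommutators proportional to the gauge generator has `tr γ^j = 0`.) -/
def En1Stmt (S : Setup F) : Prop := ∀ v : X3 → F, Setup.Tst v →
  ∑ β, nsq (S.Qlin S.xi0 β v) =
    8 * (∑ i, ∑ A, nsq (fun x => pd i A v x + (A1 x i A : ℂ) • v x)) +
    16 * (∫ x, inner ℂ (v x) (S.N1 (v x))).re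

/-- **C-L0** Liouville theorem at `0`: `L²` solutions of `Qlin 0 β u = 0` are multiples of the Gaussian.
PROOF. `u_δ = ρ_δ*u` smooth, in `L²`; `Qlin u_δ = [M_β,ρ_δ*]u` has norm `≤ Cδ‖u‖`. En0 for `v = χ_Ru_δ`, `R→∞`, `δ→0`:
`‖(∂+A0)v‖ → 0`, `⟨v,N0v⟩ → 0`. So weakly `(∂_i^A + a_ix_i^A)u = 0` and `⟨u,N0u⟩ = 0`. Hence `e^{½∑a x²}u` is
(weakly, so a.e.) constant, and the constant lies in `ker N0`. -/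
def L0Stmt (S : Setup F) : Prop := S.Irr → (∃ v : F, v ≠ 0) → ∃ Ω : F, ‖Ω‖ = 1 ∧
  ∀ u : X3 → F, MemLp u 2 (volume : Measure X3) →
    (∀ β ζ, Setup.Tst ζ → ∫ x, inner ℂ (S.Qlin 0 β ζ x) (u x) = 0) →
    ∃ c : ℂ, ∀ᵐ x ∂(volume : Measure X3),
      u x = (c * (Real.exp (-(∑ i, ∑ A, aw i * x (i, A) ^ 2) / 2) : ℂ)) • Ω

/-- **C-L1** Liouville theorem at `ξ₀` for polynomially bounded solutions that are invariant along the gauge directions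
`T` = antisymmetric `3×3` block = kernel of `A_1`.
PROOF. `w = (w_T, w_⊥)`; `A_1w = A_1w_⊥`, `|A_1w_⊥| ≥ 2|w_⊥|`. `u_δ = ρ_δ*u` is smooth, `∂_tu_δ = 0` for `t ∈ T`,
`Qlin u_δ = r_δ := [linear,ρ_δ*]u`, `|r_δ| ≤ Cδ ρ_δ*|u|`. Fix a bump `φ(w_T) ≥ 0` and let `f = χ_s(w_⊥)u_δ` with
`χ_s = 1` for `|w_⊥| ≤ s`, `0` for `≥ 2s`. En1 for `v = φf`; expand both sides: the `|∇φ|²` terms are equal
(`8∫|∇φ|²|f|²`); the cross terms: right side `16 Re∫φ⟨(∂_t)f,(∂_tφ)f⟩ = 0` as `∂_tf=0`, and `A_1w` has no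
`T`-component; left side `2Re∫φ∑_β⟨Qlin_βf,-i(γθ∇φ)_βf⟩`, `Qlin_βf = -i(γθ∇χ_s)_βu_δ + χ_sr_δ`, and
`Re⟨u,∑_β(γθ∇χ)_β(γθ∇φ)_βu⟩ = 8∇χ·∇φ|u|² = 0`. So (up to `r_δ`, let `δ → 0`)
`(*) 8∫φ²|(∂+A_1)f|² + 16∫φ²⟨f,N1f⟩ = 8∫φ²|∇χ_s|²|u|²`, `f = χ_su`.
Also (integrating by parts, or En1 without completing the square) the left side is
`≥ 8∫φ²(|A_1w|² - C)|f|²`. With `μ(s) = ∫φ²1_{|w_⊥|≤s}|u|²` this gives for `s ≥ s_0`: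
`μ(s) ≤ Cμ(s_0) + (C/s²)μ(2s)`. Since `μ(s) ≤ K(1+s)^p`, induction on `p` shows that `μ` is bounded. Then (*) with
`s → ∞`: `(∂+A_1)u = 0` and `⟨u,N1u⟩ = 0` on `supp φ × ⊥`, everywhere by `T`-invariance; conclude as in C-L0. -/
def L1Stmt (S : Setup F) : Prop := S.Irr → (∃ v : F, v ≠ 0) → ∃ Ω : F, ‖Ω‖ = 1 ∧
  ∀ u : X3 → F, StronglyMeasurable u →
    (∀ s : ℝ, 0 < s → IntegrableOn (fun x => ‖u x‖ ^ 2) (Metric.ball (0 : X3) s)) →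
    (∃ (K : ℝ) (p : ℕ), ∀ s : ℝ, 1 ≤ s → ∫ x in Metric.ball (0 : X3) s, ‖u x‖ ^ 2 ≤ K * s ^ p) →
    (∀ β ζ, Setup.Tst ζ → ∫ x, inner ℂ (S.Qlin S.xi0 β ζ x) (u x) = 0) →
    (∀ (C : Fin 3) ζ, Setup.Tst ζ → ∫ x, inner ℂ
      (∑ i, ∑ A, ∑ B, ((eps C A B : ℂ) * (S.xi0 (i, A) : ℂ)) • pd i B ζ x) (u x) = 0) →
    ∃ c : ℂ, ∀ᵐ x ∂(volume : Measure X3),
      u x = (c * (Real.exp (-(∑ i, ∑ A, x (i, A) * A1 x i A) / 2) : ℂ)) • Ω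

/-- **C-AP** a priori bound: from A6 and B-V: `V_m ≥ cm²d²`, `|Fx(x)| + m‖FG‖ ≤ C(|x|+m) ≤ C'(d+m)` with `d = dm m x`
(`|x| ≤ d + C m`), `C'd ≤ (c/2)m²d² + C''/m²`. -/
def APStmt (S : Setup F) : Prop := ∃ C : ℝ, 0 < C ∧ ∀ m : ℝ, 1 ≤ m → ∀ u : X3 → F, Setup.Tst u →
  m ^ 2 * (∫ x, S.dm m x ^ 2 * ‖u x‖ ^ 2) ≤ C * (m * nsq u + ∑ β, nsq (S.Qm m β u))

/-- **C-Grp** the norm of a gauge invariant function is invariant under colour rotations.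
PROOF: for the one parameter groups `R_C(t)`, `d/dt‖u(R_C(t)x)‖² = 2Re⟨u,(rotation derivative)u⟩ = 2Re⟨u,±i cS_C u⟩ = 0`
(`cS_C` self-adjoint). Every `O ∈ SO(3)` is a product of three rotations about coordinate axes (Euler angles /
Givens rotations); or: `{O : ‖u(ro O x)‖ = ‖u x‖ ∀x}` is a group containing the rotations in coordinate planes. -/
def GrpStmt (S : Setup F) : Prop := ∀ u : X3 → F, Setup.Tst u → (∀ C x, S.G C u x = 0) →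
  ∀ O : Matrix (Fin 3) (Fin 3) ℝ, O.transpose * O = 1 → O.det = 1 → ∀ x, ‖u (ro O x)‖ = ‖u x‖

/-- **C-Pack** comparison of tubes around the orbit with balls around `mξ₀`.
PROOF. `Orb m` is compact (image of the compact group `SO(3)`); let `p_1,…,p_n` be a maximal `R`-separated subset.
`{dist(x,Orb) ≤ R} ⊂ ⋃ ball(p_i,2R)` up to a null set/with `≤`: choose `p ∈ Orb` with `|x-p| ≤ R` and `p_i` with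
`|p-p_i| < R`. (a) follows since `∫_{ball(p_i,s)}‖u‖² = ∫_{ball(mξ₀,s)}‖u‖²` (`p_i = ro O_i (mξ₀)`, `ro O_i` is a measure
preserving isometry). (b) `∑_i∫_{ball(p_i,s)}‖u‖² ≤ N·nsq u` where `N = max_x #{i : |p_i-x| < s} ≤ (1+2s/R)^27 ≤ (3s/R)^27`
(disjoint balls of radius `R/2` in a ball of radius `s+R/2`, dimension 27). -/
def PackStmt (S : Setup F) : Prop := ∀ m R : ℝ, 0 < m → 0 < R → ∃ n : ℝ, 0 < n ∧ ∀ u : X3 → F,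
  Setup.Tst u → (∀ O : Matrix (Fin 3) (Fin 3) ℝ, O.transpose * O = 1 → O.det = 1 →
    ∀ x, ‖u (ro O x)‖ = ‖u x‖) →
  (∫ x, (if Metric.infDist x (S.Orb m) ≤ R then ‖u x‖ ^ 2 else 0) ≤
    n * ∫ x in Metric.ball (m • S.xi0) (2 * R), ‖u x‖ ^ 2) ∧
  ∀ s : ℝ, R ≤ s → n * (∫ x in Metric.ball (m • S.xi0) s, ‖u x‖ ^ 2) ≤ (3 * s / R) ^ 27 * nsq u

/-- **C-Lim** local limits. `ξ` a critical point (`W_β(ξ)+M_β(ξ) = 0`; `ξ = 0` or `ξ₀`).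
PROOF. `u_k = scl m_k ξ φ_k` is smooth and
`m^{-1/2}(Q^{m}_βφ)(mξ+m^{-1/2}w) = Qlin ξ β u(w) + m^{-3/2}W_β(w)u(w)` because `W_β(mξ+m^{-1/2}w) = m²W_β(ξ) +
m^{1/2}DW(ξ)[w] + m^{-1}W_β(w)`, `mM_β(mξ+m^{-1/2}w) = m²M_β(ξ) + m^{1/2}M_β(w)`. Local gradient bounds: A8 for `χ_su_k`:
`8∑‖∂(χ_su_k)‖² = ∑‖Q0_β(χ_su_k)‖² ≤ 2∑‖Qlin-part‖² + C(s)‖u_k‖²_{B_{2s}}`. B-LR gives the subsequence and `u`;
pass to the limit in `∫⟨Qlin ξ β ζ,u_k⟩ = ∫⟨ζ,Qlin ξ β u_k⟩ → 0` (symmetry of `Qlin`, `ζ` has compact support).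
Gauge directions: `0 = m^{-3/2}(G_Cφ)(mξ+m^{-1/2}w) = -i∑ξ_i^Aε_{CAB}∂_{iB}u_k + O(m^{-3/2})(w∂u_k,u_k)`. -/
def LimStmt (S : Setup F) : Prop := ∀ ξ : X3, (∀ β, S.W β ξ + S.MM β ξ = 0) →
  ∀ m : ℕ → ℝ, (∀ k, 1 ≤ m k) → Tendsto m atTop atTop →
  ∀ φ : ℕ → X3 → F, (∀ k, Setup.Tst (φ k)) → ∀ P : ℝ → ℝ,
  (∀ k, ∀ s : ℝ, 0 < s → ∫ w in Metric.ball (0 : X3) s, ‖scl (m k) ξ (φ k) w‖ ^ 2 ≤ P s) →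
  (∀ s : ℝ, 0 < s → Tendsto (fun k => ∑ β, ∫ w in Metric.ball (0 : X3) s,
    (m k)⁻¹ * ‖scl (m k) ξ (S.Qm (m k) β (φ k)) w‖ ^ 2) atTop (𝓝 0)) →
  ∃ ψ : ℕ → ℕ, StrictMono ψ ∧ ∃ u : X3 → F, StronglyMeasurable u ∧
    (∀ s : ℝ, 0 < s → IntegrableOn (fun x => ‖u x‖ ^ 2) (Metric.ball (0 : X3) s)) ∧
    (∀ s : ℝ, 0 < s → Tendsto (fun k => ∫ w in Metric.ball (0 : X3) s,
      ‖scl (m (ψ k)) ξ (φ (ψ k)) w - u w‖ ^ 2) atTop (𝓝 0)) ∧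
    (∀ β ζ, Setup.Tst ζ → ∫ x, inner ℂ (S.Qlin ξ β ζ x) (u x) = 0) ∧
    ((∀ k C x, S.G C (φ k) x = 0) → ∀ (C : Fin 3) ζ, Setup.Tst ζ → ∫ x, inner ℂ
      (∑ i, ∑ A, ∑ B, ((eps C A B : ℂ) * (ξ (i, A) : ℂ)) • pd i B ζ x) (u x) = 0)

/-- **C-Crit** `ξ₀` is a critical point. -/
def CritStmt (S : Setup F) : Prop := ∀ β, S.W β S.xi0 + S.MM β S.xi0 = 0

/-- **Theorem C** for large `m` there are at most two invariant zero modes.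
PROOF. Otherwise there are `m_k → ∞` with `Low m_k ε` for all `ε > 0`. By C-AP a normalised `u` with tiny energy satisfies
`∫_{d ≥ Km^{-1/2}}|u|² ≤ C/K² ≤ 1/4`, fix such a `K`. Let `n_k` be from C-Pack for `m_k`, `R_k = Km_k^{-1/2}`. Choose
`ε_k = (k·(1+n_k))⁻¹` and in the three dimensional space of `Low m_k ε_k` a unit vector `φ_k` with
`∫⟨b(m_k^{1/2}x)Ω_0,φ_k⟩ = 0 = ∫⟨b(m_k^{1/2}(x-m_kξ₀))Ω_1,φ_k⟩`, `b ≥ 0` a fixed bump, `Ω_0,Ω_1` from C-L0, C-L1 (two linear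
conditions on a three dimensional space). C-Lim at `ξ=0` for `m_k^{-27/4}φ_k` (normalised: `nsq = 1`) and C-L0: the limit
`u = c·Gaussian·Ω_0` has `∫⟨bΩ_0,u⟩ = 0`, so `u = 0` (along a subsequence): `∫_{|x|≤Km^{-1/2}}|φ_k|² → 0`. So the mass in the
tube `dist(x,Orb) ≤ R_k` is `≥ 1/2`, C-Pack (a): `μ_k := ∫_{ball(m_kξ₀,2R_k)}|φ_k|² ≥ 1/(2n_k)`, (b): the functions
`μ_k^{-1/2}m_k^{-27/4}φ_k` have scaled local masses `≤ 2(3s/K)^27` for `s ≥ K` and local energies `≤ ε_k/(μ_k m_k) → 0`. C-Lim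
at `ξ₀`, C-Crit, C-L1: limit `u = c·e^{…}Ω_1` with `∫⟨bΩ_1,u⟩ = 0`, so `c = 0`, but `∫_{ball(0,2K)}|u|² = 1`. -/
def ThmCStmt (S : Setup F) : Prop := S.Irr → (∃ v : F, v ≠ 0) →
  ∃ M : ℝ, 0 < M ∧ ∀ m : ℝ, M ≤ m → ∃ ε : ℝ, 0 < ε ∧ ¬ S.Low m ε

end Vale.Agent.P353.U
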