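import Vale.Agent.P353.U.StmtA
import Vale.Agent.P353.U.StmtB
import Vale.Agent.P353.U.StmtC

/-! # P353, uniqueness: coercivity (B0) and a priori bound (C-AP) -/

open MeasureTheory Filter Topology
open scoped ContDiff

namespace Vale.Agent.P353.U

variable {F : Type*} [NormedAddCommGroup F] [InnerProductSpace ℂ F]

namespace Coer

lemma coord_le (x : X3) (p : Fin 9 × Fin 3) : |x p| ≤ ‖x‖ := by
  have h := PiLp.norm_apply_le x p
  rwa [Real.norm_eq_abs] at h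

/-- a bound of the fermionic potential -/
noncomputable def CF (S : Setup F) : ℝ := ‖(Complex.I / 2 * (S.κ : ℂ))‖ *
  ∑ q : Fin 9, ∑ A, ∑ B, ∑ C, ‖(eps A B C : ℂ)‖ * ‖S.bil (S.g q) A B‖

lemma CF_nonneg (S : Setup F) : 0 ≤ CF S := by
  unfold CF
  positivity

lemma norm_Fx_le (S : Setup F) (x : X3) : ‖S.Fx x‖ ≤ CF S * ‖x‖ := by
  unfold Setup.Fx CF
  rw [norm_smul, mul_assoc]
  apply mul_le_mul_of_nonneg_left _ (norm_nonneg _)
  simp only [Finset.sum_mul]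
  refine (norm_sum_le _ _).trans (Finset.sum_le_sum fun q _ => ?_)
  refine (norm_sum_le _ _).trans (Finset.sum_le_sum fun A _ => ?_)
  refine (norm_sum_le _ _).trans (Finset.sum_le_sum fun B _ => ?_)
  refine (norm_sum_le _ _).trans (Finset.sum_le_sum fun C _ => ?_)
  rw [norm_smul, norm_mul]
  have h1 : ‖((x (q, C) : ℝ) : ℂ)‖ ≤ ‖x‖ := by
    rw [Complex.norm_real, Real.norm_eq_abs]
    exact coord_le x _
  calc ‖(eps A B C : ℂ)‖ * ‖((x (q, C) : ℝ) : ℂ)‖ * ‖S.bil (S.g q) A B‖ ≤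
      ‖(eps A B C : ℂ)‖ * ‖x‖ * ‖S.bil (S.g q) A B‖ := by gcongr
    _ = _ := by ring

lemma norm_sq_X3 (x : X3) : ‖x‖ ^ 2 = ∑ i, ∑ A, x (i, A) ^ 2 := by
  rw [EuclideanSpace.norm_sq_eq, Fintype.sum_prod_type]
  simp only [Real.norm_eq_abs, sq_abs]

lemma norm_ro {O : Matrix (Fin 3) (Fin 3) ℝ} (hO : O.transpose * O = 1) (x : X3) :
    ‖ro O x‖ = ‖x‖ := by
  have h : ‖ro O x‖ ^ 2 = ‖x‖ ^ 2 := by
    rw [norm_sq_X3, norm_sq_X3]
    apply Finset.sum_congr rfl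
    intro i _
    have e : ∀ B C, ∑ A, O A B * O A C = if B = C then (1 : ℝ) else 0 := by
      intro B C
      have := congrFun (congrFun hO B) C
      rw [Matrix.mul_apply, Matrix.one_apply] at this
      rw [← this]
      rfl
    calc ∑ A, (ro O x) (i, A) ^ 2 = ∑ A, (∑ B, O A B * x (i, B)) ^ 2 := rfl
      _ = ∑ A, ∑ B, ∑ C, (O A B * O A C) * (x (i, B) * x (i, C)) := by
          apply Finset.sum_congr rfl
          intro A _
          rw [sq, Finset.sum_mul_sum]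
          apply Finset.sum_congr rfl
          intro B _
          apply Finset.sum_congr rfl
          intro C _
          ring
      _ = ∑ B, ∑ C, (∑ A, O A B * O A C) * (x (i, B) * x (i, C)) := by
          rw [Finset.sum_comm]
          apply Finset.sum_congr rfl
          intro B _
          rw [Finset.sum_comm]
          apply Finset.sum_congr rfl
          intro C _
          rw [Finset.sum_mul]
      _ = ∑ B, x (i, B) ^ 2 := by
          apply Finset.sum_congr rfl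
          intro B _
          simp only [e, ite_mul, one_mul, zero_mul, Finset.sum_ite_eq, Finset.mem_univ, if_true]
          ring
  exact (sq_eq_sq₀ (norm_nonneg _) (norm_nonneg _)).1 h

lemma orb_nonempty (S : Setup F) (m : ℝ) : (S.Orb m).Nonempty :=
  ⟨ro 1 (m • S.xi0), 1, by simp, by simp, rfl⟩

lemma infDist_ge (S : Setup F) {m : ℝ} (hm : 0 ≤ m) (x : X3) :
    ‖x‖ - m * ‖S.xi0‖ ≤ Metric.infDist x (S.Orb m) := by
  rw [Metric.le_infDist (orb_nonempty S m)]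
  rintro _ ⟨O, hO, _, rfl⟩
  have h1 : ‖ro O (m • S.xi0)‖ = m * ‖S.xi0‖ := by
    rw [norm_ro hO, norm_smul, Real.norm_eq_abs, abs_of_nonneg hm]
  rw [dist_eq_norm]
  have h2 := norm_sub_norm_le x (ro O (m • S.xi0))
  linarith

lemma dm_ge (S : Setup F) {m : ℝ} (hm : 0 ≤ m) (x : X3) : ‖x‖ - m * ‖S.xi0‖ ≤ S.dm m x := by
  unfold Setup.dm
  apply le_min _ (infDist_ge S hm x)
  have := mul_nonneg hm (norm_nonneg S.xi0)
  linarith

lemma dm_nonneg (S : Setup F) (m : ℝ) (x : X3) : 0 ≤ S.dm m x :=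
  le_min (norm_nonneg _) Metric.infDist_nonneg

lemma continuous_dm (S : Setup F) (m : ℝ) : Continuous (S.dm m) := by
  unfold Setup.dm
  exact continuous_norm.min (Metric.continuous_infDist_pt _)

lemma continuous_Vm (S : Setup F) (m : ℝ) : Continuous (S.Vm m) := by
  unfold Setup.Vm det3
  have h1 := (contDiff_V S).continuous
  fun_prop

/-- lower bound of the energy by an integral of a function of `x`. -/
lemma energy_lower (S : Setup F) (h6 : A6Stmt S) {m : ℝ} (hm : 0 ≤ m) {c1 : ℝ}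
    (hV : ∀ x : X3, c1 * m ^ 2 * S.dm m x ^ 2 ≤ S.Vm m x) {u : X3 → F} (hu : Setup.Tst u) :
    8 * ∑ i, ∑ A, nsq (pd i A u) + ∫ x, (16 * (c1 * m ^ 2 * S.dm m x ^ 2) - 16 * CF S * ‖x‖ -
      12 * m * ‖S.FG‖) * ‖u x‖ ^ 2 ≤ ∑ β, nsq (S.Qm m β u) := by
  have hcF : Setup.Tst (fun x => S.Fx x (u x)) := hu.clm (contDiff_Fx S)
  have hcG : Setup.Tst (fun x => S.FG (u x)) := hu.clm contDiff_const
  have i1 : Integrable (fun x => S.Vm m x * ‖u x‖ ^ 2) := hu.mul_norm_sq_int (continuous_Vm S m)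
  have i2 : Integrable (fun x => (inner ℂ (u x) (S.Fx x (u x)) : ℂ).re) :=
    (hu.inner_int hcF.1.continuous).re
  have i3 : Integrable (fun x => (inner ℂ (u x) (S.FG (u x)) : ℂ).re) :=
    (hu.inner_int hcG.1.continuous).re
  have e2 : (∫ x, inner ℂ (u x) (S.Fx x (u x))).re = ∫ x, (inner ℂ (u x) (S.Fx x (u x))).re :=
    (integral_re (hu.inner_int hcF.1.continuous)).symm
  have e3 : (∫ x, inner ℂ (u x) (S.FG (u x))).re = ∫ x, (inner ℂ (u x) (S.FG (u x))).re :=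
    (integral_re (hu.inner_int hcG.1.continuous)).symm
  rw [h6 m u hu, e2, e3]
  have hcont : Continuous fun x : X3 => 16 * (c1 * m ^ 2 * S.dm m x ^ 2) - 16 * CF S * ‖x‖ -
      12 * m * ‖S.FG‖ := by
    have := continuous_dm S m
    fun_prop
  have i4 : Integrable (fun x => (16 * (c1 * m ^ 2 * S.dm m x ^ 2) - 16 * CF S * ‖x‖ -
      12 * m * ‖S.FG‖) * ‖u x‖ ^ 2) := hu.mul_norm_sq_int hcont
  have e4 : 16 * (∫ x, S.Vm m x * ‖u x‖ ^ 2) + 16 * (∫ x, (inner ℂ (u x) (S.Fx x (u x))).re) -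
      12 * m * (∫ x, (inner ℂ (u x) (S.FG (u x))).re) =
      ∫ x, (16 * (S.Vm m x * ‖u x‖ ^ 2) + 16 * (inner ℂ (u x) (S.Fx x (u x))).re -
        12 * m * (inner ℂ (u x) (S.FG (u x))).re) := by
    have s1 : ∫ x, (16 * (S.Vm m x * ‖u x‖ ^ 2) + 16 * (inner ℂ (u x) (S.Fx x (u x))).re -
        12 * m * (inner ℂ (u x) (S.FG (u x))).re) =
        (∫ x, (16 * (S.Vm m x * ‖u x‖ ^ 2) + 16 * (inner ℂ (u x) (S.Fx x (u x))).re)) -
        ∫ x, 12 * m * (inner ℂ (u x) (S.FG (u x))).re :=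
      integral_sub ((i1.const_mul 16).add (i2.const_mul 16)) (i3.const_mul (12 * m))
    rw [s1, integral_add (i1.const_mul 16) (i2.const_mul 16), integral_const_mul,
      integral_const_mul, integral_const_mul]
  have hmain : ∫ x, (16 * (c1 * m ^ 2 * S.dm m x ^ 2) - 16 * CF S * ‖x‖ -
      12 * m * ‖S.FG‖) * ‖u x‖ ^ 2 ≤
      ∫ x, (16 * (S.Vm m x * ‖u x‖ ^ 2) + 16 * (inner ℂ (u x) (S.Fx x (u x))).re -
        12 * m * (inner ℂ (u x) (S.FG (u x))).re) := by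
    refine integral_mono i4 (((i1.const_mul 16).add (i2.const_mul 16)).sub
      (i3.const_mul (12 * m))) fun x => ?_
    have hu0 : 0 ≤ ‖u x‖ ^ 2 := by positivity
    have a1 : |(inner ℂ (u x) (S.Fx x (u x)) : ℂ).re| ≤ CF S * ‖x‖ * ‖u x‖ ^ 2 := by
      calc |(inner ℂ (u x) (S.Fx x (u x)) : ℂ).re| ≤ ‖inner ℂ (u x) (S.Fx x (u x))‖ :=
            Complex.abs_re_le_norm _
        _ ≤ ‖u x‖ * ‖S.Fx x (u x)‖ := norm_inner_le_norm _ _
        _ ≤ ‖u x‖ * (‖S.Fx x‖ * ‖u x‖) := by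
            gcongr
            exact (S.Fx x).le_opNorm _
        _ ≤ ‖u x‖ * ((CF S * ‖x‖) * ‖u x‖) := by
            gcongr
            exact norm_Fx_le S x
        _ = _ := by ring
    have a2 : |(inner ℂ (u x) (S.FG (u x)) : ℂ).re| ≤ ‖S.FG‖ * ‖u x‖ ^ 2 := by
      calc |(inner ℂ (u x) (S.FG (u x)) : ℂ).re| ≤ ‖inner ℂ (u x) (S.FG (u x))‖ :=
            Complex.abs_re_le_norm _
        _ ≤ ‖u x‖ * ‖S.FG (u x)‖ := norm_inner_le_norm _ _
        _ ≤ ‖u x‖ * (‖S.FG‖ * ‖u x‖) := by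
            gcongr
            exact S.FG.le_opNorm _
        _ = _ := by ring
    have a3 := (abs_le.1 a1).1
    have a4 := mul_le_mul_of_nonneg_left (abs_le.1 a2).2 (mul_nonneg (by norm_num : (0 : ℝ) ≤ 12) hm)
    have a5 := mul_le_mul_of_nonneg_right (hV x) hu0
    nlinarith
  linarith

end Coer

open Coer

/-- **B0** coercivity. -/
theorem coer (S : Setup F) (h6 : A6Stmt S) (hV : VBoundStmt S) : CoerStmt S := by
  obtain ⟨c1, hc1, hV⟩ := hV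
  intro a b ha
  set R0 := ‖S.xi0‖
  have hR0 : 0 ≤ R0 := norm_nonneg _
  have hCF := CF_nonneg S
  refine ⟨min 8 (4 * c1 * a ^ 2), 16 * c1 * b ^ 4 * R0 ^ 2 + 16 * CF S ^ 2 / (c1 * a ^ 2) +
    12 * b * ‖S.FG‖ + 12 * |b| * ‖S.FG‖, by positivity, ?_, ?_⟩
  · have h1 : 0 ≤ b * ‖S.FG‖ + |b| * ‖S.FG‖ := by
      rw [← add_mul]
      have := neg_abs_le b
      exact mul_nonneg (by linarith) (norm_nonneg _)
    have h2 : 0 ≤ 16 * c1 * b ^ 4 * R0 ^ 2 := by positivity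
    have h3 : 0 ≤ 16 * CF S ^ 2 / (c1 * a ^ 2) := by positivity
    linarith
  intro m ham hmb u hu
  have hm : 0 < m := ha.trans_le ham
  have hb : 0 < b := hm.trans_le hmb
  have h1 := energy_lower S h6 hm.le (hV m hm) hu
  set C0 : ℝ := 16 * c1 * b ^ 4 * R0 ^ 2 + 16 * CF S ^ 2 / (c1 * a ^ 2) + 12 * b * ‖S.FG‖ with hC0
  have hpt : ∀ x : X3, 4 * c1 * a ^ 2 * ‖x‖ ^ 2 - C0 ≤
      16 * (c1 * m ^ 2 * S.dm m x ^ 2) - 16 * CF S * ‖x‖ - 12 * m * ‖S.FG‖ := by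
    intro x
    have hd := dm_ge S hm.le x
    have hd0 := dm_nonneg S m x
    have hx := norm_nonneg x
    -- `‖x‖² ≤ 2 dm² + 2 m² R0²`
    have k1 : ‖x‖ ^ 2 ≤ 2 * S.dm m x ^ 2 + 2 * (m * R0) ^ 2 := by
      have k2 : ‖x‖ ≤ S.dm m x + m * R0 := by linarith
      have k3 : ‖x‖ ^ 2 ≤ (S.dm m x + m * R0) ^ 2 := pow_le_pow_left₀ hx k2 2
      nlinarith [sq_nonneg (S.dm m x - m * R0)]
    have k4 : 8 * c1 * m ^ 2 * ‖x‖ ^ 2 - 16 * c1 * m ^ 4 * R0 ^ 2 ≤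
        16 * (c1 * m ^ 2 * S.dm m x ^ 2) := by
      have := mul_le_mul_of_nonneg_left k1 (by positivity : 0 ≤ 8 * (c1 * m ^ 2))
      nlinarith
    have k5 : 8 * c1 * a ^ 2 * ‖x‖ ^ 2 ≤ 8 * c1 * m ^ 2 * ‖x‖ ^ 2 := by gcongr
    have k6 : 16 * c1 * m ^ 4 * R0 ^ 2 ≤ 16 * c1 * b ^ 4 * R0 ^ 2 := by gcongr
    have k7 : 16 * CF S * ‖x‖ ≤ 4 * c1 * a ^ 2 * ‖x‖ ^ 2 + 16 * CF S ^ 2 / (c1 * a ^ 2) := by
      have hca : 0 < c1 * a ^ 2 := by positivity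
      have : 0 ≤ (2 * (c1 * a ^ 2) * ‖x‖ - 4 * CF S) ^ 2 / (c1 * a ^ 2) := by positivity
      have e : (2 * (c1 * a ^ 2) * ‖x‖ - 4 * CF S) ^ 2 / (c1 * a ^ 2) =
          4 * c1 * a ^ 2 * ‖x‖ ^ 2 - 16 * CF S * ‖x‖ + 16 * CF S ^ 2 / (c1 * a ^ 2) := by
        field_simp
        ring
      linarith
    have k8 : 12 * m * ‖S.FG‖ ≤ 12 * b * ‖S.FG‖ := by gcongr
    linarith
  have hcont : Continuous fun x : X3 => 16 * (c1 * m ^ 2 * S.dm m x ^ 2) - 16 * CF S * ‖x‖ -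
      12 * m * ‖S.FG‖ := by
    have := continuous_dm S m
    fun_prop
  have hint1 : Integrable (fun x : X3 => (4 * c1 * a ^ 2 * ‖x‖ ^ 2 - C0) * ‖u x‖ ^ 2) :=
    hu.mul_norm_sq_int (by fun_prop)
  have h2 : ∫ x, (4 * c1 * a ^ 2 * ‖x‖ ^ 2 - C0) * ‖u x‖ ^ 2 ≤
      ∫ x, (16 * (c1 * m ^ 2 * S.dm m x ^ 2) - 16 * CF S * ‖x‖ - 12 * m * ‖S.FG‖) * ‖u x‖ ^ 2 :=
    integral_mono hint1 (hu.mul_norm_sq_int hcont) fun x =>
      mul_le_mul_of_nonneg_right (hpt x) (by positivity)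
  have h3 : ∫ x, (4 * c1 * a ^ 2 * ‖x‖ ^ 2 - C0) * ‖u x‖ ^ 2 =
      4 * c1 * a ^ 2 * (∫ x, ‖x‖ ^ 2 * ‖u x‖ ^ 2) - C0 * nsq u := by
    have i1 : Integrable (fun x : X3 => ‖x‖ ^ 2 * ‖u x‖ ^ 2) := hu.mul_norm_sq_int (by fun_prop)
    rw [nsq, ← integral_const_mul, ← integral_const_mul, ← integral_sub (i1.const_mul _)
      (hu.norm_sq_int.const_mul _)]
    congr 1
    ext x
    ring
  have hX : 0 ≤ ∫ x, ‖x‖ ^ 2 * ‖u x‖ ^ 2 := integral_nonneg fun x => by positivity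
  have hP : 0 ≤ ∑ i, ∑ A, nsq (pd i A u) :=
    Finset.sum_nonneg fun i _ => Finset.sum_nonneg fun A _ => nsq_nonneg _
  have hn := nsq_nonneg u
  have h4 := mul_le_mul_of_nonneg_right (min_le_left 8 (4 * c1 * a ^ 2)) hP
  have h5 := mul_le_mul_of_nonneg_right (min_le_right 8 (4 * c1 * a ^ 2)) hX
  have h6 : 0 ≤ 12 * |b| * ‖S.FG‖ * nsq u := by positivity
  rw [mul_add, add_mul]
  linarith

/-- **C-AP** a priori bound. -/
theorem ap (S : Setup F) (h6 : A6Stmt S) (hV : VBoundStmt S) : APStmt S := by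
  obtain ⟨c1, hc1, hV⟩ := hV
  set R0 := ‖S.xi0‖
  have hR0 : 0 ≤ R0 := norm_nonneg _
  have hCF := CF_nonneg S
  set C1 : ℝ := 16 * CF S * R0 + 8 * CF S ^ 2 / c1 + 12 * ‖S.FG‖ with hC1
  have hC1' : 0 ≤ C1 := by positivity
  refine ⟨(1 + C1) / (8 * c1), by positivity, fun m hm1 u hu => ?_⟩
  have hm : 0 < m := lt_of_lt_of_le one_pos hm1
  have h1 := energy_lower S h6 hm.le (hV m hm) hu
  have hpt : ∀ x : X3, 8 * c1 * m ^ 2 * S.dm m x ^ 2 - C1 * m ≤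
      16 * (c1 * m ^ 2 * S.dm m x ^ 2) - 16 * CF S * ‖x‖ - 12 * m * ‖S.FG‖ := by
    intro x
    have hd := dm_ge S hm.le x
    have hd0 := dm_nonneg S m x
    have k1 : 16 * CF S * ‖x‖ ≤ 16 * CF S * S.dm m x + 16 * CF S * R0 * m := by
      have : 16 * CF S * ‖x‖ ≤ 16 * CF S * (S.dm m x + m * R0) := by
        gcongr
        linarith
      linarith
    have k2 : 16 * CF S * S.dm m x ≤ 8 * c1 * m ^ 2 * S.dm m x ^ 2 + 8 * CF S ^ 2 / c1 * m := by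
      have k3 : 0 ≤ 8 * (c1 * m * S.dm m x - CF S / m) ^ 2 / c1 := by positivity
      have e : 8 * (c1 * m * S.dm m x - CF S / m) ^ 2 / c1 =
          8 * c1 * m ^ 2 * S.dm m x ^ 2 - 16 * CF S * S.dm m x + 8 * CF S ^ 2 / c1 * (1 / m ^ 2) := by
        field_simp
        ring
      have k4 : 1 / m ^ 2 ≤ m := by
        rw [div_le_iff₀ (by positivity)]
        nlinarith [mul_pos hm hm, one_le_pow₀ (n := 3) hm1]
      have k5 : 8 * CF S ^ 2 / c1 * (1 / m ^ 2) ≤ 8 * CF S ^ 2 / c1 * m := by gcongr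
      linarith
    nlinarith
  have hcd := continuous_dm S m
  have hcont : Continuous fun x : X3 => 16 * (c1 * m ^ 2 * S.dm m x ^ 2) - 16 * CF S * ‖x‖ -
      12 * m * ‖S.FG‖ := by fun_prop
  have h2 : ∫ x, (8 * c1 * m ^ 2 * S.dm m x ^ 2 - C1 * m) * ‖u x‖ ^ 2 ≤
      ∫ x, (16 * (c1 * m ^ 2 * S.dm m x ^ 2) - 16 * CF S * ‖x‖ - 12 * m * ‖S.FG‖) * ‖u x‖ ^ 2 :=
    integral_mono (hu.mul_norm_sq_int (by fun_prop)) (hu.mul_norm_sq_int hcont) fun x =>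
      mul_le_mul_of_nonneg_right (hpt x) (by positivity)
  have h3 : ∫ x, (8 * c1 * m ^ 2 * S.dm m x ^ 2 - C1 * m) * ‖u x‖ ^ 2 =
      8 * c1 * (m ^ 2 * ∫ x, S.dm m x ^ 2 * ‖u x‖ ^ 2) - C1 * m * nsq u := by
    have i1 : Integrable (fun x : X3 => S.dm m x ^ 2 * ‖u x‖ ^ 2) :=
      hu.mul_norm_sq_int (by fun_prop)
    rw [nsq, ← integral_const_mul, ← integral_const_mul, ← integral_const_mul,
      ← integral_sub ((i1.const_mul _).const_mul _) (hu.norm_sq_int.const_mul _)]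
    congr 1
    ext x
    ring
  have hP : 0 ≤ ∑ i, ∑ A, nsq (pd i A u) :=
    Finset.sum_nonneg fun i _ => Finset.sum_nonneg fun A _ => nsq_nonneg _
  have hQ : 0 ≤ ∑ β, nsq (S.Qm m β u) := Finset.sum_nonneg fun β _ => nsq_nonneg _
  have hn := nsq_nonneg u
  have h4 : 8 * c1 * (m ^ 2 * ∫ x, S.dm m x ^ 2 * ‖u x‖ ^ 2) ≤
      C1 * (m * nsq u) + ∑ β, nsq (S.Qm m β u) := by linarith
  have h5 : C1 * (m * nsq u) + ∑ β, nsq (S.Qm m β u) ≤
      (1 + C1) * (m * nsq u + ∑ β, nsq (S.Qm m β u)) := by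
    have : 0 ≤ m * nsq u := by positivity
    nlinarith
  rw [div_mul_eq_mul_div, le_div_iff₀ (by positivity)]
  linarith

end Vale.Agent.P353.U
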