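import Vale.Agent.P353.U.StmtD

/-! # P353, uniqueness for `N = 2`: decomposition near the cone of commuting configurations -/

open MeasureTheory Filter Topology Finset

namespace Vale.Agent.P353

namespace U

/-- Lagrange identity -/
theorem dec_lagrange (a b : Fin 3 → ℝ) :
    ∑ A, (∑ B, ∑ C, (eps A B C : ℝ) * a B * b C) ^ 2 =
      (∑ A, a A ^ 2) * (∑ A, b A ^ 2) - (∑ A, a A * b A) ^ 2 := by
  have e012 : eps 0 1 2 = 1 := by decide
  have e021 : eps 0 2 1 = -1 := by decide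
  have e102 : eps 1 0 2 = -1 := by decide
  have e120 : eps 1 2 0 = 1 := by decide
  have e201 : eps 2 0 1 = 1 := by decide
  have e210 : eps 2 1 0 = -1 := by decide
  have z1 : ∀ A B, eps A A B = 0 := by decide
  have z2 : ∀ A B, eps A B A = 0 := by decide
  have z3 : ∀ A B, eps B A A = 0 := by decide
  simp only [Fin.sum_univ_three, e012, e021, e102, e120, e201, e210, z1, z2, z3]
  push_cast
  ring

section
variable (X : Fin 9 → Fin 3 → ℝ)

/-- maximiser of the quadratic form on the sphere -/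
theorem dec_max : ∃ n : Fin 3 → ℝ, ∑ A, n A ^ 2 = 1 ∧
    ∀ v : Fin 3 → ℝ, ∑ A, v A ^ 2 = 1 →
      ∑ i, (∑ A, X i A * v A) ^ 2 ≤ ∑ i, (∑ A, X i A * n A) ^ 2 := by
  have hK : IsCompact {v : Fin 3 → ℝ | ∑ A, v A ^ 2 = 1} := by
    refine Metric.isCompact_of_isClosed_isBounded (isClosed_eq (by fun_prop) continuous_const) ?_
    refine (Metric.isBounded_closedBall (x := (0 : Fin 3 → ℝ)) (r := 1)).subset fun v hv => ?_
    rw [mem_closedBall_zero_iff, pi_norm_le_iff_of_nonneg zero_le_one]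
    intro A
    have h1 : v A ^ 2 ≤ 1 := by
      rw [← show ∑ A, v A ^ 2 = 1 from hv]
      exact Finset.single_le_sum (f := fun A => v A ^ 2) (fun i _ => sq_nonneg _) (mem_univ A)
    rw [Real.norm_eq_abs]
    exact abs_le_one_iff_mul_self_le_one.2 (by nlinarith)
  have hne : ({v : Fin 3 → ℝ | ∑ A, v A ^ 2 = 1}).Nonempty := by
    refine ⟨Pi.single 0 1, ?_⟩
    simp [Fin.sum_univ_three]
  obtain ⟨n, hn, hmax⟩ := hK.exists_isMaxOn hne
    (f := fun v : Fin 3 → ℝ => ∑ i, (∑ A, X i A * v A) ^ 2) (by fun_prop)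
  exact ⟨n, hn, fun v hv => hmax hv⟩

/-- homogeneous form of maximality -/
theorem dec_max_hom {n : Fin 3 → ℝ} (hmax : ∀ v : Fin 3 → ℝ, ∑ A, v A ^ 2 = 1 →
      ∑ i, (∑ A, X i A * v A) ^ 2 ≤ ∑ i, (∑ A, X i A * n A) ^ 2) (v : Fin 3 → ℝ) :
    ∑ i, (∑ A, X i A * v A) ^ 2 ≤ (∑ i, (∑ A, X i A * n A) ^ 2) * ∑ A, v A ^ 2 := by
  have hq : 0 ≤ ∑ A, v A ^ 2 := Finset.sum_nonneg fun _ _ => sq_nonneg _
  rcases hq.eq_or_lt with h0 | h0
  · have hv : ∀ A, v A = 0 := by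
      intro A
      have := (Finset.sum_eq_zero_iff_of_nonneg fun i _ => sq_nonneg (v i)).1 h0.symm A (mem_univ A)
      exact pow_eq_zero_iff two_ne_zero |>.1 this
    simp [hv]
  · obtain ⟨s, hs⟩ : ∃ s, s = Real.sqrt (∑ A, v A ^ 2) := ⟨_, rfl⟩
    have hs0 : 0 < s := hs ▸ Real.sqrt_pos.2 h0
    have hs2 : s ^ 2 = ∑ A, v A ^ 2 := by rw [hs, Real.sq_sqrt hq]
    have h1 := hmax (fun A => s⁻¹ * v A) (by
      simp only [mul_pow, ← Finset.mul_sum]
      rw [← hs2, ← mul_pow, inv_mul_cancel₀ hs0.ne', one_pow])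
    have h2 : ∑ i, (∑ A, X i A * (s⁻¹ * v A)) ^ 2 = (s⁻¹) ^ 2 * ∑ i, (∑ A, X i A * v A) ^ 2 := by
      rw [Finset.mul_sum]
      refine Finset.sum_congr rfl fun i _ => ?_
      rw [← mul_pow, Finset.mul_sum]
      congr 1
      exact Finset.sum_congr rfl fun A _ => by ring
    rw [h2] at h1
    rw [← hs2]
    have h3 : (s⁻¹) ^ 2 * s ^ 2 = 1 := by rw [← mul_pow, inv_mul_cancel₀ hs0.ne', one_pow]
    calc ∑ i, (∑ A, X i A * v A) ^ 2 = ((s⁻¹) ^ 2 * ∑ i, (∑ A, X i A * v A) ^ 2) * s ^ 2 := by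
          rw [mul_right_comm, h3, one_mul]
      _ ≤ _ := mul_le_mul_of_nonneg_right h1 (sq_nonneg s)

/-- the maximiser is an eigenvector of the Gram matrix -/
theorem dec_eigen {n : Fin 3 → ℝ} (hn : ∑ A, n A ^ 2 = 1)
    (hmax : ∀ v : Fin 3 → ℝ, ∑ A, v A ^ 2 = 1 →
      ∑ i, (∑ A, X i A * v A) ^ 2 ≤ ∑ i, (∑ A, X i A * n A) ^ 2) (A : Fin 3) :
    ∑ i, (∑ B, X i B * n B) * X i A = (∑ i, (∑ B, X i B * n B) ^ 2) * n A := by
  obtain ⟨y, hy⟩ : ∃ y : Fin 9 → ℝ, y = fun i => ∑ B, X i B * n B := ⟨_, rfl⟩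
  obtain ⟨lam, hlam⟩ : ∃ lam, lam = ∑ i, y i ^ 2 := ⟨_, rfl⟩
  obtain ⟨w, hw⟩ : ∃ w : Fin 3 → ℝ, w = fun A => ∑ i, y i * X i A - lam * n A := ⟨_, rfl⟩
  have hl0 : 0 ≤ lam := hlam ▸ Finset.sum_nonneg fun _ _ => sq_nonneg _
  obtain ⟨t, ht⟩ : ∃ t, t = 1 / (lam + 1) := ⟨_, rfl⟩
  have ht0 : 0 < t := by rw [ht]; positivity
  have htl : t * lam ≤ 1 := by
    rw [ht, one_div, inv_mul_le_iff₀ (by linarith)]
    linarith
  have hmax' : ∀ v : Fin 3 → ℝ, ∑ i, (∑ A, X i A * v A) ^ 2 ≤ lam * ∑ A, v A ^ 2 := by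
    intro v
    have := dec_max_hom X hmax v
    rw [hlam, hy]
    exact this
  have h1 := hmax' (fun A => n A + t * w A)
  obtain ⟨b, hb⟩ : ∃ b : Fin 9 → ℝ, b = fun i => ∑ A, X i A * w A := ⟨_, rfl⟩
  have e1 : ∑ i, (∑ A, X i A * (n A + t * w A)) ^ 2 =
      lam + 2 * t * ∑ i, y i * b i + t ^ 2 * ∑ i, b i ^ 2 := by
    rw [hlam, Finset.mul_sum, Finset.mul_sum, ← Finset.sum_add_distrib, ← Finset.sum_add_distrib]
    refine Finset.sum_congr rfl fun i _ => ?_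
    have : ∑ A, X i A * (n A + t * w A) = y i + t * b i := by
      rw [hy, hb]
      simp only [mul_add, Finset.sum_add_distrib, Finset.mul_sum]
      congr 1
      exact Finset.sum_congr rfl fun A _ => by ring
    rw [this]
    ring
  have e2 : ∑ A, (n A + t * w A) ^ 2 = 1 + 2 * t * ∑ A, n A * w A + t ^ 2 * ∑ A, w A ^ 2 := by
    rw [← hn, Finset.mul_sum, Finset.mul_sum, ← Finset.sum_add_distrib, ← Finset.sum_add_distrib]
    exact Finset.sum_congr rfl fun i _ => by ring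
  have e3 : ∑ i, y i * b i - lam * ∑ A, n A * w A = ∑ A, w A ^ 2 := by
    have h4 : ∑ i, y i * b i = ∑ A, (∑ i, y i * X i A) * w A := by
      rw [hb]
      simp only [Finset.mul_sum, Finset.sum_mul]
      rw [Finset.sum_comm]
      exact Finset.sum_congr rfl fun A _ => Finset.sum_congr rfl fun i _ => by ring
    rw [h4, Finset.mul_sum, ← Finset.sum_sub_distrib]
    refine Finset.sum_congr rfl fun A _ => ?_
    have : w A = ∑ i, y i * X i A - lam * n A := by rw [hw]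
    rw [pow_two]
    nth_rewrite 3 [this]
    ring
  rw [e1, e2] at h1
  have hb0 : 0 ≤ ∑ i, b i ^ 2 := Finset.sum_nonneg fun _ _ => sq_nonneg _
  have hw0 : 0 ≤ ∑ A, w A ^ 2 := Finset.sum_nonneg fun _ _ => sq_nonneg _
  have h5 : 2 * t * (∑ A, w A ^ 2) + t ^ 2 * (∑ i, b i ^ 2) ≤ t ^ 2 * (lam * ∑ A, w A ^ 2) := by
    rw [← e3]
    rw [← e3] at h1
    nlinarith [h1]
  have h6 : t * (2 * ∑ A, w A ^ 2) ≤ t * ((t * lam) * ∑ A, w A ^ 2) := by
    nlinarith [mul_nonneg (sq_nonneg t) hb0]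
  have h7 : 2 * ∑ A, w A ^ 2 ≤ (t * lam) * ∑ A, w A ^ 2 := le_of_mul_le_mul_left h6 ht0
  have h8 : (t * lam) * ∑ A, w A ^ 2 ≤ 1 * ∑ A, w A ^ 2 := mul_le_mul_of_nonneg_right htl hw0
  have h9 : ∑ A, w A ^ 2 = 0 := le_antisymm (by linarith) hw0
  have h10 := (Finset.sum_eq_zero_iff_of_nonneg fun i _ => sq_nonneg (w i)).1 h9 A (mem_univ A)
  have h11 : w A = 0 := pow_eq_zero_iff two_ne_zero |>.1 h10
  have h12 : w A = ∑ i, y i * X i A - lam * n A := by rw [hw]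
  rw [h11] at h12
  rw [hlam, hy] at h12
  linarith

/-- Cauchy–Schwarz for the remainders -/
theorem dec_cs (Z : Fin 9 → Fin 3 → ℝ) : ∑ i, ∑ j, (∑ A, Z i A * Z j A) ^ 2 ≤
    (∑ i, ∑ A, Z i A ^ 2) ^ 2 := by
  rw [pow_two, Finset.sum_mul_sum]
  refine Finset.sum_le_sum fun i _ => Finset.sum_le_sum fun j _ => ?_
  exact Finset.sum_mul_sq_le_sq_mul_sq _ _ _

/-- the algebraic decomposition -/
theorem dec_alg : ∃ (n : Fin 3 → ℝ) (y : Fin 9 → ℝ) (Z : Fin 9 → Fin 3 → ℝ),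
    ∑ A, n A ^ 2 = 1 ∧ (∀ i A, X i A = y i * n A + Z i A) ∧ (∀ i, ∑ A, Z i A * n A = 0) ∧
    (∀ A, ∑ i, y i * Z i A = 0) ∧ ∑ i, ∑ A, X i A ^ 2 ≤ 3 * ∑ i, y i ^ 2 ∧
    2 * (∑ i, y i ^ 2) * (∑ i, ∑ A, Z i A ^ 2) ≤
      ∑ i, ∑ j, ((∑ A, X i A ^ 2) * (∑ A, X j A ^ 2) - (∑ A, X i A * X j A) ^ 2) := by
  obtain ⟨n, hn, hmax⟩ := dec_max X
  obtain ⟨y, hy⟩ : ∃ y : Fin 9 → ℝ, y = fun i => ∑ B, X i B * n B := ⟨_, rfl⟩
  obtain ⟨Z, hZ⟩ : ∃ Z : Fin 9 → Fin 3 → ℝ, Z = fun i A => X i A - y i * n A := ⟨_, rfl⟩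
  have hX : ∀ i A, X i A = y i * n A + Z i A := fun i A => by rw [hZ]; ring
  have hZn : ∀ i, ∑ A, Z i A * n A = 0 := by
    intro i
    have h1 : ∑ A, Z i A * n A = y i - y i * ∑ A, n A ^ 2 := by
      have h2 : y i = ∑ B, X i B * n B := by rw [hy]
      conv_rhs => rw [Finset.mul_sum]; enter [1]; rw [h2]
      rw [← Finset.sum_sub_distrib]
      refine Finset.sum_congr rfl fun A _ => ?_
      rw [hX i A]
      ring
    rw [h1, hn]
    ring
  have hyZ : ∀ A, ∑ i, y i * Z i A = 0 := by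
    intro A
    have h1 := dec_eigen X hn hmax A
    have h2 : ∑ i, y i * Z i A = ∑ i, y i * X i A - (∑ i, y i ^ 2) * n A := by
      rw [Finset.sum_mul, ← Finset.sum_sub_distrib]
      refine Finset.sum_congr rfl fun i _ => ?_
      rw [hX i A]
      ring
    rw [h2, hy]
    linarith
  have hlam : ∑ i, (∑ A, X i A * n A) ^ 2 = ∑ i, y i ^ 2 := by rw [hy]
  refine ⟨n, y, Z, hn, hX, hZn, hyZ, ?_, ?_⟩
  · have h1 : ∀ A : Fin 3, ∑ i, X i A ^ 2 ≤ ∑ i, y i ^ 2 := by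
      intro A
      have h2 := hmax (Pi.single A 1) (by simp [Pi.single_apply])
      rw [hlam] at h2
      simpa [Pi.single_apply] using h2
    rw [Finset.sum_comm]
    have h3 := Finset.sum_le_sum fun (A : Fin 3) (_ : A ∈ univ) => h1 A
    refine h3.trans (le_of_eq ?_)
    simp
  · have e1 : ∀ i, ∑ A, X i A ^ 2 = y i ^ 2 + ∑ A, Z i A ^ 2 := by
      intro i
      have h1 : ∑ A, X i A ^ 2 = y i ^ 2 * ∑ A, n A ^ 2 + 2 * y i * ∑ A, Z i A * n A +
          ∑ A, Z i A ^ 2 := by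
        rw [Finset.mul_sum, Finset.mul_sum, ← Finset.sum_add_distrib, ← Finset.sum_add_distrib]
        exact Finset.sum_congr rfl fun A _ => by rw [hX i A]; ring
      rw [h1, hn, hZn]
      ring
    have e2 : ∀ i j, ∑ A, X i A * X j A = y i * y j + ∑ A, Z i A * Z j A := by
      intro i j
      have h1 : ∑ A, X i A * X j A = y i * y j * ∑ A, n A ^ 2 + y i * ∑ A, Z j A * n A +
          y j * ∑ A, Z i A * n A + ∑ A, Z i A * Z j A := by
        rw [Finset.mul_sum, Finset.mul_sum, Finset.mul_sum, ← Finset.sum_add_distrib,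
          ← Finset.sum_add_distrib, ← Finset.sum_add_distrib]
        exact Finset.sum_congr rfl fun A _ => by rw [hX i A, hX j A]; ring
      rw [h1, hn, hZn, hZn]
      ring
    have e3 : ∑ i, ∑ j, y i * y j * ∑ A, Z i A * Z j A = 0 := by
      have h1 : ∑ i, ∑ j, y i * y j * ∑ A, Z i A * Z j A =
          ∑ A, (∑ i, y i * Z i A) * (∑ j, y j * Z j A) := by
        calc ∑ i, ∑ j, y i * y j * ∑ A, Z i A * Z j A
            = ∑ i, ∑ j, ∑ A, (y i * Z i A) * (y j * Z j A) := by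
              refine Finset.sum_congr rfl fun i _ => Finset.sum_congr rfl fun j _ => ?_
              rw [Finset.mul_sum]
              exact Finset.sum_congr rfl fun A _ => by ring
          _ = ∑ i, ∑ A, ∑ j, (y i * Z i A) * (y j * Z j A) :=
              Finset.sum_congr rfl fun i _ => Finset.sum_comm
          _ = ∑ A, ∑ i, ∑ j, (y i * Z i A) * (y j * Z j A) := Finset.sum_comm
          _ = ∑ A, (∑ i, y i * Z i A) * (∑ j, y j * Z j A) :=
              Finset.sum_congr rfl fun A _ => (Finset.sum_mul_sum _ _ _ _).symm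
      rw [h1]
      simp [hyZ]
    have e4 : ∑ i, ∑ j, ((∑ A, X i A ^ 2) * (∑ A, X j A ^ 2) - (∑ A, X i A * X j A) ^ 2) =
        2 * (∑ i, y i ^ 2) * (∑ i, ∑ A, Z i A ^ 2) + ((∑ i, ∑ A, Z i A ^ 2) ^ 2 -
          ∑ i, ∑ j, (∑ A, Z i A * Z j A) ^ 2) := by
      have h1 : ∀ i j, (∑ A, X i A ^ 2) * (∑ A, X j A ^ 2) - (∑ A, X i A * X j A) ^ 2 =
          y i ^ 2 * (∑ A, Z j A ^ 2) + (∑ A, Z i A ^ 2) * y j ^ 2 +
            (∑ A, Z i A ^ 2) * (∑ A, Z j A ^ 2) - 2 * (y i * y j * ∑ A, Z i A * Z j A) -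
            (∑ A, Z i A * Z j A) ^ 2 := by
        intro i j
        rw [e1, e1, e2]
        ring
      simp only [h1, Finset.sum_sub_distrib, Finset.sum_add_distrib, ← Finset.mul_sum,
        ← Finset.sum_mul, e3]
      ring
    rw [e4]
    have := dec_cs Z
    linarith

end

theorem dec {F : Type*} [NormedAddCommGroup F] [InnerProductSpace ℂ F] (S : Setup F) :
    DecStmt S := by
  intro x hx
  obtain ⟨n, y, Z, hn, hX, hZn, hyZ, h1, h2⟩ := dec_alg fun i A => x (i, A)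
  have hxn : ‖x‖ ^ 2 = ∑ i, ∑ A, x (i, A) ^ 2 := by
    rw [EuclideanSpace.norm_sq_eq, Fintype.sum_prod_type]
    simp
  refine ⟨n, y, WithLp.toLp 2 fun p => Z p.1 p.2, hn, ?_, hZn, hyZ, ?_, ?_⟩
  · ext p
    exact hX p.1 p.2
  · rw [hxn]
    unfold ry
    rw [Real.sq_sqrt (Finset.sum_nonneg fun _ _ => sq_nonneg _)]
    exact h1
  · have hzn : ‖(WithLp.toLp 2 fun p => Z p.1 p.2 : X3)‖ ^ 2 = ∑ i, ∑ A, Z i A ^ 2 := by
      rw [EuclideanSpace.norm_sq_eq, Fintype.sum_prod_type]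
      simp
    have hV : S.V x = S.κ ^ 2 / 4 * ∑ i, ∑ j, ((∑ A, x (i, A) ^ 2) * (∑ A, x (j, A) ^ 2) -
        (∑ A, x (i, A) * x (j, A)) ^ 2) := by
      unfold Setup.V Setup.FF
      have e : ∀ i j, ∑ A, (S.κ * ∑ B, ∑ C, (eps A B C : ℝ) * x (i, B) * x (j, C)) ^ 2 =
          S.κ ^ 2 * ((∑ A, x (i, A) ^ 2) * (∑ A, x (j, A) ^ 2) -
            (∑ A, x (i, A) * x (j, A)) ^ 2) := by
        intro i j
        rw [← dec_lagrange (fun A => x (i, A)) (fun A => x (j, A)), Finset.mul_sum]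
        exact Finset.sum_congr rfl fun A _ => by rw [mul_pow]
      calc (1 / 4 : ℝ) * ∑ A, ∑ i, ∑ j, (S.κ * ∑ B, ∑ C, (eps A B C : ℝ) * x (i, B) *
            x (j, C)) ^ 2 = (1 / 4 : ℝ) * ∑ i, ∑ j, ∑ A, (S.κ * ∑ B, ∑ C, (eps A B C : ℝ) *
              x (i, B) * x (j, C)) ^ 2 := by
            congr 1
            rw [Finset.sum_comm]
            exact Finset.sum_congr rfl fun i _ => Finset.sum_comm
        _ = _ := by
            simp only [e, ← Finset.mul_sum]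
            ring
    rw [hzn, hxn, hV]
    have hk : 0 ≤ S.κ ^ 2 := sq_nonneg _
    have hz0 : 0 ≤ ∑ i, ∑ A, Z i A ^ 2 :=
      Finset.sum_nonneg fun _ _ => Finset.sum_nonneg fun _ _ => sq_nonneg _
    have h3 := mul_le_mul_of_nonneg_left h2 hk
    have h4 := mul_le_mul_of_nonneg_left (mul_le_mul_of_nonneg_left h1 hz0) hk
    linarith

end U

end Vale.Agent.P353
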