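import Vale.Agent.P353.LimL2

/-! # Mollification on `X3` -/

open MeasureTheory Filter Topology
open scoped ContDiff

namespace Vale.Agent.P353.EsaMoll

section moll

variable {E : Type*} [NormedAddCommGroup E] [NormedSpace ℝ E]

/-- the convolution `(ρ * f)(x) = ∫ ρ(x - t) f(t) dt` -/
noncomputable def mo (ρ : X3 → ℝ) (f : X3 → E) (x : X3) : E := ∫ t, ρ (x - t) • f t

lemma mo_eq (ρ : X3 → ℝ) (f : X3 → E) :
    mo ρ f = MeasureTheory.convolution f ρ (ContinuousLinearMap.lsmul ℝ ℝ).flip volume := rfl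

lemma mo_int {ρ : X3 → ℝ} (hρ : Continuous ρ) (hc : HasCompactSupport ρ) {f : X3 → E}
    (hf : LocallyIntegrable f (volume : Measure X3)) (x : X3) :
    Integrable (fun t => ρ (x - t) • f t) :=
  hc.convolutionExists_right (ContinuousLinearMap.lsmul ℝ ℝ).flip hf hρ x

lemma contDiff_mo [CompleteSpace E] {ρ : X3 → ℝ} (hρ : ContDiff ℝ ∞ ρ) (hc : HasCompactSupport ρ) {f : X3 → E}
    (hf : LocallyIntegrable f (volume : Measure X3)) : ContDiff ℝ ∞ (mo ρ f) :=
  hc.contDiff_convolution_right (ContinuousLinearMap.lsmul ℝ ℝ).flip hf hρ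

lemma fderiv_mo [CompleteSpace E] {ρ : X3 → ℝ} (hρ : ContDiff ℝ ∞ ρ) (hc : HasCompactSupport ρ) {f : X3 → E}
    (hf : LocallyIntegrable f (volume : Measure X3)) (x e : X3) :
    fderiv ℝ (mo ρ f) x e = mo (fun y => fderiv ℝ ρ y e) f x := by
  have h1 : ContDiff ℝ 1 ρ := hρ.of_le (by simp)
  have h := hc.hasFDerivAt_convolution_right (ContinuousLinearMap.lsmul ℝ ℝ).flip hf h1 x
  rw [mo_eq, h.fderiv, convolution_precompR_apply _ hf (hc.fderiv ℝ) (h1.continuous_fderiv (by simp))]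
  rfl

/-- pointwise Jensen inequality -/
lemma mo_sq_le {ρ : X3 → ℝ} (hρ : Continuous ρ) (hc : HasCompactSupport ρ) (h0 : ∀ x, 0 ≤ ρ x)
    (h1 : ∫ x, ρ x = 1) {g : X3 → ℝ} (hg : MemLp g 2 (volume : Measure X3)) (x : X3) :
    mo ρ g x ^ 2 ≤ mo ρ (fun t => g t ^ 2) x := by
  have hg1 : LocallyIntegrable g (volume : Measure X3) := hg.locallyIntegrable (by norm_num)
  have hg2 : Integrable (fun t => g t ^ 2) := hg.integrable_sq
  have i0 : Integrable (fun t => ρ (x - t)) :=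
    (hρ.integrable_of_hasCompactSupport hc).comp_sub_left x
  have i1 : Integrable (fun t => ρ (x - t) * g t) := mo_int hρ hc hg1 x
  have i2 : Integrable (fun t => ρ (x - t) * g t ^ 2) := mo_int hρ hc hg2.locallyIntegrable x
  set c := mo ρ g x with hcdef
  have e1 : ∫ t, ρ (x - t) * g t = c := rfl
  have e2 : ∫ t, ρ (x - t) * g t ^ 2 = mo ρ (fun t => g t ^ 2) x := rfl
  have e0 : ∫ t, ρ (x - t) = 1 := by rw [integral_sub_left_eq_self (μ := volume) ρ x, h1]
  have hpos : 0 ≤ ∫ t, ρ (x - t) * (g t - c) ^ 2 :=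
    integral_nonneg fun t => mul_nonneg (h0 _) (sq_nonneg _)
  have hexp : ∫ t, ρ (x - t) * (g t - c) ^ 2 =
      (∫ t, ρ (x - t) * g t ^ 2) - 2 * c * (∫ t, ρ (x - t) * g t) + c ^ 2 * ∫ t, ρ (x - t) := by
    have i3 : Integrable (fun t => ρ (x - t) * g t ^ 2 - 2 * c * (ρ (x - t) * g t)) :=
      i2.sub (i1.const_mul _)
    rw [← integral_const_mul, ← integral_const_mul, ← integral_sub i2 (i1.const_mul _),
      ← integral_add i3 (i0.const_mul _)]
    refine integral_congr_ae (Filter.Eventually.of_forall fun t => ?_)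
    simp only
    ring
  rw [hexp, e0, e1, e2] at hpos
  nlinarith

lemma integral_mo {ρ : X3 → ℝ} (hρ : Continuous ρ) (hc : HasCompactSupport ρ)
    {g : X3 → ℝ} (hg : Integrable g (volume : Measure X3)) :
    Integrable (mo ρ g) ∧ ∫ x, mo ρ g x = (∫ x, ρ x) * ∫ x, g x := by
  have hi := hρ.integrable_of_hasCompactSupport hc (μ := (volume : Measure X3))
  constructor
  · exact hg.integrable_convolution (ContinuousLinearMap.lsmul ℝ ℝ).flip hi
  · have := integral_convolution (ContinuousLinearMap.lsmul ℝ ℝ).flip hg hi (μ := (volume : Measure X3))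
      (ν := (volume : Measure X3))
    rw [mo_eq, this]
    simp

/-- `‖ρ * g‖ ≤ ‖g‖` in `L²` (real valued functions) -/
lemma mo_L2 {ρ : X3 → ℝ} (hρ : ContDiff ℝ ∞ ρ) (hc : HasCompactSupport ρ) (h0 : ∀ x, 0 ≤ ρ x)
    (h1 : ∫ x, ρ x = 1) {g : X3 → ℝ} (hg : MemLp g 2 (volume : Measure X3)) :
    Integrable (fun x => mo ρ g x ^ 2) ∧ ∫ x, mo ρ g x ^ 2 ≤ ∫ x, g x ^ 2 := by
  have hg1 : LocallyIntegrable g (volume : Measure X3) := hg.locallyIntegrable (by norm_num)
  obtain ⟨j1, j2⟩ := integral_mo hρ.continuous hc hg.integrable_sq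
  have i1 : Integrable (fun x => mo ρ g x ^ 2) := by
    refine j1.mono' ((contDiff_mo hρ hc hg1).continuous.pow 2).aestronglyMeasurable
      (Filter.Eventually.of_forall fun x => ?_)
    rw [Real.norm_of_nonneg (sq_nonneg _)]
    exact mo_sq_le hρ.continuous hc h0 h1 hg x
  refine ⟨i1, ?_⟩
  refine (integral_mono i1 j1 fun x => mo_sq_le hρ.continuous hc h0 h1 hg x).trans ?_
  rw [j2, h1, one_mul]

lemma norm_mo_le {ρ : X3 → ℝ} (h0 : ∀ x, 0 ≤ ρ x) (f : X3 → E) (x : X3) :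
    ‖mo ρ f x‖ ≤ mo ρ (fun t => ‖f t‖) x := by
  refine (norm_integral_le_integral_norm _).trans (le_of_eq ?_)
  refine integral_congr_ae (Filter.Eventually.of_forall fun t => ?_)
  simp only [norm_smul, smul_eq_mul, Real.norm_of_nonneg (h0 _)]

lemma mo_norm_nonneg {ρ : X3 → ℝ} (h0 : ∀ x, 0 ≤ ρ x) (f : X3 → E) (x : X3) :
    0 ≤ mo ρ (fun t => ‖f t‖) x := (norm_nonneg _).trans (norm_mo_le h0 f x)

/-- `‖ρ * f‖ ≤ ‖f‖` in `L²` -/
lemma mo_L2' [CompleteSpace E] {ρ : X3 → ℝ} (hρ : ContDiff ℝ ∞ ρ) (hc : HasCompactSupport ρ) (h0 : ∀ x, 0 ≤ ρ x)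
    (h1 : ∫ x, ρ x = 1) {f : X3 → E} (hf : MemLp f 2 (volume : Measure X3)) :
    MemLp (mo ρ f) 2 (volume : Measure X3) ∧ ∫ x, ‖mo ρ f x‖ ^ 2 ≤ ∫ x, ‖f x‖ ^ 2 := by
  have hf1 : LocallyIntegrable f (volume : Measure X3) := hf.locallyIntegrable (by norm_num)
  obtain ⟨j1, j2⟩ := mo_L2 hρ hc h0 h1 hf.norm
  have hm : AEStronglyMeasurable (mo ρ f) (volume : Measure X3) :=
    (contDiff_mo hρ hc hf1).continuous.aestronglyMeasurable
  have hb : ∀ x, ‖mo ρ f x‖ ^ 2 ≤ mo ρ (fun t => ‖f t‖) x ^ 2 := fun x =>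
    pow_le_pow_left₀ (norm_nonneg _) (norm_mo_le h0 f x) 2
  have i1 : Integrable (fun x => ‖mo ρ f x‖ ^ 2) := by
    refine j1.mono' (hm.norm.pow 2) (Filter.Eventually.of_forall fun x => ?_)
    rw [Real.norm_of_nonneg (sq_nonneg _)]
    exact hb x
  exact ⟨(memLp_two_iff_integrable_sq_norm hm).mpr i1, (integral_mono i1 j1 hb).trans j2⟩

/-! a standard sequence of mollifiers -/

/-- mollifier supported in the ball of radius `2/(n+1)` -/
noncomputable def bmp (n : ℕ) : ContDiffBump (0 : X3) :=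
  ⟨1 / ((n : ℝ) + 1), 2 / ((n : ℝ) + 1), by positivity, by gcongr; norm_num⟩

/-- the mollifier -/
noncomputable def mol (n : ℕ) : X3 → ℝ := (bmp n).normed volume

lemma mol_smooth (n : ℕ) : ContDiff ℝ ∞ (mol n) := (bmp n).contDiff_normed

lemma mol_cs (n : ℕ) : HasCompactSupport (mol n) := (bmp n).hasCompactSupport_normed

lemma mol_nonneg (n : ℕ) (x : X3) : 0 ≤ mol n x := (bmp n).nonneg_normed x

lemma mol_integral (n : ℕ) : ∫ x, mol n x = 1 := (bmp n).integral_normed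

lemma mol_zero {n : ℕ} {x : X3} (hx : 2 / ((n : ℝ) + 1) ≤ ‖x‖) : mol n x = 0 := by
  have h : x ∉ Function.support (mol n) := by
    rw [mol, ContDiffBump.support_normed_eq, Metric.mem_ball, dist_zero_right, not_lt]
    exact hx
  simpa using h

lemma mo_tendsto [CompleteSpace E] {f : X3 → E} (hf : LocallyIntegrable f (volume : Measure X3)) :
    ∀ᵐ x, Tendsto (fun n => mo (mol n) f x) atTop (𝓝 (f x)) := by
  have h1 : Tendsto (fun n => (bmp n).rOut) atTop (𝓝 0) := by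
    have := (tendsto_one_div_add_atTop_nhds_zero_nat (𝕜 := ℝ)).const_mul 2
    rw [mul_zero] at this
    refine this.congr fun n => ?_
    show 2 * (1 / ((n : ℝ) + 1)) = 2 / ((n : ℝ) + 1)
    ring
  have h2 : ∀ᶠ n in atTop, (bmp n).rOut ≤ 2 * (bmp n).rIn := by
    refine Filter.Eventually.of_forall fun n => ?_
    show 2 / ((n : ℝ) + 1) ≤ 2 * (1 / ((n : ℝ) + 1))
    rw [mul_one_div]
  have h3 := ContDiffBump.ae_convolution_tendsto_right_of_locallyIntegrable (μ := (volume : Measure X3))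
    h1 h2 hf
  filter_upwards [h3] with x hx
  refine hx.congr fun n => ?_
  rw [mo_eq, convolution_flip]
  rfl

/-- Fatou -/
lemma fatou_le {f : ℕ → X3 → ℝ} {g : X3 → ℝ} {M : ℝ} (hf : ∀ n, Integrable (f n))
    (h0 : ∀ n x, 0 ≤ f n x) (hM : ∀ᶠ n in atTop, ∫ x, f n x ≤ M)
    (hg : ∀ᵐ x, Tendsto (fun n => f n x) atTop (𝓝 (g x))) : ∫ x, g x ≤ M := by
  have hM0 : 0 ≤ M := by
    obtain ⟨n, hn⟩ := hM.exists
    exact (integral_nonneg (h0 n)).trans hn
  have hg0 : 0 ≤ᵐ[volume] g := by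
    filter_upwards [hg] with x hx
    exact ge_of_tendsto' hx fun n => h0 n x
  have hgm : AEStronglyMeasurable g (volume : Measure X3) :=
    aestronglyMeasurable_of_tendsto_ae _ (fun n => (hf n).aestronglyMeasurable) hg
  rw [integral_eq_lintegral_of_nonneg_ae hg0 hgm]
  refine ENNReal.toReal_le_of_le_ofReal hM0 ?_
  have h1 : ∫⁻ x, ENNReal.ofReal (g x) = ∫⁻ x, liminf (fun n => ENNReal.ofReal (f n x)) atTop := by
    refine lintegral_congr_ae ?_
    filter_upwards [hg] with x hx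
    exact ((ENNReal.continuous_ofReal.tendsto _).comp hx).liminf_eq.symm
  rw [h1]
  refine (lintegral_liminf_le' fun n => (hf n).aestronglyMeasurable.aemeasurable.ennreal_ofReal).trans ?_
  have h2 : ∀ᶠ n in atTop, ∫⁻ x, ENNReal.ofReal (f n x) ≤ ENNReal.ofReal M := by
    filter_upwards [hM] with n hn
    rw [← ofReal_integral_eq_lintegral_ofReal (hf n) (Filter.Eventually.of_forall (h0 n))]
    exact ENNReal.ofReal_le_ofReal hn
  refine (Filter.liminf_le_limsup ?_ ?_).trans (Filter.limsup_le_of_le ?_ h2)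
  all_goals isBoundedDefault

end moll

end Vale.Agent.P353.EsaMoll
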