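import Vale.Agent.P353.U.StmtA
import Vale.Agent.P353.U.StmtB
import Vale.Agent.P353.U.EsaMoll

/-! # P353, uniqueness for `N = 2`: essential self-adjointness of `1 + ∑ Q_β²` (statement B2)

Proof: mollify the weak solution and use the localisation identity
`∑‖Q_β(χv)‖² = Re⟨χ²v, ∑Q_β²v⟩ + ∑‖(γθ∇χ)_βv‖²`. -/

open MeasureTheory Filter Topology
open scoped ContDiff

namespace Vale.Agent.P353

open EsaMoll

variable {F : Type*} [NormedAddCommGroup F] [InnerProductSpace ℂ F]

lemma pd_mo [CompleteSpace F] {ρ : X3 → ℝ} (hρ : ContDiff ℝ ∞ ρ) (hc : HasCompactSupport ρ)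
    {f : X3 → F} (hf : LocallyIntegrable f (volume : Measure X3)) (i : Fin 9) (A : Fin 3) :
    pd i A (mo ρ f) = mo (pdr i A ρ) f := by
  ext x
  exact fderiv_mo hρ hc hf x _

lemma esa_pdr_smooth {φ : X3 → ℝ} (hφ : ContDiff ℝ ∞ φ) (j : Fin 9) (B : Fin 3) :
    ContDiff ℝ ∞ (pdr j B φ) := by
  unfold pdr
  exact (hφ.fderiv_right (m := ∞) (by simp)).clm_apply contDiff_const

lemma esa_pdr_cs {φ : X3 → ℝ} (hφ : HasCompactSupport φ) (j : Fin 9) (B : Fin 3) :
    HasCompactSupport (pdr j B φ) := hφ.fderiv_apply (𝕜 := ℝ) _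

lemma esa_shift {φ : X3 → ℝ} (hφ : Differentiable ℝ φ) (x : X3) (w : F) (i : Fin 9) (A : Fin 3) :
    pd i A (fun t => ((φ (x - t) : ℝ) : ℂ) • w) =
      fun t => -(((pdr i A φ (x - t) : ℝ) : ℂ) • w) := by
  ext t
  have h1 : HasFDerivAt (fun t : X3 => x - t) (-ContinuousLinearMap.id ℝ X3) t := by
    simpa using (hasFDerivAt_id t).const_sub x
  have h2 : HasFDerivAt (fun t : X3 => φ (x - t)) _ t := (hφ (x - t)).hasFDerivAt.comp t h1
  rw [pd_rsmul h2.differentiableAt (differentiableAt_const w), h2.fderiv]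
  simp [pd, pdr]

namespace Setup

variable (S : Setup F)

lemma esa_gGam_real (i : Fin 9) (α β : Fin 16) : ((S.g i * S.Gam) α β).im = 0 :=
  mul_im_zero (S.g_im i) S.Gam_real α β

lemma esa_MM_symm (β : Fin 16) (x : X3) (v w : F) :
    inner ℂ (S.MM β x v) w = inner ℂ v (S.MM β x w) := by
  simp only [MM, _root_.sum_apply, _root_.smul_apply, sum_inner,
    inner_sum, inner_smul_left, inner_smul_right, S.vec_symm _ (S.esa_gGam_real _),
    Complex.conj_ofReal]

lemma esa_contDiff_MM (β : Fin 16) : ContDiff ℝ ∞ (S.MM β) := by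
  unfold MM
  refine ContDiff.sum fun i _ => ContDiff.sum fun A _ => ?_
  exact (contDiff_ofReal (contDiff_const.mul (contDiff_coord _))).smul contDiff_const

lemma esa_contDiff_Qm (m : ℝ) (β : Fin 16) {u : X3 → F} (hu : ContDiff ℝ ∞ u) :
    ContDiff ℝ ∞ (S.Qm m β u) := by
  unfold Qm
  exact (S.contDiff_Q β hu).add (contDiff_const.smul (contDiff_clm_apply' (S.esa_contDiff_MM β) hu))

lemma esa_Tst_Qm {u : X3 → F} (hu : Tst u) (m : ℝ) (β : Fin 16) : Tst (S.Qm m β u) := by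
  have h1 : Tst (fun x => ((m : ℂ) • S.MM β x) (u x)) :=
    Tst.clm (T := fun x => (m : ℂ) • S.MM β x) ((S.esa_contDiff_MM β).const_smul (m : ℂ)) hu
  exact (hu.Q S β).add h1

theorem esa_Qm_symm (m : ℝ) (β : Fin 16) (u v : X3 → F) (hu : Tst u) (hv : ContDiff ℝ ∞ v) :
    ∫ x, inner ℂ (S.Qm m β u x) (v x) = ∫ x, inner ℂ (u x) (S.Qm m β v x) := by
  have h1 : Tst (fun x => ((m : ℂ) • S.MM β x) (u x)) :=
    Tst.clm (T := fun x => (m : ℂ) • S.MM β x) ((S.esa_contDiff_MM β).const_smul (m : ℂ)) hu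
  have h2 : ContDiff ℝ ∞ (fun x => ((m : ℂ) • S.MM β x) (v x)) :=
    contDiff_clm_apply' (T := fun x => (m : ℂ) • S.MM β x)
      ((S.esa_contDiff_MM β).const_smul (m : ℂ)) hv
  have e1 : ∀ x, inner ℂ (S.Qm m β u x) (v x) = inner ℂ (S.Q β u x) (v x) +
      inner ℂ (((m : ℂ) • S.MM β x) (u x)) (v x) := fun x => by
    rw [Qm, inner_add_left]; rfl
  have e2 : ∀ x, inner ℂ (u x) (S.Qm m β v x) = inner ℂ (u x) (S.Q β v x) +
      inner ℂ (u x) (((m : ℂ) • S.MM β x) (v x)) := fun x => by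
    rw [Qm, inner_add_right]; rfl
  simp only [e1, e2]
  rw [integral_add ((hu.Q S β).inner_int hv.continuous) (h1.inner_int hv.continuous),
    integral_add (hu.inner_int (S.contDiff_Q β hv).continuous) (hu.inner_int h2.continuous),
    Q_symm S β u v hu hv]
  congr 1
  refine integral_congr_ae (Filter.Eventually.of_forall fun x => ?_)
  simp only [_root_.smul_apply, inner_smul_left, inner_smul_right, S.esa_MM_symm,
    Complex.conj_ofReal]

/-- the symbol `i (γθ∇χ)_β` -/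
noncomputable def esaD (χ : X3 → ℝ) (β : Fin 16) (x : X3) : F →L[ℂ] F :=
  Complex.I • ∑ i, ∑ A, ((pdr i A χ x : ℝ) : ℂ) • S.vec (S.g i) A β

lemma esa_Qm_smul (m : ℝ) (β : Fin 16) (φ : X3 → ℝ) (u : X3 → F) (x : X3)
    (hφ : DifferentiableAt ℝ φ x) (hu : DifferentiableAt ℝ u x) :
    S.Qm m β (fun y => ((φ y : ℝ) : ℂ) • u y) x = ((φ x : ℝ) : ℂ) • S.Qm m β u x -
      S.esaD φ β x (u x) := by
  rw [Qm, Q_smul S β φ u x hφ hu, Qm, esaD, map_smul, smul_add, smul_comm (m : ℂ)]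
  simp only [_root_.smul_apply, _root_.sum_apply]
  abel

lemma esa_contDiff_D {χ : X3 → ℝ} (hχ : ContDiff ℝ ∞ χ) (β : Fin 16) :
    ContDiff ℝ ∞ (S.esaD χ β) := by
  unfold esaD
  refine ContDiff.const_smul Complex.I (ContDiff.sum fun i _ => ContDiff.sum fun A _ => ?_)
  exact (contDiff_ofReal (esa_pdr_smooth hχ i A)).smul contDiff_const

/-- the constants `∑ ‖(γ^iθ^A)_β‖` -/
noncomputable def esaC (β : Fin 16) : ℝ := ∑ i, ∑ A, ‖S.vec (S.g i) A β‖

lemma esa_D_norm {χ : X3 → ℝ} {K R : ℝ} (hK : 0 ≤ K) (hR : 0 < R) (hχ : IsCut K R χ) (β : Fin 16)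
    (x : X3) : ‖S.esaD χ β x‖ ≤ K / R * S.esaC β := by
  have hp : ∀ i A, |pdr i A χ x| ≤ K / R := by
    intro i A
    rcases lt_or_ge ‖x‖ R with h | h
    · rw [hχ.2.2.2.2.2.2.2 i A x h, abs_zero]
      positivity
    · rw [le_div_iff₀ hR]
      exact (mul_le_mul_of_nonneg_left h (abs_nonneg _)).trans (hχ.2.2.2.2.2.2.1 i A x)
  unfold esaD esaC
  rw [norm_smul, Complex.norm_I, one_mul]
  refine (norm_sum_le _ _).trans ?_
  rw [Finset.mul_sum]
  refine Finset.sum_le_sum fun i _ => ?_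
  refine (norm_sum_le _ _).trans ?_
  rw [Finset.mul_sum]
  refine Finset.sum_le_sum fun A _ => ?_
  rw [norm_smul, Complex.norm_real, Real.norm_eq_abs]
  exact mul_le_mul_of_nonneg_right (hp i A) (norm_nonneg _)

lemma esa_FG_symm (v w : F) : inner ℂ (S.FG v) w = inner ℂ v (S.FG w) := by
  simp only [FG, _root_.smul_apply, inner_smul_left, inner_smul_right,
    S.tot_adj _ S.Gam_real, S.Gam_transpose, S.tot_neg, _root_.neg_apply, inner_neg_right,
    Complex.conj_I]
  ring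

lemma esa_Fx_symm (x : X3) (v w : F) : inner ℂ (S.Fx x v) w = inner ℂ v (S.Fx x w) := by
  have he : ∀ A B C : Fin 3, eps B A C = - eps A B C := by decide
  have hc : ∀ A B C : Fin 3, (starRingEnd ℂ) ((eps A B C : ℤ) : ℂ) = ((eps A B C : ℤ) : ℂ) := by
    intro A B C; simp
  simp only [Fx, _root_.smul_apply, _root_.sum_apply, inner_smul_left, inner_smul_right,
    sum_inner, inner_sum, S.bil_adj _ (S.g_im _), S.g_symm, map_mul, hc, Complex.conj_ofReal]
  have : (starRingEnd ℂ) (Complex.I / 2) = -(Complex.I / 2) := by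
    have h2 : (starRingEnd ℂ) 2 = 2 := by norm_num [Complex.ext_iff]
    rw [map_div₀, h2, Complex.conj_I]; ring
  rw [this, neg_mul, neg_mul, ← mul_neg]
  congr 1
  rw [← Finset.sum_neg_distrib]
  refine Finset.sum_congr rfl fun q _ => ?_
  rw [Finset.sum_comm, ← Finset.sum_neg_distrib]
  refine Finset.sum_congr rfl fun A _ => ?_
  rw [← Finset.sum_neg_distrib]
  refine Finset.sum_congr rfl fun B _ => ?_
  rw [← Finset.sum_neg_distrib]
  refine Finset.sum_congr rfl fun C _ => ?_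
  rw [he A B C]; push_cast; ring

/-- total potential of `1 + ∑ Q_β²` -/
noncomputable def esaW (m : ℝ) (x : X3) : F →L[ℂ] F :=
  ((1 + 16 * S.Vm m x : ℝ) : ℂ) • (1 : F →L[ℂ] F) + (16 : ℂ) • S.Fx x - ((12 * m : ℝ) : ℂ) • S.FG

lemma esa_W_symm (m : ℝ) (x : X3) (v w : F) :
    inner ℂ (S.esaW m x v) w = inner ℂ v (S.esaW m x w) := by
  have h16 : (starRingEnd ℂ) 16 = 16 := by norm_num [Complex.ext_iff]
  simp only [esaW, _root_.smul_apply, _root_.add_apply, _root_.sub_apply, inner_add_left,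
    inner_add_right, inner_sub_left, inner_sub_right, inner_smul_left, inner_smul_right,
    S.esa_Fx_symm, S.esa_FG_symm, Complex.conj_ofReal, h16, one_apply_eq_self]

lemma esa_contDiff_Vm (m : ℝ) : ContDiff ℝ ∞ (S.Vm m) := by
  have h1 : ContDiff ℝ ∞ det3 := by
    unfold det3
    refine ContDiff.sum fun A _ => ContDiff.sum fun B _ => ContDiff.sum fun C _ => ?_
    exact ((contDiff_const.mul (contDiff_coord _)).mul (contDiff_coord _)).mul (contDiff_coord _)
  have h2 : ContDiff ℝ ∞ (fun x : X3 => ∑ i, ∑ A, (aw i * x (i, A)) ^ 2) :=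
    ContDiff.sum fun i _ => ContDiff.sum fun A _ => (contDiff_const.mul (contDiff_coord _)).pow 2
  unfold Vm
  exact ((contDiff_V S).add (contDiff_const.mul h1)).add (contDiff_const.mul h2)

lemma esa_W_continuous (m : ℝ) : Continuous (S.esaW m) := by
  unfold esaW
  have h1 : Continuous (fun x => ((1 + 16 * S.Vm m x : ℝ) : ℂ)) :=
    Complex.continuous_ofReal.comp (continuous_const.add
      (continuous_const.mul (S.esa_contDiff_Vm m).continuous))
  exact ((h1.smul continuous_const).add ((contDiff_Fx S).continuous.const_smul (16 : ℂ))).sub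
    continuous_const

lemma esa_L_eq (h7 : U.A7Stmt S) (m : ℝ) {u : X3 → F} (hu : ContDiff ℝ ∞ u) (x : X3) :
    u x + ∑ β, S.Qm m β (S.Qm m β u) x =
      S.esaW m x (u x) - (8 : ℂ) • ∑ i, ∑ A, pd i A (pd i A u) x := by
  rw [h7 m u hu x, Hm, esaW]
  simp only [_root_.smul_apply, _root_.add_apply, _root_.sub_apply, one_apply_eq_self,
    smul_sub, smul_add, smul_smul]
  push_cast
  module

lemma esa_conj_eight : (starRingEnd ℂ) (8 : ℂ) = 8 := by norm_num [Complex.ext_iff]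

/-- shifted test functions -/
lemma esa_Tst_shift {ρ : X3 → ℝ} (hρ : ContDiff ℝ ∞ ρ) (hc : HasCompactSupport ρ) (x : X3) (w : F) :
    Tst (fun t => ((ρ (x - t) : ℝ) : ℂ) • w) := by
  refine ⟨(contDiff_ofReal (hρ.comp (contDiff_const.sub contDiff_id))).smul contDiff_const, ?_⟩
  have h1 : HasCompactSupport (fun t => ρ (x - t)) := hc.comp_homeomorph (Homeomorph.subLeft x)
  refine h1.mono ?_
  intro t ht
  simp only [Function.mem_support] at ht ⊢
  intro h0
  exact ht (by rw [h0]; simp)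

lemma esa_inner_mo [CompleteSpace F] {ρ : X3 → ℝ} (hρ : Continuous ρ) (hc : HasCompactSupport ρ)
    {f : X3 → F} (hf : LocallyIntegrable f (volume : Measure X3)) (x : X3) (w : F) :
    inner ℂ w (mo ρ f x) = ∫ t, ((ρ (x - t) : ℝ) : ℂ) * inner ℂ w (f t) := by
  rw [mo, ← integral_inner (mo_int hρ hc hf x)]
  refine integral_congr_ae (Filter.Eventually.of_forall fun t => ?_)
  simp only
  rw [← Complex.coe_smul, inner_smul_right]

/-- mollified weak solutions solve the equation up to a commutator -/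
lemma esa_weak [CompleteSpace F] (h7 : U.A7Stmt S) (m : ℝ) {Ψ : X3 → F}
    (hΨ : MemLp Ψ 2 (volume : Measure X3))
    (hw : ∀ ζ, Tst ζ → ∫ x, inner ℂ (ζ x + ∑ β, S.Qm m β (S.Qm m β ζ) x) (Ψ x) = 0)
    {ρ : X3 → ℝ} (hρ : ContDiff ℝ ∞ ρ) (hc : HasCompactSupport ρ) (x : X3) (w : F) :
    inner ℂ w (mo ρ Ψ x + ∑ β, S.Qm m β (S.Qm m β (mo ρ Ψ)) x) =
      ∫ t, ((ρ (x - t) : ℝ) : ℂ) * inner ℂ w ((S.esaW m x - S.esaW m t) (Ψ t)) := by
  have hL : LocallyIntegrable Ψ (volume : Measure X3) := hΨ.locallyIntegrable (by norm_num)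
  have hρ2 : ∀ i A, ContDiff ℝ ∞ (pdr i A (pdr i A ρ)) := fun i A =>
    esa_pdr_smooth (esa_pdr_smooth hρ i A) i A
  have hc2 : ∀ i A, HasCompactSupport (pdr i A (pdr i A ρ)) := fun i A =>
    esa_pdr_cs (esa_pdr_cs hc i A) i A
  -- integrability
  have hI : ∀ {σ : X3 → ℝ}, ContDiff ℝ ∞ σ → HasCompactSupport σ → ∀ {T : X3 → F →L[ℂ] F},
      Continuous T → Integrable (fun t => ((σ (x - t) : ℝ) : ℂ) * inner ℂ (T t w) (Ψ t)) := by
    intro σ hσ hσc T hT
    have h1 := esa_Tst_shift hσ hσc x w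
    have hcB : Continuous (fun p : (F →L[ℂ] F) × F => p.1 p.2) :=
      (isBoundedBilinearMap_apply (𝕜 := ℂ) (E := F) (F := F)).continuous
    have h2 : Continuous (fun t => T t (((σ (x - t) : ℝ) : ℂ) • w)) :=
      hcB.comp (hT.prodMk h1.1.continuous)
    have h3 : HasCompactSupport (fun t => T t (((σ (x - t) : ℝ) : ℂ) • w)) := by
      refine h1.2.mono ?_
      intro t ht
      simp only [Function.mem_support] at ht ⊢
      intro h0
      exact ht (by rw [h0, map_zero])
    refine (integrable_inner_memLp (h2.memLp_of_hasCompactSupport h3) hΨ).congr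
      (Filter.Eventually.of_forall fun t => ?_)
    simp only [map_smul, inner_smul_left, Complex.conj_ofReal]
  have hI1 : ∀ {σ : X3 → ℝ}, ContDiff ℝ ∞ σ → HasCompactSupport σ →
      Integrable (fun t => ((σ (x - t) : ℝ) : ℂ) * inner ℂ w (Ψ t)) := by
    intro σ hσ hσc
    simpa using hI hσ hσc (T := fun _ => (1 : F →L[ℂ] F)) continuous_const
  -- left side
  have hl : inner ℂ w (mo ρ Ψ x + ∑ β, S.Qm m β (S.Qm m β (mo ρ Ψ)) x) =
      (∫ t, ((ρ (x - t) : ℝ) : ℂ) * inner ℂ (S.esaW m x w) (Ψ t)) -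
        8 * ∑ i, ∑ A, ∫ t, ((pdr i A (pdr i A ρ) (x - t) : ℝ) : ℂ) * inner ℂ w (Ψ t) := by
    rw [S.esa_L_eq h7 m (contDiff_mo hρ hc hL) x, inner_sub_right, inner_smul_right,
      ← S.esa_W_symm, esa_inner_mo hρ.continuous hc hL, inner_sum]
    congr 2
    refine Finset.sum_congr rfl fun i _ => ?_
    rw [inner_sum]
    refine Finset.sum_congr rfl fun A _ => ?_
    rw [pd_mo hρ hc hL, pd_mo (esa_pdr_smooth hρ i A) (esa_pdr_cs hc i A) hL,
      esa_inner_mo (hρ2 i A).continuous (hc2 i A) hL]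
  -- weak equation
  have hζ := esa_Tst_shift hρ hc x w
  have hpd : ∀ i A t, pd i A (pd i A (fun t => ((ρ (x - t) : ℝ) : ℂ) • w)) t =
      ((pdr i A (pdr i A ρ) (x - t) : ℝ) : ℂ) • w := by
    intro i A t
    rw [esa_shift (hρ.differentiable (by simp)), pd_neg,
      esa_shift ((esa_pdr_smooth hρ i A).differentiable (by simp)), neg_neg]
  have hr : (∫ t, ((ρ (x - t) : ℝ) : ℂ) * inner ℂ (S.esaW m t w) (Ψ t)) -
        8 * ∑ i, ∑ A, ∫ t, ((pdr i A (pdr i A ρ) (x - t) : ℝ) : ℂ) * inner ℂ w (Ψ t) = 0 := by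
    rw [← hw _ hζ]
    have e : ∀ t, inner ℂ ((fun t => ((ρ (x - t) : ℝ) : ℂ) • w) t +
        ∑ β, S.Qm m β (S.Qm m β (fun t => ((ρ (x - t) : ℝ) : ℂ) • w)) t) (Ψ t) =
        ((ρ (x - t) : ℝ) : ℂ) * inner ℂ (S.esaW m t w) (Ψ t) -
          8 * ∑ i, ∑ A, ((pdr i A (pdr i A ρ) (x - t) : ℝ) : ℂ) * inner ℂ w (Ψ t) := by
      intro t
      rw [S.esa_L_eq h7 m hζ.1 t]
      simp only [hpd, inner_sub_left, map_smul, inner_smul_left, sum_inner, Complex.conj_ofReal,
        esa_conj_eight]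
    simp only [e]
    have hs : ∀ i, Integrable (fun t => ∑ A, ((pdr i A (pdr i A ρ) (x - t) : ℝ) : ℂ) *
        inner ℂ w (Ψ t)) := fun i => integrable_finsetSum _ fun A _ => hI1 (hρ2 i A) (hc2 i A)
    rw [integral_sub (hI hρ hc (S.esa_W_continuous m))
      ((integrable_finsetSum _ fun i _ => hs i).const_mul 8), integral_const_mul,
      integral_finsetSum _ fun i _ => hs i]
    congr 2
    refine Finset.sum_congr rfl fun i _ => ?_
    rw [integral_finsetSum _ fun A _ => hI1 (hρ2 i A) (hc2 i A)]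
  rw [hl]
  have e3 : ∫ t, ((ρ (x - t) : ℝ) : ℂ) * inner ℂ w ((S.esaW m x - S.esaW m t) (Ψ t)) =
      (∫ t, ((ρ (x - t) : ℝ) : ℂ) * inner ℂ (S.esaW m x w) (Ψ t)) -
        ∫ t, ((ρ (x - t) : ℝ) : ℂ) * inner ℂ (S.esaW m t w) (Ψ t) := by
    rw [← integral_sub (hI hρ hc (T := fun _ => S.esaW m x) continuous_const)
      (hI hρ hc (S.esa_W_continuous m))]
    refine integral_congr_ae (Filter.Eventually.of_forall fun t => ?_)
    simp only [_root_.sub_apply, inner_sub_right, S.esa_W_symm]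
    ring
  rw [e3]
  linear_combination hr

lemma esa_bound [CompleteSpace F] (h7 : U.A7Stmt S) (m : ℝ) {Ψ : X3 → F}
    (hΨ : MemLp Ψ 2 (volume : Measure X3))
    (hw : ∀ ζ, Tst ζ → ∫ x, inner ℂ (ζ x + ∑ β, S.Qm m β (S.Qm m β ζ) x) (Ψ x) = 0)
    {ρ : X3 → ℝ} (hρ : ContDiff ℝ ∞ ρ) (hc : HasCompactSupport ρ) (h0 : ∀ x, 0 ≤ ρ x)
    (x : X3) {ε : ℝ} (hε : ∀ t, ρ (x - t) ≠ 0 → ‖S.esaW m x - S.esaW m t‖ ≤ ε) (w : F) :
    ‖(inner ℂ w (mo ρ Ψ x + ∑ β, S.Qm m β (S.Qm m β (mo ρ Ψ)) x) : ℂ)‖ ≤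
      ε * ‖w‖ * mo ρ (fun t => ‖Ψ t‖) x := by
  have hL : LocallyIntegrable Ψ (volume : Measure X3) := hΨ.locallyIntegrable (by norm_num)
  rw [S.esa_weak h7 m hΨ hw hρ hc x w]
  have hL' : LocallyIntegrable (fun t => ‖Ψ t‖) (volume : Measure X3) :=
    hΨ.norm.locallyIntegrable (by norm_num)
  have hi : Integrable (fun t => ρ (x - t) • ‖Ψ t‖) := mo_int hρ.continuous hc hL' x
  have e : ε * ‖w‖ * mo ρ (fun t => ‖Ψ t‖) x = ∫ t, ε * ‖w‖ * (ρ (x - t) • ‖Ψ t‖) := by
    rw [integral_const_mul]; rfl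
  rw [e]
  refine norm_integral_le_of_norm_le (hi.const_mul _) (Filter.Eventually.of_forall fun t => ?_)
  rw [norm_mul, Complex.norm_real, Real.norm_of_nonneg (h0 _), smul_eq_mul]
  by_cases h : ρ (x - t) = 0
  · rw [h]; simp
  · have h1 : ‖(inner ℂ w ((S.esaW m x - S.esaW m t) (Ψ t)) : ℂ)‖ ≤ ‖w‖ * (ε * ‖Ψ t‖) :=
      (norm_inner_le_norm _ _).trans (mul_le_mul_of_nonneg_left
        (((S.esaW m x - S.esaW m t).le_opNorm _).trans
          (mul_le_mul_of_nonneg_right (hε t h) (norm_nonneg _))) (norm_nonneg _))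
    refine (mul_le_mul_of_nonneg_left h1 (h0 _)).trans (le_of_eq ?_)
    ring

/-- localisation inequality -/
lemma esa_ineq (m : ℝ) {χ : X3 → ℝ} (hχ : ContDiff ℝ ∞ χ) (hχc : HasCompactSupport χ) {v : X3 → F}
    (hv : ContDiff ℝ ∞ v) :
    nsq (fun x => ((χ x : ℝ) : ℂ) • v x) ≤
      (∫ x, inner ℂ (((χ x : ℝ) : ℂ) • ((χ x : ℝ) : ℂ) • v x)
        (v x + ∑ β, S.Qm m β (S.Qm m β v) x)).re + ∑ β, ∫ x, ‖S.esaD χ β x (v x)‖ ^ 2 := by
  set u1 : X3 → F := fun x => ((χ x : ℝ) : ℂ) • v x with hu1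
  set u2 : X3 → F := fun x => ((χ x : ℝ) : ℂ) • u1 x with hu2
  have hT1 : Tst u1 := by
    refine ⟨(contDiff_ofReal hχ).smul hv, hχc.mono ?_⟩
    intro x hx
    simp only [Function.mem_support] at hx ⊢
    intro h0
    exact hx (by simp [hu1, h0])
  have hT2 : Tst u2 := hT1.rsmul hχ
  have hχd : ∀ x, DifferentiableAt ℝ χ x := fun x => hχ.differentiable (by simp) x
  have hvd : ∀ x, DifferentiableAt ℝ v x := fun x => hv.differentiable (by simp) x
  have q1 : ∀ β x, S.Qm m β u1 x = ((χ x : ℝ) : ℂ) • S.Qm m β v x - S.esaD χ β x (v x) :=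
    fun β x => S.esa_Qm_smul m β χ v x (hχd x) (hvd x)
  have q2 : ∀ β x, S.Qm m β u2 x = ((χ x : ℝ) : ℂ) • S.Qm m β u1 x -
      ((χ x : ℝ) : ℂ) • S.esaD χ β x (v x) := fun β x => by
    rw [hu2, S.esa_Qm_smul m β χ u1 x (hχd x) (hT1.diff x), hu1]
    simp only [map_smul]
  have hpt : ∀ β x, ‖S.Qm m β u1 x‖ ^ 2 =
      (inner ℂ (S.Qm m β u2 x) (S.Qm m β v x)).re + ‖S.esaD χ β x (v x)‖ ^ 2 := by
    intro β x
    rw [q2, q1]
    set a := S.Qm m β v x
    set b := S.esaD χ β x (v x)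
    have e1 : ‖((χ x : ℝ) : ℂ) • a - b‖ ^ 2 = (χ x) ^ 2 * ‖a‖ ^ 2 -
        2 * (χ x * (inner ℂ b a : ℂ).re) + ‖b‖ ^ 2 := by
      rw [← re_inner_self, inner_sub_left, inner_sub_right, inner_sub_right, inner_smul_left,
        inner_smul_right, inner_smul_left, inner_smul_right, Complex.conj_ofReal]
      have h1 : (inner ℂ a b : ℂ).re = (inner ℂ b a : ℂ).re := by
        rw [← inner_conj_symm, Complex.conj_re]
      simp only [Complex.sub_re, Complex.re_ofReal_mul, re_inner_self, h1]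
      ring
    rw [e1, inner_sub_left, inner_smul_left, inner_smul_left, inner_sub_left, inner_smul_left,
      Complex.conj_ofReal]
    simp only [Complex.sub_re, Complex.re_ofReal_mul, re_inner_self]
    ring
  have hDc : ∀ β, Continuous (fun x => S.esaD χ β x (v x)) := fun β =>
    (contDiff_clm_apply' (S.esa_contDiff_D hχ β) hv).continuous
  have hDs : ∀ β, HasCompactSupport (fun x => S.esaD χ β x (v x)) := by
    intro β
    refine HasCompactSupport.intro' (K := tsupport χ) hχc (isClosed_tsupport χ) ?_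
    intro x hx
    have h0 : ∀ i A, pdr i A χ x = 0 := by
      intro i A
      have : fderiv ℝ χ x = 0 := by
        by_contra hne
        exact hx ((tsupport_fderiv_subset ℝ (f := χ)) (subset_tsupport _ hne))
      simp [pdr, this]
    simp [esaD, h0]
  have hDi : ∀ β, Integrable (fun x => ‖S.esaD χ β x (v x)‖ ^ 2) := fun β =>
    memLp_norm_sq_int ((hDc β).memLp_of_hasCompactSupport (hDs β))
  have hQi : ∀ β, Integrable (fun x => inner ℂ (S.Qm m β u2 x) (S.Qm m β v x)) := fun β =>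
    (S.esa_Tst_Qm hT2 m β).inner_int (S.esa_contDiff_Qm m β hv).continuous
  have hmain : ∀ β, nsq (S.Qm m β u1) = (∫ x, inner ℂ (u2 x) (S.Qm m β (S.Qm m β v) x)).re +
      ∫ x, ‖S.esaD χ β x (v x)‖ ^ 2 := by
    intro β
    rw [← S.esa_Qm_symm m β u2 _ hT2 (S.esa_contDiff_Qm m β hv), nsq]
    simp only [hpt β]
    have hre : Integrable (fun x => (inner ℂ (S.Qm m β u2 x) (S.Qm m β v x)).re) := (hQi β).re
    rw [integral_add hre (hDi β)]
    congr 1
    exact integral_re (hQi β)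
  have hnn : nsq u1 = (∫ x, inner ℂ (u2 x) (v x)).re := by
    have hi : Integrable (fun x => inner ℂ (u2 x) (v x)) := hT2.inner_int hv.continuous
    have := integral_re hi
    rw [nsq]
    refine Eq.trans ?_ this
    refine integral_congr_ae (Filter.Eventually.of_forall fun x => ?_)
    simp only [hu2, hu1, inner_smul_left, Complex.conj_ofReal, norm_smul, Complex.norm_real]
    rw [RCLike.re_eq_complex_re]
    simp only [Complex.re_ofReal_mul, re_inner_self, mul_pow, Real.norm_eq_abs, sq_abs]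
    ring
  have hQQ : ∀ β, Integrable (fun x => inner ℂ (u2 x) (S.Qm m β (S.Qm m β v) x)) := fun β =>
    hT2.inner_int (S.esa_contDiff_Qm m β (S.esa_contDiff_Qm m β hv)).continuous
  have hsum : ∫ x, inner ℂ (u2 x) (v x + ∑ β, S.Qm m β (S.Qm m β v) x) =
      (∫ x, inner ℂ (u2 x) (v x)) + ∑ β, ∫ x, inner ℂ (u2 x) (S.Qm m β (S.Qm m β v) x) := by
    rw [← integral_finsetSum _ fun β _ => hQQ β, ← integral_add (hT2.inner_int hv.continuous)
      (integrable_finsetSum _ fun β _ => hQQ β)]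
    refine integral_congr_ae (Filter.Eventually.of_forall fun x => ?_)
    simp only [inner_add_right, inner_sum]
  have hge : 0 ≤ ∑ β, nsq (S.Qm m β u1) := Finset.sum_nonneg fun β _ => nsq_nonneg _
  simp only [hmain] at hge
  rw [Finset.sum_add_distrib] at hge
  change nsq u1 ≤ (∫ x, inner ℂ (u2 x) (v x + ∑ β, S.Qm m β (S.Qm m β v) x)).re + _
  rw [hsum, Complex.add_re, Complex.re_sum, ← hnn]
  linarith

end Setup

namespace U

/-- **B2** (only A7 is needed) -/
theorem esa' [FiniteDimensional ℂ F] (S : Setup F) (h7 : A7Stmt S) : ESAStmt S := by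
  intro m _ Ψ hΨ hw
  have : CompleteSpace F := FiniteDimensional.complete ℂ F
  obtain ⟨K, hK, hcut⟩ := exists_cut
  have hL : LocallyIntegrable Ψ (volume : Measure X3) := hΨ.locallyIntegrable (by norm_num)
  set N : ℝ := nsq Ψ with hN
  have hN0 : 0 ≤ N := nsq_nonneg _
  set C1 : ℝ := ∑ β, S.esaC β ^ 2 with hC1
  have hC10 : 0 ≤ C1 := Finset.sum_nonneg fun β _ => sq_nonneg _
  have key : ∀ R : ℝ, 0 < R → ∀ χ, IsCut K R χ →
      nsq (fun x => ((χ x : ℝ) : ℂ) • Ψ x) ≤ (K / R) ^ 2 * C1 * N := by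
    intro R hR χ hχ
    refine le_of_forall_pos_le_add fun ε hε => ?_
    set ε' : ℝ := ε / (N + 1) with hε'
    have hε'0 : 0 < ε' := by positivity
    have huc := (isCompact_closedBall (0 : X3) (2 * R + 1)).uniformContinuousOn_of_continuous
      (S.esa_W_continuous m).continuousOn
    obtain ⟨δ, hδ, hδ'⟩ := Metric.uniformContinuousOn_iff.mp huc ε' hε'0
    have hn : ∀ᶠ n : ℕ in atTop, 2 / ((n : ℝ) + 1) < min δ 1 := by
      have h1 : Tendsto (fun n : ℕ => 2 / ((n : ℝ) + 1)) atTop (𝓝 0) := by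
        have := (tendsto_one_div_add_atTop_nhds_zero_nat (𝕜 := ℝ)).const_mul 2
        rw [mul_zero] at this
        refine this.congr fun n => ?_
        ring
      exact h1.eventually (gt_mem_nhds (by positivity))
    refine fatou_le (f := fun n x => ‖((χ x : ℝ) : ℂ) • mo (mol n) Ψ x‖ ^ 2) ?_ ?_ ?_ ?_
    · intro n
      have hT : Setup.Tst (fun x => ((χ x : ℝ) : ℂ) • mo (mol n) Ψ x) := by
        refine ⟨(Setup.contDiff_ofReal hχ.1).smul (contDiff_mo (mol_smooth n) (mol_cs n) hL),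
          hχ.2.1.mono ?_⟩
        intro x hx
        simp only [Function.mem_support] at hx ⊢
        intro h0
        exact hx (by simp [h0])
      exact hT.norm_sq_int
    · intro n x; positivity
    · filter_upwards [hn] with n hn
      set v := mo (mol n) Ψ with hv
      have hvs : ContDiff ℝ ∞ v := contDiff_mo (mol_smooth n) (mol_cs n) hL
      obtain ⟨hvm, hvN⟩ := mo_L2' (mol_smooth n) (mol_cs n) (mol_nonneg n) (mol_integral n) hΨ
      obtain ⟨hgi, hgN⟩ := mo_L2 (mol_smooth n) (mol_cs n) (mol_nonneg n) (mol_integral n) hΨ.norm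
      refine (S.esa_ineq m hχ.1 hχ.2.1 hvs).trans ?_
      have h1 : (∫ x, inner ℂ (((χ x : ℝ) : ℂ) • ((χ x : ℝ) : ℂ) • v x)
          (v x + ∑ β, S.Qm m β (S.Qm m β v) x)).re ≤ ε := by
        refine (Complex.re_le_norm _).trans ?_
        have h2 : ‖∫ x, (inner ℂ (((χ x : ℝ) : ℂ) • ((χ x : ℝ) : ℂ) • v x)
            (v x + ∑ β, S.Qm m β (S.Qm m β v) x) : ℂ)‖ ≤
            ∫ x, ε' * mo (mol n) (fun t => ‖Ψ t‖) x ^ 2 := by
          refine norm_integral_le_of_norm_le (hgi.const_mul _)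
            (Filter.Eventually.of_forall fun x => ?_)
          have hg0 := mo_norm_nonneg (mol_nonneg n) Ψ x
          rcases le_or_gt ‖x‖ (2 * R) with hx | hx
          · have hb := S.esa_bound h7 m hΨ hw (mol_smooth n) (mol_cs n) (mol_nonneg n) x (ε := ε')
              (fun t ht => by
                have h3 : ‖x - t‖ < min δ 1 := by
                  by_contra h4
                  exact ht (mol_zero (hn.le.trans (not_lt.mp h4)))
                have h5 : dist x t < δ := by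
                  rw [dist_eq_norm]; exact h3.trans_le (min_le_left _ _)
                have h6 : ‖t‖ ≤ 2 * R + 1 := by
                  have h7 : ‖x - t‖ < 1 := h3.trans_le (min_le_right _ _)
                  have h8 : ‖t‖ ≤ ‖x‖ + ‖x - t‖ := by
                    have := norm_sub_le x (x - t)
                    simpa using this
                  linarith
                have h9 := hδ' x (by simpa using hx.trans (by linarith)) t (by simpa using h6) h5
                rw [dist_eq_norm] at h9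
                exact h9.le)
              (((χ x : ℝ) : ℂ) • ((χ x : ℝ) : ℂ) • v x)
            refine hb.trans ?_
            have h10 : ‖((χ x : ℝ) : ℂ) • ((χ x : ℝ) : ℂ) • v x‖ ≤
                mo (mol n) (fun t => ‖Ψ t‖) x := by
              rw [norm_smul, norm_smul, Complex.norm_real, Real.norm_of_nonneg (hχ.2.2.1 x)]
              have hc1 := hχ.2.2.1 x
              have hc2 := hχ.2.2.2.1 x
              have hvx : ‖v x‖ ≤ mo (mol n) (fun t => ‖Ψ t‖) x := norm_mo_le (mol_nonneg n) Ψ x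
              have hv0 := norm_nonneg (v x)
              have h11 : χ x * ‖v x‖ ≤ ‖v x‖ := mul_le_of_le_one_left hv0 hc2
              have h12 : χ x * (χ x * ‖v x‖) ≤ χ x * ‖v x‖ :=
                mul_le_of_le_one_left (mul_nonneg hc1 hv0) hc2
              linarith
            calc ε' * ‖((χ x : ℝ) : ℂ) • ((χ x : ℝ) : ℂ) • v x‖ * mo (mol n) (fun t => ‖Ψ t‖) x
                ≤ ε' * mo (mol n) (fun t => ‖Ψ t‖) x * mo (mol n) (fun t => ‖Ψ t‖) x :=
                  mul_le_mul_of_nonneg_right (mul_le_mul_of_nonneg_left h10 hε'0.le) hg0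
              _ = _ := by ring
          · rw [hχ.2.2.2.2.2.1 x hx.le]
            simp only [Complex.ofReal_zero, zero_smul, inner_zero_left, norm_zero]
            positivity
        refine h2.trans ?_
        rw [integral_const_mul]
        refine (mul_le_mul_of_nonneg_left hgN hε'0.le).trans ?_
        have h3 : ∫ x, ‖Ψ x‖ ^ 2 = N := rfl
        rw [h3, hε', div_mul_eq_mul_div, div_le_iff₀ (by positivity)]
        nlinarith
      have h2 : ∑ β, ∫ x, ‖S.esaD χ β x (v x)‖ ^ 2 ≤ (K / R) ^ 2 * C1 * N := by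
        have h3 : ∀ β, ∫ x, ‖S.esaD χ β x (v x)‖ ^ 2 ≤ (K / R * S.esaC β) ^ 2 * N := by
          intro β
          refine (nsq_op_le (fun x => S.esa_D_norm hK hR hχ β x) hvm).trans ?_
          exact mul_le_mul_of_nonneg_left hvN (sq_nonneg _)
        refine (Finset.sum_le_sum fun β _ => h3 β).trans (le_of_eq ?_)
        rw [hC1, Finset.mul_sum, Finset.sum_mul]
        refine Finset.sum_congr rfl fun β _ => ?_
        ring
      linarith
    · filter_upwards [mo_tendsto hL] with x hx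
      exact ((tendsto_const_nhds.smul hx).norm).pow 2
  -- let `R → ∞`
  refine le_antisymm ?_ (nsq_nonneg _)
  refine le_of_forall_pos_le_add fun M hM => ?_
  rw [zero_add]
  choose! χ hχ using hcut
  have hpos : ∀ n : ℕ, (0 : ℝ) < (n : ℝ) + 1 := fun n => by positivity
  refine fatou_le (f := fun n x => ‖((χ ((n : ℝ) + 1) x : ℝ) : ℂ) • Ψ x‖ ^ 2) ?_ ?_ ?_ ?_
  · intro n
    have hc := hχ _ (hpos n)
    have hi := memLp_norm_sq_int hΨ
    refine hi.mono' ?_ (Filter.Eventually.of_forall fun x => ?_)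
    · exact (((Complex.continuous_ofReal.comp hc.1.continuous).aestronglyMeasurable.smul
        hΨ.1).norm).pow 2
    · rw [Real.norm_of_nonneg (sq_nonneg _), norm_smul, Complex.norm_real,
        Real.norm_of_nonneg (hc.2.2.1 x)]
      exact pow_le_pow_left₀ (mul_nonneg (hc.2.2.1 x) (norm_nonneg _))
        (mul_le_of_le_one_left (norm_nonneg _) (hc.2.2.2.1 x)) 2
  · intro n x; positivity
  · have h1 : Tendsto (fun n : ℕ => (K / ((n : ℝ) + 1)) ^ 2 * C1 * N) atTop (𝓝 0) := by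
      have := (tendsto_one_div_add_atTop_nhds_zero_nat (𝕜 := ℝ)).const_mul K
      rw [mul_zero] at this
      have h2 := ((this.pow 2).mul_const C1).mul_const N
      have h3 : (0 : ℝ) ^ 2 * C1 * N = 0 := by ring
      rw [h3] at h2
      refine h2.congr fun n => ?_
      rw [mul_one_div]
    filter_upwards [h1.eventually (gt_mem_nhds hM)] with n hn
    exact (key _ (hpos n) _ (hχ _ (hpos n))).trans hn.le
  · refine Filter.Eventually.of_forall fun x => ?_
    refine tendsto_const_nhds.congr' ?_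
    filter_upwards [Filter.eventually_ge_atTop ⌈‖x‖⌉₊] with n hn
    have hx : ‖x‖ ≤ (n : ℝ) + 1 := by
      have := Nat.ceil_le.mp hn
      linarith
    rw [(hχ _ (hpos n)).2.2.2.2.1 x hx]
    simp

/-- **B2** in the form asked for -/
theorem esa [FiniteDimensional ℂ F] (S : Setup F) (_h1 : ResStmt S) (_h0 : CoerStmt S)
    (h7 : A7Stmt S) : ESAStmt S := esa' S h7

end U

end Vale.Agent.P353
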