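import Vale.Agent.P353.U.StmtB

/-! # P353, uniqueness for `N = 2`: module B5, eigenvalue of a compact symmetric operator -/

open MeasureTheory Filter Topology

namespace Vale.Agent.P353.U

theorem eig_aux {H : Type*} [NormedAddCommGroup H] [InnerProductSpace ℂ H]
    (T : H →L[ℂ] H) (hT : ∀ f g, inner ℂ (T f) g = inner ℂ f (T g)) (hc : IsCompactOperator T)
    (K : Submodule ℂ H) (hK : IsClosed (K : Set H)) (hinv : ∀ v ∈ K, T v ∈ K) (c : ℝ)
    (h0 : 0 ≤ c) (v : H) (hv : v ∈ K) (hlt : c * ‖v‖ ^ 2 < (inner ℂ (T v) v).re) :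
    ∃ μ : ℝ, c < μ ∧ ∃ w ∈ K, w ≠ 0 ∧ T w = (μ : ℂ) • w := by
  -- the set of Rayleigh quotients
  set A : Set ℝ := {r | ∃ x ∈ K, ‖x‖ = 1 ∧ (inner ℂ (T x) x).re = r} with hA
  have hbd : ∀ x : H, (inner ℂ (T x) x).re ≤ ‖T‖ * ‖x‖ ^ 2 := by
    intro x
    calc (inner ℂ (T x) x).re ≤ ‖(inner ℂ (T x) x : ℂ)‖ := Complex.re_le_norm _
      _ ≤ ‖T x‖ * ‖x‖ := norm_inner_le_norm _ _
      _ ≤ (‖T‖ * ‖x‖) * ‖x‖ := by gcongr; exact T.le_opNorm x
      _ = ‖T‖ * ‖x‖ ^ 2 := by ring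
  have hbd' : ∀ x : H, -(‖T‖ * ‖x‖ ^ 2) ≤ (inner ℂ (T x) x).re := by
    intro x
    have h1 : |(inner ℂ (T x) x).re| ≤ ‖(inner ℂ (T x) x : ℂ)‖ := Complex.abs_re_le_norm _
    have h2 : ‖(inner ℂ (T x) x : ℂ)‖ ≤ ‖T‖ * ‖x‖ ^ 2 := by
      calc ‖(inner ℂ (T x) x : ℂ)‖ ≤ ‖T x‖ * ‖x‖ := norm_inner_le_norm _ _
        _ ≤ (‖T‖ * ‖x‖) * ‖x‖ := by gcongr; exact T.le_opNorm x
        _ = ‖T‖ * ‖x‖ ^ 2 := by ring
    have h3 := neg_abs_le (inner ℂ (T x) x).re
    linarith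
  have hbA : BddAbove A := by
    refine ⟨‖T‖, ?_⟩
    rintro r ⟨x, -, hx1, rfl⟩
    have := hbd x
    rw [hx1] at this
    linarith
  have hv0 : v ≠ 0 := by
    rintro rfl
    simp at hlt
  have hvn : 0 < ‖v‖ := norm_pos_iff.2 hv0
  -- scaling
  have hscale : ∀ x ∈ K, x ≠ 0 → (inner ℂ (T x) x).re / ‖x‖ ^ 2 ∈ A := by
    intro x hx hx0
    have hxn : 0 < ‖x‖ := norm_pos_iff.2 hx0
    refine ⟨((‖x‖⁻¹ : ℝ) : ℂ) • x, K.smul_mem _ hx, ?_, ?_⟩
    · rw [norm_smul, Complex.norm_real, norm_inv, norm_norm, inv_mul_cancel₀ hxn.ne']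
    · rw [map_smul, inner_smul_left, inner_smul_right, Complex.conj_ofReal, Complex.re_ofReal_mul,
        Complex.re_ofReal_mul]
      field_simp
  have hAne : A.Nonempty := ⟨_, hscale v hv hv0⟩
  set M : ℝ := sSup A with hM
  have hcM : c < M := by
    refine lt_of_lt_of_le ?_ (le_csSup hbA (hscale v hv hv0))
    rw [lt_div_iff₀ (by positivity)]
    exact hlt
  have hMpos : 0 < M := lt_of_le_of_lt h0 hcM
  have hq : ∀ x ∈ K, 0 ≤ M * ‖x‖ ^ 2 - (inner ℂ (T x) x).re := by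
    intro x hx
    by_cases hx0 : x = 0
    · subst hx0; simp
    · have h1 := le_csSup hbA (hscale x hx hx0)
      rw [div_le_iff₀ (by have := norm_pos_iff.2 hx0; positivity)] at h1
      linarith
  -- the key estimate
  set L : ℝ := M + ‖T‖ + 1 with hL
  have hLpos : 0 < L := by have := norm_nonneg T; linarith
  have hkey : ∀ x ∈ K, ‖(M : ℂ) • x - T x‖ ^ 2 ≤ L * (M * ‖x‖ ^ 2 - (inner ℂ (T x) x).re) := by
    intro x hx
    set y : H := (M : ℂ) • x - T x with hy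
    have hyK : y ∈ K := K.sub_mem (K.smul_mem _ hx) (hinv x hx)
    set t : ℝ := 1 / L with ht
    have h1 := hq (x - (t : ℂ) • y) (K.sub_mem hx (K.smul_mem _ hyK))
    have hyy : (inner ℂ y y).re = ‖y‖ ^ 2 := by
      rw [inner_self_eq_norm_sq_to_K]
      norm_cast
    have hxx : (inner ℂ x x).re = ‖x‖ ^ 2 := by
      rw [inner_self_eq_norm_sq_to_K]
      norm_cast
    -- `⟪Mx - Tx, y⟫ = ‖y‖²`
    have e1 : M * (inner ℂ x y).re - (inner ℂ (T x) y).re = ‖y‖ ^ 2 := by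
      rw [← hyy]
      nth_rewrite 3 [hy]
      rw [inner_sub_left, inner_smul_left, Complex.conj_ofReal, Complex.sub_re,
        Complex.re_ofReal_mul]
    have e2 : (inner ℂ (T y) x).re = (inner ℂ (T x) y).re := by
      rw [hT y x, ← inner_conj_symm, Complex.conj_re]
    have e3 : (inner ℂ y x).re = (inner ℂ x y).re := by
      rw [← inner_conj_symm, Complex.conj_re]
    have n1 : ‖x - (t : ℂ) • y‖ ^ 2 = ‖x‖ ^ 2 - 2 * t * (inner ℂ x y).re + t ^ 2 * ‖y‖ ^ 2 := by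
      have hz : (inner ℂ (x - (t : ℂ) • y) (x - (t : ℂ) • y)).re = ‖x - (t : ℂ) • y‖ ^ 2 := by
        rw [inner_self_eq_norm_sq_to_K]
        norm_cast
      rw [← hz, inner_sub_left, inner_sub_right, inner_sub_right, inner_smul_left,
        inner_smul_left, inner_smul_right, inner_smul_right, Complex.conj_ofReal]
      simp only [Complex.sub_re, Complex.re_ofReal_mul]
      rw [hxx, hyy, e3]
      ring
    have n2 : (inner ℂ (T (x - (t : ℂ) • y)) (x - (t : ℂ) • y)).re =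
        (inner ℂ (T x) x).re - 2 * t * (inner ℂ (T x) y).re + t ^ 2 * (inner ℂ (T y) y).re := by
      rw [map_sub, map_smul, inner_sub_left, inner_sub_right, inner_sub_right, inner_smul_left,
        inner_smul_left, inner_smul_right, inner_smul_right, Complex.conj_ofReal]
      simp only [Complex.sub_re, Complex.re_ofReal_mul]
      rw [e2]
      ring
    rw [n1, n2] at h1
    have h2 := hbd' y
    have h3 : 0 ≤ (M * ‖x‖ ^ 2 - (inner ℂ (T x) x).re) - 2 * t * ‖y‖ ^ 2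
        + t ^ 2 * (M * ‖y‖ ^ 2 - (inner ℂ (T y) y).re) := by
      have : M * (‖x‖ ^ 2 - 2 * t * (inner ℂ x y).re + t ^ 2 * ‖y‖ ^ 2) -
          ((inner ℂ (T x) x).re - 2 * t * (inner ℂ (T x) y).re + t ^ 2 * (inner ℂ (T y) y).re) =
        (M * ‖x‖ ^ 2 - (inner ℂ (T x) x).re) -
          2 * t * (M * (inner ℂ x y).re - (inner ℂ (T x) y).re)
        + t ^ 2 * (M * ‖y‖ ^ 2 - (inner ℂ (T y) y).re) := by ring
      rw [this, e1] at h1
      exact h1
    have h4 : M * ‖y‖ ^ 2 - (inner ℂ (T y) y).re ≤ L * ‖y‖ ^ 2 := by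
      rw [hL]
      have : 0 ≤ ‖y‖ ^ 2 := by positivity
      nlinarith
    have htL : t * L = 1 := by rw [ht]; field_simp
    have ht0 : 0 < t := by rw [ht]; positivity
    have h5 : t ^ 2 * (M * ‖y‖ ^ 2 - (inner ℂ (T y) y).re) ≤ t * ‖y‖ ^ 2 := by
      calc t ^ 2 * (M * ‖y‖ ^ 2 - (inner ℂ (T y) y).re) ≤ t ^ 2 * (L * ‖y‖ ^ 2) := by gcongr
        _ = (t * L) * (t * ‖y‖ ^ 2) := by ring
        _ = t * ‖y‖ ^ 2 := by rw [htL, one_mul]
    have h6 : t * ‖y‖ ^ 2 ≤ M * ‖x‖ ^ 2 - (inner ℂ (T x) x).re := by linarith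
    calc ‖y‖ ^ 2 = L * (t * ‖y‖ ^ 2) := by rw [← mul_assoc, mul_comm L t, htL, one_mul]
      _ ≤ L * (M * ‖x‖ ^ 2 - (inner ℂ (T x) x).re) := by gcongr
  -- maximizing sequence
  obtain ⟨r, -, hr, hrA⟩ := exists_seq_tendsto_sSup hAne hbA
  choose x hxK hx1 hxr using hrA
  have hlim : Tendsto (fun n => (M : ℂ) • x n - T (x n)) atTop (𝓝 0) := by
    rw [tendsto_zero_iff_norm_tendsto_zero]
    have h1 : Tendsto (fun n => Real.sqrt (L * (M - r n))) atTop (𝓝 0) := by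
      have : Tendsto (fun n => L * (M - r n)) atTop (𝓝 (L * (M - M))) :=
        (tendsto_const_nhds.sub hr).const_mul L
      rw [sub_self, mul_zero] at this
      have h2 := (Real.continuous_sqrt.tendsto 0).comp this
      rw [Real.sqrt_zero] at h2
      exact h2
    refine squeeze_zero (fun n => norm_nonneg _) (fun n => ?_) h1
    apply Real.le_sqrt_of_sq_le
    have := hkey (x n) (hxK n)
    rw [hx1, hxr] at this
    linarith
  obtain ⟨C, hC, hCsub⟩ := hc.image_closedBall_subset_compact 1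
  have hmem : ∀ n, T (x n) ∈ C := fun n => hCsub ⟨x n, by simp [hx1 n], rfl⟩
  obtain ⟨y, -, φ, hφ, hy⟩ := hC.tendsto_subseq hmem
  have hMx : Tendsto (fun n => (M : ℂ) • x (φ n)) atTop (𝓝 y) := by
    have := (hlim.comp hφ.tendsto_atTop).add hy
    rw [zero_add] at this
    refine this.congr fun n => ?_
    simp [Function.comp]
  have hMne : (M : ℂ) ≠ 0 := by exact_mod_cast hMpos.ne'
  set w : H := (M : ℂ)⁻¹ • y with hw
  have hxw : Tendsto (fun n => x (φ n)) atTop (𝓝 w) := by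
    have := hMx.const_smul ((M : ℂ)⁻¹)
    refine this.congr fun n => ?_
    rw [smul_smul, inv_mul_cancel₀ hMne, one_smul]
  refine ⟨M, hcM, w, hK.mem_of_tendsto hxw (Eventually.of_forall fun n => hxK _), ?_, ?_⟩
  · have h1 : Tendsto (fun n => ‖x (φ n)‖) atTop (𝓝 ‖w‖) := hxw.norm
    have h2 : Tendsto (fun n => ‖x (φ n)‖) atTop (𝓝 1) := by
      simp only [hx1]; exact tendsto_const_nhds
    have h3 := tendsto_nhds_unique h1 h2
    intro h
    rw [h, norm_zero] at h3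
    exact zero_ne_one h3
  · have h1 : Tendsto (fun n => T (x (φ n))) atTop (𝓝 (T w)) :=
      (T.continuous.tendsto w).comp hxw
    have h2 := tendsto_nhds_unique h1 hy
    rw [h2, hw, smul_smul, mul_inv_cancel₀ hMne, one_smul]

/-- **B5** -/
theorem eig : EigStmt := by
  intro H _ _ _ T hT hc K hK hinv c h0 v hv hlt
  exact eig_aux T hT hc K hK hinv c h0 v hv hlt

end Vale.Agent.P353.U
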