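import Vale.Agent.P353.U.GamLem

/-! # P353, uniqueness for `N = 2`: definitions and statements of part D (the outer state, `m → 0`)

`ρ = ‖x‖`, `ρ6² = ∑_{a∈I6}|x_a|²`; the cone of commuting configurations is `{n⊗y}` = `{cone n y}`, `x_i^A = y_i n_A`. -/

open MeasureTheory Filter Topology
open scoped ContDiff

namespace Vale.Agent.P353

variable {F : Type*} [NormedAddCommGroup F] [InnerProductSpace ℂ F]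

/-- `ρ6²` -/
noncomputable def rho6sq (x : X3) : ℝ := ∑ i : Fin 9, ∑ A, (if 3 ≤ i.val then x (i, A) ^ 2 else 0)

/-- Gram matrix `G_{AB} = ∑_i x_i^A x_i^B` -/
noncomputable def Gr (x : X3) (A B : Fin 3) : ℝ := ∑ i, x (i, A) * x (i, B)

/-- `x̂ = G x / ρ²` (equal to `x` on the cone) -/
noncomputable def xh (x : X3) : X3 :=
  WithLp.toLp 2 fun p => (∑ B, Gr x p.2 B * x (p.1, B)) / ‖x‖ ^ 2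

/-- the configuration `x_i^A = y_i n_A` -/
noncomputable def cone (n : Fin 3 → ℝ) (y : Fin 9 → ℝ) : X3 := WithLp.toLp 2 fun p => y p.1 * n p.2

/-- `|y|` -/
noncomputable def ry (y : Fin 9 → ℝ) : ℝ := Real.sqrt (∑ i, y i ^ 2)

namespace Setup

variable (S : Setup F)

/-- `b^A N b^B` -/
noncomputable def bilb (N : Matrix (Fin 16) (Fin 16) ℂ) (A B : Fin 3) : F →L[ℂ] F :=
  ∑ α, ∑ β, N α β • (S.bm A α * S.bm B β)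

/-- `Z(x) = (ρ²/2ρ6²)[(i/ρ) ε_{ACB} x_a^C b^Aγ^ab^B - ρ⁻²((x_a·x_i)δ_AB - x_a^Ax_i^B) b^Aγ^aγ^ib^B]`,
`a ∈ I6`, `i ∈ I3` -/
noncomputable def ZZ (x : X3) : F →L[ℂ] F :=
  ((‖x‖ ^ 2 / (2 * rho6sq x) : ℝ) : ℂ) • (
    (Complex.I * ((1 / ‖x‖ : ℝ) : ℂ)) • (∑ a : Fin 9, ∑ A, ∑ B, ∑ C,
      (if 3 ≤ a.val then (eps A C B : ℂ) * (x (a, C) : ℂ) else 0) • S.bilb (S.g a) A B) -
    ((1 / ‖x‖ ^ 2 : ℝ) : ℂ) • (∑ a : Fin 9, ∑ i : Fin 9, ∑ A, ∑ B,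
      (if 3 ≤ a.val ∧ i.val < 3 then
        (if A = B then ∑ D, (x (a, D) : ℂ) * (x (i, D) : ℂ) else 0) -
          (x (a, A) : ℂ) * (x (i, B) : ℂ) else 0) • S.bilb (S.g a * S.g i) A B))

/-- `ω(x) = ((ρ6/ρ)⁴/16) e^{Z(x)} Ω` -/
noncomputable def om (Ω : F) (x : X3) : F :=
  (((rho6sq x / ‖x‖ ^ 2) ^ 2 / 16 : ℝ) : ℂ) • (NormedSpace.exp (S.ZZ x)) Ω

/-- `v(x) = (1 - F(x - x̂)/(2κρ)) ω(x̂)` -/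
noncomputable def vv (Ω : F) (x : X3) : F :=
  S.om Ω (xh x) - ((1 / (2 * S.κ * ‖x‖) : ℝ) : ℂ) • S.Fx (x - xh x) (S.om Ω (xh x))

/-- `φ_m = ρ³ exp(-V/(κρ) - (m/2)∑a_i|x_i|²)` -/
noncomputable def ph (m : ℝ) (x : X3) : ℝ :=
  ‖x‖ ^ 3 * Real.exp (-(S.V x / (S.κ * ‖x‖)) - m / 2 * ∑ i, ∑ A, aw i * x (i, A) ^ 2)

/-- `θ^n_α = ∑ n_A θ^A_α` -/
noncomputable def thn (n : Fin 3 → ℝ) (α : Fin 16) : F →L[ℂ] F := ∑ A, ((n A : ℝ) : ℂ) • S.th α A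

/-- transverse vacuum at `n⊗y`: `|y| θ_⊥ v = i y̸ (n×θ) v` -/
def VT (n : Fin 3 → ℝ) (y : Fin 9 → ℝ) (v : F) : Prop := ∀ A α,
  ((ry y : ℝ) : ℂ) • (S.th α A v - ((n A : ℝ) : ℂ) • S.thn n α v) =
    Complex.I • ∑ B, ∑ C, ∑ i, ((eps A B C : ℂ) * (n B : ℂ) * (y i : ℂ)) • S.vec (S.g i) C α v

/-- vacuum of the free part: `θ^n v = iΓθ^n v` -/
def VN (n : Fin 3 → ℝ) (v : F) : Prop := ∀ α,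
  S.thn n α v = Complex.I • ∑ A, ((n A : ℝ) : ℂ) • S.vec S.Gam A α v

/-- `T1_β(z) = iκ|y| (γzθ)_β + DW(n⊗y)[z]_β` -/
noncomputable def T1 (n : Fin 3 → ℝ) (y : Fin 9 → ℝ) (β : Fin 16) (z : X3) : F →L[ℂ] F :=
  (Complex.I * ((S.κ * ry y : ℝ) : ℂ)) • S.B β z + S.DW (cone n y) β z

/-- derivative of `v` in direction `(i,A)` at the cone point `n⊗y`, as an operator applied to `ω` -/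
noncomputable def XX (n : Fin 3 → ℝ) (y : Fin 9 → ℝ) (i : Fin 9) (A : Fin 3) : F →L[ℂ] F :=
  ((n A / (4 * ry y ^ 2) : ℝ) : ℂ) • (∑ B, ∑ D, ∑ k, ∑ j,
      ((((if B = D then 1 else 0) - n B * n D) *
        ((if k = i then 1 else 0) - y k * y i / ry y ^ 2) * y j : ℝ) : ℂ) •
        S.bil (S.g k * S.g j) B D) +
  ((y i / ry y ^ 2 : ℝ) : ℂ) • (∑ B, ∑ D,
      ((((if B = A then 1 else 0) - n B * n A) * n D : ℝ) : ℂ) • S.bil 1 B D) -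
  ((1 / (2 * S.κ * ry y) : ℝ) : ℂ) • S.Fx (cone
      (fun B => (if B = A then 1 else 0) - n B * n A)
      (fun k => (if k = i then 1 else 0) - y k * y i / ry y ^ 2))

end Setup

namespace U

/-- **D-dec** decomposition near the cone. PROOF: `n` = top unit eigenvector of the symmetric matrix `G = Gr x`,
`y_i = ∑n_Ax_i^A`, `z = x - n⊗y`; `∑_iy_iz_i^A = (Gn)_A - (n·Gn)n_A = 0`. Eigenvalues `λ_1 = |y|² ≥ λ_2 ≥ λ_3 ≥ 0`,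
`λ_2+λ_3 = |z|²`, `V = ½κ²·e_2(λ) ≥ ½κ²λ_1|z|²`, `λ_1 ≥ ρ²/3`. -/
def DecStmt (S : Setup F) : Prop := ∀ x : X3, x ≠ 0 → ∃ (n : Fin 3 → ℝ) (y : Fin 9 → ℝ) (z : X3),
  ∑ A, n A ^ 2 = 1 ∧ x = cone n y + z ∧ (∀ i, ∑ A, z (i, A) * n A = 0) ∧
    (∀ A, ∑ i, y i * z (i, A) = 0) ∧ ‖x‖ ^ 2 ≤ 3 * ry y ^ 2 ∧
    ‖z‖ ^ 2 * (S.κ ^ 2 * ‖x‖ ^ 2) ≤ 6 * S.V x

/-- **D-1** `ω` is the vacuum on the cone. PROOF: `a = am`, `b = bm`, `θ = a + b`, `P_- = ½(1-iΓ)`, `P_+ = ½(1+iΓ)`,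
`{a_α^A,b_β^B} = (P_-)_{αβ}δ_AB`, `{a,a} = {b,b} = 0`; `Z = ½ bKb` with `(Kb)^A = |ŷ6|⁻²(iŷ̸6(n×b)^A - ŷ̸6ŷ̸3b_⊥^A)`
(on the cone; `ŷ = y/|y|`, `ŷ̸3,ŷ̸6` = parts in `I3`, `I6`), `e^{-Z}ae^{Z} = a + Kb =: a + X`, `e^{-Z}be^Z = b`
(`Kb` is in the range of `P_-`: `ŷ̸6` exchanges chirality). `e^{-Z}(θ_⊥ - iŷ̸n×θ)e^ZΩ = (b_⊥ + X - iŷ̸n×(b+X))Ω`;
`P_+` part: `b_⊥ - iŷ̸3n×b - iŷ̸6n×X = 0`, `P_-` part: `X - iŷ̸3n×X - iŷ̸6n×b = 0`; both hold as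
`X = |ŷ6|⁻²iŷ̸6n×(b - iŷ̸3n×b)`, `(n×)² = -1` on `⊥`, `ŷ̸6² = |ŷ6|²`, `ŷ̸3² = |ŷ3|² = 1-|ŷ6|²`. Along `n`: `X^n = 0`, so
`(θ^n - iΓθ^n)ω = 2a^nω = 0`. -/
def Om1Stmt (S : Setup F) : Prop := ∀ Ω : F, (∀ A α, S.am A α Ω = 0) → ∀ (n : Fin 3 → ℝ) (y : Fin 9 → ℝ),
  ∑ A, n A ^ 2 = 1 → 0 < rho6sq (cone n y) → S.VT n y (S.om Ω (cone n y)) ∧
    S.VN n (S.om Ω (cone n y)) ∧
    (inner ℂ Ω (S.om Ω (cone n y))) = (((rho6sq (cone n y) / ry y ^ 2) ^ 2 / 16 : ℝ) : ℂ) * ((‖Ω‖ ^ 2 : ℝ) : ℂ)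

/-- **D-uniq** uniqueness of the vacuum at a cone point (C-Vac: the annihilators in `VT`, `VN` span a maximal
isotropic subspace; existence of one nonzero solution from D-1). -/
def VUniqStmt (S : Setup F) : Prop := ∀ Ω : F, Ω ≠ 0 → (∀ A α, S.am A α Ω = 0) →
  ∀ (n : Fin 3 → ℝ) (y : Fin 9 → ℝ), ∑ A, n A ^ 2 = 1 → 0 < rho6sq (cone n y) →
  ∀ v : F, S.VT n y v → S.VN n v → ∃ c : ℂ, v = c • S.om Ω (cone n y)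

/-- **D-sm** smoothness of `om Ω`, `vv Ω` on `{ρ6 > 0}` (`ρ6(x̂) > 0` there: `x_a·Gx_a = ∑_i(x_i·x_a)² ≥ |x_a|⁴`), homogeneity of
degree `0`, `x̂ = x` on the cone, and covariance: `G_C`, `J_{kl}` (`Same k l`) annihilate `om Ω` and `vv Ω` on `{ρ6 > 0}`.
PROOF of covariance: the rotation derivative of the coefficient functions of `Z` is minus the commutator with the spin part,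
`cS_CΩ = 0`, `S_{kl}Ω = 0` (bilinears `b·a`, since `aᵀa`-type sums vanish: `Γ² = -1`); `x ↦ x̂`, `ρ`, `ρ6` are
equivariant; `F(x)` is covariant (landed for `G`, `J`: `[G_C,F(x)]=0` …). -/
def SmStmt (S : Setup F) : Prop := ∀ Ω : F, (∀ A α, S.am A α Ω = 0) →
  ContDiffOn ℝ ∞ (S.om Ω) {x | 0 < rho6sq x} ∧ ContDiffOn ℝ ∞ (S.vv Ω) {x | 0 < rho6sq x} ∧
  (∀ x, 0 < rho6sq x → 0 < rho6sq (xh x)) ∧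
  (∀ x, ∀ t : ℝ, 0 < t → S.om Ω (t • x) = S.om Ω x ∧ S.vv Ω (t • x) = S.vv Ω x) ∧
  (∀ n y, ∑ A, n A ^ 2 = 1 → cone n y ≠ 0 → xh (cone n y) = cone n y) ∧
  ∀ x, 0 < rho6sq x → (∀ C, S.G C (S.om Ω) x = 0 ∧ S.G C (S.vv Ω) x = 0) ∧
    ∀ k l, Same k l → S.J k l (S.om Ω) x = 0 ∧ S.J k l (S.vv Ω) x = 0

/-- **D-2** derivatives of `ω` along the cone:
`D_{n⊗w}ω = (1/4r²)(θ_⊥w̸y̸θ_⊥)ω` for `w ⟂ y`, `D_{e⊗y}ω = (θ^e·θ^n)ω` for `e ⟂ n`.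
PROOF. Second: gauge covariance (D-sm): with `c = n×e`, `-iD_{e⊗y}ω + c·cS ω = 0`,
`c·cS = -(i/2)∑ε_{CDE}c_Cθ^Dθ^E = i θ^e·θ^n`-ish. First: differentiate `VT`, `VN` (D-1) along `n⊗w`; the vector
`D_{n⊗w}ω - (1/4r²)(θ_⊥w̸y̸θ_⊥)ω` satisfies `VT` and `VN`, so it is `λω` (D-uniq); pair with `Ω`:
`⟨Ω,D_{n⊗w}ω⟩ = D_{n⊗w}((ρ6/ρ)⁴/16) = 4(w·y6)/|y6|²·⟨Ω,ω⟩`, and `⟨Ω,(1/4r²)(θ_⊥w̸y̸θ_⊥)ω⟩` is computed with `⟨Ω|b = 0`: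
`θ_⊥w̸y̸θ_⊥ → a w̸y̸ a`-part and `a…b`: `aω = e^Z X Ω`, it gives the same number; so `λ = 0`.  (Or differentiate `e^Z`
directly: `De^Z = (DZ)e^Z`, all `b`-bilinears commute.) -/
def Om2Stmt (S : Setup F) : Prop := ∀ Ω : F, (∀ A α, S.am A α Ω = 0) → ∀ (n : Fin 3 → ℝ) (y : Fin 9 → ℝ),
  ∑ A, n A ^ 2 = 1 → 0 < rho6sq (cone n y) →
  (∀ w : Fin 9 → ℝ, ∑ i, w i * y i = 0 → fderiv ℝ (S.om Ω) (cone n y) (cone n w) =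
    ((1 / (4 * ry y ^ 2) : ℝ) : ℂ) • ∑ A, ∑ B, ∑ i, ∑ j,
      ((((if A = B then 1 else 0) - n A * n B) * w i * y j : ℝ) : ℂ) •
        S.bil (S.g i * S.g j) A B (S.om Ω (cone n y))) ∧
  ∀ e : Fin 3 → ℝ, ∑ A, e A * n A = 0 → fderiv ℝ (S.om Ω) (cone n y) (cone e y) =
    ∑ A, ∑ B, ((e A * n B : ℝ) : ℂ) • S.bil 1 A B (S.om Ω (cone n y))

/-- **D-norm** `‖ω‖` is constant on the cone. PROOF: by D-2 the derivatives of `‖ω‖²` along the cone vanish (both operators are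
anti-Hermitian: `(θ^AMθ^B)† = θ^BMᵀθ^A`), radial derivative `0`; `{y : y6 ≠ 0} ⊂ ℝ⁹` is open and connected (complement of a
subspace of codimension 6) and great circles connect the `n`. Positivity: `⟨Ω,ω⟩ ≠ 0`. -/
def OmNormStmt (S : Setup F) : Prop := ∀ Ω : F, Ω ≠ 0 → (∀ A α, S.am A α Ω = 0) →
  ∃ c : ℝ, 0 < c ∧ ∀ (n : Fin 3 → ℝ) (y : Fin 9 → ℝ), ∑ A, n A ^ 2 = 1 →
    0 < rho6sq (cone n y) → ‖S.om Ω (cone n y)‖ = c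

/-- **D-3** all derivatives of `v` at a cone point. PROOF: `x̂(x_c+z) = (r²x_c + (zᵀz)z)/(r²+|z|²)` for normal `z`, so `Dx̂ = 0` on normal
directions `e⊗w` and `Dx̂ = id` on tangent directions; then D-2 and `D_{n⊗y}ω = 0`; split
`single (i,A) = e_i⊗e_A` with the projections `n nᵀ`, `1-n nᵀ`, `yyᵀ/r²`, `1-yyᵀ/r²`. -/
def V3Stmt (S : Setup F) : Prop := ∀ Ω : F, (∀ A α, S.am A α Ω = 0) → ∀ (n : Fin 3 → ℝ) (y : Fin 9 → ℝ),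
  ∑ A, n A ^ 2 = 1 → 0 < rho6sq (cone n y) → S.vv Ω (cone n y) = S.om Ω (cone n y) ∧
  ∀ i A, pd i A (S.vv Ω) (cone n y) = S.XX n y i A (S.om Ω (cone n y))

/-- **D-M12** algebra: first and second order cancellation. `z` normal: `∑_Az_i^An_A = 0`, `∑_iy_iz_i^A = 0`.
PROOF. `z̸^A = ∑z_i^Aγ^i`, `r = |y|`. `DW(x_c)[z] = κr ŷ̸∑(n×z̸)^Aθ^A = κr∑_Cz̸^Cŷ̸(n×θ)^C`, so
`T1(z)v = iκr∑z̸^C[θ^C - iŷ̸(n×θ)^C]v = 0`. `[θ_α^D,Fx(z)] = iκε_{DBC}(z̸^Cθ^B)_α`, hence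
`[T1(z),Fx(z)] = κ²r[(z̸¹z̸²-z̸²z̸¹) + i|z|²ŷ̸]θ^n` (`z̸^{1,2}` components along an oriented basis of `n^⊥`), while
`(iκ|z|²/2r)B(x_c) + W(z) = (κ/2)[i|z|²ŷ̸ + (z̸¹z̸²-z̸²z̸¹)]θ^n`. -/
def M12Stmt (S : Setup F) : Prop := ∀ (n : Fin 3 → ℝ) (y : Fin 9 → ℝ), ∑ A, n A ^ 2 = 1 → 0 < ry y →
  ∀ v : F, S.VT n y v → ∀ z : X3, (∀ i, ∑ A, z (i, A) * n A = 0) → (∀ A, ∑ i, y i * z (i, A) = 0) →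
  ∀ β, S.T1 n y β z v = 0 ∧
    (Complex.I * ((S.κ * ‖z‖ ^ 2 / (2 * ry y) : ℝ) : ℂ)) • S.B β (cone n y) v + S.W β z v -
      ((1 / (2 * S.κ * ry y) : ℝ) : ℂ) • S.T1 n y β z (S.Fx z v) = 0

/-- **D-M3** algebra: cancellation of the `1/ρ` terms: `∑(γ^iθ^A)_β X_{iA} v + (3/r²)(γx_cθ)_β v = 0`.
PROOF. `e_1,e_2,n` oriented, `θ^1 v = -iŷ̸θ^2v`. `d = ½(θ^1+iŷ̸θ^2)`, `dv = 0`, `θ^1 = d+d†`, `θ^2 = -iŷ̸(d-d†)`, `{d_α,d_β†} = ½δ`.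
Terms (×r): `X1 = ¼∑_w(w̸θ^n)_β(θ^ew̸ŷ̸θ^e)v`, `X2 = (ŷ̸θ^e)_β(θ^eθ^n)v`, `X3 = -(1/2κ)∑(w̸θ^e)_βF(e⊗w)v`,
`F(e_1⊗w) = iκθ^2w̸θ^n`, `F(e_2⊗w) = -iκθ^1w̸θ^n`, `X4 = 3(ŷ̸θ^n)_βv`  (`w` orthonormal basis of `y^⊥`, 8 vectors).
Zero-particle parts (multiples of `(ŷ̸θ^n)_βv`): `0, 1, -4, 3`, sum `0`. Two-particle parts:
`∑_w{½(w̸θ^n)_β(d†w̸ŷ̸d†) + ½(w̸d†)_β(d†ŷ̸w̸θ^n) - ½(w̸ŷ̸d†)_β(d†w̸θ^n)} + (ŷ̸d†)_β(d†θ^n) - d†_β(d†ŷ̸θ^n) = 0`, a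
consequence of the Fierz identity F10 (`∑_w = ∑_i - ŷŷ` term) contracted with `ŷ̸`, verified numerically. -/
def M3Stmt (S : Setup F) : Prop := ∀ (n : Fin 3 → ℝ) (y : Fin 9 → ℝ), ∑ A, n A ^ 2 = 1 → 0 < ry y →
  ∀ v : F, S.VT n y v → ∀ β,
    (∑ i, ∑ A, S.vec (S.g i) A β (S.XX n y i A v)) +
      ((3 / ry y ^ 2 : ℝ) : ℂ) • S.B β (cone n y) v = 0

/-- **D-Est** the main pointwise estimate, `z = √(2V)/(κρ)`.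
PROOF. `Q^m_β(φv) = φ(E²+E^{-1}+E^m)`, `E² = (i/κ)∑∂_{iA}(V/ρ)(γ^iθ^A)_βv + W_βv`, `E^{-1} = -i(γθ∂)_βv - (3i/ρ²)B_β(x)v`,
`E^m = m(M_β(x) + i∑a_ix_i^A(γ^iθ^A)_β)v`, homogeneous of degree `2,-1,1`; so let `ρ = 1`. D-dec: `x = x_c+z`, `|z| ≤ C√V`, small. The
segment `x_c+sz` stays in a fixed compact subset of `{ρ6 > 0}` if `ε(δ)` is small. `E^{-1}(x_c) = 0` (D-3, D-M3), `E^m(x_c) = 0` (VN); smoothness gives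
`|E^{-1}|,|E^m|/m ≤ C|z|`. `f(s) = E²(x_c+sz)`: `f(0)=f'(0)=f''(0)=0` by D-M12: `∂(V2/ρ) = 2(ρ²x-Gx)/ρ - V2x/ρ³ = 2rz+(|z|²/r)x_c+O(|z|³)`
(`V = ½κ²V2`), `v = ω - (1/2κr)F(z)ω + O(|z|²)`; so `|E²| ≤ C|z|³`. Norm bounds: D-norm and continuity. -/
def EstStmt (S : Setup F) : Prop := ∀ Ω : F, Ω ≠ 0 → (∀ A α, S.am A α Ω = 0) →
  ∃ c : ℝ, 0 < c ∧ ∀ δ : ℝ, 0 < δ → ∃ ε C : ℝ, 0 < ε ∧ 0 < C ∧ ∀ x : X3, x ≠ 0 →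
    δ ^ 2 * ‖x‖ ^ 2 ≤ rho6sq x → S.V x ≤ ε ^ 2 * ‖x‖ ^ 4 →
    (c / 2 ≤ ‖S.vv Ω x‖ ∧ ‖S.vv Ω x‖ ≤ 2 * c) ∧ ∀ m : ℝ, 0 ≤ m → ∀ β,
      ‖S.Qm m β (fun y => ((S.ph m y : ℝ) : ℂ) • S.vv Ω y) x‖ ≤ C * S.ph m x *
        ((S.V x) ^ (3 / 2 : ℝ) / ‖x‖ ^ 4 + Real.sqrt (S.V x) / ‖x‖ ^ 3 +
          m * Real.sqrt (S.V x) / ‖x‖)

/-- **D-Int** volumes near the cone. `L(t) = ∫_{1≤|y|≤2} e^{-tV(y)}dy ~ t^{-8}`.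
PROOF. (1) at least one `i` has `|x_i| ≥ |x|/3`; there `V ≥ ½κ²∑_{j≠i}|x_i×x_j|² ≥ (κ²/18)·∑_{j≠i}|x_j^⊥|²` (`⊥` to `x_i`, `|x|≥1`); integrate over
`x_j`, `j≠i` for fixed `x_i` (rotate `x_i/|x_i|` to `e_3`; measure preserving): `∫_{ℝ^16}e^{-ct|z|²} = Ct^{-8}`. (2) if `ρ6 ≤ δρ`, `δ<1/3`, then `i ∈ I3`,
and the parallel components `x_a^∥`, `a∈I6` lie in a ball of radius `2δ` in `ℝ⁶`. (3) lower bound: `x_3 ∈ ℝ³` (an index in `I6`) with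
`5/4≤|x_3|≤3/2`, `|x_j^∥| ≤ 1/10`, `|x_j^⊥| ≤ c t^{-1/2}` for `j≠3` (rotate again). -/
def IntStmt (S : Setup F) : Prop := ∀ k : ℝ, 0 < k → ∃ C : ℝ, 0 < C ∧
  (∀ t : ℝ, 1 ≤ t → ∫ x : X3, (if 1 ≤ ‖x‖ ∧ ‖x‖ ≤ 2 then Real.exp (-(k * t * S.V x)) else 0) ≤
    C * t ^ (-8 : ℝ)) ∧
  (∀ t δ : ℝ, 1 ≤ t → 0 < δ → δ ≤ 1 / 10 → ∫ x : X3, (if 1 ≤ ‖x‖ ∧ ‖x‖ ≤ 2 ∧ rho6sq x ≤ δ ^ 2 * ‖x‖ ^ 2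
    then Real.exp (-(k * t * S.V x)) else 0) ≤ C * δ ^ 6 * t ^ (-8 : ℝ)) ∧
  (∀ t : ℝ, 1 ≤ t → t ^ (-8 : ℝ) ≤ C * ∫ x : X3, (if 1 ≤ ‖x‖ ∧ ‖x‖ ≤ 2 ∧ ‖x‖ ^ 2 / 4 ≤ rho6sq x ∧
    S.V x ≤ 1 / t then 1 else 0))

/-- **D-Out** the outer state. PROOF. `u = χφ_mv`, `χ = h_1(ρ√m/c0)h_3(ρ√m/K)h_2(ρ6/(δρ))h_4(V/(ε²ρ⁴))`: `h_1 = 0` for `ρ ≤ c0m^{-1/2}`, `1` for
`ρ ≥ 2c0m^{-1/2}`; `h_3 = 1` for `ρ ≤ Km^{-1/2}`, `0` for `ρ≥2Km^{-1/2}`; `h_2 = 0` for `ρ6≤δρ`, `1` for `ρ6≥2δρ`; `h_4 = 1` for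
`V ≤ ε²ρ⁴/4`, `0` for `V≥ε²ρ⁴`. Invariance: D-sm, all other factors depend on `ρ,ρ6,V` only. `∑‖Q(χφv)‖² ≤ 2∑∫χ²|Q(φv)|² + 16∫|∇χ|²φ²|v|²`.
Let `N = m^{-9/2}`. D-Int on dyadic shells `ρ ∈ [r,2r]`: `x = ry'`: `∫_{shell}e^{-2V/(κρ)} ≤ r^27·C(r³)^{-8} = Cr³`, so `∫_{shell}φ_m² ≤ Cr⁹e^{-mr²}`;
weights: `V^ke^{-V/(κρ)} ≤ C_kρ^k`. (i) lower bound: shell `r = m^{-1/2}`, `ρ6≥ρ/2`, `V/ρ ≤ C`: `nsq u ≥ cN`. (ii) D-Est terms: `≤ C(c0,K,δ)m^{5/2}N`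
(`V³/ρ⁸ ~ ρ^{-5}`, `V/ρ⁶ ~ ρ^{-5}`, `m²V/ρ² ~ m²/ρ`). (iii) `h_1`: `C(c0m^{-1/2})⁷ = Cc0⁷mN`; `h_3`: `CK⁷e^{-K²/2}mN`; `h_2`: `Cδ^{-2}·δ⁶∑_r r⁷e^{-mr²} ≤ Cδ⁴mN`
(constants `C` independent of `δ,c0,K` because `‖v‖` is between `c/2` and `2c`); `h_4`: `C(…)e^{-c'm^{-3/2}}`. Choose `δ,c0` small, `K` large so that (iii) `≤ ηmcN/4`, then
`ε(δ)`, then `m` small. -/
def OutStmt (S : Setup F) : Prop := ∀ Ω : F, Ω ≠ 0 → (∀ A α, S.am A α Ω = 0) →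
  ∀ η : ℝ, 0 < η → ∃ c0 m0 : ℝ, 0 < c0 ∧ 0 < m0 ∧ ∀ m : ℝ, 0 < m → m < m0 → ∃ u : X3 → F,
    S.Inv u ∧ (∀ x, ‖x‖ ≤ c0 / Real.sqrt m → u x = 0) ∧ 0 < nsq u ∧
    ∑ β, nsq (S.Qm m β u) ≤ η * m * nsq u

/-- **D-zm** zero modes of `H_2` are invariant, have second moments. (landed: `weak_J`, `decay`, `wineq`) -/
def ZmStmt (S : Setup F) : Prop := ∀ Ψ : Lp F 2 (volume : Measure X3), S.IsZM Ψ →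
  S.Em 0 Ψ ∧ Integrable (fun x : X3 => ‖x‖ ^ 2 * ‖Ψ x‖ ^ 2)

/-- **D-Inv** the case `m = 0`, `Θ = 0` of B8 together with a bound for the second moment of `u`
(`u = χ_R(ρ_ε*Ψ)`, `∫|x|²|u|² ≤ 2∫(|x|²+1)|Ψ|²`). -/
def InvMomStmt (S : Setup F) : Prop := ∀ Ψ : X3 → F,
  MemLp Ψ 2 (volume : Measure X3) → S.wG Ψ → S.wJ Ψ → (∀ β, S.wQ 0 β Ψ (fun _ => 0)) →
  Integrable (fun x => ‖x‖ ^ 2 * ‖Ψ x‖ ^ 2) →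
  ∃ C : ℝ, ∀ R : ℝ, 1 ≤ R → ∀ δ : ℝ, 0 < δ → ∃ u : X3 → F, S.Inv u ∧
    (∀ x, R ≤ ‖x‖ → u x = 0) ∧
    nsq (fun x => u x - Ψ x) ≤ δ + C * (∫ x, (if R / 4 ≤ ‖x‖ then ‖Ψ x‖ ^ 2 else 0)) ∧
    ∑ β, nsq (S.Qm 0 β u) ≤ δ +
      C / R ^ 2 * (∫ x, (if R / 4 ≤ ‖x‖ then ‖Ψ x‖ ^ 2 else 0)) ∧
    ∫ x, ‖x‖ ^ 2 * ‖u x‖ ^ 2 ≤ C

/-- **Theorem D** PROOF. `Ψ_1,Ψ_2` independent zero modes (D-zm), D-Inv with `R = c0m^{-1/2}`, `δ = m²`: `u_1,u_2` invariant, supported in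
`‖x‖<R`, `∑‖Q_βu_j‖² = o(m)`, `∫|x|²|u_j|² ≤ C`, so `∑‖Q^m_βu_j‖² = o(m)`; `u_3` from D-Out with `η = 4`, zero for `‖x‖≤R`. Supports are disjoint, so for
`u = ∑a_ju_j` both `nsq u` and `∑nsq(Q^m_βu)` split. -/
def ThmDStmt (S : Setup F) : Prop := S.Irr → (∃ v : F, v ≠ 0) →
  ∀ Ψ₁ Ψ₂ : Lp F 2 (volume : Measure X3), S.IsZM Ψ₁ → S.IsZM Ψ₂ → LinearIndependent ℂ ![Ψ₁, Ψ₂] →
  ∃ m : ℝ, 0 < m ∧ S.Low m (8 * m)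

/-- **Uniqueness**: B + C + D. -/
def UniqStmt (S : Setup F) : Prop := S.Irr → (∃ v : F, v ≠ 0) →
  ∀ Ψ₁ Ψ₂ : Lp F 2 (volume : Measure X3), S.IsZM Ψ₁ → S.IsZM Ψ₂ → ¬ LinearIndependent ℂ ![Ψ₁, Ψ₂]

end U
end Vale.Agent.P353
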