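import Vale.Agent.P353.U.StmtB
import Vale.Agent.P353.U.StmtC
import Vale.Agent.P353.U.StmtD
import Vale.Agent.P353.BFSSLight
import Vale.Agent.P353.BridgeB

/-! # P353, uniqueness for `N = 2`: final assembly from the theorems B, C, D -/

open MeasureTheory Filter Topology
open scoped ContDiff

namespace Vale.Agent.P353

variable {F : Type*} [NormedAddCommGroup F] [InnerProductSpace ℂ F]

namespace U

theorem uniq_of {S : Setup F} (hB : ThmBStmt S) (hC : ThmCStmt S) (hD : ThmDStmt S) :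
    UniqStmt S := by
  intro hirr hne Ψ₁ Ψ₂ h1 h2 hlin
  obtain ⟨m, hm, hlow⟩ := hD hirr hne Ψ₁ Ψ₂ h1 h2 hlin
  obtain ⟨m', hm', h3⟩ := hC hirr hne
  obtain ⟨ε, hε, hn⟩ := h3 m' le_rfl
  exact hn (hB m hm hlow m' hm' ε hε)

theorem toSetup_irr (M : Model 2 3 F) : M.toSetup.Irr := fun W hW => M.θ_irreducible W hW

/-- two zero-energy states are proportional -/
theorem prop_of (M : Model 2 3 F) (hU : UniqStmt M.toSetup)
    {Ψ₁ Ψ₂ : Lp F 2 (volume : Measure X3)} (h1 : M.IsZeroEnergyState Ψ₁)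
    (h2 : M.IsZeroEnergyState Ψ₂) (hne : Ψ₁ ≠ 0) : ∃ c : ℂ, Ψ₂ = c • Ψ₁ := by
  have hF : FiniteDimensional ℂ F := M.finiteDimensional
  have h := hU (toSetup_irr M) M.nontrivial Ψ₁ Ψ₂ (isZM_of_zeroEnergy M h1)
    (isZM_of_zeroEnergy M h2)
  rw [LinearIndependent.pair_iff' hne] at h
  push Not at h
  obtain ⟨c, hc⟩ := h
  exact ⟨c, hc.symm⟩

end U

namespace BFSS

/-- uniqueness for the `SU(2)` model, from `UniqStmt` -/
theorem unique_state (M : Model 2 3 F) (hU : U.UniqStmt M.toOld.toSetup) {Ψ₁ Ψ₂ : Conf 3 → F}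
    (h1 : M.IsZeroEnergyState Ψ₁) (h2 : M.IsZeroEnergyState Ψ₂)
    (hne : ¬ (∀ᵐ x ∂leb 3, Ψ₁ x = 0)) : ∃ c : ℂ, ∀ᵐ x ∂leb 3, Ψ₂ x = c • Ψ₁ x := by
  have m1 : MemLp Ψ₁ 2 (volume : Measure (Conf 3)) := h1.1
  have m2 : MemLp Ψ₂ 2 (volume : Measure (Conf 3)) := h2.1
  have z1 := (M.zes_iff Ψ₁ m1).mp h1
  have z2 := (M.zes_iff Ψ₂ m2).mp h2
  have hne' : m1.toLp Ψ₁ ≠ 0 := by
    intro h
    refine hne ?_
    have h3 := m1.coeFn_toLp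
    rw [h] at h3
    rw [leb]
    filter_upwards [h3, Lp.coeFn_zero F 2 (volume : Measure (Conf 3))] with x hx hx'
    rw [← hx, hx', Pi.zero_apply]
  obtain ⟨c, hc⟩ := U.prop_of M.toOld hU z1 z2 hne'
  refine ⟨c, ?_⟩
  have h3 := Lp.coeFn_smul c (m1.toLp Ψ₁)
  rw [← hc] at h3
  rw [leb]
  filter_upwards [h3, m1.coeFn_toLp, m2.coeFn_toLp] with x hx hx1 hx2
  rw [← hx2, hx, Pi.smul_apply, hx1]

/-- the kernel is one dimensional, from existence and `UniqStmt` -/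
theorem one_state (M : Model 2 3 F) (hU : U.UniqStmt M.toOld.toSetup)
    (hE : ∃ Ψ : Conf 3 → F, M.IsZeroEnergyState Ψ ∧ ¬ (∀ᵐ x ∂leb 3, Ψ x = 0)) :
    ∃ Φ : Conf 3 → F, M.IsZeroEnergyState Φ ∧ ¬ (∀ᵐ x ∂leb 3, Φ x = 0) ∧
      ∀ Ψ, M.IsZeroEnergyState Ψ → ∃ c : ℂ, ∀ᵐ x ∂leb 3, Ψ x = c • Φ x := by
  obtain ⟨Φ, h1, h2⟩ := hE
  exact ⟨Φ, h1, h2, fun Ψ hΨ => unique_state M hU h1 hΨ h2⟩

end BFSS
end Vale.Agent.P353
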