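import Vale.Agent.P353.U.StmtA
import Vale.Agent.P353.U.StmtB
import Vale.Agent.P353.Exact

/-! # P353, uniqueness for `N = 2`: the gap (B7) -/

open MeasureTheory Filter Topology
open scoped ContDiff

namespace Vale.Agent.P353.U

variable {F : Type*} [NormedAddCommGroup F] [InnerProductSpace ℂ F]

/-! ### the pairing -/

/-- the `L²` pairing -/
noncomputable def Pr (f g : X3 → F) : ℂ := ∫ x, inner ℂ (f x) (g x)

lemma Pr_congr_left {f f' g : X3 → F} (h : ∀ x, f x = f' x) : Pr f g = Pr f' g := by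
  have : f = f' := funext h
  rw [this]

lemma Pr_congr_right {f g g' : X3 → F} (h : ∀ x, g x = g' x) : Pr f g = Pr f g' := by
  have : g = g' := funext h
  rw [this]

lemma Pr_add_left {a b g : X3 → F} (ha : MemLp a 2 (volume : Measure X3))
    (hb : MemLp b 2 (volume : Measure X3)) (hg : MemLp g 2 (volume : Measure X3)) :
    Pr (fun x => a x + b x) g = Pr a g + Pr b g := by
  unfold Pr
  simp only [inner_add_left]
  exact integral_add (integrable_inner_memLp ha hg) (integrable_inner_memLp hb hg)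

lemma Pr_sub_left {a b g : X3 → F} (ha : MemLp a 2 (volume : Measure X3))
    (hb : MemLp b 2 (volume : Measure X3)) (hg : MemLp g 2 (volume : Measure X3)) :
    Pr (fun x => a x - b x) g = Pr a g - Pr b g := by
  unfold Pr
  simp only [inner_sub_left]
  exact integral_sub (integrable_inner_memLp ha hg) (integrable_inner_memLp hb hg)

lemma Pr_smul_left (c : ℂ) (a g : X3 → F) :
    Pr (fun x => c • a x) g = (starRingEnd ℂ) c * Pr a g := by
  unfold Pr
  simp only [inner_smul_left]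
  exact integral_const_mul _ _

lemma Pr_smul_right (c : ℂ) (a g : X3 → F) :
    Pr a (fun x => c • g x) = c * Pr a g := by
  unfold Pr
  simp only [inner_smul_right]
  exact integral_const_mul _ _

lemma Pr_sum_left {ι : Type*} (s : Finset ι) {a : ι → X3 → F} {g : X3 → F}
    (ha : ∀ i, MemLp (a i) 2 (volume : Measure X3)) (hg : MemLp g 2 (volume : Measure X3)) :
    Pr (fun x => ∑ i ∈ s, a i x) g = ∑ i ∈ s, Pr (a i) g := by
  unfold Pr
  simp only [sum_inner]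
  exact integral_finsetSum _ fun i _ => integrable_inner_memLp (ha i) hg

lemma Pr_sum_right {ι : Type*} (s : Finset ι) {a : ι → X3 → F} {g : X3 → F}
    (ha : ∀ i, MemLp (a i) 2 (volume : Measure X3)) (hg : MemLp g 2 (volume : Measure X3)) :
    Pr g (fun x => ∑ i ∈ s, a i x) = ∑ i ∈ s, Pr g (a i) := by
  unfold Pr
  simp only [inner_sum]
  exact integral_finsetSum _ fun i _ => integrable_inner_memLp hg (ha i)

lemma Pr_lin_right {ι : Type*} [Fintype ι] (η : ι → ℂ) {a : ι → X3 → F} {g : X3 → F}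
    (ha : ∀ i, MemLp (a i) 2 (volume : Measure X3)) (hg : MemLp g 2 (volume : Measure X3)) :
    Pr g (fun x => ∑ i, η i • a i x) = ∑ i, η i * Pr g (a i) := by
  have h : ∀ i, MemLp (fun x => η i • a i x) 2 (volume : Measure X3) :=
    fun i => (ha i).const_smul (η i)
  rw [Pr_sum_right Finset.univ h hg]
  exact Finset.sum_congr rfl fun i _ => Pr_smul_right _ _ _

lemma Pr_lin_left {ι : Type*} [Fintype ι] (η : ι → ℂ) {a : ι → X3 → F} {g : X3 → F}
    (ha : ∀ i, MemLp (a i) 2 (volume : Measure X3)) (hg : MemLp g 2 (volume : Measure X3)) :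
    Pr (fun x => ∑ i, η i • a i x) g = ∑ i, (starRingEnd ℂ) (η i) * Pr (a i) g := by
  have h : ∀ i, MemLp (fun x => η i • a i x) 2 (volume : Measure X3) :=
    fun i => (ha i).const_smul (η i)
  rw [Pr_sum_left Finset.univ h hg]
  exact Finset.sum_congr rfl fun i _ => Pr_smul_left _ _ _

lemma memLp_lin {ι : Type*} [Fintype ι] (η : ι → ℂ) {a : ι → X3 → F}
    (ha : ∀ i, MemLp (a i) 2 (volume : Measure X3)) :
    MemLp (fun x => ∑ i, η i • a i x) 2 (volume : Measure X3) :=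
  memLp_finsetSum Finset.univ fun i _ => (ha i).const_smul (η i)

lemma Pr_zero_left (g : X3 → F) : Pr (fun _ => 0) g = 0 := by
  simp [Pr]

lemma Pr_self (g : X3 → F) : Pr g g = ((nsq g : ℝ) : ℂ) := by
  unfold Pr nsq
  rw [← integral_complex_ofReal]
  refine integral_congr_ae (Filter.Eventually.of_forall fun x => ?_)
  simp only [inner_self_eq_norm_sq_to_K]
  norm_cast

lemma Pr_eq_zero_of_nsq {f g : X3 → F} (hf : MemLp f 2 (volume : Measure X3))
    (hg : MemLp g 2 (volume : Measure X3)) (h : nsq g = 0) : Pr f g = 0 := by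
  have h1 := cs_inner hf hg
  rw [nsq] at h
  rw [h, Real.sqrt_zero, mul_zero] at h1
  exact norm_le_zero_iff.mp h1

/-! ### closure properties of test functions -/

lemma Tst_smul {u : X3 → F} (c : ℂ) (hu : Setup.Tst u) : Setup.Tst (fun x => c • u x) := by
  refine ⟨contDiff_const.smul hu.1, hu.2.mono ?_⟩
  intro x hx
  simp only [Function.mem_support] at hx ⊢
  intro h0
  exact hx (by rw [h0, smul_zero])

lemma Tst_zero : Setup.Tst (fun _ => 0 : X3 → F) :=
  ⟨contDiff_const, HasCompactSupport.zero⟩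

lemma Tst_sum {ι : Type*} (s : Finset ι) {u : ι → X3 → F} (hu : ∀ i, Setup.Tst (u i)) :
    Setup.Tst (fun x => ∑ i ∈ s, u i x) := by
  classical
  induction s using Finset.induction_on with
  | empty => simpa using Tst_zero
  | insert a s ha ih =>
    have : (fun x => ∑ i ∈ insert a s, u i x) = fun x => u a x + ∑ i ∈ s, u i x := by
      funext x; rw [Finset.sum_insert ha]
    rw [this]
    exact (hu a).add ih

variable (S : Setup F)

lemma gap_contDiff_MM (β : Fin 16) : ContDiff ℝ ∞ (S.MM β) := by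
  unfold Setup.MM
  refine ContDiff.sum fun i _ => ContDiff.sum fun A _ => ?_
  exact (Setup.contDiff_ofReal (contDiff_const.mul (Setup.contDiff_coord _))).smul contDiff_const

lemma contDiff_Qm (m : ℝ) (β : Fin 16) {u : X3 → F} (hu : ContDiff ℝ ∞ u) :
    ContDiff ℝ ∞ (S.Qm m β u) := by
  unfold Setup.Qm
  exact (S.contDiff_Q β hu).add
    (contDiff_const.smul (Setup.contDiff_clm_apply' (gap_contDiff_MM S β) hu))

lemma Tst_Qm (m : ℝ) (β : Fin 16) {u : X3 → F} (hu : Setup.Tst u) : Setup.Tst (S.Qm m β u) := by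
  have h := (hu.Q S β).add (Tst_smul (m : ℂ) (Setup.Tst.clm (gap_contDiff_MM S β) hu))
  exact h

lemma Tst_G (C : Fin 3) {u : X3 → F} (hu : Setup.Tst u) : Setup.Tst (S.G C u) := by
  have h1 : Setup.Tst (fun x => (-Complex.I) • ∑ i, ∑ A, ∑ B,
      ((eps C A B : ℂ) * (x (i, A) : ℂ)) • pd i B u x) := by
    refine Tst_smul _ (Tst_sum _ fun i => Tst_sum _ fun A => Tst_sum _ fun B => ?_)
    have h2 := Tst_smul (eps C A B : ℂ) (Setup.Tst.rsmul
      (Setup.contDiff_coord (i, A)) (hu.pd i B))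
    have h3 : (fun x : X3 => ((eps C A B : ℂ) * (x (i, A) : ℂ)) • pd i B u x) =
        fun x => (eps C A B : ℂ) • (((x (i, A) : ℝ) : ℂ) • pd i B u x) := by
      funext x; rw [mul_smul]
    rw [h3]
    exact h2
  exact h1.add (Setup.Tst.clm (T := fun _ => S.cS C) contDiff_const hu)

lemma Tst_Hm (hA7 : A7Stmt S) (m : ℝ) {u : X3 → F} (hu : Setup.Tst u) :
    Setup.Tst (S.Hm m u) := by
  have h : S.Hm m u = fun x => (1 / 16 : ℂ) • ∑ β, S.Qm m β (S.Qm m β u) x := by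
    funext x
    rw [hA7 m u hu.1 x, smul_smul]
    norm_num
  rw [h]
  exact Tst_smul _ (Tst_sum _ fun β => Tst_Qm S m β (Tst_Qm S m β hu))

/-! ### commutators with the gauge generators -/

lemma eps_aba (C A : Fin 3) : eps C A C = 0 := by
  revert A C; decide

lemma eps_aab (C A : Fin 3) : eps C C A = 0 := by
  revert A C; decide

/-- `G_C (x_j^C u) = x_j^C G_C u` -/
lemma G_coord (C : Fin 3) (j : Fin 9) {u : X3 → F} (hu : ContDiff ℝ ∞ u) (x : X3) :
    S.G C (fun y => ((y (j, C) : ℝ) : ℂ) • u y) x = ((x (j, C) : ℝ) : ℂ) • S.G C u x := by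
  have hd : DifferentiableAt ℝ u x := (hu.differentiable (by simp)) x
  have hc : DifferentiableAt ℝ (fun y : X3 => y (j, C)) x :=
    ((Setup.contDiff_coord (j, C)).differentiable (by simp)) x
  have hL : ∀ (i : Fin 9) (B : Fin 3), fderiv ℝ (fun y : X3 => y (j, C)) x
      (EuclideanSpace.single (i, B) (1 : ℝ)) = if (j, C) = (i, B) then 1 else 0 := by
    intro i B
    have h1 : (fun y : X3 => y (j, C)) = (EuclideanSpace.proj (𝕜 := ℝ) (j, C) : X3 →L[ℝ] ℝ) := rfl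
    rw [h1, ContinuousLinearMap.fderiv]
    by_cases h : (j, C) = (i, B)
    · simp [h]
    · simp [h]
  have hp : ∀ i B, pd i B (fun y => ((y (j, C) : ℝ) : ℂ) • u y) x =
      (((if (j, C) = (i, B) then 1 else 0 : ℝ)) : ℂ) • u x + ((x (j, C) : ℝ) : ℂ) • pd i B u x := by
    intro i B
    rw [pd_rsmul hc hd, hL]
  have hz : ∑ i : Fin 9, ∑ A : Fin 3, ∑ B : Fin 3, ((eps C A B : ℂ) * (x (i, A) : ℂ)) •
      ((((if (j, C) = (i, B) then 1 else 0 : ℝ)) : ℂ) • u x) = 0 := by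
    refine Finset.sum_eq_zero fun i _ => Finset.sum_eq_zero fun A _ =>
      Finset.sum_eq_zero fun B _ => ?_
    by_cases h : (j, C) = (i, B)
    · have hB : B = C := (Prod.mk.inj h).2.symm
      rw [hB, eps_aba]; simp
    · rw [if_neg h]; simp
  simp only [Setup.G, hp, smul_add, Finset.sum_add_distrib, hz, zero_add, map_smul]
  congr 1
  rw [smul_comm]
  congr 1
  simp only [Finset.smul_sum]
  refine Finset.sum_congr rfl fun i _ => Finset.sum_congr rfl fun A _ =>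
    Finset.sum_congr rfl fun B _ => ?_
  rw [smul_comm]

/-- `∑_C G_C θ_α^C = ∑_C θ_α^C G_C` -/
lemma G_th (α : Fin 16) {u : X3 → F} (hu : ContDiff ℝ ∞ u) (x : X3) :
    ∑ C, S.G C (fun y => S.th α C (u y)) x = ∑ C, S.th α C (S.G C u x) := by
  have hd : DifferentiableAt ℝ u x := (hu.differentiable (by simp)) x
  have hp : ∀ C i B, pd i B (fun y => S.th α C (u y)) x = S.th α C (pd i B u x) :=
    fun C i B => pd_clm _ hd
  have h1 : ∀ C, S.G C (fun y => S.th α C (u y)) x =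
      S.th α C (S.G C u x) + (S.cS C (S.th α C (u x)) - S.th α C (S.cS C (u x))) := by
    intro C
    simp only [Setup.G, hp, map_add, map_smul, map_sum]
    abel
  have h2 : ∀ C, S.cS C (S.th α C (u x)) - S.th α C (S.cS C (u x)) = 0 := by
    intro C
    have h3 := S.toCS.vec_comm_sG 1 C α C
    have h4 : ∑ E, (eps C C E : ℂ) • S.toCS.vec 1 E α = 0 := by
      refine Finset.sum_eq_zero fun E _ => ?_
      rw [eps_aab]; simp
    rw [h4, smul_zero, S.toCS.vec_one, ← Setup.cS_eq] at h3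
    have h5 := congrArg (fun T : F →L[ℂ] F => T (u x)) h3
    simp only [_root_.sub_apply, mul_apply_eq_comp, _root_.zero_apply] at h5
    rw [← neg_sub, h5, neg_zero]
  simp only [h1, h2, add_zero]

/-! ### weak forms of the commutation relations -/

lemma Pr_xG {X : X3 → F} (hG : S.wG X) (j : Fin 9) (C : Fin 3) {f : X3 → F}
    (hf : Setup.Tst f) : Pr (fun x => ((x (j, C) : ℝ) : ℂ) • S.G C f x) X = 0 := by
  rw [Pr_congr_left (fun x => (G_coord S C j hf.1 x).symm)]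
  exact hG C _ (Setup.Tst.rsmul (Setup.contDiff_coord _) hf)

lemma Pr_thG {X : X3 → F} (hX : MemLp X 2 (volume : Measure X3)) (hG : S.wG X) (α : Fin 16)
    {f : X3 → F} (hf : Setup.Tst f) : Pr (fun x => ∑ C, S.th α C (S.G C f x)) X = 0 := by
  rw [Pr_congr_left (fun x => (G_th S α hf.1 x).symm)]
  have h1 : ∀ C, Setup.Tst (fun y => S.th α C (f y)) := fun C =>
    Setup.Tst.clm (T := fun _ => S.th α C) contDiff_const hf
  rw [Pr_sum_left Finset.univ (fun C => (Tst_G S C (h1 C)).memLp) hX]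
  exact Finset.sum_eq_zero fun C _ => hG C _ (h1 C)

lemma g2_conj (k l : Fin 9) (α β : Fin 16) :
    (starRingEnd ℂ) (S.g2 k l α β) = S.g2 k l α β :=
  Complex.conj_eq_iff_im.mpr (S.g2_im k l α β)

lemma Gam_conj (α β : Fin 16) : (starRingEnd ℂ) (S.Gam α β) = S.Gam α β :=
  Complex.conj_eq_iff_im.mpr (S.Gam_real α β)

lemma Gg2_conj (k l : Fin 9) (α β : Fin 16) :
    (starRingEnd ℂ) ((S.Gam * S.g2 k l) α β) = (S.Gam * S.g2 k l) α β :=
  Complex.conj_eq_iff_im.mpr (Setup.mul_im_zero (S.Gam_real) (S.g2_im k l) α β)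

/-- **A1** in weak form -/
lemma A1w (hA1 : A1Stmt S) (hA7 : A7Stmt S) (m : ℝ) {X : X3 → F}
    (hX : MemLp X 2 (volume : Measure X3)) (hG : S.wG X) {f : X3 → F} (hf : Setup.Tst f)
    (α β : Fin 16) :
    Pr (S.Qm m α (S.Qm m β f)) X + Pr (S.Qm m β (S.Qm m α f)) X =
      (if α = β then 2 * Pr (S.Hm m f) X else 0) +
      (m : ℂ) * ∑ i, ∑ j, ((rc i j : ℂ) * (S.Gam * S.g2 i j) α β) * Pr (S.J i j f) X := by
  have ht1 := (Tst_Qm S m α (Tst_Qm S m β hf)).memLp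
  have ht2 := (Tst_Qm S m β (Tst_Qm S m α hf)).memLp
  rw [← Pr_add_left ht1 ht2 hX, Pr_congr_left (fun x => hA1 m α β f hf.1 x)]
  have e1 : Setup.Tst (fun x => if α = β then (2 : ℂ) • S.Hm m f x else 0) := by
    by_cases h : α = β
    · simp only [h, if_true]
      exact Tst_smul _ (Tst_Hm S hA7 m hf)
    · simp only [h, if_false]
      exact Tst_zero
  have e2' : ∀ i j, Setup.Tst (fun x => ((rc i j : ℂ) * (S.Gam * S.g2 i j) α β) • S.J i j f x) :=
    fun i j => Tst_smul _ (hf.J S i j)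
  have e2 : Setup.Tst (fun x => (m : ℂ) • (∑ i, ∑ j,
      ((rc i j : ℂ) * (S.Gam * S.g2 i j) α β) • S.J i j f x)) :=
    Tst_smul _ (Tst_sum _ fun i => Tst_sum _ fun j => e2' i j)
  have e3'' : ∀ j C, Setup.Tst (fun x : X3 => ((x (j, C) : ℝ) : ℂ) • S.G C f x) := fun j C =>
    Setup.Tst.rsmul (Setup.contDiff_coord _) (Tst_G S C hf)
  have e3' : ∀ j C, Setup.Tst (fun x : X3 => (S.g j α β * (x (j, C) : ℂ)) • S.G C f x) := by
    intro j C
    simp only [mul_smul]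
    exact Tst_smul _ (e3'' j C)
  have e3 : Setup.Tst (fun x => (2 * S.κ : ℂ) • ∑ j, ∑ C,
      (S.g j α β * (x (j, C) : ℂ)) • S.G C f x) :=
    Tst_smul _ (Tst_sum _ fun j => Tst_sum _ fun C => e3' j C)
  rw [Pr_add_left (e1.add e2).memLp e3.memLp hX, Pr_add_left e1.memLp e2.memLp hX]
  have h3 : Pr (fun x => (2 * S.κ : ℂ) • ∑ j, ∑ C,
      (S.g j α β * (x (j, C) : ℂ)) • S.G C f x) X = 0 := by
    rw [Pr_smul_left, Pr_sum_left Finset.univ (fun j => (Tst_sum _ fun C => e3' j C).memLp) hX]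
    have : ∀ j, Pr (fun x => ∑ C, (S.g j α β * (x (j, C) : ℂ)) • S.G C f x) X = 0 := by
      intro j
      rw [Pr_sum_left Finset.univ (fun C => (e3' j C).memLp) hX]
      refine Finset.sum_eq_zero fun C _ => ?_
      simp only [mul_smul]
      rw [Pr_smul_left, Pr_xG S hG j C hf, mul_zero]
    simp only [this, Finset.sum_const_zero, mul_zero]
  have h2 : Pr (fun x => (m : ℂ) • (∑ i, ∑ j,
      ((rc i j : ℂ) * (S.Gam * S.g2 i j) α β) • S.J i j f x)) X =
      (m : ℂ) * ∑ i, ∑ j, ((rc i j : ℂ) * (S.Gam * S.g2 i j) α β) * Pr (S.J i j f) X := by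
    rw [Pr_smul_left, Complex.conj_ofReal,
      Pr_sum_left Finset.univ (fun i => (Tst_sum _ fun j => e2' i j).memLp) hX]
    congr 1
    refine Finset.sum_congr rfl fun i _ => ?_
    rw [Pr_sum_left Finset.univ (fun j => (e2' i j).memLp) hX]
    refine Finset.sum_congr rfl fun j _ => ?_
    rw [Pr_smul_left, map_mul, Complex.conj_ofReal, Gg2_conj]
  have h1 : Pr (fun x => if α = β then (2 : ℂ) • S.Hm m f x else 0) X =
      if α = β then 2 * Pr (S.Hm m f) X else 0 := by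
    by_cases h : α = β
    · simp only [h, if_true]
      rw [Pr_smul_left, Complex.conj_ofNat]
    · simp only [h, if_false]
      exact Pr_zero_left X
  rw [h1, h2, h3, add_zero]

/-- weak eigenfunctions in terms of `H_m` -/
lemma wE_iff (hA7 : A7Stmt S) (m e : ℝ) {X : X3 → F} :
    S.wE m e X ↔ ∀ f, Setup.Tst f → 16 * Pr (S.Hm m f) X = e * Pr f X := by
  have h : ∀ f, Setup.Tst f → ∫ x, inner ℂ (∑ β, S.Qm m β (S.Qm m β f) x) (X x) =
      16 * Pr (S.Hm m f) X := by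
    intro f hf
    have h1 : ∫ x, inner ℂ (∑ β, S.Qm m β (S.Qm m β f) x) (X x) =
        Pr (fun x => ∑ β, S.Qm m β (S.Qm m β f) x) X := rfl
    rw [h1, Pr_congr_left (fun x => hA7 m f hf.1 x), Pr_smul_left, Complex.conj_ofNat]
  constructor
  · intro hE f hf
    rw [← h f hf]
    exact hE f hf
  · intro hE f hf
    rw [h f hf]
    exact hE f hf

/-- **A4** in weak form: `Q^ξ Ψ` is a weak eigenfunction -/
lemma A4w (hA4 : A4Stmt S) (hA7 : A7Stmt S) {m e : ℝ} {Ψ : X3 → F} {Φ : Fin 16 → X3 → F}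
    (hΨ : MemLp Ψ 2 (volume : Measure X3)) (hG : S.wG Ψ) (hE : S.wE m e Ψ)
    (hΦ : ∀ β, MemLp (Φ β) 2 (volume : Measure X3)) (hQ : ∀ β, S.wQ m β Ψ (Φ β))
    (ξ : Fin 16 → ℂ) (s : ℝ) (hξ : ∀ α, Complex.I * ∑ β, S.Gam α β * ξ β = s * ξ α) :
    S.wE m (e + 8 * s * m) (fun x => ∑ α, ξ α • Φ α x) := by
  rw [wE_iff S hA7] at hE ⊢
  intro f hf
  have hq : ∀ β g, Setup.Tst g → Pr (S.Qm m β g) Ψ = Pr g (Φ β) := fun β g hg => hQ β g hg
  have hR : ∀ g : X3 → F, Setup.Tst g → Pr g (fun x => ∑ α, ξ α • Φ α x) =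
      ∑ α, ξ α * Pr g (Φ α) := by
    intro g hg
    exact Pr_lin_right ξ hΦ hg.memLp
  rw [hR _ (Tst_Hm S hA7 m hf), hR _ hf]
  have key : ∀ α, 16 * Pr (S.Hm m f) (Φ α) = e * Pr f (Φ α) -
      8 * Complex.I * m * ∑ β, S.Gam α β * Pr f (Φ β) := by
    intro α
    rw [← hq α _ (Tst_Hm S hA7 m hf)]
    have hc : ∀ x, S.Qm m α (S.Hm m f) x = S.Hm m (S.Qm m α f) x -
        ((-(Complex.I * m / 2)) • (∑ β, S.Gam α β • S.Qm m β f x)
          - (Complex.I * S.κ) • ∑ C, S.th α C (S.G C f x)) := by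
      intro x
      rw [← hA4 m α f hf.1 x]
      abel
    have t1 := Tst_Hm S hA7 m (Tst_Qm S m α hf)
    have t2' : ∀ β, Setup.Tst (fun x => S.Gam α β • S.Qm m β f x) := fun β =>
      Tst_smul _ (Tst_Qm S m β hf)
    have t2 : Setup.Tst (fun x => (-(Complex.I * m / 2)) • (∑ β, S.Gam α β • S.Qm m β f x)) :=
      Tst_smul _ (Tst_sum _ t2')
    have t3 : Setup.Tst (fun x => (Complex.I * S.κ) • ∑ C, S.th α C (S.G C f x)) :=
      Tst_smul _ (Tst_sum _ fun C => Setup.Tst.clm (T := fun _ => S.th α C) contDiff_const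
        (Tst_G S C hf))
    rw [Pr_congr_left hc, Pr_sub_left t1.memLp (t2.sub t3).memLp hΨ,
      Pr_sub_left t2.memLp t3.memLp hΨ, Pr_smul_left, Pr_smul_left, Pr_thG S hΨ hG α hf,
      Pr_sum_left Finset.univ (fun β => (t2' β).memLp) hΨ]
    have h4 : ∀ β, Pr (fun x => S.Gam α β • S.Qm m β f x) Ψ = S.Gam α β * Pr f (Φ β) := by
      intro β
      rw [Pr_smul_left, Gam_conj, hq β f hf]
    simp only [h4, mul_zero, sub_zero]
    have h5 : (starRingEnd ℂ) (-(Complex.I * m / 2)) = Complex.I * m / 2 := by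
      simp [Complex.conj_ofNat, neg_div]
    have h6 := hE _ (Tst_Qm S m α hf)
    rw [hq α f hf] at h6
    rw [h5]
    linear_combination h6
  have h7 : 16 * ∑ α, ξ α * Pr (S.Hm m f) (Φ α) = ∑ α, ξ α * (16 * Pr (S.Hm m f) (Φ α)) := by
    rw [Finset.mul_sum]
    exact Finset.sum_congr rfl fun α _ => by ring
  rw [h7]
  simp only [key, mul_sub, Finset.sum_sub_distrib]
  have h8 : ∑ α, ξ α * (8 * Complex.I * m * ∑ β, S.Gam α β * Pr f (Φ β)) =
      -(8 * s * m * ∑ α, ξ α * Pr f (Φ α)) := by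
    have h9 : ∑ α, ξ α * (8 * Complex.I * m * ∑ β, S.Gam α β * Pr f (Φ β)) =
        ∑ β, (8 * Complex.I * m * ∑ α, S.Gam α β * ξ α) * Pr f (Φ β) := by
      simp only [Finset.mul_sum, Finset.sum_mul]
      rw [Finset.sum_comm]
      refine Finset.sum_congr rfl fun β _ => Finset.sum_congr rfl fun α _ => ?_
      ring
    rw [h9, Finset.mul_sum, ← Finset.sum_neg_distrib]
    refine Finset.sum_congr rfl fun β _ => ?_
    have h10 : ∑ α, S.Gam α β * ξ α = -∑ α, S.Gam β α * ξ α := by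
      rw [← Finset.sum_neg_distrib]
      refine Finset.sum_congr rfl fun α _ => ?_
      have h11 : S.Gam α β = -S.Gam β α := by
        have := congrFun (congrFun S.Gam_transpose β) α
        rw [Matrix.transpose_apply, Matrix.neg_apply] at this
        exact this
      rw [h11]; ring
    rw [h10]
    linear_combination (-8 * m * Pr f (Φ β)) * hξ β
  rw [h8]
  have h12 : ∑ α, ξ α * ((e : ℂ) * Pr f (Φ α)) = e * ∑ α, ξ α * Pr f (Φ α) := by
    rw [Finset.mul_sum]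
    exact Finset.sum_congr rfl fun α _ => by ring
  rw [h12]
  push_cast
  ring

/-- **A2** in weak form -/
lemma A2w (hA2 : A2Stmt S) {m : ℝ} {Ψ : X3 → F} {Φ : Fin 16 → X3 → F}
    (hΨ : MemLp Ψ 2 (volume : Measure X3)) (hJ : S.wJ Ψ)
    (hΦ : ∀ β, MemLp (Φ β) 2 (volume : Measure X3)) (hQ : ∀ β, S.wQ m β Ψ (Φ β))
    (η : Fin 16 → ℂ) {k l : Fin 9} (hkl : Same k l) {f : X3 → F} (hf : Setup.Tst f) :
    Pr (S.J k l f) (fun x => ∑ α, η α • Φ α x) =
      (-Complex.I / 2) * ∑ α, (∑ β, S.g2 k l α β * η β) * Pr f (Φ α) := by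
  have hq : ∀ β g, Setup.Tst g → Pr (S.Qm m β g) Ψ = Pr g (Φ β) := fun β g hg => hQ β g hg
  rw [Pr_lin_right η hΦ (hf.J S k l).memLp]
  have key : ∀ α, η α * Pr (S.J k l f) (Φ α) =
      η α * ((Complex.I / 2) * ∑ β, S.g2 k l α β * Pr f (Φ β)) := by
    intro α
    rw [← hq α _ (hf.J S k l)]
    congr 1
    have hc : ∀ x, S.Qm m α (S.J k l f) x = S.J k l (S.Qm m α f) x -
        (Complex.I / 2) • ∑ β, S.g2 k l α β • S.Qm m β f x := by
      intro x
      rw [← hA2 m k l hkl α f hf.1 x]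
      abel
    have t1 := (Tst_Qm S m α hf).J S k l
    have t2' : ∀ β, Setup.Tst (fun x => S.g2 k l α β • S.Qm m β f x) := fun β =>
      Tst_smul _ (Tst_Qm S m β hf)
    have t2 : Setup.Tst (fun x => (Complex.I / 2) • (∑ β, S.g2 k l α β • S.Qm m β f x)) :=
      Tst_smul _ (Tst_sum _ t2')
    rw [Pr_congr_left hc, Pr_sub_left t1.memLp t2.memLp hΨ, Pr_smul_left,
      Pr_sum_left Finset.univ (fun β => (t2' β).memLp) hΨ]
    have h0 : Pr (S.J k l (S.Qm m α f)) Ψ = 0 := hJ k l hkl _ (Tst_Qm S m α hf)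
    have h4 : ∀ β, Pr (fun x => S.g2 k l α β • S.Qm m β f x) Ψ =
        S.g2 k l α β * Pr f (Φ β) := by
      intro β
      rw [Pr_smul_left, g2_conj, hq β f hf]
    have h5 : (starRingEnd ℂ) (Complex.I / 2) = -(Complex.I / 2) := by
      simp [Complex.conj_ofNat, neg_div]
    simp only [h0, h4, h5]
    ring
  rw [Finset.sum_congr rfl fun α _ => key α]
  have h9 : ∑ α, η α * ((Complex.I / 2) * ∑ β, S.g2 k l α β * Pr f (Φ β)) =
      ∑ β, ((Complex.I / 2) * ∑ α, S.g2 k l α β * η α) * Pr f (Φ β) := by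
    simp only [Finset.mul_sum, Finset.sum_mul]
    rw [Finset.sum_comm]
    refine Finset.sum_congr rfl fun β _ => Finset.sum_congr rfl fun α _ => ?_
    ring
  rw [h9, Finset.mul_sum]
  refine Finset.sum_congr rfl fun β _ => ?_
  have h10 : ∑ α, S.g2 k l α β * η α = -∑ α, S.g2 k l β α * η α := by
    rw [← Finset.sum_neg_distrib]
    refine Finset.sum_congr rfl fun α _ => ?_
    have h11 : S.g2 k l α β = -S.g2 k l β α := by
      have := congrFun (congrFun (S.g2_transpose k l) β) α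
      rw [Matrix.transpose_apply, Matrix.neg_apply] at this
      exact this
    rw [h11]; ring
  rw [h10]
  ring

/-- gauge invariance of `Q^η Ψ` -/
lemma A3w (hA3 : A3Stmt S) {m : ℝ} {Ψ : X3 → F} {Φ : Fin 16 → X3 → F}
    (hG : S.wG Ψ) (hΦ : ∀ β, MemLp (Φ β) 2 (volume : Measure X3))
    (hQ : ∀ β, S.wQ m β Ψ (Φ β)) (η : Fin 16 → ℂ) : S.wG (fun x => ∑ α, η α • Φ α x) := by
  intro C f hf
  have h1 : Pr (S.G C f) (fun x => ∑ α, η α • Φ α x) = 0 := by
    rw [Pr_lin_right η hΦ (Tst_G S C hf).memLp]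
    refine Finset.sum_eq_zero fun α _ => ?_
    have h2 : Pr (S.G C f) (Φ α) = 0 := by
      have h3 : Pr (S.Qm m α (S.G C f)) Ψ = Pr (S.G C f) (Φ α) := hQ α _ (Tst_G S C hf)
      rw [← h3, Pr_congr_left (fun x => (hA3 m C α f hf.1 x).symm)]
      exact hG C _ (Tst_Qm S m α hf)
    rw [h2, mul_zero]
  exact h1

lemma rc_J_zero {Ψ : X3 → F} (hJ : S.wJ Ψ) (i j : Fin 9) (α β : Fin 16) {f : X3 → F}
    (hf : Setup.Tst f) :
    ((rc i j : ℂ) * (S.Gam * S.g2 i j) α β) * Pr (S.J i j f) Ψ = 0 := by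
  by_cases hij : i = j
  · subst hij
    have : S.g2 i i = 0 := by simp [CS.g2]
    rw [this]; simp
  · by_cases hs : Same i j
    · have h1 : Pr (S.J i j f) Ψ = 0 := hJ i j hs f hf
      rw [h1, mul_zero]
    · have h2 : rc i j = 0 := by
        unfold rc
        unfold Same at hs
        rw [if_neg, if_neg]
        · rintro ⟨h3, h4⟩
          exact hs ⟨hij, ⟨fun h => by omega, fun h => by omega⟩⟩
        · rintro ⟨h3, h4⟩
          exact hs ⟨hij, ⟨fun h => h4, fun h => h3⟩⟩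
      rw [h2]; simp

lemma rc_J_eq (hA2 : A2Stmt S) {m : ℝ} {Ψ : X3 → F} {Φ : Fin 16 → X3 → F}
    (hΨ : MemLp Ψ 2 (volume : Measure X3)) (hJ : S.wJ Ψ)
    (hΦ : ∀ β, MemLp (Φ β) 2 (volume : Measure X3)) (hQ : ∀ β, S.wQ m β Ψ (Φ β))
    (η : Fin 16 → ℂ) (i j : Fin 9) (α β : Fin 16) {f : X3 → F} (hf : Setup.Tst f) :
    ((rc i j : ℂ) * (S.Gam * S.g2 i j) α β) * Pr (S.J i j f) (fun x => ∑ α, η α • Φ α x) =
    ((rc i j : ℂ) * (S.Gam * S.g2 i j) α β) *
      ((-Complex.I / 2) * ∑ α, (∑ β, S.g2 i j α β * η β) * Pr f (Φ α)) := by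
  by_cases hij : i = j
  · subst hij
    have : S.g2 i i = 0 := by simp [CS.g2]
    rw [this]; simp
  · by_cases hs : Same i j
    · rw [A2w S hA2 hΨ hJ hΦ hQ η hs hf]
    · have h2 : rc i j = 0 := by
        unfold rc
        unfold Same at hs
        rw [if_neg, if_neg]
        · rintro ⟨h3, h4⟩
          exact hs ⟨hij, ⟨fun h => by omega, fun h => by omega⟩⟩
        · rintro ⟨h3, h4⟩
          exact hs ⟨hij, ⟨fun h => h4, fun h => h3⟩⟩
      rw [h2]; simp

lemma anti_sum (T : Fin 16 → Fin 16 → ℂ) (a : Fin 16 → ℂ) :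
    (∑ α, (starRingEnd ℂ) (a α) * ∑ β, a β * T β α) +
      (∑ α, a α * ∑ β, (starRingEnd ℂ) (a β) * T β α) =
    ∑ α, ∑ β, ((starRingEnd ℂ) (a α) * a β) * (T α β + T β α) := by
  have h1 : (∑ α, a α * ∑ β, (starRingEnd ℂ) (a β) * T β α) =
      ∑ α, ∑ β, ((starRingEnd ℂ) (a α) * a β) * T α β := by
    simp only [Finset.mul_sum]
    rw [Finset.sum_comm]
    refine Finset.sum_congr rfl fun α _ => Finset.sum_congr rfl fun β _ => ?_
    ring
  rw [h1, ← Finset.sum_add_distrib]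
  refine Finset.sum_congr rfl fun α _ => ?_
  rw [Finset.mul_sum, ← Finset.sum_add_distrib]
  refine Finset.sum_congr rfl fun β _ => ?_
  ring

lemma conj_mul_sum (a : Fin 16 → ℂ) :
    ∑ β, (starRingEnd ℂ) (a β) * a β = ((∑ β, ‖a β‖ ^ 2 : ℝ) : ℂ) := by
  push_cast
  refine Finset.sum_congr rfl fun β _ => ?_
  rw [mul_comm, Complex.mul_conj, Complex.normSq_eq_norm_sq]
  push_cast
  ring

lemma sum_norm_pos {a : Fin 16 → ℂ} (ha : a ≠ 0) : 0 < ∑ β, ‖a β‖ ^ 2 := by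
  obtain ⟨β, hβ⟩ := Function.ne_iff.mp ha
  refine Finset.sum_pos' (fun _ _ => by positivity) ⟨β, Finset.mem_univ _, ?_⟩
  have : 0 < ‖a β‖ := norm_pos_iff.mpr hβ
  positivity

lemma L2t_const {g : X3 → F} (hg : MemLp g 2 (volume : Measure X3)) :
    L2t (fun _ : ℕ => g) g :=
  ⟨fun _ => hg, hg, by simp [nsq]⟩

lemma alg1 (m c : ℂ) (ζ : Fin 16 → ℂ) (R : Fin 9 → Fin 9 → ℂ)
    (M : Fin 9 → Fin 9 → Fin 16 → Fin 16 → ℂ) (N : Fin 9 → Fin 9 → Fin 16 → ℂ)
    (P : Fin 16 → ℂ) :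
    ∑ α, ∑ β, ((starRingEnd ℂ) (ζ α) * ζ β) *
      (m * ∑ i, ∑ j, (R i j * M i j α β) * (c * ∑ δ, N i j δ * P δ)) =
    m * ∑ δ, (∑ k, ∑ l, R k l * (∑ β, ∑ γ, (starRingEnd ℂ) (ζ β) * M k l β γ * ζ γ) *
      c * N k l δ) * P δ := by
  have h1 : ∀ α β, ((starRingEnd ℂ) (ζ α) * ζ β) *
      (m * ∑ i, ∑ j, (R i j * M i j α β) * (c * ∑ δ, N i j δ * P δ)) =
      ∑ i, ∑ j, ((starRingEnd ℂ) (ζ α) * M i j α β * ζ β) *
        (m * R i j * (c * ∑ δ, N i j δ * P δ)) := by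
    intro α β
    rw [Finset.mul_sum, Finset.mul_sum]
    refine Finset.sum_congr rfl fun i _ => ?_
    rw [Finset.mul_sum, Finset.mul_sum]
    refine Finset.sum_congr rfl fun j _ => ?_
    ring
  simp only [h1]
  have h2 : ∀ (w : Fin 16 → Fin 16 → Fin 9 → Fin 9 → ℂ),
      ∑ α, ∑ β, ∑ i, ∑ j, w α β i j = ∑ i, ∑ j, ∑ α, ∑ β, w α β i j := by
    intro w
    calc ∑ α, ∑ β, ∑ i, ∑ j, w α β i j = ∑ α, ∑ i, ∑ β, ∑ j, w α β i j :=
          Finset.sum_congr rfl fun α _ => Finset.sum_comm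
      _ = ∑ i, ∑ α, ∑ β, ∑ j, w α β i j := Finset.sum_comm
      _ = ∑ i, ∑ α, ∑ j, ∑ β, w α β i j :=
          Finset.sum_congr rfl fun i _ => Finset.sum_congr rfl fun α _ => Finset.sum_comm
      _ = ∑ i, ∑ j, ∑ α, ∑ β, w α β i j :=
          Finset.sum_congr rfl fun i _ => Finset.sum_comm
  rw [h2]
  have h3 : ∀ i j, ∑ α, ∑ β, ((starRingEnd ℂ) (ζ α) * M i j α β * ζ β) *
        (m * R i j * (c * ∑ δ, N i j δ * P δ)) =
      ∑ δ, m * ((R i j * (∑ β, ∑ γ, (starRingEnd ℂ) (ζ β) * M i j β γ * ζ γ) *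
        c * N i j δ) * P δ) := by
    intro i j
    simp only [← Finset.sum_mul]
    generalize (∑ β, ∑ γ, (starRingEnd ℂ) (ζ β) * M i j β γ * ζ γ) = K
    rw [Finset.mul_sum, Finset.mul_sum, Finset.mul_sum]
    refine Finset.sum_congr rfl fun δ _ => ?_
    ring
  simp only [h3]
  rw [Finset.mul_sum]
  calc ∑ i, ∑ j, ∑ δ, m * ((R i j * (∑ β, ∑ γ, (starRingEnd ℂ) (ζ β) * M i j β γ * ζ γ) *
        c * N i j δ) * P δ) = ∑ i, ∑ δ, ∑ j, m * ((R i j *
          (∑ β, ∑ γ, (starRingEnd ℂ) (ζ β) * M i j β γ * ζ γ) * c * N i j δ) * P δ) :=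
        Finset.sum_congr rfl fun i _ => Finset.sum_comm
    _ = ∑ δ, ∑ i, ∑ j, m * ((R i j *
          (∑ β, ∑ γ, (starRingEnd ℂ) (ζ β) * M i j β γ * ζ γ) * c * N i j δ) * P δ) :=
        Finset.sum_comm
    _ = _ := by
        refine Finset.sum_congr rfl fun δ _ => ?_
        rw [Finset.sum_mul, Finset.mul_sum]
        refine Finset.sum_congr rfl fun i _ => ?_
        rw [Finset.sum_mul, Finset.mul_sum]

/-- **B7**, without the superfluous hypotheses -/
theorem gap_core (hA1 : A1Stmt S) (hA2 : A2Stmt S) (hA3 : A3Stmt S) (hA4 : A4Stmt S)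
    (hA5 : A5Stmt S) (hA7 : A7Stmt S) (h6 : WEStmt S) : GapStmt S := by
  intro m e hm he he8 Ψ hΨ hG hJ hE
  obtain ⟨ζ, η, hζ0, hη0, hζ, hη, -, hsum⟩ := hA5
  obtain ⟨Φ, hStr, hQ, -⟩ := h6 m e hm Ψ hΨ hE
  have hΦ : ∀ β, MemLp (Φ β) 2 (volume : Measure X3) := by
    obtain ⟨u, _, _, h⟩ := hStr
    exact fun β => (h β).mem'
  -- `X = Q^η Ψ`
  have hXm : MemLp (fun x => ∑ α, η α • Φ α x) 2 (volume : Measure X3) := memLp_lin η hΦ
  have hXG := A3w S hA3 hG hΦ hQ η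
  have hXE := A4w S hA4 hA7 hΨ hG hE hΦ hQ η 1 (by intro α; rw [hη α]; simp)
  obtain ⟨Ξ, hStrX, hQX, -⟩ := h6 m _ hm _ hXm hXE
  have hΞ : ∀ β, MemLp (Ξ β) 2 (volume : Measure X3) := by
    obtain ⟨u, _, _, h⟩ := hStrX
    exact fun β => (h β).mem'
  have hXL : ∀ g : X3 → F, MemLp g 2 (volume : Measure X3) →
      Pr g (fun x => ∑ α, η α • Φ α x) = ∑ α, η α * Pr g (Φ α) := fun g hg =>
    Pr_lin_right η hΦ hg
  -- the norms
  have hnζ := sum_norm_pos hζ0
  have hnη := sum_norm_pos hη0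
  have hcζ := conj_mul_sum ζ
  have hcη := conj_mul_sum η
  set nζ : ℝ := ∑ β, ‖ζ β‖ ^ 2 with hnζ_def
  set nη : ℝ := ∑ β, ‖η β‖ ^ 2 with hnη_def
  have hY1m : MemLp (fun x => ∑ β, ζ β • Ξ β x) 2 (volume : Measure X3) := memLp_lin ζ hΞ
  have hY2m : MemLp (fun x => ∑ β, (starRingEnd ℂ) (ζ β) • Ξ β x) 2 (volume : Measure X3) :=
    memLp_lin _ hΞ
  -- the key identity on test functions
  have key : ∀ f, Setup.Tst f →
      (∑ α, (starRingEnd ℂ) (ζ α) * Pr (S.Qm m α f) (fun x => ∑ β, ζ β • Ξ β x)) +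
      (∑ α, ζ α * Pr (S.Qm m α f) (fun x => ∑ β, (starRingEnd ℂ) (ζ β) • Ξ β x)) =
      ((nζ * (e / 8 - 4 * m) : ℝ) : ℂ) * Pr f (fun x => ∑ α, η α • Φ α x) := by
    intro f hf
    have e1 : ∀ α, Pr (S.Qm m α f) (fun x => ∑ β, ζ β • Ξ β x) =
        ∑ β, ζ β * Pr (S.Qm m β (S.Qm m α f)) (fun x => ∑ α, η α • Φ α x) := by
      intro α
      rw [Pr_lin_right ζ hΞ (Tst_Qm S m α hf).memLp]
      refine Finset.sum_congr rfl fun β _ => ?_
      have : Pr (S.Qm m β (S.Qm m α f)) (fun x => ∑ α, η α • Φ α x) =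
        Pr (S.Qm m α f) (Ξ β) := hQX β _ (Tst_Qm S m α hf)
      rw [this]
    have e2 : ∀ α, Pr (S.Qm m α f) (fun x => ∑ β, (starRingEnd ℂ) (ζ β) • Ξ β x) =
        ∑ β, (starRingEnd ℂ) (ζ β) *
          Pr (S.Qm m β (S.Qm m α f)) (fun x => ∑ α, η α • Φ α x) := by
      intro α
      rw [Pr_lin_right (fun β => (starRingEnd ℂ) (ζ β)) hΞ (Tst_Qm S m α hf).memLp]
      refine Finset.sum_congr rfl fun β _ => ?_
      have : Pr (S.Qm m β (S.Qm m α f)) (fun x => ∑ α, η α • Φ α x) =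
        Pr (S.Qm m α f) (Ξ β) := hQX β _ (Tst_Qm S m α hf)
      rw [this]
    simp only [e1, e2]
    rw [anti_sum (fun β α => Pr (S.Qm m β (S.Qm m α f)) (fun x => ∑ α, η α • Φ α x)) ζ]
    simp only [A1w S hA1 hA7 m hXm hXG hf, rc_J_eq S hA2 hΨ hJ hΦ hQ η _ _ _ _ hf]
    simp only [mul_add, Finset.sum_add_distrib]
    have f1 : ∑ α, ∑ β, ((starRingEnd ℂ) (ζ α) * ζ β) *
        (if α = β then 2 * Pr (S.Hm m f) (fun x => ∑ α, η α • Φ α x) else 0) =
        nζ * (e + 8 * m) / 8 * Pr f (fun x => ∑ α, η α • Φ α x) := by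
      have g1 : ∀ α, ∑ β, ((starRingEnd ℂ) (ζ α) * ζ β) *
          (if α = β then 2 * Pr (S.Hm m f) (fun x => ∑ α, η α • Φ α x) else 0) =
          ((starRingEnd ℂ) (ζ α) * ζ α) *
            (2 * Pr (S.Hm m f) (fun x => ∑ α, η α • Φ α x)) := by
        intro α
        rw [Finset.sum_eq_single α]
        · rw [if_pos rfl]
        · intro β _ hβ
          rw [if_neg (Ne.symm hβ), mul_zero]
        · intro h; exact absurd (Finset.mem_univ _) h
      simp only [g1]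
      rw [← Finset.sum_mul, hcζ]
      have g2 := (wE_iff S hA7 m _).mp hXE f hf
      push_cast at g2
      linear_combination (nζ : ℂ) / 8 * g2
    have f2 : ∑ α, ∑ β, ((starRingEnd ℂ) (ζ α) * ζ β) *
        ((m : ℂ) * ∑ i, ∑ j, ((rc i j : ℂ) * (S.Gam * S.g2 i j) α β) *
          ((-Complex.I / 2) * ∑ α, (∑ β, S.g2 i j α β * η β) * Pr f (Φ α))) =
        -5 * m * nζ * Pr f (fun x => ∑ α, η α • Φ α x) := by
      have g1 := alg1 (m : ℂ) (-Complex.I / 2) ζ (fun i j => (rc i j : ℂ))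
        (fun i j α β => (S.Gam * S.g2 i j) α β) (fun i j α => ∑ β, S.g2 i j α β * η β)
        (fun α => Pr f (Φ α))
      rw [g1]
      simp only [hsum, hcζ]
      rw [hXL f hf.memLp, Finset.mul_sum, Finset.mul_sum]
      refine Finset.sum_congr rfl fun α _ => ?_
      ring
    rw [f1, f2]
    push_cast
    ring
  -- the limit
  have hlim : (nsq (fun x => ∑ β, ζ β • Ξ β x) +
      nsq (fun x => ∑ β, (starRingEnd ℂ) (ζ β) • Ξ β x) : ℝ) =
      nζ * (e / 8 - 4 * m) * nsq (fun x => ∑ α, η α • Φ α x) := by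
    obtain ⟨u, hu, huX, huQ⟩ := hStrX
    have l1 : Tendsto (fun n =>
        (∑ α, (starRingEnd ℂ) (ζ α) * Pr (S.Qm m α (u n)) (fun x => ∑ β, ζ β • Ξ β x)) +
        (∑ α, ζ α * Pr (S.Qm m α (u n)) (fun x => ∑ β, (starRingEnd ℂ) (ζ β) • Ξ β x))) atTop
        (𝓝 ((∑ α, (starRingEnd ℂ) (ζ α) * Pr (Ξ α) (fun x => ∑ β, ζ β • Ξ β x)) +
        (∑ α, ζ α * Pr (Ξ α) (fun x => ∑ β, (starRingEnd ℂ) (ζ β) • Ξ β x)))) := by
      refine Tendsto.add (tendsto_finsetSum _ fun α _ => ?_) (tendsto_finsetSum _ fun α _ => ?_)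
      · exact ((huQ α).lim_inner (L2t_const hY1m)).const_mul _
      · exact ((huQ α).lim_inner (L2t_const hY2m)).const_mul _
    have l2 : Tendsto (fun n => ((nζ * (e / 8 - 4 * m) : ℝ) : ℂ) *
        Pr (u n) (fun x => ∑ α, η α • Φ α x)) atTop
        (𝓝 (((nζ * (e / 8 - 4 * m) : ℝ) : ℂ) *
        Pr (fun x => ∑ α, η α • Φ α x) (fun x => ∑ α, η α • Φ α x))) :=
      (huX.lim_inner (L2t_const hXm)).const_mul _
    have l3 := tendsto_nhds_unique (l1.congr fun n => key (u n) (hu n)) l2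
    have l4 := Pr_lin_left ζ hΞ hY1m
    have l5 := Pr_lin_left (fun β => (starRingEnd ℂ) (ζ β)) hΞ hY2m
    simp only [Complex.conj_conj] at l5
    rw [← l4, ← l5, Pr_self, Pr_self, Pr_self] at l3
    exact_mod_cast l3
  have hX0 : nsq (fun x => ∑ α, η α • Φ α x) = 0 := by
    have h1 := nsq_nonneg (fun x => ∑ β, ζ β • Ξ β x)
    have h2 := nsq_nonneg (fun x => ∑ β, (starRingEnd ℂ) (ζ β) • Ξ β x)
    have h3 := nsq_nonneg (fun x => ∑ α, η α • Φ α x)
    have h4 : 0 < nζ * (4 * m - e / 8) := by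
      refine mul_pos hnζ ?_
      linarith
    nlinarith
  -- the other component
  have hY0 : nsq (fun x => ∑ α, (starRingEnd ℂ) (η α) • Φ α x) = 0 := by
    have hYE := A4w S hA4 hA7 hΨ hG hE hΦ hQ (fun α => (starRingEnd ℂ) (η α)) (-1) (by
      intro α
      have h1 := congrArg (starRingEnd ℂ) (hη α)
      rw [map_mul, Complex.conj_I, map_sum] at h1
      simp only [map_mul, Gam_conj] at h1
      push_cast
      linear_combination -h1)
    obtain ⟨Ξ', -, -, hn⟩ := h6 m _ hm _ (memLp_lin _ hΦ) hYE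
    have h1 : 0 ≤ ∑ β, nsq (Ξ' β) := Finset.sum_nonneg fun β _ => nsq_nonneg _
    have h2 := nsq_nonneg (fun x => ∑ α, (starRingEnd ℂ) (η α) • Φ α x)
    rw [hn] at h1
    nlinarith
  -- conclusion
  have hfin : ∀ f, Setup.Tst f → Pr f Ψ = 0 := by
    intro f hf
    have e1 : ∀ α, Pr (S.Qm m α f) (fun x => ∑ β, η β • Φ β x) =
        ∑ β, η β * Pr (S.Qm m β (S.Qm m α f)) Ψ := by
      intro α
      rw [Pr_lin_right η hΦ (Tst_Qm S m α hf).memLp]
      refine Finset.sum_congr rfl fun β _ => ?_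
      have : Pr (S.Qm m β (S.Qm m α f)) Ψ = Pr (S.Qm m α f) (Φ β) :=
        hQ β _ (Tst_Qm S m α hf)
      rw [this]
    have e2 : ∀ α, Pr (S.Qm m α f) (fun x => ∑ β, (starRingEnd ℂ) (η β) • Φ β x) =
        ∑ β, (starRingEnd ℂ) (η β) * Pr (S.Qm m β (S.Qm m α f)) Ψ := by
      intro α
      rw [Pr_lin_right (fun β => (starRingEnd ℂ) (η β)) hΦ (Tst_Qm S m α hf).memLp]
      refine Finset.sum_congr rfl fun β _ => ?_
      have : Pr (S.Qm m β (S.Qm m α f)) Ψ = Pr (S.Qm m α f) (Φ β) :=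
        hQ β _ (Tst_Qm S m α hf)
      rw [this]
    have e3 := anti_sum (fun β α => Pr (S.Qm m β (S.Qm m α f)) Ψ) η
    simp only [← e1, ← e2] at e3
    have e4 : ∀ α, Pr (S.Qm m α f) (fun x => ∑ β, η β • Φ β x) = 0 := fun α =>
      Pr_eq_zero_of_nsq (Tst_Qm S m α hf).memLp hXm hX0
    have e5 : ∀ α, Pr (S.Qm m α f) (fun x => ∑ β, (starRingEnd ℂ) (η β) • Φ β x) = 0 :=
      fun α => Pr_eq_zero_of_nsq (Tst_Qm S m α hf).memLp (memLp_lin _ hΦ) hY0
    simp only [e4, e5, A1w S hA1 hA7 m hΨ hG hf, rc_J_zero S hJ _ _ _ _ hf, mul_zero,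
      Finset.sum_const_zero, add_zero] at e3
    have g1 : ∀ α, ∑ β, ((starRingEnd ℂ) (η α) * η β) *
        (if α = β then 2 * Pr (S.Hm m f) Ψ else 0) =
        ((starRingEnd ℂ) (η α) * η α) * (2 * Pr (S.Hm m f) Ψ) := by
      intro α
      rw [Finset.sum_eq_single α]
      · rw [if_pos rfl]
      · intro β _ hβ
        rw [if_neg (Ne.symm hβ), mul_zero]
      · intro h; exact absurd (Finset.mem_univ _) h
    simp only [g1] at e3
    rw [← Finset.sum_mul, hcη] at e3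
    have g2 := (wE_iff S hA7 m _).mp hE f hf
    have g3 : ((nη : ℝ) : ℂ) * ((e : ℝ) : ℂ) * Pr f Ψ = 0 := by
      linear_combination (-(nη : ℂ)) * g2 - 8 * e3
    rcases mul_eq_zero.mp g3 with h | h
    · exfalso
      rcases mul_eq_zero.mp h with h | h
      · exact hnη.ne' (by exact_mod_cast h)
      · exact he.ne' (by exact_mod_cast h)
    · exact h
  obtain ⟨u, hu, huΨ, -⟩ := hStr
  have l1 : Tendsto (fun n => Pr (u n) Ψ) atTop (𝓝 (Pr Ψ Ψ)) :=
    huΨ.lim_inner (L2t_const hΨ)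
  have l2 : Pr Ψ Ψ = 0 := by
    refine tendsto_nhds_unique l1 ?_
    simp only [hfin _ (hu _)]
    exact tendsto_const_nhds
  rw [Pr_self] at l2
  exact_mod_cast l2

/-- **B7** in the form of the interface -/
theorem gap (hA1 : A1Stmt S) (hA2 : A2Stmt S) (hA3 : A3Stmt S) (hA4 : A4Stmt S)
    (hA5 : A5Stmt S) (hA7 : A7Stmt S) (_h0 : CoerStmt S) (h6 : WEStmt S)
    (_h8 : InvLemStmt S) : GapStmt S :=
  gap_core S hA1 hA2 hA3 hA4 hA5 hA7 h6

end Vale.Agent.P353.U
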