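import Vale.Agent.P353.U.StmtC

/-! # P353, uniqueness for `N = 2`: invariance of the norm under colour rotations -/

set_option linter.all false

open MeasureTheory Filter Topology
open scoped ContDiff

namespace Vale.Agent.P353.U

variable {F : Type*} [NormedAddCommGroup F] [InnerProductSpace ℂ F]

/-- rotation about the coordinate axis `C` -/
noncomputable def RC (C : Fin 3) (t : ℝ) : Matrix (Fin 3) (Fin 3) ℝ :=
  Matrix.of fun B A => Real.cos t * (if A = B then 1 else 0) + Real.sin t * (eps C A B : ℝ) +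
    (1 - Real.cos t) * (if A = C ∧ B = C then 1 else 0)

/-- infinitesimal rotation about the axis `C` -/
noncomputable def kk (C : Fin 3) (x : X3) : X3 :=
  WithLp.toLp 2 fun p => ∑ A, (eps C A p.2 : ℝ) * x (p.1, A)

noncomputable def ee (C : Fin 3) (x : X3) : X3 :=
  WithLp.toLp 2 fun p => if p.2 = C then x (p.1, C) else 0

lemma ro_mul (O O' : Matrix (Fin 3) (Fin 3) ℝ) (x : X3) : ro (O * O') x = ro O (ro O' x) := by
  ext ⟨i, A⟩
  simp only [ro, Matrix.mul_apply, Finset.sum_mul, Finset.mul_sum]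
  rw [Finset.sum_comm]
  refine Finset.sum_congr rfl fun B _ => Finset.sum_congr rfl fun D _ => ?_
  ring

lemma ro_RC (C : Fin 3) (t : ℝ) (x : X3) :
    ro (RC C t) x = Real.cos t • x + Real.sin t • kk C x + (1 - Real.cos t) • ee C x := by
  ext ⟨i, B⟩
  simp only [ro, RC, kk, ee, Matrix.of_apply, WithLp.ofLp_add, WithLp.ofLp_smul, Pi.add_apply,
    Pi.smul_apply, smul_eq_mul, Fin.sum_univ_three]
  fin_cases C <;> fin_cases B <;> simp [eps] <;> ring

lemma hasDerivAt_ro (C : Fin 3) (t : ℝ) (x : X3) :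
    HasDerivAt (fun t => ro (RC C t) x) (kk C (ro (RC C t) x)) t := by
  have h1 : HasDerivAt (fun t : ℝ => Real.cos t • x + Real.sin t • kk C x +
      (1 - Real.cos t) • ee C x) (-Real.sin t • x + Real.cos t • kk C x +
      (0 - -Real.sin t) • ee C x) t :=
    (((Real.hasDerivAt_cos t).smul_const x).add ((Real.hasDerivAt_sin t).smul_const (kk C x))).add
      (((hasDerivAt_const t (1 : ℝ)).sub (Real.hasDerivAt_cos t)).smul_const (ee C x))
  have e : (fun t => ro (RC C t) x) = fun t : ℝ => Real.cos t • x + Real.sin t • kk C x +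
      (1 - Real.cos t) • ee C x := funext fun t => ro_RC C t x
  rw [e]
  refine h1.congr_deriv ?_
  rw [ro_RC]
  ext ⟨i, B⟩
  simp only [kk, ee, WithLp.ofLp_add, WithLp.ofLp_smul, Pi.add_apply,
    Pi.smul_apply, smul_eq_mul, Fin.sum_univ_three]
  fin_cases C <;> fin_cases B <;> simp [eps] <;> ring

lemma fderiv_kk (C : Fin 3) (u : X3 → F) (y : X3) :
    fderiv ℝ u y (kk C y) =
      ∑ i, ∑ A, ∑ B, ((eps C A B : ℂ) * (y (i, A) : ℂ)) • pd i B u y := by
  have hx : kk C y = ∑ p : Fin 9 × Fin 3, (kk C y) p • (EuclideanSpace.single p (1 : ℝ) : X3) := by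
    ext q
    simp only [WithLp.ofLp_sum, WithLp.ofLp_smul, Finset.sum_apply, Pi.smul_apply,
        PiLp.single_apply, smul_eq_mul, mul_ite, mul_one, mul_zero]
    rw [Finset.sum_ite_eq]
    simp
  rw [hx, map_sum]
  simp only [map_smul]
  rw [Fintype.sum_prod_type]
  refine Finset.sum_congr rfl fun i _ => ?_
  rw [Finset.sum_comm]
  refine Finset.sum_congr rfl fun B _ => ?_
  have : (kk C y) (i, B) = ∑ A, (eps C A B : ℝ) * y (i, A) := rfl
  rw [this, Finset.sum_smul]
  refine Finset.sum_congr rfl fun A _ => ?_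
  unfold pd
  rw [show ((eps C A B : ℂ) * (y (i, A) : ℂ)) = (((eps C A B : ℝ) * y (i, A) : ℝ) : ℂ) by push_cast; ring]
  exact (RCLike.real_smul_eq_coe_smul (K := ℂ) _ _)

variable (S : Setup F)

lemma norm_RC {u : X3 → F} (hu : Setup.Tst u) (hG : ∀ C x, S.G C u x = 0) (C : Fin 3) (t : ℝ)
    (x : X3) : ‖u (ro (RC C t) x)‖ = ‖u x‖ := by
  have hd : ∀ t, HasDerivAt (fun t => u (ro (RC C t) x))
      ((-Complex.I) • S.cS C (u (ro (RC C t) x))) t := by
    intro t
    have h1 : HasDerivAt (fun t => u (ro (RC C t) x))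
        (fderiv ℝ u (ro (RC C t) x) (kk C (ro (RC C t) x))) t :=
      ((hu.1.differentiable (by simp)) (ro (RC C t) x)).hasFDerivAt.comp_hasDerivAt t
        (hasDerivAt_ro C t x)
    refine h1.congr_deriv ?_
    rw [fderiv_kk]
    have h2 := hG C (ro (RC C t) x)
    unfold Setup.G at h2
    have h3 := congrArg (fun v => Complex.I • v) h2
    simp only [smul_add, smul_smul, smul_zero] at h3
    rw [show Complex.I * -Complex.I = 1 by rw [mul_neg, Complex.I_mul_I, neg_neg], one_smul] at h3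
    rw [neg_smul]
    exact eq_neg_of_add_eq_zero_left h3
  have hn : ∀ t, HasDerivAt (fun t => inner ℂ (u (ro (RC C t) x)) (u (ro (RC C t) x))) 0 t := by
    intro t
    have h1 := (hd t).inner ℂ (hd t)
    refine h1.congr_deriv ?_
    rw [inner_smul_right, inner_smul_left, S.cS_symm]
    simp
  have hc := is_const_of_deriv_eq_zero (f := fun t => inner ℂ (u (ro (RC C t) x)) (u (ro (RC C t) x)))
    (fun t => (hn t).differentiableAt) (fun t => (hn t).deriv) t 0
  have h0 : ro (RC C 0) x = x := by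
    rw [ro_RC]
    simp
  rw [h0] at hc
  simp only [inner_self_eq_norm_sq_to_K] at hc
  have h4 : ‖u (ro (RC C t) x)‖ ^ 2 = ‖u x‖ ^ 2 := by exact_mod_cast hc
  exact (sq_eq_sq₀ (norm_nonneg _) (norm_nonneg _)).1 h4

lemma RC_orth (C : Fin 3) (t : ℝ) : (RC C t).transpose * RC C t = 1 := by
  have h := Real.sin_sq_add_cos_sq t
  ext A B
  simp only [Matrix.mul_apply, Matrix.transpose_apply, RC, Matrix.of_apply, Fin.sum_univ_three]
  fin_cases C <;> fin_cases A <;> fin_cases B <;> simp [eps] <;>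
    first | (ring; done) | linear_combination h

lemma RC_det (C : Fin 3) (t : ℝ) : (RC C t).det = 1 := by
  have h := Real.sin_sq_add_cos_sq t
  rw [Matrix.det_fin_three]
  simp only [RC, Matrix.of_apply]
  fin_cases C <;> simp [eps] <;> linear_combination h

lemma exists_rot (p q : ℝ) : ∃ a : ℝ, 0 ≤ Real.cos a * p - Real.sin a * q ∧
    Real.sin a * p + Real.cos a * q = 0 := by
  refine ⟨-Complex.arg ⟨p, q⟩, ?_, ?_⟩
  · have h1 := Complex.norm_mul_cos_arg ⟨p, q⟩
    have h2 := Complex.norm_mul_sin_arg ⟨p, q⟩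
    simp only at h1 h2
    rw [Real.cos_neg, Real.sin_neg]
    have h3 := Real.sin_sq_add_cos_sq (Complex.arg ⟨p, q⟩)
    have h4 : Real.cos (Complex.arg ⟨p, q⟩) * p - -Real.sin (Complex.arg ⟨p, q⟩) * q =
        ‖(⟨p, q⟩ : ℂ)‖ := by
      linear_combination -Real.cos (Complex.arg ⟨p, q⟩) * h1 - Real.sin (Complex.arg ⟨p, q⟩) * h2 +
        ‖(⟨p, q⟩ : ℂ)‖ * h3
    rw [h4]
    exact norm_nonneg _
  · have h1 := Complex.norm_mul_cos_arg ⟨p, q⟩
    have h2 := Complex.norm_mul_sin_arg ⟨p, q⟩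
    simp only at h1 h2
    rw [Real.cos_neg, Real.sin_neg]
    linear_combination Real.sin (Complex.arg ⟨p, q⟩) * h1 - Real.cos (Complex.arg ⟨p, q⟩) * h2

/-- Euler angles -/
lemma exists_angles (O : Matrix (Fin 3) (Fin 3) ℝ) (h1 : O.transpose * O = 1) (h2 : O.det = 1) :
    ∃ a b c : ℝ, RC 1 b * (RC 2 a * O) = RC 0 c := by
  obtain ⟨a, ha0, ha1⟩ := exists_rot (O 0 0) (O 1 0)
  set P := RC 2 a * O with hP
  have hP1 : P.transpose * P = 1 := by
    rw [hP, Matrix.transpose_mul, Matrix.mul_assoc, ← Matrix.mul_assoc (RC 2 a).transpose,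
      RC_orth, Matrix.one_mul, h1]
  have hP2 : P.det = 1 := by rw [hP, Matrix.det_mul, RC_det, h2, one_mul]
  have hP3 : P 1 0 = 0 := by
    rw [hP]
    simp only [Matrix.mul_apply, RC, Matrix.of_apply, Fin.sum_univ_three]
    simp [eps]
    linear_combination ha1
  obtain ⟨b, hb0, hb1⟩ := exists_rot (P 0 0) (P 2 0)
  set Q := RC 1 (-b) * P with hQ
  have hQ1 : Q.transpose * Q = 1 := by
    rw [hQ, Matrix.transpose_mul, Matrix.mul_assoc, ← Matrix.mul_assoc (RC 1 (-b)).transpose,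
      RC_orth, Matrix.one_mul, hP1]
  have hQ2 : Q.det = 1 := by rw [hQ, Matrix.det_mul, RC_det, hP2, one_mul]
  have hQ3 : Q 1 0 = 0 := by
    rw [hQ]
    simp only [Matrix.mul_apply, RC, Matrix.of_apply, Fin.sum_univ_three, Real.cos_neg,
      Real.sin_neg]
    simp [eps, hP3]
  have hQ4 : Q 2 0 = 0 := by
    rw [hQ]
    simp only [Matrix.mul_apply, RC, Matrix.of_apply, Fin.sum_univ_three, Real.cos_neg,
      Real.sin_neg]
    simp [eps]
    linear_combination hb1
  have hQ5 : 0 ≤ Q 0 0 := by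
    have : Q 0 0 = Real.cos b * P 0 0 - Real.sin b * P 2 0 := by
      rw [hQ]
      simp only [Matrix.mul_apply, RC, Matrix.of_apply, Fin.sum_univ_three, Real.cos_neg,
        Real.sin_neg]
      simp [eps]
      ring
    rw [this]
    exact hb0
  have e : ∀ i j, ∑ k, Q k i * Q k j = if i = j then 1 else 0 := by
    intro i j
    have := congrFun (congrFun hQ1 i) j
    rw [Matrix.mul_apply, Matrix.one_apply] at this
    simpa [Matrix.transpose_apply] using this
  simp only [Fin.sum_univ_three] at e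
  have e00 := e 0 0
  have e01 := e 0 1
  have e02 := e 0 2
  have e11 := e 1 1
  have e22 := e 2 2
  have e12 := e 1 2
  simp [hQ3, hQ4] at e00 e01 e02 e11 e22 e12
  have q00 : Q 0 0 = 1 := by nlinarith
  simp [q00] at e01 e02
  rw [Matrix.det_fin_three] at hQ2
  simp [q00, hQ3, hQ4, e01, e02] at hQ2 e11 e22 e12
  have q22 : Q 2 2 = Q 1 1 := by
    linear_combination -Q 2 2 * e11 + Q 1 1 * hQ2 + Q 2 1 * e12
  have q12 : Q 1 2 = -Q 2 1 := by
    linear_combination -Q 1 2 * e11 - Q 2 1 * hQ2 + Q 1 1 * e12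
  refine ⟨a, -b, Complex.arg ⟨Q 1 1, Q 2 1⟩, ?_⟩
  have hn : ‖(⟨Q 1 1, Q 2 1⟩ : ℂ)‖ = 1 := by
    rw [Complex.norm_def, Complex.normSq_mk]
    rw [show Q 1 1 * Q 1 1 + Q 2 1 * Q 2 1 = 1 by linear_combination e11]
    exact Real.sqrt_one
  have hcos := Complex.norm_mul_cos_arg ⟨Q 1 1, Q 2 1⟩
  have hsin := Complex.norm_mul_sin_arg ⟨Q 1 1, Q 2 1⟩
  rw [hn, one_mul] at hcos hsin
  simp only at hcos hsin
  change Q = _
  ext i j
  simp only [RC, Matrix.of_apply, hcos, hsin]
  fin_cases i <;> fin_cases j <;> simp [eps, q00, hQ3, hQ4, e01, e02, q22, q12]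

theorem grp : GrpStmt S := by
  intro u hu hG O h1 h2 x
  obtain ⟨a, b, c, h⟩ := exists_angles O h1 h2
  rw [← norm_RC S hu hG 2 a (ro O x), ← norm_RC S hu hG 1 b, ← ro_mul, ← ro_mul, Matrix.mul_assoc,
    h, norm_RC S hu hG]

end Vale.Agent.P353.U
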