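import Vale.Agent.P353.U.StmtD

/-! # P353, uniqueness for `N = 2`: volumes near the cone (`IntStmt`) -/

open MeasureTheory Filter Topology
open scoped ContDiff ENNReal

namespace Vale.Agent.P353.UInt

/-- Tonelli: upper bound, slow variables in a box, fast variables shifted -/
theorem upperA {ι : Type*} [Fintype ι] (p : ι → Prop) [DecidablePred p]
    (lo hi : {i // p i} → ℝ) (H : ({i // ¬p i} → ℝ) → ℝ≥0∞)
    (c : ({i // p i} → ℝ) → {i // ¬p i} → ℝ) (G : (ι → ℝ) → ℝ≥0∞)
    (h0 : ∀ x : ι → ℝ, (fun i : {i // p i} => x i.1) ∉ Set.Icc lo hi → G x = 0)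
    (hG : ∀ x : ι → ℝ, (fun i : {i // p i} => x i.1) ∈ Set.Icc lo hi →
      G x ≤ H ((fun q : {i // ¬p i} => x q.1) - c (fun i : {i // p i} => x i.1))) :
    ∫⁻ x, G x ≤ (∏ i, ENNReal.ofReal (hi i - lo i)) * ∫⁻ f, H f := by
  set e := MeasurableEquiv.piEquivPiSubtypeProd (fun _ : ι => ℝ) p with he
  have hmp := volume_preserving_piEquivPiSubtypeProd (fun _ : ι => ℝ) p
  set K : ({i // p i} → ℝ) × ({i // ¬p i} → ℝ) → ℝ≥0∞ := fun z =>
    (Set.Icc lo hi).indicator (fun a => H (z.2 - c a)) z.1 with hK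
  have h1 : ∀ x, G x ≤ K (e x) := by
    intro x
    have e1 : (e x).1 = fun i : {i // p i} => x i.1 := rfl
    have e2 : (e x).2 = fun q : {i // ¬p i} => x q.1 := rfl
    simp only [hK]
    rw [e1, e2]
    by_cases hx : (fun i : {i // p i} => x i.1) ∈ Set.Icc lo hi
    · rw [Set.indicator_of_mem hx]
      exact hG x hx
    · rw [h0 x hx]
      exact zero_le
  calc ∫⁻ x, G x ≤ ∫⁻ x, K (e x) := lintegral_mono h1
    _ = ∫⁻ z, K z := hmp.lintegral_comp_emb e.measurableEmbedding K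
    _ ≤ ∫⁻ a, ∫⁻ f, K (a, f) := lintegral_prod_le _
    _ = ∫⁻ a, (Set.Icc lo hi).indicator (fun _ => ∫⁻ f, H f) a := by
        apply lintegral_congr
        intro a
        simp only [hK]
        by_cases ha : a ∈ Set.Icc lo hi
        · simp only [Set.indicator_of_mem ha]
          exact lintegral_sub_right_eq_self (μ := (volume : Measure ({i // ¬p i} → ℝ))) H (c a)
        · simp only [Set.indicator_of_notMem ha, lintegral_zero]
    _ = (∏ i, ENNReal.ofReal (hi i - lo i)) * ∫⁻ f, H f := by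
        rw [lintegral_indicator measurableSet_Icc, setLIntegral_const, Real.volume_Icc_pi, mul_comm]

theorem lowerB {ι : Type*} [Fintype ι] (p : ι → Prop) [DecidablePred p]
    (lo hi : {i // p i} → ℝ) (s : ℝ)
    (c : ({i // p i} → ℝ) → {i // ¬p i} → ℝ) (hc : Measurable c) (E : Set (ι → ℝ))
    (hE : ∀ x : ι → ℝ, (fun i : {i // p i} => x i.1) ∈ Set.Icc lo hi →
      (∀ q : {i // ¬p i}, |x q.1 - c (fun i : {i // p i} => x i.1) q| ≤ s) → x ∈ E) :
    (∏ i, ENNReal.ofReal (hi i - lo i)) * ENNReal.ofReal (2 * s) ^ (Fintype.card {i // ¬p i}) ≤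
      volume E := by
  set e := MeasurableEquiv.piEquivPiSubtypeProd (fun _ : ι => ℝ) p with he
  have hmp := volume_preserving_piEquivPiSubtypeProd (fun _ : ι => ℝ) p
  set D : Set (({i // p i} → ℝ) × ({i // ¬p i} → ℝ)) :=
    {z | z.1 ∈ Set.Icc lo hi ∧ ∀ q, |z.2 q - c z.1 q| ≤ s} with hD
  have hDm : MeasurableSet D := by
    apply MeasurableSet.inter
    · exact measurable_fst measurableSet_Icc
    · have : {z : ({i // p i} → ℝ) × ({i // ¬p i} → ℝ) | ∀ q, |z.2 q - c z.1 q| ≤ s} =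
          ⋂ q, {z | |z.2 q - c z.1 q| ≤ s} := by
        ext z
        simp
      change MeasurableSet {z : ({i // p i} → ℝ) × ({i // ¬p i} → ℝ) | ∀ q, |z.2 q - c z.1 q| ≤ s}
      rw [this]
      refine MeasurableSet.iInter fun q => ?_
      apply measurableSet_le _ measurable_const
      have h1 : Measurable fun z : ({i // p i} → ℝ) × ({i // ¬p i} → ℝ) => z.2 q :=
        (measurable_pi_apply q).comp measurable_snd
      have h2 : Measurable fun z : ({i // p i} → ℝ) × ({i // ¬p i} → ℝ) => c z.1 q :=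
        (measurable_pi_apply q).comp (hc.comp measurable_fst)
      exact (h1.sub h2).abs
  have h1 : e ⁻¹' D ⊆ E := by
    intro x hx
    exact hE x hx.1 hx.2
  calc (∏ i, ENNReal.ofReal (hi i - lo i)) * ENNReal.ofReal (2 * s) ^ (Fintype.card {i // ¬p i})
      = ∫⁻ a, (Set.Icc lo hi).indicator
        (fun _ => ENNReal.ofReal (2 * s) ^ (Fintype.card {i // ¬p i})) a := by
        rw [lintegral_indicator measurableSet_Icc, setLIntegral_const, Real.volume_Icc_pi, mul_comm]
    _ ≤ ∫⁻ a, volume (Prod.mk a ⁻¹' D) := by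
        apply lintegral_mono
        intro a
        by_cases ha : a ∈ Set.Icc lo hi
        · rw [Set.indicator_of_mem ha]
          have h2 : Set.Icc (fun q => c a q - s) (fun q => c a q + s) ⊆ Prod.mk a ⁻¹' D := by
            intro f hf
            refine ⟨ha, fun q => ?_⟩
            have := hf.1 q
            have := hf.2 q
            simp only at *
            rw [abs_le]
            constructor <;> linarith
          refine le_trans (le_of_eq ?_) (measure_mono h2)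
          rw [Real.volume_Icc_pi]
          have h3 : ∀ q, ENNReal.ofReal (c a q + s - (c a q - s)) = ENNReal.ofReal (2 * s) := by
            intro q
            congr 1
            ring
          simp only [h3, Finset.prod_const, Finset.card_univ]
        · rw [Set.indicator_of_notMem ha]
          exact zero_le
    _ = volume D := by
        rw [Measure.volume_eq_prod, Measure.prod_apply hDm]
    _ = volume (e ⁻¹' D) := (hmp.measure_preimage hDm.nullMeasurableSet).symm
    _ ≤ volume E := measure_mono h1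

/-- the Gaussian integral over the fast variables -/
theorem gaussC {κ : Type*} [Fintype κ] {b : ℝ} (hb : 0 < b) :
    ∫⁻ f : κ → ℝ, ENNReal.ofReal (∏ q, Real.exp (-b * f q ^ 2)) =
      ENNReal.ofReal (√(Real.pi / b) ^ Fintype.card κ) := by
  rw [← integral_gaussian, ← integral_fintype_prod_volume_eq_pow (ι := κ)
    (fun x : ℝ => Real.exp (-b * x ^ 2))]
  rw [ofReal_integral_eq_lintegral_ofReal]
  · exact Integrable.fintype_prod (f := fun _ (x : ℝ) => Real.exp (-b * x ^ 2))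
      (μ := fun _ : κ => (volume : Measure ℝ)) fun _ => integrable_exp_neg_mul_sq hb
  · exact Filter.Eventually.of_forall fun f => Finset.prod_nonneg fun q _ => (Real.exp_pos _).le

variable {F : Type*} [NormedAddCommGroup F] [InnerProductSpace ℂ F]

theorem FF0 (S : Setup F) (i j : Fin 9) (x : X3) :
    S.FF 0 i j x = S.κ * (x (i, 1) * x (j, 2) - x (i, 2) * x (j, 1)) := by
  have v000 : eps 0 0 0 = 0 := by decide
  have v001 : eps 0 0 1 = 0 := by decide
  have v002 : eps 0 0 2 = 0 := by decide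
  have v010 : eps 0 1 0 = 0 := by decide
  have v011 : eps 0 1 1 = 0 := by decide
  have v012 : eps 0 1 2 = 1 := by decide
  have v020 : eps 0 2 0 = 0 := by decide
  have v021 : eps 0 2 1 = -1 := by decide
  have v022 : eps 0 2 2 = 0 := by decide
  simp only [Setup.FF, Fin.sum_univ_three, v000, v001, v002, v010, v011, v012, v020, v021, v022]
  push_cast
  ring

theorem FF1 (S : Setup F) (i j : Fin 9) (x : X3) :
    S.FF 1 i j x = S.κ * (x (i, 2) * x (j, 0) - x (i, 0) * x (j, 2)) := by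
  have v100 : eps 1 0 0 = 0 := by decide
  have v101 : eps 1 0 1 = 0 := by decide
  have v102 : eps 1 0 2 = -1 := by decide
  have v110 : eps 1 1 0 = 0 := by decide
  have v111 : eps 1 1 1 = 0 := by decide
  have v112 : eps 1 1 2 = 0 := by decide
  have v120 : eps 1 2 0 = 1 := by decide
  have v121 : eps 1 2 1 = 0 := by decide
  have v122 : eps 1 2 2 = 0 := by decide
  simp only [Setup.FF, Fin.sum_univ_three, v100, v101, v102, v110, v111, v112, v120, v121, v122]
  push_cast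
  ring

theorem FF2 (S : Setup F) (i j : Fin 9) (x : X3) :
    S.FF 2 i j x = S.κ * (x (i, 0) * x (j, 1) - x (i, 1) * x (j, 0)) := by
  have v200 : eps 2 0 0 = 0 := by decide
  have v201 : eps 2 0 1 = 1 := by decide
  have v202 : eps 2 0 2 = 0 := by decide
  have v210 : eps 2 1 0 = -1 := by decide
  have v211 : eps 2 1 1 = 0 := by decide
  have v212 : eps 2 1 2 = 0 := by decide
  have v220 : eps 2 2 0 = 0 := by decide
  have v221 : eps 2 2 1 = 0 := by decide
  have v222 : eps 2 2 2 = 0 := by decide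
  simp only [Setup.FF, Fin.sum_univ_three, v200, v201, v202, v210, v211, v212, v220, v221, v222]
  push_cast
  ring

theorem V_lower (S : Setup F) (x : X3) (i : Fin 9) (A : Fin 3) :
    S.κ ^ 2 / 4 * ∑ j, ∑ B, (x (i, A) * x (j, B) - x (i, B) * x (j, A)) ^ 2 ≤ S.V x := by
  have h1 : ∀ j : Fin 9, S.κ ^ 2 * ∑ B, (x (i, A) * x (j, B) - x (i, B) * x (j, A)) ^ 2 ≤
      ∑ A', S.FF A' i j x ^ 2 := by
    intro j
    rw [Fin.sum_univ_three, Fin.sum_univ_three, FF0, FF1, FF2]
    have h0 := mul_nonneg (sq_nonneg S.κ) (sq_nonneg (x (i, 1) * x (j, 2) - x (i, 2) * x (j, 1)))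
    have h1 := mul_nonneg (sq_nonneg S.κ) (sq_nonneg (x (i, 2) * x (j, 0) - x (i, 0) * x (j, 2)))
    have h2 := mul_nonneg (sq_nonneg S.κ) (sq_nonneg (x (i, 0) * x (j, 1) - x (i, 1) * x (j, 0)))
    fin_cases A <;> (simp only [Fin.isValue, Fin.zero_eta, Fin.mk_one, Fin.reduceFinMk]; nlinarith)
  have h2 : ∑ j, ∑ A', S.FF A' i j x ^ 2 ≤ ∑ A', ∑ i', ∑ j, S.FF A' i' j x ^ 2 := by
    rw [Finset.sum_comm]
    apply Finset.sum_le_sum
    intro A' _
    exact Finset.single_le_sum (f := fun i' => ∑ j, S.FF A' i' j x ^ 2)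
      (fun i' _ => Finset.sum_nonneg fun j _ => sq_nonneg _) (Finset.mem_univ i)
  have h3 : ∑ j, S.κ ^ 2 * ∑ B, (x (i, A) * x (j, B) - x (i, B) * x (j, A)) ^ 2 ≤
      ∑ j, ∑ A', S.FF A' i j x ^ 2 := Finset.sum_le_sum fun j _ => h1 j
  rw [← Finset.mul_sum] at h3
  unfold Setup.V
  linarith

/-- slow coordinates -/
def slow (p q : Fin 9 × Fin 3) : Prop := q.1 = p.1 ∨ q.2 = p.2

instance (p : Fin 9 × Fin 3) : DecidablePred (slow p) := fun q => by
  unfold slow
  infer_instance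

/-- centre of the fast coordinates -/
noncomputable def cen (p : Fin 9 × Fin 3) (a : {q // slow p q} → ℝ) (q : {q // ¬slow p q}) : ℝ :=
  a ⟨(p.1, q.1.2), Or.inl rfl⟩ * a ⟨(q.1.1, p.2), Or.inr rfl⟩ / a ⟨p, Or.inl rfl⟩

theorem measurable_cen (p : Fin 9 × Fin 3) : Measurable (cen p) := by
  rw [measurable_pi_iff]
  intro q
  have h : ∀ r : {q // slow p q}, Measurable fun a : {q // slow p q} → ℝ => a r :=
    fun r => measurable_pi_apply r
  unfold cen
  exact ((h _).mul (h _)).div (h _)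

theorem card_fast (p : Fin 9 × Fin 3) : Fintype.card {q // ¬slow p q} = 16 := by
  revert p
  decide

theorem card_slow6 (p : Fin 9 × Fin 3) (hp : p.1.val < 3) :
    (Finset.univ.filter fun q : {q // slow p q} => 3 ≤ q.1.1.val).card = 6 := by
  revert p
  decide

theorem card_slow3 (p : Fin 9 × Fin 3) (hp : p.1.val < 3) :
    (Finset.univ.filter fun q : {q // slow p q} => ¬ 3 ≤ q.1.1.val).card = 5 := by
  revert p
  decide

theorem exp_bound (S : Setup F) {k t : ℝ} (hk : 0 < k) (ht : 0 < t) (x : X3)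
    (p : Fin 9 × Fin 3) (hx : 1 / 6 ≤ |x p|) :
    Real.exp (-(k * t * S.V x)) ≤ ∏ q : {q // ¬slow p q},
      Real.exp (-(k * t * S.κ ^ 2 / 144) *
        (x q.1 - x (p.1, q.1.2) * x (q.1.1, p.2) / x p) ^ 2) := by
  rw [← Real.exp_sum]
  apply Real.exp_le_exp.2
  rw [← Finset.mul_sum]
  have hp0 : x p ≠ 0 := by
    intro h
    rw [h, abs_zero] at hx
    norm_num at hx
  have hp2 : 1 / 36 ≤ x p ^ 2 := by
    rw [← sq_abs]
    nlinarith
  have h1 := V_lower S x p.1 p.2
  have h2 : ∀ q : Fin 9 × Fin 3, 1 / 36 * (x q - x (p.1, q.2) * x (q.1, p.2) / x p) ^ 2 ≤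
      (x (p.1, p.2) * x (q.1, q.2) - x (p.1, q.2) * x (q.1, p.2)) ^ 2 := by
    intro q
    have e : x (p.1, p.2) * x (q.1, q.2) - x (p.1, q.2) * x (q.1, p.2) =
        x p * (x q - x (p.1, q.2) * x (q.1, p.2) / x p) := by
      have e1 : (p.1, p.2) = p := rfl
      have e2 : (q.1, q.2) = q := rfl
      rw [e1, e2]
      field_simp
    rw [e, mul_pow]
    exact mul_le_mul_of_nonneg_right hp2 (sq_nonneg _)
  have h3 : ∑ q : {q // ¬slow p q}, (x q.1 - x (p.1, q.1.2) * x (q.1.1, p.2) / x p) ^ 2 ≤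
      ∑ q : Fin 9 × Fin 3, (x q - x (p.1, q.2) * x (q.1, p.2) / x p) ^ 2 := by
    rw [← Finset.sum_subtype (Finset.univ.filter fun q => ¬slow p q) (by simp)
      (fun q : Fin 9 × Fin 3 => (x q - x (p.1, q.2) * x (q.1, p.2) / x p) ^ 2)]
    exact Finset.sum_le_sum_of_subset_of_nonneg (Finset.filter_subset _ _)
      fun q _ _ => sq_nonneg _
  have h4 : 1 / 36 * ∑ q : Fin 9 × Fin 3, (x q - x (p.1, q.2) * x (q.1, p.2) / x p) ^ 2 ≤
      ∑ j, ∑ B, (x (p.1, p.2) * x (j, B) - x (p.1, B) * x (j, p.2)) ^ 2 := by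
    rw [← Fintype.sum_prod_type', Finset.mul_sum]
    exact Finset.sum_le_sum fun q _ => h2 q
  have hkt : 0 < k * t := mul_pos hk ht
  have h5 : k * t * (S.κ ^ 2 / 4 * (1 / 36 *
      ∑ q : {q // ¬slow p q}, (x q.1 - x (p.1, q.1.2) * x (q.1.1, p.2) / x p) ^ 2)) ≤
      k * t * S.V x := by
    apply mul_le_mul_of_nonneg_left _ hkt.le
    refine le_trans ?_ h1
    apply mul_le_mul_of_nonneg_left _ (by positivity)
    linarith
  linarith


/-- the integral over one chart -/
theorem chart (S : Setup F) {k t : ℝ} (hk : 0 < k) (ht : 0 < t) (p : Fin 9 × Fin 3)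
    (r : Fin 9 × Fin 3 → ℝ) :
    ∫⁻ y : Fin 9 × Fin 3 → ℝ, (if 1 / 6 ≤ |y p| ∧ ∀ q, |y q| ≤ r q then
      ENNReal.ofReal (Real.exp (-(k * t * S.V (WithLp.toLp 2 y)))) else 0) ≤
    (∏ q : {q // slow p q}, ENNReal.ofReal (2 * r q.1)) *
      ENNReal.ofReal ((144 * Real.pi / (k * S.κ ^ 2)) ^ 8 * t ^ (-8 : ℝ)) := by
  have hb : 0 < k * t * S.κ ^ 2 / 144 := by
    have := S.κ_pos
    positivity
  have h1 := upperA (slow p) (fun q => -r q.1) (fun q => r q.1)
    (fun f => ENNReal.ofReal (∏ q, Real.exp (-(k * t * S.κ ^ 2 / 144) * f q ^ 2))) (cen p)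
    (fun y : Fin 9 × Fin 3 → ℝ => (if 1 / 6 ≤ |y p| ∧ ∀ q, |y q| ≤ r q then
      ENNReal.ofReal (Real.exp (-(k * t * S.V (WithLp.toLp 2 y)))) else 0))
    (by
      intro y hy
      rw [if_neg]
      rintro ⟨-, h⟩
      apply hy
      exact ⟨fun q => (abs_le.1 (h q.1)).1, fun q => (abs_le.1 (h q.1)).2⟩)
    (by
      intro y _
      split_ifs with h
      · apply ENNReal.ofReal_le_ofReal
        exact exp_bound S hk ht (WithLp.toLp 2 y) p h.1
      · exact zero_le)
  rw [gaussC hb] at h1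
  refine h1.trans (le_of_eq ?_)
  congr 1
  · apply Finset.prod_congr rfl
    intro q _
    congr 1
    ring
  · congr 1
    rw [card_fast]
    have h2 : √(Real.pi / (k * t * S.κ ^ 2 / 144)) ^ 16 =
        (√(Real.pi / (k * t * S.κ ^ 2 / 144)) ^ 2) ^ 8 := by rw [← pow_mul]
    rw [h2, Real.sq_sqrt (by positivity)]
    have h3 : t ^ (-8 : ℝ) = (t ^ 8)⁻¹ := by
      rw [Real.rpow_neg ht.le]
      congr 1
      exact_mod_cast Real.rpow_natCast t 8
    rw [h3]
    have hκ : S.κ ≠ 0 := S.κ_pos.ne'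
    field_simp

theorem measurable_chart (S : Setup F) (k t : ℝ) (p : Fin 9 × Fin 3) (r : Fin 9 × Fin 3 → ℝ) :
    Measurable fun y : Fin 9 × Fin 3 → ℝ => (if 1 / 6 ≤ |y p| ∧ ∀ q, |y q| ≤ r q then
      ENNReal.ofReal (Real.exp (-(k * t * S.V (WithLp.toLp 2 y)))) else 0) := by
  apply Measurable.ite
  · apply MeasurableSet.inter
    · exact measurableSet_le measurable_const (measurable_pi_apply p).abs
    · have : {y : Fin 9 × Fin 3 → ℝ | ∀ q, |y q| ≤ r q} = ⋂ q, {y | |y q| ≤ r q} := by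
        ext y
        simp
      change MeasurableSet {y : Fin 9 × Fin 3 → ℝ | ∀ q, |y q| ≤ r q}
      rw [this]
      exact MeasurableSet.iInter fun q => measurableSet_le (measurable_pi_apply q).abs
        measurable_const
  · apply ENNReal.measurable_ofReal.comp
    have h1 : Continuous fun y : Fin 9 × Fin 3 → ℝ => S.V (WithLp.toLp 2 y) :=
      (contDiff_V S).continuous.comp (PiLp.continuous_toLp 2 _)
    exact (Real.continuous_exp.comp (continuous_const.mul h1).neg).measurable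
  · exact measurable_const

theorem exists_large (x : X3) (hx : 1 ≤ ‖x‖) : ∃ p, ‖x‖ / 6 ≤ |x p| := by
  by_contra h
  push Not at h
  have h1 : ‖x‖ ^ 2 = ∑ q, x q ^ 2 := by
    rw [EuclideanSpace.norm_sq_eq]
    simp
  have h2 : ∑ q : Fin 9 × Fin 3, x q ^ 2 ≤ ∑ q : Fin 9 × Fin 3, (‖x‖ / 6) ^ 2 := by
    apply Finset.sum_le_sum
    intro q _
    rw [← sq_abs]
    exact pow_le_pow_left₀ (abs_nonneg _) (h q).le 2
  rw [Finset.sum_const, Finset.card_univ, nsmul_eq_mul] at h2
  have h3 : Fintype.card (Fin 9 × Fin 3) = 27 := by simp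
  rw [h3] at h2
  push_cast at h2
  nlinarith

theorem coord_le (x : X3) (q : Fin 9 × Fin 3) : |x q| ≤ ‖x‖ := by
  have := EuclideanSpace.norm_eq x
  rw [this]
  apply Real.abs_le_sqrt
  have h1 : x q ^ 2 = ‖x q‖ ^ 2 := by simp
  rw [h1]
  exact Finset.single_le_sum (f := fun i => ‖x i‖ ^ 2) (fun i _ => sq_nonneg _)
    (Finset.mem_univ q)

theorem rho6_coord (x : X3) (q : Fin 9 × Fin 3) (hq : 3 ≤ q.1.val) : x q ^ 2 ≤ rho6sq x := by
  unfold rho6sq
  have h1 : (if 3 ≤ q.1.val then x (q.1, q.2) ^ 2 else 0) ≤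
      ∑ A, (if 3 ≤ q.1.val then x (q.1, A) ^ 2 else 0) :=
    Finset.single_le_sum (f := fun A => (if 3 ≤ q.1.val then x (q.1, A) ^ 2 else 0))
      (fun A _ => by split_ifs <;> positivity) (Finset.mem_univ q.2)
  have h2 : ∑ A, (if 3 ≤ q.1.val then x (q.1, A) ^ 2 else 0) ≤
      ∑ i : Fin 9, ∑ A, (if 3 ≤ i.val then x (i, A) ^ 2 else 0) :=
    Finset.single_le_sum (f := fun i : Fin 9 => ∑ A, (if 3 ≤ i.val then x (i, A) ^ 2 else 0))
      (fun i _ => Finset.sum_nonneg fun A _ => by split_ifs <;> positivity) (Finset.mem_univ q.1)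
  rw [if_pos hq] at h1
  exact h1.trans h2

/-- Bochner integral bounded by a sum of charts -/
theorem int_le (S : Setup F) {k t : ℝ} (hk : 0 < k) (ht : 0 < t) (P : X3 → Prop)
    [DecidablePred P] (hPm : MeasurableSet {x | P x}) (s : Finset (Fin 9 × Fin 3))
    (r : Fin 9 × Fin 3 → ℝ) (M : ℝ) (hM : 0 ≤ M)
    (hP : ∀ x, P x → (∃ p ∈ s, 1 / 6 ≤ |x p|) ∧ ∀ q, |x q| ≤ r q)
    (hr : ∀ p ∈ s, ∏ q : {q // slow p q}, ENNReal.ofReal (2 * r q.1) ≤ ENNReal.ofReal M) :
    ∫ x : X3, (if P x then Real.exp (-(k * t * S.V x)) else 0) ≤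
      s.card * (M * ((144 * Real.pi / (k * S.κ ^ 2)) ^ 8 * t ^ (-8 : ℝ))) := by
  have hVc : Continuous S.V := (contDiff_V S).continuous
  have hm : Measurable fun x : X3 => (if P x then Real.exp (-(k * t * S.V x)) else 0) :=
    Measurable.ite hPm (Real.continuous_exp.comp (continuous_const.mul hVc).neg).measurable
      measurable_const
  have hD : 0 ≤ (144 * Real.pi / (k * S.κ ^ 2)) ^ 8 * t ^ (-8 : ℝ) := by positivity
  rw [integral_eq_lintegral_of_nonneg_ae
    (Filter.Eventually.of_forall fun x => by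
      change (0 : ℝ) ≤ _
      split_ifs
      · exact (Real.exp_pos _).le
      · exact le_refl _) hm.aestronglyMeasurable]
  apply ENNReal.toReal_le_of_le_ofReal (by positivity)
  rw [← (PiLp.volume_preserving_toLp (Fin 9 × Fin 3)).lintegral_comp_emb
    (MeasurableEquiv.toLp 2 (Fin 9 × Fin 3 → ℝ)).measurableEmbedding]
  calc ∫⁻ y : Fin 9 × Fin 3 → ℝ, ENNReal.ofReal (if P (WithLp.toLp 2 y) then
        Real.exp (-(k * t * S.V (WithLp.toLp 2 y))) else 0)
      ≤ ∫⁻ y : Fin 9 × Fin 3 → ℝ, ∑ p ∈ s, (if 1 / 6 ≤ |y p| ∧ ∀ q, |y q| ≤ r q then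
        ENNReal.ofReal (Real.exp (-(k * t * S.V (WithLp.toLp 2 y)))) else 0) := by
        apply lintegral_mono
        intro y
        simp only
        split_ifs with h
        · obtain ⟨⟨p, hp, hp6⟩, hq⟩ := hP _ h
          refine le_trans (le_of_eq ?_) (Finset.single_le_sum
            (f := fun p => (if 1 / 6 ≤ |y p| ∧ ∀ q, |y q| ≤ r q then
              ENNReal.ofReal (Real.exp (-(k * t * S.V (WithLp.toLp 2 y)))) else 0))
            (fun _ _ => zero_le) hp)
          have hh : 1 / 6 ≤ |y p| ∧ ∀ q, |y q| ≤ r q := ⟨hp6, hq⟩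
          simp only [hh, and_self, if_true, implies_true]
        · simp
    _ = ∑ p ∈ s, ∫⁻ y : Fin 9 × Fin 3 → ℝ, (if 1 / 6 ≤ |y p| ∧ ∀ q, |y q| ≤ r q then
        ENNReal.ofReal (Real.exp (-(k * t * S.V (WithLp.toLp 2 y)))) else 0) :=
        lintegral_finsetSum _ fun p _ => measurable_chart S k t p r
    _ ≤ ∑ p ∈ s, ENNReal.ofReal (M * ((144 * Real.pi / (k * S.κ ^ 2)) ^ 8 * t ^ (-8 : ℝ))) := by
        apply Finset.sum_le_sum
        intro p hp
        refine (chart S hk ht p r).trans ?_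
        rw [ENNReal.ofReal_mul hM]
        exact mul_le_mul' (hr p hp) le_rfl
    _ = _ := by
        rw [Finset.sum_const, nsmul_eq_mul, ENNReal.ofReal_mul (Nat.cast_nonneg _),
          ENNReal.ofReal_natCast]

theorem part1 (S : Setup F) {k t : ℝ} (hk : 0 < k) (ht : 1 ≤ t) :
    ∫ x : X3, (if 1 ≤ ‖x‖ ∧ ‖x‖ ≤ 2 then Real.exp (-(k * t * S.V x)) else 0) ≤
      27 * (4 ^ 27 * (144 * Real.pi / (k * S.κ ^ 2)) ^ 8) * t ^ (-8 : ℝ) := by
  have h := int_le S hk (by linarith : 0 < t) (fun x => 1 ≤ ‖x‖ ∧ ‖x‖ ≤ 2)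
    ((measurableSet_le measurable_const measurable_norm).inter
      (measurableSet_le measurable_norm measurable_const)) Finset.univ (fun _ => 2) (4 ^ 27)
    (by positivity)
    (by
      rintro x ⟨h1, h2⟩
      obtain ⟨p, hp⟩ := exists_large x h1
      exact ⟨⟨p, Finset.mem_univ _, by linarith⟩, fun q => (coord_le x q).trans h2⟩)
    (by
      intro p _
      rw [← ENNReal.ofReal_prod_of_nonneg (fun _ _ => by norm_num)]
      apply ENNReal.ofReal_le_ofReal
      rw [Finset.prod_const, Finset.card_univ]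
      have h1 : Fintype.card {q // slow p q} ≤ 27 := by
        refine (Fintype.card_subtype_le _).trans ?_
        simp
      calc ((2 : ℝ) * 2) ^ Fintype.card {q // slow p q} ≤ (2 * 2) ^ 27 :=
            pow_le_pow_right₀ (by norm_num) h1
        _ = 4 ^ 27 := by norm_num)
  refine h.trans (le_of_eq ?_)
  have h3 : (Finset.univ : Finset (Fin 9 × Fin 3)).card = 27 := by simp
  rw [h3]
  push_cast
  ring

theorem part2 (S : Setup F) {k t δ : ℝ} (hk : 0 < k) (ht : 1 ≤ t) (hδ : 0 < δ)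
    (hδ1 : δ ≤ 1 / 10) :
    ∫ x : X3, (if 1 ≤ ‖x‖ ∧ ‖x‖ ≤ 2 ∧ rho6sq x ≤ δ ^ 2 * ‖x‖ ^ 2
      then Real.exp (-(k * t * S.V x)) else 0) ≤
      27 * (4 ^ 27 * (144 * Real.pi / (k * S.κ ^ 2)) ^ 8) * δ ^ 6 * t ^ (-8 : ℝ) := by
  have hcr : Continuous rho6sq := by
    unfold rho6sq
    refine continuous_finsetSum _ fun i _ => continuous_finsetSum _ fun A _ => ?_
    split_ifs
    · exact ((Setup.contDiff_coord (i, A)).continuous).pow 2
    · exact continuous_const
  have h := int_le S hk (by linarith : 0 < t)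
    (fun x => 1 ≤ ‖x‖ ∧ ‖x‖ ≤ 2 ∧ rho6sq x ≤ δ ^ 2 * ‖x‖ ^ 2)
    ((measurableSet_le measurable_const measurable_norm).inter
      ((measurableSet_le measurable_norm measurable_const).inter
        (measurableSet_le hcr.measurable (measurable_const.mul (measurable_norm.pow_const 2)))))
    (Finset.univ.filter fun p => p.1.val < 3) (fun q => if 3 ≤ q.1.val then 2 * δ else 2)
    (4 ^ 11 * δ ^ 6) (by positivity)
    (by
      rintro x ⟨h1, h2, h3⟩
      constructor
      · obtain ⟨p, hp⟩ := exists_large x h1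
        refine ⟨p, ?_, by linarith⟩
        rw [Finset.mem_filter]
        refine ⟨Finset.mem_univ _, ?_⟩
        by_contra hlt
        have h4 := (rho6_coord x p (by omega)).trans h3
        have h5 : (‖x‖ / 6) ^ 2 ≤ x p ^ 2 := by
          rw [← sq_abs (x p)]
          exact pow_le_pow_left₀ (by positivity) hp 2
        have h6 : δ ^ 2 ≤ (1 / 10) ^ 2 := pow_le_pow_left₀ hδ.le hδ1 2
        have h7 : δ ^ 2 * ‖x‖ ^ 2 ≤ (1 / 10) ^ 2 * ‖x‖ ^ 2 :=
          mul_le_mul_of_nonneg_right h6 (sq_nonneg _)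
        nlinarith
      · intro q
        split_ifs with hq
        · have h4 := (rho6_coord x q hq).trans h3
          have h5 : x q ^ 2 ≤ (2 * δ) ^ 2 := by
            have h6 : ‖x‖ ^ 2 ≤ 2 ^ 2 := pow_le_pow_left₀ (norm_nonneg _) h2 2
            have h7 := mul_le_mul_of_nonneg_left h6 (sq_nonneg δ)
            calc x q ^ 2 ≤ _ := h4
              _ ≤ _ := h7
              _ = (2 * δ) ^ 2 := by ring
          exact abs_le_of_sq_le_sq h5 (by positivity)
        · exact (coord_le x q).trans h2)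
    (by
      intro p hp
      rw [Finset.mem_filter] at hp
      rw [← ENNReal.ofReal_prod_of_nonneg (fun _ _ => by split_ifs <;> positivity)]
      apply ENNReal.ofReal_le_ofReal
      have h1 : ∀ q : {q // slow p q}, (2 : ℝ) * (if 3 ≤ q.1.1.val then 2 * δ else 2) =
          if 3 ≤ q.1.1.val then 4 * δ else 4 := by
        intro q
        split_ifs
        · ring
        · norm_num
      rw [Finset.prod_congr rfl fun q _ => h1 q, Finset.prod_ite, Finset.prod_const,
        Finset.prod_const, card_slow6 p hp.2, card_slow3 p hp.2]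
      apply le_of_eq
      ring)
  refine h.trans ?_
  have h3 : ((Finset.univ.filter fun p : Fin 9 × Fin 3 => p.1.val < 3).card : ℝ) ≤ 27 := by
    have h4 : (Finset.univ.filter fun p : Fin 9 × Fin 3 => p.1.val < 3).card ≤ 27 := by
      refine (Finset.card_filter_le _ _).trans ?_
      simp
    exact_mod_cast h4
  have h5 : 0 ≤ (144 * Real.pi / (k * S.κ ^ 2)) ^ 8 * t ^ (-8 : ℝ) := by
    have := S.κ_pos
    positivity
  calc _ ≤ 27 * (4 ^ 27 * δ ^ 6 * ((144 * Real.pi / (k * S.κ ^ 2)) ^ 8 * t ^ (-8 : ℝ))) := by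
        apply mul_le_mul h3 _ (by positivity) (by norm_num)
        apply mul_le_mul_of_nonneg_right _ h5
        apply mul_le_mul_of_nonneg_right _ (by positivity)
        norm_num
    _ = _ := by ring

theorem abs_mul_le' {a b p q : ℝ} (ha : |a| ≤ p) (hb : |b| ≤ q) : |a * b| ≤ p * q := by
  rw [abs_mul]
  exact mul_le_mul ha hb (abs_nonneg _) ((abs_nonneg a).trans ha)

theorem minor_bound {s y1 y2 y3 y4 a b z w : ℝ} (hs1 : s ≤ 1) (h1 : |y1| ≤ s)
    (h2 : |y2| ≤ s) (h3 : |y3| ≤ s) (h4 : |y4| ≤ s) (ha : |a| ≤ 1) (hb : |b| ≤ 1)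
    (hz : |z| ≤ 3 / 2) (hw : |w| ≤ 3 / 2) :
    |(y1 + a * z) * (y4 + b * w) - (y2 + a * w) * (y3 + b * z)| ≤ 8 * s := by
  have hs0 : 0 ≤ s := (abs_nonneg _).trans h1
  have e : (y1 + a * z) * (y4 + b * w) - (y2 + a * w) * (y3 + b * z) =
      y1 * y4 - y2 * y3 + (b * (y1 * w) - b * (y2 * z)) + (a * (z * y4) - a * (w * y3)) := by ring
  rw [e]
  have k1 := abs_le.1 (abs_mul_le' h1 h4)
  have k2 := abs_le.1 (abs_mul_le' h2 h3)
  have k3 := abs_le.1 (abs_mul_le' hb (abs_mul_le' h1 hw))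
  have k4 := abs_le.1 (abs_mul_le' hb (abs_mul_le' h2 hz))
  have k5 := abs_le.1 (abs_mul_le' ha (abs_mul_le' hz h4))
  have k6 := abs_le.1 (abs_mul_le' ha (abs_mul_le' hw h3))
  have k7 : s * s ≤ s := by nlinarith
  rw [abs_le]
  constructor
  · linarith [k1.1, k2.2, k3.1, k4.2, k5.1, k6.2]
  · linarith [k1.2, k2.1, k3.2, k4.1, k5.2, k6.1]

/-- the box of part (3) -/
theorem point3 (S : Setup F) {s t : ℝ} (ht : 1 ≤ t) (hs0 : 0 ≤ s) (hs1 : s ≤ 1 / 10)
    (hs2 : 3969 * S.κ ^ 2 * s ^ 2 * t ≤ 1) (x : X3) (h1 : 5 / 4 ≤ x (3, 0)) (h2 : x (3, 0) ≤ 3 / 2)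
    (hsl : ∀ q : Fin 9 × Fin 3, slow (3, 0) q → q ≠ (3, 0) → |x q| ≤ 1 / 10)
    (hf : ∀ q : Fin 9 × Fin 3, ¬slow (3, 0) q →
      |x q - x (3, q.2) * x (q.1, 0) / x (3, 0)| ≤ s) :
    1 ≤ ‖x‖ ∧ ‖x‖ ≤ 2 ∧ ‖x‖ ^ 2 / 4 ≤ rho6sq x ∧ S.V x ≤ 1 / t := by
  have hx0 : 0 < x (3, 0) := by linarith
  have hα : ∀ j : Fin 9, |x (j, 0) / x (3, 0)| ≤ 1 := by
    intro j
    rw [abs_div, abs_of_pos hx0, div_le_one hx0]
    by_cases hj : j = 3
    · rw [hj, abs_of_pos hx0]
    · have := hsl (j, 0) (Or.inr rfl) (fun h => hj (congrArg Prod.fst h))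
      linarith
  have hy : ∀ (j : Fin 9) (B : Fin 3), |x (j, B) - x (j, 0) / x (3, 0) * x (3, B)| ≤ s := by
    intro j B
    by_cases hB : B = 0
    · rw [hB, div_mul_cancel₀ _ hx0.ne', sub_self, abs_zero]
      exact hs0
    · by_cases hj : j = 3
      · rw [hj, div_self hx0.ne', one_mul, sub_self, abs_zero]
        exact hs0
      · have := hf (j, B) (by
          rintro (h | h)
          · exact hj h
          · exact hB h)
        have e : x (j, 0) / x (3, 0) * x (3, B) = x (3, B) * x (j, 0) / x (3, 0) := by ring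
        rw [e]
        exact this
  have hz : ∀ B : Fin 3, |x (3, B)| ≤ 3 / 2 := by
    intro B
    by_cases hB : B = 0
    · rw [hB, abs_of_pos hx0]
      exact h2
    · have := hsl (3, B) (Or.inl rfl) (fun h => hB (congrArg Prod.snd h))
      linarith
  have hmin : ∀ (i j : Fin 9) (B C : Fin 3),
      |x (i, B) * x (j, C) - x (i, C) * x (j, B)| ≤ 8 * s := by
    intro i j B C
    have := minor_bound (by linarith : s ≤ 1) (hy i B) (hy i C) (hy j B) (hy j C) (hα i) (hα j)
      (hz B) (hz C)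
    have e : ∀ (l : Fin 9) (D : Fin 3), x (l, D) - x (l, 0) / x (3, 0) * x (3, D) +
        x (l, 0) / x (3, 0) * x (3, D) = x (l, D) := fun l D => by ring
    rwa [e, e, e, e] at this
  have hV : S.V x ≤ 1 / t := by
    have h3 : ∀ (A : Fin 3) (i j : Fin 9), S.FF A i j x ^ 2 ≤ S.κ ^ 2 * (8 * s) ^ 2 := by
      intro A i j
      have h4 : ∀ B C : Fin 3, (S.κ * (x (i, B) * x (j, C) - x (i, C) * x (j, B))) ^ 2 ≤
          S.κ ^ 2 * (8 * s) ^ 2 := by
        intro B C
        rw [mul_pow]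
        apply mul_le_mul_of_nonneg_left _ (sq_nonneg _)
        rw [← sq_abs]
        exact pow_le_pow_left₀ (abs_nonneg _) (hmin i j B C) 2
      fin_cases A
      · have := h4 1 2
        rw [← FF0] at this
        exact this
      · have := h4 2 0
        rw [← FF1] at this
        exact this
      · have := h4 0 1
        rw [← FF2] at this
        exact this
    have h5 : ∑ A : Fin 3, ∑ i : Fin 9, ∑ j : Fin 9, S.FF A i j x ^ 2 ≤
        ∑ A : Fin 3, ∑ i : Fin 9, ∑ j : Fin 9, S.κ ^ 2 * (8 * s) ^ 2 :=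
      Finset.sum_le_sum fun A _ => Finset.sum_le_sum fun i _ => Finset.sum_le_sum fun j _ =>
        h3 A i j
    simp only [Finset.sum_const, Finset.card_univ, Fintype.card_fin, nsmul_eq_mul] at h5
    push_cast at h5
    rw [le_div_iff₀ (by linarith)]
    unfold Setup.V
    have h6 : (1 / 4 * ∑ A : Fin 3, ∑ i : Fin 9, ∑ j : Fin 9, S.FF A i j x ^ 2) ≤
        3969 * S.κ ^ 2 * s ^ 2 := by nlinarith [sq_nonneg (S.κ * s)]
    calc _ ≤ 3969 * S.κ ^ 2 * s ^ 2 * t := mul_le_mul_of_nonneg_right h6 (by linarith)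
      _ ≤ 1 := hs2
  have hsm : ∀ q : Fin 9 × Fin 3, q ≠ (3, 0) → x q ^ 2 ≤ 1 / 64 := by
    intro q hq
    have h3 : |x q| ≤ 1 / 8 := by
      by_cases hqs : slow (3, 0) q
      · have := hsl q hqs hq
        linarith
      · have h4 := hf q hqs
        have h5 : q.2 ≠ 0 := fun h => hqs (Or.inr h)
        have h6 : q.1 ≠ 3 := fun h => hqs (Or.inl h)
        have h7 := hsl (3, q.2) (Or.inl rfl) (fun h => h5 (congrArg Prod.snd h))
        have h8 := hsl (q.1, 0) (Or.inr rfl) (fun h => h6 (congrArg Prod.fst h))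
        have h9 : |x (3, q.2) * x (q.1, 0) / x (3, 0)| ≤ 1 / 100 := by
          rw [abs_div, abs_of_pos hx0, div_le_iff₀ hx0]
          have := abs_mul_le' h7 h8
          nlinarith
        have h10 := abs_le.1 h4
        have h11 := abs_le.1 h9
        rw [abs_le]
        constructor
        · linarith [h10.1, h11.1]
        · linarith [h10.2, h11.2]
    rw [← sq_abs]
    have := pow_le_pow_left₀ (abs_nonneg _) h3 2
    linarith
  have hn : ‖x‖ ^ 2 = ∑ q, x q ^ 2 := by
    rw [EuclideanSpace.norm_sq_eq]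
    simp
  have hn2 : ‖x‖ ^ 2 ≤ 9 / 4 + 26 / 64 := by
    rw [hn, ← Finset.add_sum_erase Finset.univ (fun q => x q ^ 2) (Finset.mem_univ (3, 0))]
    have h3 : ∑ q ∈ Finset.univ.erase ((3, 0) : Fin 9 × Fin 3), x q ^ 2 ≤
        ∑ q ∈ Finset.univ.erase ((3, 0) : Fin 9 × Fin 3), (1 / 64 : ℝ) :=
      Finset.sum_le_sum fun q hq => hsm q (Finset.ne_of_mem_erase hq)
    rw [Finset.sum_const, nsmul_eq_mul, Finset.card_erase_of_mem (Finset.mem_univ _)] at h3
    have h4 : (Finset.univ : Finset (Fin 9 × Fin 3)).card = 27 := by simp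
    have h6 : ((27 - 1 : ℕ) : ℝ) * (1 / 64) = 26 / 64 := by norm_num
    rw [h4, h6] at h3
    have h5 : x (3, 0) ^ 2 ≤ 9 / 4 := by nlinarith
    linarith
  have hr := rho6_coord x (3, 0) (by decide)
  have h30 : 25 / 16 ≤ x (3, 0) ^ 2 := by nlinarith
  refine ⟨?_, ?_, ?_, hV⟩
  · have := coord_le x (3, 0)
    rw [abs_of_pos hx0] at this
    linarith
  · by_contra h
    push Not at h
    nlinarith
  · linarith

theorem part3 (S : Setup F) : ∃ C : ℝ, 0 < C ∧ ∀ t : ℝ, 1 ≤ t → t ^ (-8 : ℝ) ≤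
    C * ∫ x : X3, (if 1 ≤ ‖x‖ ∧ ‖x‖ ≤ 2 ∧ ‖x‖ ^ 2 / 4 ≤ rho6sq x ∧
      S.V x ≤ 1 / t then 1 else 0) := by
  set c1 : ℝ := min (1 / 10) (1 / (63 * S.κ)) with hc1
  have hκ := S.κ_pos
  have hc0 : 0 < c1 := lt_min (by norm_num) (by positivity)
  have hc2 : c1 ≤ 1 / 10 := min_le_left _ _
  have hc3 : c1 ≤ 1 / (63 * S.κ) := min_le_right _ _
  set lo : {q // slow (3, 0) q} → ℝ := fun q => if q.1 = (3, 0) then 5 / 4 else -(1 / 10) with hlo
  set hi : {q // slow (3, 0) q} → ℝ := fun q => if q.1 = (3, 0) then 3 / 2 else 1 / 10 with hhi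
  have hw : ∀ q, 0 < hi q - lo q := by
    intro q
    simp only [hlo, hhi]
    split_ifs <;> norm_num
  set m : ℝ := ∏ q, (hi q - lo q) with hm
  have hm0 : 0 < m := Finset.prod_pos fun q _ => hw q
  refine ⟨1 / (m * (2 * c1) ^ 16), by positivity, ?_⟩
  intro t ht
  have ht0 : 0 < t := by linarith
  have hst : 1 ≤ √t := by
    rw [Real.one_le_sqrt]
    exact ht
  have hst2 : √t ^ 2 = t := Real.sq_sqrt ht0.le
  set s : ℝ := c1 / √t with hs
  have hs0 : 0 ≤ s := by positivity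
  have hs1 : s ≤ 1 / 10 := (div_le_self hc0.le hst).trans hc2
  have hs2 : 3969 * S.κ ^ 2 * s ^ 2 * t ≤ 1 := by
    have e : 3969 * S.κ ^ 2 * s ^ 2 * t = (63 * S.κ * c1) ^ 2 := by
      rw [hs, div_pow, hst2]
      field_simp
      ring
    rw [e]
    have h1 : 63 * S.κ * c1 ≤ 1 := by
      rw [le_div_iff₀ (by positivity)] at hc3
      linarith
    have h2 : 0 ≤ 63 * S.κ * c1 := by positivity
    nlinarith
  set P : X3 → Prop := fun x => 1 ≤ ‖x‖ ∧ ‖x‖ ≤ 2 ∧ ‖x‖ ^ 2 / 4 ≤ rho6sq x ∧ S.V x ≤ 1 / t with hP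
  have hcr : Continuous rho6sq := by
    unfold rho6sq
    refine continuous_finsetSum _ fun i _ => continuous_finsetSum _ fun A _ => ?_
    split_ifs
    · exact ((Setup.contDiff_coord (i, A)).continuous).pow 2
    · exact continuous_const
  have hVc : Continuous S.V := (contDiff_V S).continuous
  have hPm : MeasurableSet {x : X3 | P x} :=
    (measurableSet_le measurable_const measurable_norm).inter
      ((measurableSet_le measurable_norm measurable_const).inter
        ((measurableSet_le ((measurable_norm.pow_const 2).div_const 4) hcr.measurable).inter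
          (measurableSet_le hVc.measurable measurable_const)))
  have hint : ∫ x : X3, (if 1 ≤ ‖x‖ ∧ ‖x‖ ≤ 2 ∧ ‖x‖ ^ 2 / 4 ≤ rho6sq x ∧
      S.V x ≤ 1 / t then (1 : ℝ) else 0) = (volume {x : X3 | P x}).toReal := by
    have h1 : (fun x : X3 => if 1 ≤ ‖x‖ ∧ ‖x‖ ≤ 2 ∧ ‖x‖ ^ 2 / 4 ≤ rho6sq x ∧
        S.V x ≤ 1 / t then (1 : ℝ) else 0) = Set.indicator {x : X3 | P x} 1 := by
      funext x
      by_cases hx : P x
      · rw [if_pos hx, Set.indicator_of_mem (show x ∈ {x : X3 | P x} from hx)]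
        rfl
      · rw [if_neg hx, Set.indicator_of_notMem (show x ∉ {x : X3 | P x} from hx)]
    rw [h1, integral_indicator_one hPm]
    rfl
  have hfin : volume {x : X3 | P x} ≠ ⊤ := by
    apply ne_top_of_le_ne_top
      (measure_closedBall_lt_top (μ := (volume : Measure X3)) (x := (0 : X3)) (r := 2)).ne
    apply measure_mono
    intro x hx
    rw [mem_closedBall_zero_iff]
    exact hx.2.1
  have hlow := lowerB (slow (3, 0)) lo hi s (cen (3, 0)) (measurable_cen (3, 0))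
    {y : Fin 9 × Fin 3 → ℝ | P (WithLp.toLp 2 y)} (by
      intro y hy hf
      have hy1 := hy.1 ⟨(3, 0), Or.inl rfl⟩
      have hy2 := hy.2 ⟨(3, 0), Or.inl rfl⟩
      simp only [hlo, hhi, if_true] at hy1 hy2
      refine point3 S ht hs0 hs1 hs2 (WithLp.toLp 2 y) hy1 hy2 ?_ ?_
      · intro q hq hq0
        have h1 := hy.1 ⟨q, hq⟩
        have h2 := hy.2 ⟨q, hq⟩
        simp only [hlo, hhi, if_neg hq0] at h1 h2
        exact abs_le.2 ⟨h1, h2⟩
      · intro q hq
        exact hf ⟨q, hq⟩)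
  have hvol : volume {y : Fin 9 × Fin 3 → ℝ | P (WithLp.toLp 2 y)} = volume {x : X3 | P x} :=
    (PiLp.volume_preserving_toLp (Fin 9 × Fin 3)).measure_preimage hPm.nullMeasurableSet
  rw [hvol, card_fast, ← ENNReal.ofReal_prod_of_nonneg (fun q _ => (hw q).le),
    ← ENNReal.ofReal_pow (by positivity), ← ENNReal.ofReal_mul hm0.le,
    ENNReal.ofReal_le_iff_le_toReal hfin] at hlow
  rw [hint]
  have h3 : t ^ (-8 : ℝ) = (t ^ 8)⁻¹ := by
    rw [Real.rpow_neg ht0.le]
    congr 1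
    exact_mod_cast Real.rpow_natCast t 8
  have h4 : (2 * s) ^ 16 = (2 * c1) ^ 16 * (t ^ 8)⁻¹ := by
    rw [hs, ← mul_div_assoc, div_pow]
    have : √t ^ 16 = t ^ 8 := by
      calc √t ^ 16 = (√t ^ 2) ^ 8 := by rw [← pow_mul]
        _ = t ^ 8 := by rw [hst2]
    rw [this, div_eq_mul_inv]
  rw [h3]
  rw [h4] at hlow
  have h5 : 0 < m * (2 * c1) ^ 16 := by positivity
  rw [one_div, ← div_eq_inv_mul, le_div_iff₀ h5]
  calc (t ^ 8)⁻¹ * (m * (2 * c1) ^ 16) = m * ((2 * c1) ^ 16 * (t ^ 8)⁻¹) := by ring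
    _ ≤ _ := hlow

end Vale.Agent.P353.UInt

namespace Vale.Agent.P353.U

variable {F : Type*} [NormedAddCommGroup F] [InnerProductSpace ℂ F]

theorem int (S : Setup F) : IntStmt S := by
  intro k hk
  obtain ⟨C3, hC3, h3⟩ := UInt.part3 S
  have hκ := S.κ_pos
  set C1 : ℝ := 27 * (4 ^ 27 * (144 * Real.pi / (k * S.κ ^ 2)) ^ 8) with hC1
  have hC10 : 0 < C1 := by positivity
  refine ⟨C1 + C3, by positivity, ?_, ?_, ?_⟩
  · intro t ht
    refine (UInt.part1 S hk ht).trans ?_
    apply mul_le_mul_of_nonneg_right _ (Real.rpow_nonneg (by linarith) _)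
    linarith
  · intro t δ ht hδ hδ1
    refine (UInt.part2 S hk ht hδ hδ1).trans ?_
    apply mul_le_mul_of_nonneg_right _ (Real.rpow_nonneg (by linarith) _)
    apply mul_le_mul_of_nonneg_right _ (by positivity)
    linarith
  · intro t ht
    refine (h3 t ht).trans ?_
    apply mul_le_mul_of_nonneg_right (by linarith)
    apply integral_nonneg
    intro x
    change (0 : ℝ) ≤ _
    beta_reduce
    split_ifs <;> norm_num

end Vale.Agent.P353.U
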