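import Vale.Agent.P353.U.MollRad

/-! # Second moments of mollified functions -/

open MeasureTheory Filter Topology
open scoped ContDiff

namespace Vale.Agent.P353.Moll

variable {F : Type*} [NormedAddCommGroup F] [InnerProductSpace ℂ F] {ε : ℝ} {ρ : X3 → ℝ}

/-- `(1 + ‖x‖) Ψ` is in `L²` -/
lemma memLp_one_add {Ψ : X3 → F} (hΨ : MemLp Ψ 2 (volume : Measure X3))
    (hm : Integrable (fun x => ‖x‖ ^ 2 * ‖Ψ x‖ ^ 2)) :
    MemLp (fun x => ((1 + ‖x‖ : ℝ) : ℂ) • Ψ x) 2 (volume : Measure X3) ∧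
      nsq (fun x => ((1 + ‖x‖ : ℝ) : ℂ) • Ψ x) ≤
        2 * nsq Ψ + 2 * ∫ x, ‖x‖ ^ 2 * ‖Ψ x‖ ^ 2 := by
  have hc : Continuous (fun x : X3 => ((1 + ‖x‖ : ℝ) : ℂ)) :=
    Complex.continuous_ofReal.comp (continuous_const.add continuous_norm)
  have i1 := memLp_norm_sq_int hΨ
  have hi : Integrable (fun x => 2 * ‖Ψ x‖ ^ 2 + 2 * (‖x‖ ^ 2 * ‖Ψ x‖ ^ 2)) :=
    (i1.const_mul 2).add (hm.const_mul 2)
  have hb : ∀ x, ‖((1 + ‖x‖ : ℝ) : ℂ) • Ψ x‖ ^ 2 ≤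
      2 * ‖Ψ x‖ ^ 2 + 2 * (‖x‖ ^ 2 * ‖Ψ x‖ ^ 2) := by
    intro x
    have h0 := norm_nonneg x
    rw [norm_smul, Complex.norm_real, Real.norm_of_nonneg (by positivity), mul_pow]
    have h1 : (1 + ‖x‖) ^ 2 ≤ 2 + 2 * ‖x‖ ^ 2 := by nlinarith [sq_nonneg (1 - ‖x‖)]
    nlinarith [sq_nonneg ‖Ψ x‖]
  have hms : AEStronglyMeasurable (fun x => ((1 + ‖x‖ : ℝ) : ℂ) • Ψ x) (volume : Measure X3) :=
    hc.aestronglyMeasurable.smul hΨ.1
  refine ⟨(memLp_two_iff_integrable_sq_norm hms).mpr (hi.mono' (hms.norm.pow 2)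
    (Eventually.of_forall fun x => ?_)), ?_⟩
  · rw [Real.norm_of_nonneg (by positivity)]
    exact hb x
  · have h2 : 2 * nsq Ψ + 2 * ∫ x, ‖x‖ ^ 2 * ‖Ψ x‖ ^ 2 =
        ∫ x, (2 * ‖Ψ x‖ ^ 2 + 2 * (‖x‖ ^ 2 * ‖Ψ x‖ ^ 2)) := by
      rw [integral_add (i1.const_mul 2) (hm.const_mul 2), integral_const_mul,
        integral_const_mul, nsq]
    rw [h2, nsq]
    exact integral_mono_of_nonneg (Eventually.of_forall fun x => by positivity) hi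
      (Eventually.of_forall hb)

/-- second moment of the mollification -/
lemma moment_mo (h : IsMol ε ρ) (hε : ε ≤ 1) {Ψ : X3 → F}
    (hΨ : MemLp Ψ 2 (volume : Measure X3)) (hm : Integrable (fun x => ‖x‖ ^ 2 * ‖Ψ x‖ ^ 2)) :
    Integrable (fun x => ‖x‖ ^ 2 * ‖mo ρ Ψ x‖ ^ 2) ∧
      ∫ x, ‖x‖ ^ 2 * ‖mo ρ Ψ x‖ ^ 2 ≤ 2 * nsq Ψ + 2 * ∫ x, ‖x‖ ^ 2 * ‖Ψ x‖ ^ 2 := by
  obtain ⟨m1, m2⟩ := memLp_one_add hΨ hm
  have hcm : Continuous (mo ρ Ψ) := (contDiff_mo h.contDiff h.hcs (locInt hΨ)).continuous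
  have hw : ∀ x, ‖((‖x‖ : ℝ) : ℂ) • mo ρ Ψ x‖ ≤
      1 * mo ρ (fun y => ‖((1 + ‖y‖ : ℝ) : ℂ) • Ψ y‖) x := by
    intro x
    rw [one_mul, norm_smul, Complex.norm_real, norm_norm]
    have h1 := norm_mo_le h Ψ x
    refine (mul_le_mul_of_nonneg_left h1 (norm_nonneg x)).trans ?_
    unfold mo
    rw [← integral_const_mul]
    refine integral_mono_of_nonneg (Eventually.of_forall fun y => ?_)
      (integrable_mo h.contDiff.continuous h.hcs (fun z => (locInt m1 z).norm) x)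
      (Eventually.of_forall fun y => ?_)
    · simp only [smul_eq_mul]
      exact mul_nonneg (norm_nonneg _) (mul_nonneg (h.nonneg _) (norm_nonneg _))
    · simp only [smul_eq_mul]
      rw [norm_smul, Complex.norm_real, Real.norm_of_nonneg (by positivity)]
      rcases le_or_gt ε ‖x - y‖ with hxy | hxy
      · rw [h.supp _ hxy]
        simp
      · have h3 : ‖x‖ ≤ 1 + ‖y‖ := by
          have := norm_sub_norm_le x y
          linarith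
        have h4 : 0 ≤ ρ (x - y) * ‖Ψ y‖ := mul_nonneg (h.nonneg _) (norm_nonneg _)
        nlinarith
  have hms : AEStronglyMeasurable (fun x => ((‖x‖ : ℝ) : ℂ) • mo ρ Ψ x) (volume : Measure X3) :=
    ((Complex.continuous_ofReal.comp continuous_norm).smul hcm).aestronglyMeasurable
  obtain ⟨n1, n2⟩ := nsq_le_mo h m1 hms hw
  have e : (fun x => ‖((‖x‖ : ℝ) : ℂ) • mo ρ Ψ x‖ ^ 2) = fun x => ‖x‖ ^ 2 * ‖mo ρ Ψ x‖ ^ 2 := by
    funext x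
    rw [norm_smul, Complex.norm_real, norm_norm, mul_pow]
  have n3 := memLp_norm_sq_int n1
  rw [e] at n3
  refine ⟨n3, ?_⟩
  have n4 : nsq (fun x => ((‖x‖ : ℝ) : ℂ) • mo ρ Ψ x) = ∫ x, ‖x‖ ^ 2 * ‖mo ρ Ψ x‖ ^ 2 := by
    rw [nsq, e]
  rw [n4] at n2
  linarith

end Vale.Agent.P353.Moll
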