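import Vale.Agent.P353.U.MollInv
import Vale.Agent.P353.U.MollMom
import Vale.Agent.P353.U.StmtD
import Vale.Agent.P353.Loc

/-! # P353, uniqueness for `N = 2`: D-Inv (`InvMomStmt`) -/

open MeasureTheory Filter Topology
open scoped ContDiff

namespace Vale.Agent.P353.U

open Vale.Agent.P353.Moll

variable {F : Type*} [NormedAddCommGroup F] [InnerProductSpace ℂ F]

namespace InvMom

variable (S : Setup F)

/-- `W_β` is quadratic: Lipschitz with linear growth -/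
lemma W_lip (β : Fin 16) : ∃ C : ℝ, 0 ≤ C ∧ ∀ x y : X3, ‖x - y‖ ≤ 1 →
    ‖S.W β x - S.W β y‖ ≤ C * ‖x - y‖ * (1 + ‖y‖) := by
  -- scalar estimate
  have hFF : ∀ A i j, ∀ x y : X3, ‖x - y‖ ≤ 1 → |S.FF A i j x - S.FF A i j y| ≤
      (S.κ * ∑ B, ∑ C, |(eps A B C : ℝ)| * 2) * (‖x - y‖ * (1 + ‖y‖)) := by
    intro A i j x y hxy
    have h1 : S.FF A i j x - S.FF A i j y = S.κ * ∑ B, ∑ C, (eps A B C : ℝ) *
        (x (i, B) * x (j, C) - y (i, B) * y (j, C)) := by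
      simp only [Setup.FF, ← mul_sub, ← Finset.sum_sub_distrib]
      congr 1
      refine Finset.sum_congr rfl fun B _ => Finset.sum_congr rfl fun C _ => ?_
      ring
    rw [h1, abs_mul, abs_of_pos S.κ_pos, mul_assoc, Finset.sum_mul]
    refine mul_le_mul_of_nonneg_left ?_ S.κ_pos.le
    refine (Finset.abs_sum_le_sum_abs _ _).trans (Finset.sum_le_sum fun B _ => ?_)
    rw [Finset.sum_mul]
    refine (Finset.abs_sum_le_sum_abs _ _).trans (Finset.sum_le_sum fun C _ => ?_)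
    rw [abs_mul, mul_assoc]
    refine mul_le_mul_of_nonneg_left ?_ (abs_nonneg _)
    have a1 : |x (i, B) - y (i, B)| ≤ ‖x - y‖ := by
      have := PiLp.norm_apply_le (x - y) (i, B)
      rwa [Real.norm_eq_abs, PiLp.sub_apply] at this
    have a2 : |x (j, C) - y (j, C)| ≤ ‖x - y‖ := by
      have := PiLp.norm_apply_le (x - y) (j, C)
      rwa [Real.norm_eq_abs, PiLp.sub_apply] at this
    have a3 : |x (j, C)| ≤ ‖x‖ := by
      have := PiLp.norm_apply_le x (j, C)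
      rwa [Real.norm_eq_abs] at this
    have a4 : |y (i, B)| ≤ ‖y‖ := by
      have := PiLp.norm_apply_le y (i, B)
      rwa [Real.norm_eq_abs] at this
    have a5 : ‖x‖ ≤ 1 + ‖y‖ := by
      have := norm_sub_norm_le x y
      linarith
    have e : x (i, B) * x (j, C) - y (i, B) * y (j, C) =
        (x (i, B) - y (i, B)) * x (j, C) + y (i, B) * (x (j, C) - y (j, C)) := by ring
    rw [e]
    calc |(x (i, B) - y (i, B)) * x (j, C) + y (i, B) * (x (j, C) - y (j, C))|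
        ≤ |x (i, B) - y (i, B)| * |x (j, C)| + |y (i, B)| * |x (j, C) - y (j, C)| := by
          rw [← abs_mul, ← abs_mul]; exact abs_add_le _ _
      _ ≤ ‖x - y‖ * (1 + ‖y‖) + (1 + ‖y‖) * ‖x - y‖ := by
          have n1 := norm_nonneg (x - y)
          have n2 := norm_nonneg y
          refine add_le_add (mul_le_mul a1 (a3.trans a5) (abs_nonneg _) n1)
            (mul_le_mul (a4.trans (by linarith)) a2 (abs_nonneg _) (by linarith))
      _ = 2 * (‖x - y‖ * (1 + ‖y‖)) := by ring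
  refine ⟨‖(1 / 2 : ℂ)‖ * ∑ A, ∑ i, ∑ j, (S.κ * ∑ B, ∑ C, |(eps A B C : ℝ)| * 2) *
    ‖S.vec (S.g2 i j) A β‖, ?_, fun x y hxy => ?_⟩
  · have := S.κ_pos
    positivity
  · have h1 : S.W β x - S.W β y = (1 / 2 : ℂ) • ∑ A, ∑ i, ∑ j,
        ((S.FF A i j x - S.FF A i j y : ℝ) : ℂ) • S.vec (S.g2 i j) A β := by
      simp only [Setup.W, ← smul_sub, ← Finset.sum_sub_distrib, ← sub_smul, Complex.ofReal_sub]
    rw [h1, norm_smul, mul_assoc, mul_assoc]
    refine mul_le_mul_of_nonneg_left ?_ (norm_nonneg _)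
    rw [Finset.sum_mul]
    refine (norm_sum_le _ _).trans (Finset.sum_le_sum fun A _ => ?_)
    rw [Finset.sum_mul]
    refine (norm_sum_le _ _).trans (Finset.sum_le_sum fun i _ => ?_)
    rw [Finset.sum_mul]
    refine (norm_sum_le _ _).trans (Finset.sum_le_sum fun j _ => ?_)
    rw [norm_smul, Complex.norm_real, Real.norm_eq_abs]
    calc |S.FF A i j x - S.FF A i j y| * ‖S.vec (S.g2 i j) A β‖
        ≤ ((S.κ * ∑ B, ∑ C, |(eps A B C : ℝ)| * 2) * (‖x - y‖ * (1 + ‖y‖))) *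
          ‖S.vec (S.g2 i j) A β‖ := mul_le_mul_of_nonneg_right (hFF A i j x y hxy) (norm_nonneg _)
      _ = _ := by ring

lemma Q_mo [CompleteSpace F] {ρ : X3 → ℝ} (hρ : ContDiff ℝ ∞ ρ) (hc : HasCompactSupport ρ)
    (β : Fin 16) {f : X3 → F} (hf : LocallyIntegrable f volume) (x : X3) :
    Integrable (fun y => (-Complex.I) • ∑ i, ∑ A, S.vec (S.g i) A β (pdr i A ρ (x - y) • f y) +
      S.W β x (ρ (x - y) • f y)) ∧
    S.Q β (mo ρ f) x = ∫ y, ((-Complex.I) • ∑ i, ∑ A,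
      S.vec (S.g i) A β (pdr i A ρ (x - y) • f y) + S.W β x (ρ (x - y) • f y)) := by
  have i1 : ∀ i A, Integrable (fun y => pdr i A ρ (x - y) • f y) := fun i A =>
    integrable_mo (contDiff_pdr hρ i A).continuous
      (hc.fderiv_apply (𝕜 := ℝ) (EuclideanSpace.single (i, A) (1 : ℝ) : X3)) hf x
  have i2 : Integrable (fun y => ρ (x - y) • f y) := integrable_mo hρ.continuous hc hf x
  have j1 : ∀ i A, Integrable (fun y => S.vec (S.g i) A β (pdr i A ρ (x - y) • f y)) :=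
    fun i A => (S.vec (S.g i) A β).integrable_comp (i1 i A)
  have j2 : ∀ i, Integrable (fun y => ∑ A, S.vec (S.g i) A β (pdr i A ρ (x - y) • f y)) :=
    fun i => integrable_finsetSum _ fun A _ => j1 i A
  have j3 : Integrable (fun y => (-Complex.I) • ∑ i, ∑ A,
      S.vec (S.g i) A β (pdr i A ρ (x - y) • f y)) :=
    (integrable_finsetSum _ fun i _ => j2 i).smul (-Complex.I)
  have j4 : Integrable (fun y => S.W β x (ρ (x - y) • f y)) := (S.W β x).integrable_comp i2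
  refine ⟨j3.add j4, ?_⟩
  rw [integral_add j3 j4, integral_smul, integral_finsetSum _ fun i _ => j2 i, Setup.Q]
  have e1 : ∀ i, ∫ y, ∑ A, S.vec (S.g i) A β (pdr i A ρ (x - y) • f y) =
      ∑ A, S.vec (S.g i) A β (pd i A (mo ρ f) x) := by
    intro i
    rw [integral_finsetSum _ fun A _ => j1 i A]
    refine Finset.sum_congr rfl fun A _ => ?_
    rw [(S.vec (S.g i) A β).integral_comp_comm (i1 i A), pd_mo hρ hc hf]
    rfl
  have e2 : ∫ y, S.W β x (ρ (x - y) • f y) = S.W β x (mo ρ f x) := by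
    rw [(S.W β x).integral_comp_comm i2, mo]
  simp only [e1, e2]

/-- commutator of `Q_β` with the mollification, weak form -/
lemma inner_Q_mo [CompleteSpace F] {ρ : X3 → ℝ} (hρ : ContDiff ℝ ∞ ρ) (hc : HasCompactSupport ρ)
    (β : Fin 16) {Ψ : X3 → F} (hΨ : MemLp Ψ 2 (volume : Measure X3))
    (hw : ∀ ζ, Setup.Tst ζ → ∫ x, inner ℂ (S.Q β ζ x) (Ψ x) = 0) (x : X3) (v : F) :
    inner ℂ v (S.Q β (mo ρ Ψ) x) =
      ∫ y, ((ρ (x - y) : ℝ) : ℂ) * inner ℂ v ((S.W β x - S.W β y) (Ψ y)) := by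
  obtain ⟨i1, e1⟩ := Q_mo S hρ hc β (locInt hΨ) x
  have hT := Tst_tz hρ hc x v
  have i2 : Integrable (fun y => inner ℂ (S.Q β (tz ρ x v) y) (Ψ y)) :=
    integrable_inner_memLp (hT.Q S β).memLp hΨ
  have i3 : Integrable (fun y => inner ℂ v ((-Complex.I) • ∑ i, ∑ A,
      S.vec (S.g i) A β (pdr i A ρ (x - y) • Ψ y) + S.W β x (ρ (x - y) • Ψ y))) :=
    i1.const_inner v
  rw [e1, ← integral_inner i1]
  have h0 := hw _ hT
  rw [← sub_zero (∫ y, inner ℂ v _), ← h0, ← integral_sub i3 i2]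
  refine integral_congr_ae (Eventually.of_forall fun y => ?_)
  have hv : ∀ i A (a b : F), inner ℂ (S.vec (S.g i) A β a) b = inner ℂ a (S.vec (S.g i) A β b) :=
    fun i A => S.vec_symm _ (S.g_im i) A β
  have e2 : ∀ i A, pd i A (tz ρ x v) y = -((((pdr i A ρ (x - y)) : ℝ) : ℂ) • v) :=
    fun i A => pd_tz hρ x v i A y
  simp only [Setup.Q, e2, tz, map_smul, map_neg, inner_add_left, inner_smul_left, sum_inner,
    inner_neg_left, Complex.conj_ofReal, Complex.conj_I, ← Complex.coe_smul (E := F),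
    inner_add_right, inner_smul_right, inner_sum, hv, _root_.sub_apply, inner_sub_right,
    S.W_symm]
  simp only [Finset.sum_neg_distrib]
  ring

lemma norm_Q_mo_le [CompleteSpace F] {ε C : ℝ} {ρ : X3 → ℝ} (h : IsMol ε ρ) (hε : ε ≤ 1)
    (hε0 : 0 ≤ ε)
    (β : Fin 16) (hC : 0 ≤ C) (hL : ∀ x y : X3, ‖x - y‖ ≤ 1 →
      ‖S.W β x - S.W β y‖ ≤ C * ‖x - y‖ * (1 + ‖y‖))
    {Ψ : X3 → F} (hΨ : MemLp Ψ 2 (volume : Measure X3))
    (hm : Integrable (fun x => ‖x‖ ^ 2 * ‖Ψ x‖ ^ 2))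
    (hw : ∀ ζ, Setup.Tst ζ → ∫ x, inner ℂ (S.Q β ζ x) (Ψ x) = 0) (x : X3) :
    ‖S.Q β (mo ρ Ψ) x‖ ≤ (C * ε) * mo ρ (fun y => ‖((1 + ‖y‖ : ℝ) : ℂ) • Ψ y‖) x := by
  obtain ⟨q, hq⟩ : ∃ q, q = S.Q β (mo ρ Ψ) x := ⟨_, rfl⟩
  have m1 := (memLp_one_add hΨ hm).1
  have i1 : Integrable (fun y => ρ (x - y) • ‖((1 + ‖y‖ : ℝ) : ℂ) • Ψ y‖) :=
    integrable_mo h.contDiff.continuous h.hcs (fun z => (locInt m1 z).norm) x
  have h1 := inner_Q_mo S h.contDiff h.hcs β hΨ hw x q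
  rw [← hq] at h1
  have h2 : ‖q‖ ^ 2 ≤ ‖q‖ * ((C * ε) * mo ρ (fun y => ‖((1 + ‖y‖ : ℝ) : ℂ) • Ψ y‖) x) := by
    have h3 : ‖q‖ ^ 2 = ‖(inner ℂ q q : ℂ)‖ := by
      rw [inner_self_eq_norm_sq_to_K, norm_pow]
      simp
    rw [h3, h1]
    unfold mo
    rw [← integral_const_mul, ← integral_const_mul]
    refine (norm_integral_le_integral_norm _).trans ?_
    refine integral_mono_of_nonneg (Eventually.of_forall fun y => norm_nonneg _)
      ((i1.const_mul _).const_mul _) (Eventually.of_forall fun y => ?_)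
    simp only [smul_eq_mul]
    rw [norm_mul, Complex.norm_real, Real.norm_of_nonneg (h.nonneg _), norm_smul,
      Complex.norm_real, Real.norm_of_nonneg (by positivity : (0 : ℝ) ≤ 1 + ‖y‖)]
    rcases le_or_gt ε ‖x - y‖ with hxy | hxy
    · rw [h.supp _ hxy]
      simp
    · have h4 : ‖(inner ℂ q ((S.W β x - S.W β y) (Ψ y)) : ℂ)‖ ≤
          ‖q‖ * (C * ε * (1 + ‖y‖) * ‖Ψ y‖) := by
        refine (norm_inner_le_norm _ _).trans (mul_le_mul_of_nonneg_left ?_ (norm_nonneg _))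
        refine ((S.W β x - S.W β y).le_opNorm _).trans
          (mul_le_mul_of_nonneg_right ?_ (norm_nonneg _))
        refine (hL x y (hxy.le.trans hε)).trans ?_
        gcongr
      calc ρ (x - y) * ‖(inner ℂ q ((S.W β x - S.W β y) (Ψ y)) : ℂ)‖
          ≤ ρ (x - y) * (‖q‖ * (C * ε * (1 + ‖y‖) * ‖Ψ y‖)) :=
            mul_le_mul_of_nonneg_left h4 (h.nonneg _)
        _ = _ := by ring
  rw [← hq]
  rcases eq_or_ne q 0 with h0 | h0
  · rw [h0, norm_zero]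
    refine mul_nonneg (mul_nonneg hC hε0) ?_
    exact integral_nonneg fun y => smul_nonneg (h.nonneg _) (norm_nonneg _)
  · have h5 : 0 < ‖q‖ := norm_pos_iff.2 h0
    rw [sq] at h2
    exact le_of_mul_le_mul_left h2 h5

lemma gradOp_le {K R : ℝ} {h : ℝ → ℝ} (hh : IsRC K R h) (β : Fin 16) (x : X3) :
    ‖S.gradOp (rad h) β x‖ ≤ K / R * ∑ i, ∑ A, ‖S.vec (S.g i) A β‖ := by
  rw [Setup.gradOp, norm_smul, norm_neg, Complex.norm_I, one_mul, Finset.mul_sum]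
  refine (norm_sum_le _ _).trans (Finset.sum_le_sum fun i _ => ?_)
  rw [Finset.mul_sum]
  refine (norm_sum_le _ _).trans (Finset.sum_le_sum fun A _ => ?_)
  rw [norm_smul, Complex.norm_real, Real.norm_eq_abs]
  exact mul_le_mul_of_nonneg_right (hh.grad i A x) (norm_nonneg _)

lemma gradOp_zero {K R : ℝ} {h : ℝ → ℝ} (hh : IsRC K R h) (β : Fin 16) (x : X3)
    (hx : ‖x‖ < R / 2) : S.gradOp (rad h) β x = 0 := by
  rw [Setup.gradOp]
  have : ∀ i A, pdr i A (rad h) x = 0 := fun i A => hh.grad0 i A x hx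
  simp [this]

lemma continuous_gradOp {K R : ℝ} {h : ℝ → ℝ} (hh : IsRC K R h) (β : Fin 16) :
    Continuous (S.gradOp (rad h) β) := by
  have h1 : Continuous (fun x => ∑ i, ∑ A, ((pdr i A (rad h) x : ℝ) : ℂ) •
      S.vec (S.g i) A β) :=
    continuous_finsetSum _ fun i _ => continuous_finsetSum _ fun A _ =>
      (Complex.continuous_ofReal.comp
        (contDiff_pdr (contDiff_rad hh.contDiff) i A).continuous).smul continuous_const
  exact h1.const_smul (-Complex.I)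

lemma rad_norm_le {K R : ℝ} {h : ℝ → ℝ} (hh : IsRC K R h) (x : X3) :
    ‖((rad h x : ℝ) : ℂ)‖ ≤ 1 := by
  rw [Complex.norm_real, Real.norm_of_nonneg (hh.nonneg x)]
  exact hh.le_one x

lemma memLp_rad {K R : ℝ} {h : ℝ → ℝ} (hh : IsRC K R h) {f : X3 → F}
    (hf : MemLp f 2 (volume : Measure X3)) :
    MemLp (fun x => ((rad h x : ℝ) : ℂ) • f x) 2 (volume : Measure X3) ∧
      nsq (fun x => ((rad h x : ℝ) : ℂ) • f x) ≤ nsq f := by
  constructor
  · refine MemLp.of_le hf ?_ (Eventually.of_forall fun x => ?_)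
    · exact (Complex.continuous_ofReal.comp
        (contDiff_rad hh.contDiff).continuous).aestronglyMeasurable.smul hf.1
    · rw [norm_smul]
      exact mul_le_of_le_one_left (norm_nonneg _) (rad_norm_le hh x)
  · have := nsq_le_of (c := 1) hf (f := fun x => ((rad h x : ℝ) : ℂ) • f x)
      (fun x => by
        rw [norm_smul]
        exact mul_le_mul_of_nonneg_right (rad_norm_le hh x) (norm_nonneg _))
    linarith

/-- tail integral -/
noncomputable def tl (R : ℝ) (Ψ : X3 → F) : ℝ := ∫ x, (if R / 4 ≤ ‖x‖ then ‖Ψ x‖ ^ 2 else 0)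

omit [InnerProductSpace ℂ F] in
lemma tl_int (R : ℝ) {Ψ : X3 → F} (hΨ : MemLp Ψ 2 (volume : Measure X3)) :
    Integrable (fun x => if R / 4 ≤ ‖x‖ then ‖Ψ x‖ ^ 2 else 0) := by
  have h1 : (fun x : X3 => if R / 4 ≤ ‖x‖ then ‖Ψ x‖ ^ 2 else 0) =
      {x : X3 | R / 4 ≤ ‖x‖}.indicator (fun x => ‖Ψ x‖ ^ 2) := by
    funext x
    simp [Set.indicator_apply]
  rw [h1]
  exact (memLp_norm_sq_int hΨ).indicator
    (isClosed_le continuous_const continuous_norm).measurableSet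

omit [InnerProductSpace ℂ F] in
lemma tl_nonneg (R : ℝ) (Ψ : X3 → F) : 0 ≤ tl R Ψ := by
  refine integral_nonneg fun x => ?_
  simp only [Pi.zero_apply]
  split_ifs <;> positivity

/-- distance of the cut off function -/
lemma nsq_dist {K R : ℝ} {h : ℝ → ℝ} (hR : 0 < R) (hh : IsRC K R h) {w Ψ : X3 → F}
    (hΨ : MemLp Ψ 2 (volume : Measure X3)) (hw : MemLp w 2 (volume : Measure X3)) :
    nsq (fun x => ((rad h x : ℝ) : ℂ) • w x - Ψ x) ≤
      2 * nsq (fun x => w x - Ψ x) + 2 * tl R Ψ := by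
  have hdm : MemLp (fun x => w x - Ψ x) 2 (volume : Measure X3) := hw.sub hΨ
  have hr1 : ∀ x : X3, ‖(((rad h x : ℝ) : ℂ) - 1)‖ ≤ 1 := by
    intro x
    rw [← Complex.ofReal_one, ← Complex.ofReal_sub, Complex.norm_real, Real.norm_eq_abs, abs_le]
    constructor
    · linarith [hh.nonneg x]
    · linarith [hh.le_one x]
  obtain ⟨m1, b1⟩ := memLp_rad hh hdm
  have m2 : MemLp (fun x => (((rad h x : ℝ) : ℂ) - 1) • Ψ x) 2 (volume : Measure X3) := by
    refine MemLp.of_le hΨ ?_ (Eventually.of_forall fun x => ?_)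
    · exact ((Complex.continuous_ofReal.comp (contDiff_rad hh.contDiff).continuous).sub
        continuous_const).aestronglyMeasurable.smul hΨ.1
    · rw [norm_smul]
      exact mul_le_of_le_one_left (norm_nonneg _) (hr1 x)
  have e : (fun x => ((rad h x : ℝ) : ℂ) • w x - Ψ x) = fun x =>
      ((rad h x : ℝ) : ℂ) • (w x - Ψ x) + (((rad h x : ℝ) : ℂ) - 1) • Ψ x := by
    funext x
    module
  rw [e]
  refine (nsq_add_le m1 m2).trans ?_
  have b2 : nsq (fun x => (((rad h x : ℝ) : ℂ) - 1) • Ψ x) ≤ tl R Ψ := by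
    rw [tl, nsq]
    refine integral_mono_of_nonneg (Eventually.of_forall fun x => by positivity) (tl_int R hΨ)
      (Eventually.of_forall fun x => ?_)
    simp only
    split_ifs with hx
    · rw [norm_smul]
      refine pow_le_pow_left₀ (by positivity) ?_ 2
      exact mul_le_of_le_one_left (norm_nonneg _) (hr1 x)
    · rw [not_le] at hx
      rw [hh.one x (by linarith)]
      simp
  linarith

/-- energy of the cut off function -/
lemma nsq_energy {K R Cg : ℝ} {h : ℝ → ℝ} (hR : 0 < R) (hh : IsRC K R h) (hK : 0 ≤ K) (β : Fin 16)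
    (hCg : ∑ i, ∑ A, ‖S.vec (S.g i) A β‖ ≤ Cg) {w Ψ : X3 → F} (hwc : ContDiff ℝ ∞ w)
    (hΨ : MemLp Ψ 2 (volume : Measure X3)) (hw : MemLp w 2 (volume : Measure X3))
    (hq : MemLp (S.Q β w) 2 (volume : Measure X3)) :
    nsq (S.Qm 0 β (fun y => ((rad h y : ℝ) : ℂ) • w y)) ≤ 2 * nsq (S.Q β w) +
      4 * ((Cg * K / R) ^ 2 * nsq (fun x => w x - Ψ x)) + 4 * ((Cg * K / R) ^ 2 * tl R Ψ) := by
  have hdm : MemLp (fun x => w x - Ψ x) 2 (volume : Measure X3) := hw.sub hΨ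
  have hrc : ContDiff ℝ ∞ (rad h) := contDiff_rad hh.contDiff
  have e : S.Qm 0 β (fun y => ((rad h y : ℝ) : ℂ) • w y) = fun x =>
      ((rad h x : ℝ) : ℂ) • S.Q β w x + (S.gradOp (rad h) β x (w x - Ψ x) +
        S.gradOp (rad h) β x (Ψ x)) := by
    funext x
    rw [Setup.Qm, S.Q_cut (rad h) β w x (hrc.differentiable (by simp) x)
      (hwc.differentiable (by simp) x), ← map_add, sub_add_cancel]
    simp
  have hgc := continuous_gradOp S hh β
  have hgb : ∀ x, ‖S.gradOp (rad h) β x‖ ≤ Cg * K / R := by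
    intro x
    refine (gradOp_le S hh β x).trans ?_
    calc K / R * ∑ i, ∑ A, ‖S.vec (S.g i) A β‖ ≤ K / R * Cg :=
          mul_le_mul_of_nonneg_left hCg (by positivity)
      _ = Cg * K / R := by ring
  obtain ⟨m1, b1⟩ := memLp_rad hh hq
  have m2 := memLp_op hgc hgb hdm
  have m3 := memLp_op hgc hgb hΨ
  have b2 := nsq_op_le hgb hdm
  have b3 : nsq (fun x => S.gradOp (rad h) β x (Ψ x)) ≤ (Cg * K / R) ^ 2 * tl R Ψ := by
    rw [tl, nsq, ← integral_const_mul]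
    refine integral_mono_of_nonneg (Eventually.of_forall fun x => by positivity)
      ((tl_int R hΨ).const_mul _) (Eventually.of_forall fun x => ?_)
    simp only
    split_ifs with hx
    · rw [← mul_pow]
      refine pow_le_pow_left₀ (norm_nonneg _) ?_ 2
      exact ((S.gradOp (rad h) β x).le_opNorm _).trans
        (mul_le_mul_of_nonneg_right (hgb x) (norm_nonneg _))
    · rw [not_le] at hx
      rw [gradOp_zero S hh β x (by linarith)]
      simp
  rw [e]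
  have c1 : nsq (fun x => ((rad h x : ℝ) : ℂ) • S.Q β w x +
      (S.gradOp (rad h) β x (w x - Ψ x) + S.gradOp (rad h) β x (Ψ x))) ≤
      2 * nsq (fun x => ((rad h x : ℝ) : ℂ) • S.Q β w x) +
      2 * nsq (fun x => S.gradOp (rad h) β x (w x - Ψ x) + S.gradOp (rad h) β x (Ψ x)) :=
    nsq_add_le m1 (m2.add m3)
  have c2 := nsq_add_le m2 m3
  linarith

/-- second moment of the cut off function -/
lemma moment_cut {K R M : ℝ} {h : ℝ → ℝ} (hh : IsRC K R h) {w : X3 → F}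
    (n1 : Integrable (fun x => ‖x‖ ^ 2 * ‖w x‖ ^ 2)) (n2 : ∫ x, ‖x‖ ^ 2 * ‖w x‖ ^ 2 ≤ M) :
    ∫ x, ‖x‖ ^ 2 * ‖((rad h x : ℝ) : ℂ) • w x‖ ^ 2 ≤ M := by
  refine le_trans ?_ n2
  refine integral_mono_of_nonneg (Eventually.of_forall fun x => by positivity) n1
    (Eventually.of_forall fun x => ?_)
  refine mul_le_mul_of_nonneg_left (pow_le_pow_left₀ (norm_nonneg _) ?_ 2) (by positivity)
  rw [norm_smul]
  exact mul_le_of_le_one_left (norm_nonneg _) (rad_norm_le hh x)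

/-- uniform constants -/
lemma exists_consts : ∃ CW Cg : ℝ, 0 ≤ CW ∧ 0 ≤ Cg ∧
    (∀ β (x y : X3), ‖x - y‖ ≤ 1 → ‖S.W β x - S.W β y‖ ≤ CW * ‖x - y‖ * (1 + ‖y‖)) ∧
    ∀ β, ∑ i, ∑ A, ‖S.vec (S.g i) A β‖ ≤ Cg := by
  choose CW₀ hCW₀ hW₀ using W_lip S
  refine ⟨∑ β, CW₀ β, ∑ β : Fin 16, ∑ i, ∑ A, ‖S.vec (S.g i) A β‖,
    Finset.sum_nonneg fun β _ => hCW₀ β, by positivity, fun β x y hxy => ?_, fun β => ?_⟩
  · refine (hW₀ β x y hxy).trans ?_
    have : CW₀ β ≤ ∑ β, CW₀ β := Finset.single_le_sum (fun b _ => hCW₀ b) (Finset.mem_univ β)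
    gcongr
  · exact Finset.single_le_sum (f := fun β : Fin 16 => ∑ i, ∑ A, ‖S.vec (S.g i) A β‖)
      (fun b _ => by positivity) (Finset.mem_univ β)

/-- choice of the parameters -/
lemma exists_params {δ a b : ℝ} (hδ : 0 < δ) (ha : 0 ≤ a) (hb : 0 ≤ b) :
    ∃ δ₁ ε₁ : ℝ, 0 < δ₁ ∧ 0 < ε₁ ∧ 2 * δ₁ ≤ δ ∧ 128 * (a * δ₁) ≤ δ ∧
      ∀ ε, 0 < ε → ε ≤ 1 → ε ≤ ε₁ → 64 * (b * ε ^ 2) ≤ δ := by
  refine ⟨δ / (2 + 128 * a), δ / (64 * b + 1), by positivity, by positivity, ?_, ?_, ?_⟩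
  · rw [mul_div_assoc', div_le_iff₀ (by positivity)]
    nlinarith
  · rw [mul_div_assoc', mul_div_assoc', div_le_iff₀ (by positivity)]
    nlinarith
  · intro ε h0 h1 h2
    rw [le_div_iff₀ (by positivity)] at h2
    have h3 : ε ^ 2 ≤ ε := by nlinarith
    have h4 : b * ε ^ 2 ≤ b * ε := mul_le_mul_of_nonneg_left h3 hb
    nlinarith

/-- properties of `u = rad h • w`, `w = mo (rad g) Ψ` -/
lemma inv_cut [CompleteSpace F] {K R : ℝ} {g h : ℝ → ℝ} (hg : ContDiff ℝ ∞ g)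
    (hgc : HasCompactSupport (rad g)) (hh : IsRC K R h) {Ψ : X3 → F}
    (hΨ : MemLp Ψ 2 (volume : Measure X3)) (hG : S.wG Ψ) (hJ : S.wJ Ψ) :
    S.Inv (fun y => ((rad h y : ℝ) : ℂ) • mo (rad g) Ψ y) := by
  have hcut : HasCompactSupport (rad h) := by
    refine HasCompactSupport.intro (isCompact_closedBall (0 : X3) R) fun x hx => ?_
    rw [Metric.mem_closedBall, dist_zero_right, not_le] at hx
    exact hh.zero x hx.le
  have htst : Setup.Tst (fun y => ((rad h y : ℝ) : ℂ) • mo (rad g) Ψ y) := by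
    refine ⟨(Setup.contDiff_ofReal (contDiff_rad hh.contDiff)).smul
      (contDiff_mo (contDiff_rad hg) hgc (locInt hΨ)), hcut.mono ?_⟩
    intro y hy
    simp only [Function.mem_support] at hy ⊢
    intro h0
    exact hy (by rw [h0]; simp)
  exact ⟨htst, fun C x => G_mo S hg hh.contDiff hgc (locInt hΨ) hG C x,
    fun k l hkl x => J_mo S hg hh.contDiff hgc (locInt hΨ) (hJ k l hkl) x⟩

end InvMom

open InvMom in
theorem invMom [FiniteDimensional ℂ F] (S : Setup F) : InvMomStmt S := by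
  intro Ψ hΨ hG hJ hQ hm
  have : CompleteSpace F := FiniteDimensional.complete ℂ F
  have hQ' : ∀ β ζ, Setup.Tst ζ → ∫ x, inner ℂ (S.Q β ζ x) (Ψ x) = 0 := by
    intro β ζ hζ
    have := hQ β ζ hζ
    simpa [Setup.Qm] using this
  obtain ⟨hf2, -⟩ := memLp_one_add hΨ hm
  obtain ⟨N, hN⟩ : ∃ N, N = nsq (fun x => ((1 + ‖x‖ : ℝ) : ℂ) • Ψ x) := ⟨_, rfl⟩
  have hN0 : 0 ≤ N := hN ▸ nsq_nonneg _
  obtain ⟨CW, Cg, hCW0, hCg0, hW, hCg⟩ := exists_consts S
  obtain ⟨K, hK0, hK⟩ := exists_rc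
  obtain ⟨M, hM⟩ : ∃ M, M = 2 * nsq Ψ + 2 * ∫ x, ‖x‖ ^ 2 * ‖Ψ x‖ ^ 2 := ⟨_, rfl⟩
  have hM0 : 0 ≤ M := by
    rw [hM]
    have h1 := nsq_nonneg Ψ
    have h2 : 0 ≤ ∫ x, ‖x‖ ^ 2 * ‖Ψ x‖ ^ 2 := integral_nonneg fun x => by positivity
    positivity
  refine ⟨2 + 64 * (Cg * K) ^ 2 + M, fun R hR δ hδ => ?_⟩
  have hR0 : 0 < R := by linarith
  have hT0 := tl_nonneg R Ψ
  obtain ⟨δ₁, ε₁, hδ₁, hε₁, p1, p2, p3⟩ := exists_params (a := (Cg * K) ^ 2) (b := CW ^ 2 * N)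
    hδ (sq_nonneg _) (by positivity)
  obtain ⟨ε₀, hε₀, hmo⟩ := mo_approx hΨ hδ₁
  obtain ⟨ε, hεd⟩ : ∃ ε, ε = min ε₀ (min 1 ε₁) := ⟨_, rfl⟩
  have hε0 : 0 < ε := by rw [hεd]; exact lt_min hε₀ (lt_min one_pos hε₁)
  have hεa : ε ≤ ε₀ := by rw [hεd]; exact min_le_left _ _
  have hεb : ε ≤ 1 := by rw [hεd]; exact (min_le_right _ _).trans (min_le_left _ _)
  have hεc : ε ≤ ε₁ := by rw [hεd]; exact (min_le_right _ _).trans (min_le_right _ _)
  obtain ⟨g, hg, hρ⟩ := exists_mol hε0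
  obtain ⟨h, hh⟩ := hK R hR0
  have hd := hmo ε hεa (rad g) hρ
  have hwc : ContDiff ℝ ∞ (mo (rad g) Ψ) := contDiff_mo hρ.contDiff hρ.hcs (locInt hΨ)
  have hwm : MemLp (mo (rad g) Ψ) 2 (volume : Measure X3) := (nsq_mo_le hρ hΨ).1
  refine ⟨fun y => ((rad h y : ℝ) : ℂ) • mo (rad g) Ψ y, inv_cut S hg hρ.hcs hh hΨ hG hJ,
    fun x hx => ?_, ?_, ?_, ?_⟩
  · simp only
    rw [hh.zero x hx]
    simp
  · -- distance
    refine (nsq_dist hR0 hh hΨ hwm).trans ?_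
    have b4 : 0 ≤ (64 * (Cg * K) ^ 2 + M) * tl R Ψ := by positivity
    have b5 : (2 + 64 * (Cg * K) ^ 2 + M) * (∫ x, (if R / 4 ≤ ‖x‖ then ‖Ψ x‖ ^ 2 else 0)) =
        2 * tl R Ψ + (64 * (Cg * K) ^ 2 + M) * tl R Ψ := by
      rw [tl]; ring
    rw [b5]
    linarith
  · -- energy
    have hβ : ∀ β, nsq (S.Qm 0 β (fun y => ((rad h y : ℝ) : ℂ) • mo (rad g) Ψ y)) ≤
        δ / 16 + 4 * ((Cg * K) ^ 2 / R ^ 2 * tl R Ψ) := by
      intro β
      have hQw := norm_Q_mo_le S hρ hεb hε0.le β hCW0 (hW β) hΨ hm (hQ' β)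
      obtain ⟨q1, q2⟩ := nsq_le_mo hρ hf2
        (S.contDiff_Q β hwc).continuous.aestronglyMeasurable hQw
      rw [← hN] at q2
      refine (nsq_energy S hR0 hh hK0 β (hCg β) hwc hΨ hwm q1).trans ?_
      have c4 : (Cg * K / R) ^ 2 ≤ (Cg * K) ^ 2 := by
        rw [div_pow]
        refine div_le_self (sq_nonneg _) (one_le_pow₀ hR)
      have c5 : (Cg * K / R) ^ 2 * nsq (fun x => mo (rad g) Ψ x - Ψ x) ≤ (Cg * K) ^ 2 * δ₁ :=
        mul_le_mul c4 hd (nsq_nonneg _) (sq_nonneg _)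
      have c6 := p3 ε hε0 hεb hεc
      have c6' : (CW * ε) ^ 2 * N = CW ^ 2 * N * ε ^ 2 := by ring
      have c7 : (Cg * K / R) ^ 2 * tl R Ψ = (Cg * K) ^ 2 / R ^ 2 * tl R Ψ := by
        rw [div_pow]
      rw [c7]
      rw [c6'] at q2
      linarith
    calc ∑ β, nsq (S.Qm 0 β (fun y => ((rad h y : ℝ) : ℂ) • mo (rad g) Ψ y))
        ≤ ∑ β : Fin 16, (δ / 16 + 4 * ((Cg * K) ^ 2 / R ^ 2 * tl R Ψ)) :=
          Finset.sum_le_sum fun β _ => hβ β
      _ = δ + 64 * (Cg * K) ^ 2 / R ^ 2 * tl R Ψ := by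
          rw [Finset.sum_const, Finset.card_univ, Fintype.card_fin, nsmul_eq_mul]
          push_cast
          ring
      _ ≤ δ + (2 + 64 * (Cg * K) ^ 2 + M) / R ^ 2 * tl R Ψ := by
          have : 64 * (Cg * K) ^ 2 ≤ 2 + 64 * (Cg * K) ^ 2 + M := by linarith
          gcongr
  · -- second moment
    obtain ⟨n1, n2⟩ := moment_mo hρ hεb hΨ hm
    rw [← hM] at n2
    have h1 := moment_cut hh n1 n2
    have h64 : 0 ≤ 64 * (Cg * K) ^ 2 := by positivity
    linarith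

end Vale.Agent.P353.U
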