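import Vale.Agent.P353.Tools
import Vale.Agent.P353.LimL2

/-! # P353, uniqueness: mollifiers (general tools) -/

open MeasureTheory Filter Topology
open scoped ContDiff Convolution

namespace Vale.Agent.P353.U

variable {F : Type*} [NormedAddCommGroup F] [InnerProductSpace ℂ F]

/-- bump functions -/
noncomputable def bmp (n : ℕ) : ContDiffBump (0 : X3) where
  rIn := 1 / (2 * ((n : ℝ) + 1))
  rOut := 1 / ((n : ℝ) + 1)
  rIn_pos := by positivity
  rIn_lt_rOut := by
    have h : (0 : ℝ) < (n : ℝ) + 1 := by positivity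
    exact one_div_lt_one_div_of_lt h (by linarith)

/-- the mollifier `ρ_n`, supported in the ball of radius `1/(n+1)` -/
noncomputable def rho (n : ℕ) : X3 → ℝ := (bmp n).normed volume

lemma rho_contDiff (n : ℕ) : ContDiff ℝ ∞ (rho n) := (bmp n).contDiff_normed

lemma rho_hcs (n : ℕ) : HasCompactSupport (rho n) := (bmp n).hasCompactSupport_normed

lemma rho_nonneg (n : ℕ) (x : X3) : 0 ≤ rho n x := (bmp n).nonneg_normed x

lemma rho_int (n : ℕ) : ∫ x, rho n x = 1 := (bmp n).integral_normed

lemma rho_neg (n : ℕ) (x : X3) : rho n (-x) = rho n x := (bmp n).normed_neg x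

lemma rho_swap (n : ℕ) (x y : X3) : rho n (x - y) = rho n (y - x) := by
  rw [← rho_neg, neg_sub]

lemma rho_zero {n : ℕ} {x : X3} (h : 1 / ((n : ℝ) + 1) ≤ ‖x‖) : rho n x = 0 := by
  by_contra hne
  have h1 : x ∈ Function.support ((bmp n).normed (volume : Measure X3)) := hne
  rw [(bmp n).support_normed_eq] at h1
  rw [Metric.mem_ball, dist_zero_right] at h1
  exact absurd h (not_le.mpr h1)

/-- convolution of a scalar kernel with `u` -/
noncomputable def cv (k : X3 → ℝ) (u : X3 → F) (x : X3) : F := ∫ y, ((k (x - y) : ℝ) : ℂ) • u y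

lemma cv_eq (k : X3 → ℝ) (u : X3 → F) :
    cv k u = (k ⋆[ContinuousLinearMap.lsmul ℝ ℝ, volume] u) := by
  funext x
  rw [convolution_eq_swap]
  rfl

lemma cv_integrable {k : X3 → ℝ} (hk : Continuous k) (hc : HasCompactSupport k) {u : X3 → F}
    (hu : LocallyIntegrable u (volume : Measure X3)) (x : X3) :
    Integrable (fun y => ((k (x - y) : ℝ) : ℂ) • u y) := by
  have h := (hc.convolutionExists_left (ContinuousLinearMap.lsmul ℝ ℝ) hk hu) x
  exact h.integrable_swap

lemma cv_contDiff {k : X3 → ℝ} (hk : ContDiff ℝ ∞ k) (hc : HasCompactSupport k) {u : X3 → F}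
    (hu : LocallyIntegrable u (volume : Measure X3)) : ContDiff ℝ ∞ (cv k u) := by
  rw [cv_eq]
  exact hc.contDiff_convolution_left (n := (⊤ : ℕ∞)) _ hk hu

lemma pd_cv [CompleteSpace F] {k : X3 → ℝ} (hk : ContDiff ℝ ∞ k) (hc : HasCompactSupport k)
    {u : X3 → F} (hu : LocallyIntegrable u (volume : Measure X3)) (i : Fin 9) (A : Fin 3) (x : X3) :
    pd i A (cv k u) x = cv (pdr i A k) u x := by
  have h1 := hc.hasFDerivAt_convolution_left (ContinuousLinearMap.lsmul ℝ ℝ (E := F))
    (hk.of_le (by simp)) hu x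
  rw [← cv_eq] at h1
  rw [pd, h1.fderiv, cv_eq, convolution, convolution]
  rw [ContinuousLinearMap.integral_apply]
  · rfl
  · exact ((hc.fderiv (𝕜 := ℝ)).convolutionExists_left
      ((ContinuousLinearMap.lsmul ℝ ℝ (E := F)).precompL X3)
      (hk.continuous_fderiv (by simp)) hu) x

lemma inner_cv [CompleteSpace F] {k : X3 → ℝ} (hk : Continuous k) (hc : HasCompactSupport k)
    {u : X3 → F} (hu : LocallyIntegrable u (volume : Measure X3)) (e : F) (x : X3) :
    inner ℂ e (cv k u x) = ∫ y, inner ℂ (((k (x - y) : ℝ) : ℂ) • e) (u y) := by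
  rw [cv, ← integral_inner (cv_integrable hk hc hu x)]
  congr 1
  funext y
  rw [inner_smul_right, inner_smul_left, Complex.conj_ofReal]

/-- `y ↦ k(x - y) e` is a test function -/
lemma tst_kernel {k : X3 → ℝ} (hk : ContDiff ℝ ∞ k) (hc : HasCompactSupport k) (x : X3) (e : F) :
    Setup.Tst (fun y => ((k (x - y) : ℝ) : ℂ) • e) := by
  refine ⟨(Setup.contDiff_ofReal (hk.comp (contDiff_const.sub contDiff_id))).smul contDiff_const, ?_⟩
  have h1 : HasCompactSupport (fun y => k (x - y)) :=
    hc.comp_homeomorph (Homeomorph.subLeft x)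
  refine h1.mono ?_
  intro y hy
  simp only [Function.mem_support] at hy ⊢
  intro h0
  exact hy (by simp [h0])

lemma pd_kernel {k : X3 → ℝ} (hk : ContDiff ℝ ∞ k) (x : X3) (e : F) (i : Fin 9) (A : Fin 3)
    (y : X3) : pd i A (fun y => ((k (x - y) : ℝ) : ℂ) • e) y =
      -(((pdr i A k (x - y) : ℝ) : ℂ) • e) := by
  have h1 : HasFDerivAt (fun y : X3 => x - y) (-ContinuousLinearMap.id ℝ X3) y := by
    simpa using (hasFDerivAt_id y).const_sub x
  have h2 : HasFDerivAt k (fderiv ℝ k (x - y)) (x - y) :=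
    ((hk.differentiable (by simp)) (x - y)).hasFDerivAt
  have h3 := h2.comp y h1
  rw [pd_rsmul (φ := fun y => k (x - y)) h3.differentiableAt (differentiableAt_const e)]
  have h4 : fderiv ℝ (fun y => k (x - y)) y = _ := h3.fderiv
  have h5 : pd i A (fun _ : X3 => e) y = 0 := by simp [pd]
  rw [h4, h5, smul_zero, add_zero]
  simp [pdr]

/-- integrability of `⟨f, u⟩`, `f` continuous with compact support -/
lemma inner_int_loc {f u : X3 → F} (hf : Continuous f) (hc : HasCompactSupport f)
    (hu : LocallyIntegrable u (volume : Measure X3)) :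
    Integrable (fun y => inner ℂ (f y) (u y)) := by
  have h1 := hu.integrable_smul_left_of_hasCompactSupport (g := fun y => ‖f y‖) hf.norm hc.norm
  refine h1.mono (hf.aestronglyMeasurable.inner hu.aestronglyMeasurable)
    (Filter.Eventually.of_forall fun y => ?_)
  rw [norm_smul, norm_norm]
  exact norm_inner_le_norm _ _

/-- first order operator `-i ∑ V_j ∂_j + N(x)` -/
noncomputable def fop (V : Fin 9 → Fin 3 → (F →L[ℂ] F)) (N : X3 → F →L[ℂ] F) (u : X3 → F)
    (x : X3) : F := (-Complex.I) • ∑ i, ∑ A, V i A (pd i A u x) + N x (u x)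

/-- the operator applied to a mollified weak solution -/
lemma inner_fop_cv [CompleteSpace F] {V : Fin 9 → Fin 3 → (F →L[ℂ] F)} {N : X3 → F →L[ℂ] F}
    (hV : ∀ i A (v w : F), inner ℂ (V i A v) w = inner ℂ v (V i A w))
    (hN : ∀ x (v w : F), inner ℂ (N x v) w = inner ℂ v (N x w)) (hNc : Continuous N)
    {u Θ : X3 → F} (hu : LocallyIntegrable u (volume : Measure X3))
    (hΘ : LocallyIntegrable Θ (volume : Measure X3))
    (hw : ∀ ζ, Setup.Tst ζ → ∫ x, inner ℂ (fop V N ζ x) (u x) = ∫ x, inner ℂ (ζ x) (Θ x))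
    {k : X3 → ℝ} (hk : ContDiff ℝ ∞ k) (hc : HasCompactSupport k) (e : F) (x : X3) :
    inner ℂ e (fop V N (cv k u) x) = inner ℂ e (cv k Θ x) +
      ∫ y, inner ℂ (((k (x - y) : ℝ) : ℂ) • (N x e - N y e)) (u y) := by
  have hpk : ∀ i A, ContDiff ℝ ∞ (pdr i A k) := fun i A =>
    (hk.fderiv_right (m := ∞) (by simp)).clm_apply contDiff_const
  have hpc : ∀ i A, HasCompactSupport (pdr i A k) := fun i A =>
    hc.fderiv_apply (𝕜 := ℝ) (EuclideanSpace.single (i, A) (1 : ℝ) : X3)
  have hkc := hk.continuous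
  -- the left side
  have e1 : inner ℂ e (fop V N (cv k u) x) = (-Complex.I) * ∑ i, ∑ A,
      (∫ y, inner ℂ (((pdr i A k (x - y) : ℝ) : ℂ) • V i A e) (u y)) +
      ∫ y, inner ℂ (((k (x - y) : ℝ) : ℂ) • N x e) (u y) := by
    simp only [fop, inner_add_right, inner_smul_right, inner_sum, pd_cv hk hc hu, ← hV, ← hN,
      inner_cv (hpk _ _).continuous (hpc _ _) hu, inner_cv hkc hc hu]
  have i1 : ∀ i A, Integrable (fun y => inner ℂ (((pdr i A k (x - y) : ℝ) : ℂ) • V i A e) (u y)) := by
    intro i A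
    have h := tst_kernel (hpk i A) (hpc i A) x (V i A e)
    exact inner_int_loc h.1.continuous h.2 hu
  have i2 : Integrable (fun y => inner ℂ (((k (x - y) : ℝ) : ℂ) • N y e) (u y)) := by
    have h := tst_kernel hk hc x e
    refine inner_int_loc ?_ ?_ hu
    · exact (Complex.continuous_ofReal.comp (hkc.comp (continuous_const.sub continuous_id))).smul
        (hNc.clm_apply continuous_const)
    · refine (hc.comp_homeomorph (Homeomorph.subLeft x)).mono ?_
      intro y hy
      simp only [Function.mem_support, Function.comp, Homeomorph.coe_subLeft] at hy ⊢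
      intro h0
      exact hy (by simp [h0])
  have i3 : Integrable (fun y => inner ℂ (((k (x - y) : ℝ) : ℂ) • N x e) (u y)) := by
    have h := tst_kernel hk hc x (N x e)
    exact inner_int_loc h.1.continuous h.2 hu
  -- the weak equation
  have e2 := hw _ (tst_kernel hk hc x e)
  have e3 : ∀ y, inner ℂ (fop V N (fun y => ((k (x - y) : ℝ) : ℂ) • e) y) (u y) =
      (-Complex.I) * ∑ i, ∑ A, inner ℂ (((pdr i A k (x - y) : ℝ) : ℂ) • V i A e) (u y) +
        inner ℂ (((k (x - y) : ℝ) : ℂ) • N y e) (u y) := by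
    intro y
    simp only [fop, pd_kernel hk, map_neg, map_smul, Finset.sum_neg_distrib, smul_neg,
      inner_add_left, inner_neg_left, inner_smul_left, sum_inner, map_neg, Complex.conj_I]
    ring
  simp only [e3] at e2
  rw [integral_add ((integrable_finsetSum _ fun i _ =>
    integrable_finsetSum _ fun A _ => i1 i A).const_mul _) i2, integral_const_mul,
    integral_finsetSum _ fun i _ => integrable_finsetSum _ fun A _ => i1 i A,
    Finset.sum_congr rfl fun i _ => integral_finsetSum _ fun A _ => i1 i A] at e2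
  have e4 : ∫ y, inner ℂ (((k (x - y) : ℝ) : ℂ) • (N x e - N y e)) (u y) =
      (∫ y, inner ℂ (((k (x - y) : ℝ) : ℂ) • N x e) (u y)) -
        ∫ y, inner ℂ (((k (x - y) : ℝ) : ℂ) • N y e) (u y) := by
    rw [← integral_sub i3 i2]
    congr 1
    funext y
    rw [smul_sub, inner_sub_left]
  rw [e1, e4, inner_cv hkc hc hΘ, ← e2]
  ring

/-! ### `L²` bounds -/

/-- convolution of real functions -/
noncomputable def cvr (k g : X3 → ℝ) (x : X3) : ℝ := ∫ y, k (x - y) * g y

lemma cvr_eq (k g : X3 → ℝ) : cvr k g = (k ⋆[ContinuousLinearMap.lsmul ℝ ℝ, volume] g) := by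
  funext x
  rw [convolution_eq_swap]
  rfl

lemma cvr_continuous {k g : X3 → ℝ} (hk : Continuous k) (hc : HasCompactSupport k)
    (hg : LocallyIntegrable g (volume : Measure X3)) : Continuous (cvr k g) := by
  rw [cvr_eq]
  exact hc.continuous_convolution_left _ hk hg

lemma cvr_integrable {k g : X3 → ℝ} (hk : Continuous k) (hc : HasCompactSupport k)
    (hg : LocallyIntegrable g (volume : Measure X3)) (x : X3) :
    Integrable (fun y => k (x - y) * g y) := by
  have h := (hc.convolutionExists_left (ContinuousLinearMap.lsmul ℝ ℝ) hk hg) x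
  exact h.integrable_swap

lemma locInt_of_memLp {G : Type*} [NormedAddCommGroup G] {g : X3 → G}
    (hg : MemLp g 2 (volume : Measure X3)) : LocallyIntegrable g (volume : Measure X3) :=
  hg.locallyIntegrable (by norm_num)

lemma cvr_sq_le {k g : X3 → ℝ} (hk : Continuous k) (hc : HasCompactSupport k)
    (h0 : ∀ x, 0 ≤ k x) (h1 : ∫ x, k x = 1) (hg : MemLp g 2 (volume : Measure X3)) (x : X3) :
    cvr k g x ^ 2 ≤ cvr k (fun y => g y ^ 2) x := by
  have hg2 : Integrable (fun y => g y ^ 2) := by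
    simpa using (memLp_two_iff_integrable_sq_norm hg.1).mp hg
  have i1 := cvr_integrable hk hc (locInt_of_memLp hg) x
  have i2 := cvr_integrable hk hc hg2.locallyIntegrable x
  have i3 : Integrable (fun y => k (x - y)) :=
    (hk.integrable_of_hasCompactSupport hc).comp_sub_left x
  have e1 : ∫ y, k (x - y) = 1 := by
    rw [integral_sub_left_eq_self (fun y => k y) volume x, h1]
  set m := cvr k g x with hm
  have h2 : 0 ≤ ∫ y, k (x - y) * (g y - m) ^ 2 :=
    integral_nonneg fun y => mul_nonneg (h0 _) (sq_nonneg _)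
  have h3 : ∫ y, k (x - y) * (g y - m) ^ 2 = cvr k (fun y => g y ^ 2) x - 2 * m * m + m ^ 2 := by
    have : ∀ y, k (x - y) * (g y - m) ^ 2 =
        (k (x - y) * g y ^ 2 - (2 * m) * (k (x - y) * g y)) + m ^ 2 * k (x - y) := by
      intro y; ring
    simp only [this]
    have i4 : Integrable (fun y => k (x - y) * g y ^ 2 - (2 * m) * (k (x - y) * g y)) :=
      i2.sub (i1.const_mul _)
    rw [integral_add i4 (i3.const_mul _), integral_sub i2 (i1.const_mul _),
      integral_const_mul, integral_const_mul, e1, mul_one]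
    rfl
  rw [h3] at h2
  nlinarith

lemma young {k g : X3 → ℝ} (hk : Continuous k) (hc : HasCompactSupport k)
    (h0 : ∀ x, 0 ≤ k x) (h1 : ∫ x, k x = 1) (hg : MemLp g 2 (volume : Measure X3)) :
    MemLp (cvr k g) 2 (volume : Measure X3) ∧ ∫ x, cvr k g x ^ 2 ≤ ∫ x, g x ^ 2 := by
  have hg2 : Integrable (fun y => g y ^ 2) := by
    simpa using (memLp_two_iff_integrable_sq_norm hg.1).mp hg
  have hki : Integrable k := hk.integrable_of_hasCompactSupport hc
  have i1 : Integrable (cvr k (fun y => g y ^ 2)) := by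
    rw [cvr_eq]
    exact hki.integrable_convolution (ContinuousLinearMap.lsmul ℝ ℝ) hg2
  have e1 : ∫ x, cvr k (fun y => g y ^ 2) x = ∫ x, g x ^ 2 := by
    rw [cvr_eq, integral_convolution (ContinuousLinearMap.lsmul ℝ ℝ) hki hg2, h1]
    simp
  have hcc := cvr_continuous hk hc (locInt_of_memLp hg)
  have i2 : Integrable (fun x => cvr k g x ^ 2) := by
    refine i1.mono (hcc.pow 2).aestronglyMeasurable (Filter.Eventually.of_forall fun x => ?_)
    rw [Real.norm_of_nonneg (sq_nonneg _)]
    exact (cvr_sq_le hk hc h0 h1 hg x).trans (le_abs_self _)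
  refine ⟨?_, ?_⟩
  · rw [memLp_two_iff_integrable_sq_norm hcc.aestronglyMeasurable]
    simpa using i2
  · rw [← e1]
    exact integral_mono i2 i1 fun x => cvr_sq_le hk hc h0 h1 hg x

lemma norm_cv_le {k : X3 → ℝ} (h0 : ∀ x, 0 ≤ k x) (u : X3 → F) (x : X3) :
    ‖cv k u x‖ ≤ cvr k (fun y => ‖u y‖) x := by
  refine (norm_integral_le_integral_norm _).trans (le_of_eq ?_)
  rw [cvr]
  congr 1
  funext y
  rw [norm_smul, Complex.norm_real, Real.norm_of_nonneg (h0 _)]

lemma cv_memLp {k : X3 → ℝ} (hk : ContDiff ℝ ∞ k) (hc : HasCompactSupport k)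
    (h0 : ∀ x, 0 ≤ k x) (h1 : ∫ x, k x = 1) {u : X3 → F} (hu : MemLp u 2 (volume : Measure X3)) :
    MemLp (cv k u) 2 (volume : Measure X3) ∧ nsq (cv k u) ≤ nsq u := by
  obtain ⟨y1, y2⟩ := young hk.continuous hc h0 h1 hu.norm
  have hcc := (cv_contDiff hk hc (locInt_of_memLp hu)).continuous
  have y3 : Integrable (fun x => cvr k (fun y => ‖u y‖) x ^ 2) := by
    simpa using (memLp_two_iff_integrable_sq_norm y1.1).mp y1
  refine ⟨y1.mono hcc.aestronglyMeasurable (Filter.Eventually.of_forall fun x =>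
    (norm_cv_le h0 u x).trans (le_abs_self _)), le_trans ?_ y2⟩
  exact integral_mono_of_nonneg (Filter.Eventually.of_forall fun x => by positivity) y3
    (Filter.Eventually.of_forall fun x => pow_le_pow_left₀ (norm_nonneg _) (norm_cv_le h0 u x) 2)

lemma norm_le_of_inner {T : F} {R : ℝ} (hR : 0 ≤ R) (h : ∀ e : F, ‖inner ℂ e T‖ ≤ ‖e‖ * R) :
    ‖T‖ ≤ R := by
  by_cases hT : T = 0
  · rw [hT, norm_zero]; exact hR
  · have h1 := h T
    have h2 : ‖inner ℂ T T‖ = ‖T‖ * ‖T‖ := by
      rw [inner_self_eq_norm_sq_to_K, norm_pow]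
      simp [sq]
    rw [h2] at h1
    exact le_of_mul_le_mul_left h1 (norm_pos_iff.mpr hT)

/-- pointwise bound for the operator applied to a mollified weak solution -/
lemma norm_fop_cv_le [CompleteSpace F] {V : Fin 9 → Fin 3 → (F →L[ℂ] F)} {N : X3 → F →L[ℂ] F}
    (hV : ∀ i A (v w : F), inner ℂ (V i A v) w = inner ℂ v (V i A w))
    (hN : ∀ x (v w : F), inner ℂ (N x v) w = inner ℂ v (N x w)) (hNc : Continuous N)
    {u Θ : X3 → F} (hu : LocallyIntegrable u (volume : Measure X3))
    (hΘ : LocallyIntegrable Θ (volume : Measure X3))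
    (hw : ∀ ζ, Setup.Tst ζ → ∫ x, inner ℂ (fop V N ζ x) (u x) = ∫ x, inner ℂ (ζ x) (Θ x))
    {k : X3 → ℝ} (hk : ContDiff ℝ ∞ k) (hc : HasCompactSupport k) (h0 : ∀ x, 0 ≤ k x) (x : X3)
    {C : ℝ} (hC : 0 ≤ C) (hCN : ∀ y, k (x - y) * ‖N x - N y‖ ≤ k (x - y) * C) :
    ‖fop V N (cv k u) x‖ ≤ cvr k (fun y => ‖Θ y‖) x + C * cvr k (fun y => ‖u y‖) x := by
  have n1 : 0 ≤ cvr k (fun y => ‖Θ y‖) x :=
    integral_nonneg fun y => mul_nonneg (h0 _) (norm_nonneg _)
  have n2 : 0 ≤ cvr k (fun y => ‖u y‖) x :=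
    integral_nonneg fun y => mul_nonneg (h0 _) (norm_nonneg _)
  refine norm_le_of_inner (by positivity) fun e => ?_
  rw [inner_fop_cv hV hN hNc hu hΘ hw hk hc e x]
  refine (norm_add_le _ _).trans ?_
  rw [mul_add]
  refine add_le_add ?_ ?_
  · exact (norm_inner_le_norm _ _).trans
      (mul_le_mul_of_nonneg_left (norm_cv_le h0 Θ x) (norm_nonneg _))
  · have hun : LocallyIntegrable (fun y => ‖u y‖) (volume : Measure X3) := fun x => (hu x).norm
    have i1 := cvr_integrable hk.continuous hc hun x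
    refine (norm_integral_le_integral_norm _).trans ?_
    rw [cvr, ← integral_const_mul, ← integral_const_mul]
    refine integral_mono_of_nonneg (Filter.Eventually.of_forall fun y => norm_nonneg _)
      ((i1.const_mul _).const_mul _) (Filter.Eventually.of_forall fun y => ?_)
    simp only
    refine (norm_inner_le_norm _ _).trans ?_
    rw [norm_smul, Complex.norm_real, Real.norm_of_nonneg (h0 _)]
    have a1 : ‖N x e - N y e‖ ≤ ‖N x - N y‖ * ‖e‖ := by
      rw [← _root_.sub_apply]
      exact (N x - N y).le_opNorm e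
    calc k (x - y) * ‖N x e - N y e‖ * ‖u y‖
        ≤ k (x - y) * (‖N x - N y‖ * ‖e‖) * ‖u y‖ := by
          refine mul_le_mul_of_nonneg_right (mul_le_mul_of_nonneg_left a1 (h0 _)) (norm_nonneg _)
      _ = k (x - y) * ‖N x - N y‖ * (‖e‖ * ‖u y‖) := by ring
      _ ≤ k (x - y) * C * (‖e‖ * ‖u y‖) :=
          mul_le_mul_of_nonneg_right (hCN y) (by positivity)
      _ = ‖e‖ * (C * (k (x - y) * ‖u y‖)) := by ring

/-- cutoffs -/
lemma fop_cut (V : Fin 9 → Fin 3 → (F →L[ℂ] F)) (N : X3 → F →L[ℂ] F) {χ : X3 → ℝ} {u : X3 → F}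
    {x : X3} (hχ : DifferentiableAt ℝ χ x) (hu : DifferentiableAt ℝ u x) :
    fop V N (fun y => ((χ y : ℝ) : ℂ) • u y) x = ((χ x : ℝ) : ℂ) • fop V N u x +
      (-Complex.I) • ∑ i, ∑ A, ((pdr i A χ x : ℝ) : ℂ) • V i A (u x) := by
  have h : ∀ i A, pd i A (fun y => ((χ y : ℝ) : ℂ) • u y) x =
      ((pdr i A χ x : ℝ) : ℂ) • u x + ((χ x : ℝ) : ℂ) • pd i A u x := fun i A => pd_rsmul hχ hu
  simp only [fop, h, map_add, map_smul, Finset.sum_add_distrib, smul_add, ← Finset.smul_sum]
  rw [smul_comm (-Complex.I) ((χ x : ℝ) : ℂ)]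
  abel

lemma norm_fop_cut_le (V : Fin 9 → Fin 3 → (F →L[ℂ] F)) (N : X3 → F →L[ℂ] F) {χ : X3 → ℝ}
    {u : X3 → F} {K R : ℝ} (hR : 0 < R) (hχ : IsCut K R χ) (x : X3)
    (hu : DifferentiableAt ℝ u x) :
    ‖fop V N (fun y => ((χ y : ℝ) : ℂ) • u y) x‖ ≤
      ‖fop V N u x‖ + K / R * (∑ i, ∑ A, ‖V i A‖) * ‖u x‖ := by
  obtain ⟨c1, c2, c3, c4, c5, c6, c7, c8⟩ := hχ
  rw [fop_cut V N (c1.differentiable (by simp) x) hu]
  refine (norm_add_le _ _).trans (add_le_add ?_ ?_)
  · rw [norm_smul, Complex.norm_real, Real.norm_of_nonneg (c3 x)]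
    exact mul_le_of_le_one_left (norm_nonneg _) (c4 x)
  · have hp : ∀ i A, |pdr i A χ x| ≤ K / R := by
      intro i A
      have hK : 0 ≤ K := le_trans (by positivity) (c7 i A x)
      by_cases hx : ‖x‖ < R
      · rw [c8 i A x hx, abs_zero]; positivity
      · rw [le_div_iff₀ hR]
        exact (mul_le_mul_of_nonneg_left (not_lt.mp hx) (abs_nonneg _)).trans (c7 i A x)
    rw [norm_smul, norm_neg, Complex.norm_I, one_mul, mul_assoc, Finset.sum_mul, Finset.mul_sum]
    refine (norm_sum_le _ _).trans (Finset.sum_le_sum fun i _ => ?_)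
    rw [Finset.sum_mul, Finset.mul_sum]
    refine (norm_sum_le _ _).trans (Finset.sum_le_sum fun A _ => ?_)
    rw [norm_smul, Complex.norm_real, Real.norm_eq_abs]
    exact mul_le_mul (hp i A) ((V i A).le_opNorm _) (norm_nonneg _)
      ((abs_nonneg _).trans (hp i A))

/-! ### weak convergence of the mollified functions -/

lemma cv_tendsto [CompleteSpace F] {ψ : X3 → F} (hψ : Continuous ψ) (y : X3) :
    Tendsto (fun n => cv (rho n) ψ y) atTop (𝓝 (ψ y)) := by
  have h1 : Tendsto (fun n => (bmp n).rOut) atTop (𝓝 0) := by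
    have := tendsto_one_div_add_atTop_nhds_zero_nat (𝕜 := ℝ)
    exact this
  have h2 := ContDiffBump.convolution_tendsto_right_of_continuous (μ := (volume : Measure X3)) h1 hψ y
  refine h2.congr fun n => ?_
  rw [cv_eq]
  rfl

lemma cv_ae_tendsto [CompleteSpace F] {w : X3 → F} (hw : LocallyIntegrable w (volume : Measure X3)) :
    ∀ᵐ y ∂(volume : Measure X3), Tendsto (fun n => cv (rho n) w y) atTop (𝓝 (w y)) := by
  have h1 : Tendsto (fun n => (bmp n).rOut) atTop (𝓝 0) := by
    have := tendsto_one_div_add_atTop_nhds_zero_nat (𝕜 := ℝ)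
    exact this
  have h2 := ContDiffBump.ae_convolution_tendsto_right_of_locallyIntegrable
    (μ := (volume : Measure X3)) (K := 2) (φ := bmp) h1 ?_ hw
  · filter_upwards [h2] with y hy
    refine hy.congr fun n => ?_
    rw [cv_eq]
    rfl
  · refine Filter.Eventually.of_forall fun n => ?_
    change 1 / ((n : ℝ) + 1) ≤ 2 * (1 / (2 * ((n : ℝ) + 1)))
    apply le_of_eq
    field_simp

lemma cv_bound {ψ : X3 → F} {C r : ℝ} (hC : ∀ x, ‖ψ x‖ ≤ C) (h0 : ∀ x, r < ‖x‖ → ψ x = 0)
    (n : ℕ) (y : X3) :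
    ‖cv (rho n) ψ y‖ ≤ Set.indicator (Metric.closedBall (0 : X3) (r + 1)) (fun _ => C) y := by
  have hC0 : 0 ≤ C := (norm_nonneg _).trans (hC 0)
  by_cases hy : y ∈ Metric.closedBall (0 : X3) (r + 1)
  · rw [Set.indicator_of_mem hy]
    refine (norm_cv_le (rho_nonneg n) ψ y).trans ?_
    have i3 : Integrable (fun z => rho n (y - z)) :=
      ((rho_contDiff n).continuous.integrable_of_hasCompactSupport (rho_hcs n)).comp_sub_left y
    have e1 : ∫ z, rho n (y - z) * C = C := by
      rw [integral_mul_const, integral_sub_left_eq_self (fun y => rho n y) volume y, rho_int, one_mul]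
    rw [cvr, ← e1]
    refine integral_mono_of_nonneg (Filter.Eventually.of_forall fun z =>
      mul_nonneg (rho_nonneg n _) (norm_nonneg _)) (i3.mul_const _)
      (Filter.Eventually.of_forall fun z => ?_)
    exact mul_le_mul_of_nonneg_left (hC z) (rho_nonneg n _)
  · rw [Set.indicator_of_notMem hy]
    rw [Metric.mem_closedBall, dist_zero_right, not_le] at hy
    have : cv (rho n) ψ y = 0 := by
      rw [cv]
      refine integral_eq_zero_of_ae (Filter.Eventually.of_forall fun z => ?_)
      simp only [Pi.zero_apply]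
      by_cases hz : r < ‖z‖
      · rw [h0 z hz, smul_zero]
      · rw [rho_zero, Complex.ofReal_zero, zero_smul]
        have h1 : ‖y‖ ≤ ‖y - z‖ + ‖z‖ := by
          simpa using norm_add_le (y - z) z
        have h2 : 1 / ((n : ℝ) + 1) ≤ 1 := by
          rw [div_le_one (by positivity)]
          have : (0 : ℝ) ≤ n := n.cast_nonneg
          linarith
        linarith [not_lt.mp hz]
    rw [this, norm_zero]

lemma cv_weak_eq [CompleteSpace F] {u : X3 → F} (hu : LocallyIntegrable u (volume : Measure X3))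
    {ψ : X3 → F} (hψ : Continuous ψ) (hc : HasCompactSupport ψ) (n : ℕ) :
    ∫ x, inner ℂ (ψ x) (cv (rho n) u x) = ∫ y, inner ℂ (cv (rho n) ψ y) (u y) := by
  obtain ⟨C, hC⟩ := hc.exists_bound_of_continuous hψ
  obtain ⟨r, hr⟩ := hc.isCompact.isBounded.subset_closedBall (0 : X3)
  have h0 : ∀ x, r < ‖x‖ → ψ x = 0 := by
    intro x hx
    by_contra hne
    have h2 := hr (subset_tsupport _ hne)
    rw [Metric.mem_closedBall, dist_zero_right] at h2
    exact absurd hx (not_lt.mpr h2)
  have hρc := (rho_contDiff n).continuous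
  have hρi : Integrable (rho n) := hρc.integrable_of_hasCompactSupport (rho_hcs n)
  have hC0 : 0 ≤ C := (norm_nonneg _).trans (hC 0)
  -- integrability on the product
  set g : X3 → ℝ := (Metric.closedBall (0 : X3) (r + 1)).indicator (fun y => ‖u y‖) with hg
  have hgi : Integrable g := by
    rw [hg, integrable_indicator_iff Metric.isClosed_closedBall.measurableSet]
    exact (hu.integrableOn_isCompact (isCompact_closedBall _ _)).norm
  have hgn : ∀ y, 0 ≤ g y := fun y => Set.indicator_nonneg (fun _ _ => norm_nonneg _) _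
  have hprod : Integrable (Function.uncurry fun x y => inner ℂ (((rho n (x - y) : ℝ) : ℂ) • ψ x) (u y))
      ((volume : Measure X3).prod volume) := by
    have h1 := (hgi.convolution_integrand (ContinuousLinearMap.lsmul ℝ ℝ) hρi).const_mul C
    refine h1.mono ?_ (Filter.Eventually.of_forall fun p => ?_)
    · refine AEStronglyMeasurable.inner ?_ ?_
      · refine Continuous.aestronglyMeasurable ?_
        exact (Complex.continuous_ofReal.comp (hρc.comp (continuous_fst.sub continuous_snd))).smul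
          (hψ.comp continuous_fst)
      · exact hu.aestronglyMeasurable.comp_snd
    · obtain ⟨x, y⟩ := p
      simp only [Function.uncurry_apply_pair, ContinuousLinearMap.lsmul_apply, smul_eq_mul]
      rw [Real.norm_of_nonneg (mul_nonneg hC0 (mul_nonneg (hgn y) (rho_nonneg n _)))]
      refine (norm_inner_le_norm _ _).trans ?_
      rw [norm_smul, Complex.norm_real, Real.norm_of_nonneg (rho_nonneg n _)]
      by_cases hy : y ∈ Metric.closedBall (0 : X3) (r + 1)
      · rw [hg, Set.indicator_of_mem hy]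
        calc rho n (x - y) * ‖ψ x‖ * ‖u y‖ ≤ rho n (x - y) * C * ‖u y‖ := by
              refine mul_le_mul_of_nonneg_right (mul_le_mul_of_nonneg_left (hC x)
                (rho_nonneg n _)) (norm_nonneg _)
          _ = C * (‖u y‖ * rho n (x - y)) := by ring
      · rw [hg, Set.indicator_of_notMem hy, zero_mul, mul_zero]
        rw [Metric.mem_closedBall, dist_zero_right, not_le] at hy
        by_cases hx : r < ‖x‖
        · rw [h0 x hx]; simp
        · rw [rho_zero]
          · simp
          · have h1 : ‖y‖ ≤ ‖x - y‖ + ‖x‖ := by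
              have := norm_sub_norm_le y x
              rw [norm_sub_rev] at this
              linarith
            have h2 : 1 / ((n : ℝ) + 1) ≤ 1 := by
              rw [div_le_one (by positivity)]
              have : (0 : ℝ) ≤ n := n.cast_nonneg
              linarith
            linarith [not_lt.mp hx]
  have e1 : ∀ x, inner ℂ (ψ x) (cv (rho n) u x) =
      ∫ y, inner ℂ (((rho n (x - y) : ℝ) : ℂ) • ψ x) (u y) := fun x =>
    inner_cv hρc (rho_hcs n) hu (ψ x) x
  have e2 : ∀ y, ∫ x, inner ℂ (((rho n (x - y) : ℝ) : ℂ) • ψ x) (u y) =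
      inner ℂ (cv (rho n) ψ y) (u y) := by
    intro y
    have hi : Integrable (fun x => ((rho n (y - x) : ℝ) : ℂ) • ψ x) :=
      cv_integrable hρc (rho_hcs n) hψ.locallyIntegrable y
    have h1 := integral_inner (𝕜 := ℂ) hi (u y)
    have h2 : ∀ x, inner ℂ (((rho n (x - y) : ℝ) : ℂ) • ψ x) (u y) =
        (starRingEnd ℂ) (inner ℂ (u y) (((rho n (y - x) : ℝ) : ℂ) • ψ x)) := by
      intro x
      rw [inner_conj_symm, rho_swap]
    simp only [h2]
    rw [integral_conj, h1, inner_conj_symm]
    rfl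
  simp only [e1]
  rw [integral_integral_swap hprod]
  simp only [e2]

lemma cv_weak [CompleteSpace F] {u : X3 → F} (hu : LocallyIntegrable u (volume : Measure X3))
    {ψ : X3 → F} (hψ : Continuous ψ) (hc : HasCompactSupport ψ) :
    Tendsto (fun n => ∫ x, inner ℂ (ψ x) (cv (rho n) u x)) atTop (𝓝 (∫ x, inner ℂ (ψ x) (u x))) := by
  simp only [cv_weak_eq hu hψ hc]
  obtain ⟨C, hC⟩ := hc.exists_bound_of_continuous hψ
  obtain ⟨r, hr⟩ := hc.isCompact.isBounded.subset_closedBall (0 : X3)
  have h0 : ∀ x, r < ‖x‖ → ψ x = 0 := by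
    intro x hx
    by_contra hne
    have h2 := hr (subset_tsupport _ hne)
    rw [Metric.mem_closedBall, dist_zero_right] at h2
    exact absurd hx (not_lt.mpr h2)
  refine tendsto_integral_of_dominated_convergence
    (fun y => C * (Metric.closedBall (0 : X3) (r + 1)).indicator (fun y => ‖u y‖) y) ?_ ?_ ?_ ?_
  · intro n
    exact (cv_contDiff (rho_contDiff n) (rho_hcs n)
      hψ.locallyIntegrable).continuous.aestronglyMeasurable.inner hu.aestronglyMeasurable
  · refine Integrable.const_mul ?_ C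
    rw [integrable_indicator_iff Metric.isClosed_closedBall.measurableSet]
    exact (hu.integrableOn_isCompact (isCompact_closedBall _ _)).norm
  · intro n
    refine Filter.Eventually.of_forall fun y => ?_
    refine (norm_inner_le_norm _ _).trans ?_
    have h1 := cv_bound hC h0 n y
    by_cases hy : y ∈ Metric.closedBall (0 : X3) (r + 1)
    · rw [Set.indicator_of_mem hy] at h1 ⊢
      exact mul_le_mul_of_nonneg_right h1 (norm_nonneg _)
    · rw [Set.indicator_of_notMem hy] at h1 ⊢
      rw [le_antisymm h1 (norm_nonneg _)]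
      simp
  · refine Filter.Eventually.of_forall fun y => ?_
    have h3 : Tendsto (fun _ : ℕ => u y) atTop (𝓝 (u y)) := tendsto_const_nhds
    exact Filter.Tendsto.inner (𝕜 := ℂ) (cv_tendsto hψ y) h3

/-- a locally integrable function with vanishing weak gradient is constant -/
theorem const_of_weak [CompleteSpace F] {w : X3 → F}
    (hw : LocallyIntegrable w (volume : Measure X3))
    (h : ∀ i A ψ, Setup.Tst ψ → ∫ x, inner ℂ (pd i A ψ x) (w x) = 0) :
    ∃ c : F, ∀ᵐ x ∂(volume : Measure X3), w x = c := by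
  have h1 : ∀ n x, cv (rho n) w x = cv (rho n) w 0 := by
    intro n x
    have hd : Differentiable ℝ (cv (rho n) w) :=
      (cv_contDiff (rho_contDiff n) (rho_hcs n) hw).differentiable (by simp)
    refine is_const_of_fderiv_eq_zero hd (fun x => ?_) x 0
    have hp : ∀ i A, pd i A (cv (rho n) w) x = 0 := by
      intro i A
      rw [pd_cv (rho_contDiff n) (rho_hcs n) hw]
      have hpk : ContDiff ℝ ∞ (pdr i A (rho n)) :=
        ((rho_contDiff n).fderiv_right (m := ∞) (by simp)).clm_apply contDiff_const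
      have hpc : HasCompactSupport (pdr i A (rho n)) :=
        (rho_hcs n).fderiv_apply (𝕜 := ℝ) (EuclideanSpace.single (i, A) (1 : ℝ) : X3)
      rw [← inner_self_eq_zero (𝕜 := ℂ), inner_cv hpk.continuous hpc hw]
      have h2 := h i A _ (tst_kernel (rho_contDiff n) (rho_hcs n) x
        (cv (pdr i A (rho n)) w x))
      simp only [pd_kernel (rho_contDiff n), inner_neg_left] at h2
      rw [integral_neg, neg_eq_zero] at h2
      exact h2
    have hl : (fderiv ℝ (cv (rho n) w) x : X3 →ₗ[ℝ] F) = 0 := by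
      refine (EuclideanSpace.basisFun (Fin 9 × Fin 3) ℝ).toBasis.ext fun p => ?_
      have := hp p.1 p.2
      rw [pd] at this
      simpa using this
    ext v
    have := congrArg (fun f : X3 →ₗ[ℝ] F => f v) hl
    simpa using this
  have h2 := cv_ae_tendsto hw
  obtain ⟨y0, hy0⟩ := h2.exists
  refine ⟨w y0, ?_⟩
  filter_upwards [h2] with y hy
  refine tendsto_nhds_unique hy (hy0.congr fun n => ?_)
  rw [h1 n y0, h1 n y]

end Vale.Agent.P353.U
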