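import Vale.Agent.P353.U.StmtC
import Vale.Agent.P353.U.LZMoll

/-! # P353, uniqueness for `N = 2`: the Liouville theorem at `0` (C-L0) -/

open MeasureTheory Filter Topology
open scoped ContDiff

namespace Vale.Agent.P353.U

variable {F : Type*} [NormedAddCommGroup F] [InnerProductSpace ℂ F]

/-- the Gaussian exponent -/
noncomputable def qa (x : X3) : ℝ := ∑ i, ∑ A, aw i * x (i, A) ^ 2

lemma qa_contDiff : ContDiff ℝ ∞ qa := by
  unfold qa
  exact ContDiff.sum fun i _ => ContDiff.sum fun A _ =>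
    contDiff_const.mul ((Setup.contDiff_coord (i, A)).pow 2)

lemma pdr_qa (j : Fin 9) (B : Fin 3) (x : X3) : pdr j B qa x = 2 * (aw j * x (j, B)) := by
  have hd : HasFDerivAt qa (∑ i, ∑ A, aw i • ((2 * x (i, A)) •
      (EuclideanSpace.proj (𝕜 := ℝ) (i, A) : X3 →L[ℝ] ℝ))) x := by
    unfold qa
    refine HasFDerivAt.fun_sum fun i _ => HasFDerivAt.fun_sum fun A _ => ?_
    have h := ((Setup.hasFDerivAt_coord (i, A) x).pow 2).const_mul (aw i)
    simpa using h
  rw [pdr, hd.fderiv]
  simp only [_root_.smul_apply, _root_.sum_apply, PiLp.proj_apply, PiLp.single_apply, smul_eq_mul,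
    Prod.mk.injEq]
  rw [Finset.sum_eq_single j, Finset.sum_eq_single B]
  · simp; ring
  · intro A _ hA; simp [hA]
  · intro h; exact absurd (Finset.mem_univ _) h
  · intro i _ hi
    refine Finset.sum_eq_zero fun A _ => ?_
    simp [hi]
  · intro h; exact absurd (Finset.mem_univ _) h

variable (S : Setup F)

lemma Qlin_zero (β : Fin 16) (ζ : X3 → F) (x : X3) :
    S.Qlin 0 β ζ x = fop (fun i A => S.vec (S.g i) A β) (S.MM β) ζ x := by
  have h : S.DW 0 β x = 0 := by simp [Setup.DW]
  rw [Setup.Qlin, h, Setup.Q0, fop]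
  simp

lemma MM_symm (β : Fin 16) (x : X3) (v w : F) :
    inner ℂ (S.MM β x v) w = inner ℂ v (S.MM β x w) := by
  simp only [Setup.MM, _root_.sum_apply, _root_.smul_apply, sum_inner, inner_sum, inner_smul_left,
    inner_smul_right, Complex.conj_ofReal,
    S.vec_symm _ (Setup.mul_im_zero (S.g_im _) S.Gam_real)]

lemma MM_sub (β : Fin 16) (x y : X3) : S.MM β x - S.MM β y = S.MM β (x - y) := by
  simp only [Setup.MM, ← Finset.sum_sub_distrib, ← sub_smul]
  refine Finset.sum_congr rfl fun i _ => Finset.sum_congr rfl fun A _ => ?_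
  congr 1
  rw [PiLp.sub_apply]
  push_cast
  ring

lemma MM_bound (β : Fin 16) : ∃ C, 0 ≤ C ∧ ∀ x, ‖S.MM β x‖ ≤ C * ‖x‖ := by
  refine ⟨∑ i, ∑ A, |aw i| * ‖S.vec (S.g i * S.Gam) A β‖, by positivity, fun x => ?_⟩
  rw [Setup.MM, Finset.sum_mul]
  refine (norm_sum_le _ _).trans (Finset.sum_le_sum fun i _ => ?_)
  rw [Finset.sum_mul]
  refine (norm_sum_le _ _).trans (Finset.sum_le_sum fun A _ => ?_)
  rw [norm_smul, Complex.norm_real, norm_mul, Real.norm_eq_abs]
  have h := PiLp.norm_apply_le x (i, A)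
  calc |aw i| * ‖x (i, A)‖ * ‖S.vec (S.g i * S.Gam) A β‖
      ≤ |aw i| * ‖x‖ * ‖S.vec (S.g i * S.Gam) A β‖ := by gcongr
    _ = |aw i| * ‖S.vec (S.g i * S.Gam) A β‖ * ‖x‖ := by ring

lemma MM_continuous (β : Fin 16) : Continuous (S.MM β) := by
  have h : ContDiff ℝ ∞ (S.MM β) := by
    unfold Setup.MM
    refine ContDiff.sum fun i _ => ContDiff.sum fun A _ => ?_
    exact (Setup.contDiff_ofReal (contDiff_const.mul (Setup.contDiff_coord (i, A)))).smul
      contDiff_const
  exact h.continuous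

lemma FG_symm (v w : F) : inner ℂ (S.FG v) w = inner ℂ v (S.FG w) := by
  simp only [Setup.FG, _root_.smul_apply, inner_smul_left, inner_smul_right,
    S.tot_adj _ S.Gam_real, S.Gam_transpose, S.tot_neg, _root_.neg_apply, inner_neg_right,
    Complex.conj_I]
  ring

lemma N0_symm (v w : F) : inner ℂ (S.N0 v) w = inner ℂ v (S.N0 w) := by
  have h18 : (starRingEnd ℂ) (18 : ℂ) = 18 := Complex.conj_ofNat 18
  have h34 : (starRingEnd ℂ) (3 / 4 : ℂ) = 3 / 4 := by
    rw [map_div₀, Complex.conj_ofNat, Complex.conj_ofNat]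
  simp only [Setup.N0, _root_.sub_apply, _root_.smul_apply, inner_sub_left, inner_sub_right,
    inner_smul_left, inner_smul_right, FG_symm, h18, h34, one_apply_eq_self]

/-- the approximating test functions: `v_n = χ_n · (ρ_n * u)` -/
lemma exists_approx [CompleteSpace F] {u : X3 → F} (hu : MemLp u 2 (volume : Measure X3))
    (hw : ∀ β ζ, Setup.Tst ζ → ∫ x, inner ℂ (S.Qlin 0 β ζ x) (u x) = 0) :
    ∃ v : ℕ → X3 → F, (∀ n, Setup.Tst (v n)) ∧
      Tendsto (fun n => ∑ β, nsq (S.Qlin 0 β (v n))) atTop (𝓝 0) ∧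
      ∀ φ : X3 → F, Continuous φ → HasCompactSupport φ →
        Tendsto (fun n => ∫ x, inner ℂ (φ x) (v n x)) atTop (𝓝 (∫ x, inner ℂ (φ x) (u x))) := by
  obtain ⟨K, hK0, hK⟩ := exists_cut
  have hpos : ∀ n : ℕ, (0 : ℝ) < (n : ℝ) + 1 := fun n => by positivity
  choose χ hχ using fun n : ℕ => hK ((n : ℝ) + 1) (hpos n)
  have hul := locInt_of_memLp hu
  choose CN hCN0 hCN using MM_bound S
  set un : ℕ → X3 → F := fun n => cv (rho n) u with hun
  have hunc : ∀ n, ContDiff ℝ ∞ (un n) := fun n => cv_contDiff (rho_contDiff n) (rho_hcs n) hul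
  set v : ℕ → X3 → F := fun n x => ((χ n x : ℝ) : ℂ) • un n x with hv
  have hvt : ∀ n, Setup.Tst (v n) := by
    intro n
    refine ⟨(Setup.contDiff_ofReal (hχ n).1).smul (hunc n), (hχ n).2.1.mono ?_⟩
    intro x hx
    simp only [Function.mem_support, hv] at hx ⊢
    intro h0
    exact hx (by simp [h0])
  refine ⟨v, hvt, ?_, ?_⟩
  · -- the energies
    set CV : Fin 16 → ℝ := fun β => ∑ i, ∑ A, ‖S.vec (S.g i) A β‖ with hCV
    have hCV0 : ∀ β, 0 ≤ CV β := fun β => by positivity
    have hb : ∀ β n, nsq (S.Qlin 0 β (v n)) ≤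
        ((CN β + K * CV β) * (1 / ((n : ℝ) + 1))) ^ 2 * nsq u := by
      intro β n
      obtain ⟨y1, y2⟩ := young (rho_contDiff n).continuous (rho_hcs n) (rho_nonneg n) (rho_int n)
        hu.norm
      have y3 : Integrable (fun x => cvr (rho n) (fun y => ‖u y‖) x ^ 2) := by
        simpa using (memLp_two_iff_integrable_sq_norm y1.1).mp y1
      have hpt : ∀ x, ‖S.Qlin 0 β (v n) x‖ ≤
          ((CN β + K * CV β) * (1 / ((n : ℝ) + 1))) * cvr (rho n) (fun y => ‖u y‖) x := by
        intro x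
        have hc0 : 0 ≤ cvr (rho n) (fun y => ‖u y‖) x :=
          integral_nonneg fun y => mul_nonneg (rho_nonneg n _) (norm_nonneg _)
        have b1 := norm_fop_cv_le (V := fun i A => S.vec (S.g i) A β) (N := S.MM β)
          (fun i A => S.vec_symm _ (S.g_im i) A β) (MM_symm S β) (MM_continuous S β) hul
          (Θ := fun _ => (0 : F)) (by exact (integrable_zero X3 F volume).locallyIntegrable)
          (fun ζ hζ => by
            have := hw β ζ hζ
            simp only [Qlin_zero] at this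
            simp [this]) (rho_contDiff n) (rho_hcs n) (rho_nonneg n) x
          (C := CN β * (1 / ((n : ℝ) + 1))) (mul_nonneg (hCN0 β) (by positivity)) (by
            intro y
            by_cases hy : 1 / ((n : ℝ) + 1) ≤ ‖x - y‖
            · rw [rho_zero hy, zero_mul, zero_mul]
            · refine mul_le_mul_of_nonneg_left ?_ (rho_nonneg n _)
              rw [MM_sub]
              exact (hCN β _).trans (mul_le_mul_of_nonneg_left (not_le.mp hy).le (hCN0 β)))
        have b2 := norm_fop_cut_le (fun i A => S.vec (S.g i) A β) (S.MM β) (hpos n) (hχ n) x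
          ((hunc n).differentiable (by simp) x)
        have b3 := norm_cv_le (rho_nonneg n) u x
        have b4 : cvr (rho n) (fun y => ‖(fun _ => (0 : F)) y‖) x = 0 := by simp [cvr]
        rw [b4, zero_add] at b1
        rw [Qlin_zero]
        refine b2.trans ?_
        have b5 : K / ((n : ℝ) + 1) * CV β * ‖un n x‖ ≤
            K / ((n : ℝ) + 1) * CV β * cvr (rho n) (fun y => ‖u y‖) x :=
          mul_le_mul_of_nonneg_left b3 (mul_nonneg (div_nonneg hK0 (hpos n).le) (hCV0 β))
        refine (add_le_add b1 b5).trans (le_of_eq ?_)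
        ring
      calc nsq (S.Qlin 0 β (v n)) ≤ ∫ x, (((CN β + K * CV β) * (1 / ((n : ℝ) + 1))) *
            cvr (rho n) (fun y => ‖u y‖) x) ^ 2 := by
            refine integral_mono_of_nonneg (Filter.Eventually.of_forall fun x => by positivity)
              ?_ (Filter.Eventually.of_forall fun x => pow_le_pow_left₀ (norm_nonneg _) (hpt x) 2)
            simp only [mul_pow _ _ 2]
            exact y3.const_mul _
        _ = ((CN β + K * CV β) * (1 / ((n : ℝ) + 1))) ^ 2 *
            ∫ x, cvr (rho n) (fun y => ‖u y‖) x ^ 2 := by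
            rw [← integral_const_mul]
            congr 1; funext x; ring
        _ ≤ _ := mul_le_mul_of_nonneg_left y2 (by positivity)
    have hlim : Tendsto (fun n : ℕ => ∑ β, ((CN β + K * CV β) * (1 / ((n : ℝ) + 1))) ^ 2 * nsq u)
        atTop (𝓝 (∑ β : Fin 16, ((CN β + K * CV β) * 0) ^ 2 * nsq u)) := by
      refine tendsto_finsetSum _ fun β _ => ?_
      exact (((tendsto_one_div_add_atTop_nhds_zero_nat (𝕜 := ℝ)).const_mul _).pow 2).mul_const _
    simp only [mul_zero, ne_eq, OfNat.ofNat_ne_zero, not_false_eq_true, zero_pow, zero_mul,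
      Finset.sum_const_zero] at hlim
    exact squeeze_zero (fun n => Finset.sum_nonneg fun β _ => nsq_nonneg _)
      (fun n => Finset.sum_le_sum fun β _ => hb β n) hlim
  · -- weak convergence
    intro φ hφ hc
    have h1 := cv_weak hul hφ hc
    refine h1.congr' ?_
    obtain ⟨r, hr⟩ := hc.isCompact.isBounded.subset_closedBall (0 : X3)
    obtain ⟨n0, hn0⟩ := exists_nat_ge r
    filter_upwards [eventually_ge_atTop n0] with n hn
    congr 1
    funext x
    by_cases hx : ‖x‖ ≤ (n : ℝ) + 1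
    · simp only [hv]
      rw [(hχ n).2.2.2.2.1 x hx]
      simp [hun]
    · have h2 : φ x = 0 := by
        by_contra hne
        have h3 := hr (subset_tsupport _ hne)
        rw [Metric.mem_closedBall, dist_zero_right] at h3
        have h4 : (n0 : ℝ) ≤ n := by exact_mod_cast hn
        apply hx
        linarith
      rw [h2, inner_zero_left, inner_zero_left]

lemma A0_contDiff (i : Fin 9) (A : Fin 3) : ContDiff ℝ ∞ (fun x => A0 x i A) := by
  unfold A0
  exact contDiff_const.mul (Setup.contDiff_coord (i, A))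

/-- the weak first order equation, from the approximation -/
lemma weak_D [CompleteSpace F] {u : X3 → F} {v : ℕ → X3 → F} (hvt : ∀ n, Setup.Tst (v n))
    (i : Fin 9) (A : Fin 3)
    (hv : Tendsto (fun n => nsq (fun x => pd i A (v n) x + (A0 x i A : ℂ) • v n x)) atTop (𝓝 0))
    (hvw : ∀ φ : X3 → F, Continuous φ → HasCompactSupport φ →
      Tendsto (fun n => ∫ x, inner ℂ (φ x) (v n x)) atTop (𝓝 (∫ x, inner ℂ (φ x) (u x))))
    {φ : X3 → F} (hφ : Setup.Tst φ) :
    ∫ x, inner ℂ (-pd i A φ x + (A0 x i A : ℂ) • φ x) (u x) = 0 := by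
  have hD : Setup.Tst (fun x => -pd i A φ x + (A0 x i A : ℂ) • φ x) :=
    (hφ.pd i A).neg.add (Setup.Tst.rsmul (A0_contDiff i A) hφ)
  have h1 := hvw _ hD.1.continuous hD.2
  have h2 : ∀ n, ∫ x, inner ℂ (-pd i A φ x + (A0 x i A : ℂ) • φ x) (v n x) =
      ∫ x, inner ℂ (φ x) (pd i A (v n) x + (A0 x i A : ℂ) • v n x) := by
    intro n
    have hp := integral_inner_pd φ (v n) (hφ.1.of_le (by simp)) ((hvt n).1.of_le (by simp)) hφ.2 i A
    have i1 : Integrable (fun x => inner ℂ (pd i A φ x) (v n x)) :=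
      (hφ.pd i A).inner_int (hvt n).1.continuous
    have i2 : Integrable (fun x => inner ℂ ((A0 x i A : ℂ) • φ x) (v n x)) :=
      (Setup.Tst.rsmul (A0_contDiff i A) hφ).inner_int (hvt n).1.continuous
    have i3 : Integrable (fun x => inner ℂ (φ x) (pd i A (v n) x)) :=
      hφ.inner_int ((hvt n).pd i A).1.continuous
    have i4 : Integrable (fun x => inner ℂ (φ x) ((A0 x i A : ℂ) • v n x)) :=
      hφ.inner_int (Setup.Tst.rsmul (A0_contDiff i A) (hvt n)).1.continuous
    have e1 : ∀ x, inner ℂ (-pd i A φ x + (A0 x i A : ℂ) • φ x) (v n x) =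
        -inner ℂ (pd i A φ x) (v n x) + inner ℂ ((A0 x i A : ℂ) • φ x) (v n x) := by
      intro x; rw [inner_add_left, inner_neg_left]
    have e2 : ∀ x, inner ℂ (φ x) (pd i A (v n) x + (A0 x i A : ℂ) • v n x) =
        inner ℂ (φ x) (pd i A (v n) x) + inner ℂ (φ x) ((A0 x i A : ℂ) • v n x) := by
      intro x; rw [inner_add_right]
    simp only [e1, e2]
    rw [integral_add i1.fun_neg i2, integral_neg, hp, neg_neg, integral_add i3 i4]
    congr 2
    funext x
    rw [inner_smul_left, inner_smul_right, Complex.conj_ofReal]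
  have h3 : Tendsto (fun n => ∫ x, inner ℂ (-pd i A φ x + (A0 x i A : ℂ) • φ x) (v n x)) atTop
      (𝓝 0) := by
    simp only [h2]
    rw [tendsto_zero_iff_norm_tendsto_zero]
    have hb : Tendsto (fun n => Real.sqrt (nsq φ) *
        Real.sqrt (nsq (fun x => pd i A (v n) x + (A0 x i A : ℂ) • v n x))) atTop
        (𝓝 (Real.sqrt (nsq φ) * Real.sqrt 0)) :=
      ((Real.continuous_sqrt.tendsto 0).comp hv).const_mul _
    rw [Real.sqrt_zero, mul_zero] at hb
    refine squeeze_zero (fun n => norm_nonneg _) (fun n => ?_) hb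
    exact cs_inner hφ.memLp
      (((hvt n).pd i A).add (Setup.Tst.rsmul (A0_contDiff i A) (hvt n))).memLp
  exact tendsto_nhds_unique h1 h3

/-- **C-L0, core**: `L²` solutions are multiples of the Gaussian with values in the kernel of `N0` -/
theorem lzero_core [CompleteSpace F] (hE : En0Stmt S)
    (hpos : ∀ v : F, 0 ≤ (inner ℂ v (S.N0 v)).re) {u : X3 → F}
    (hu : MemLp u 2 (volume : Measure X3))
    (hw : ∀ β ζ, Setup.Tst ζ → ∫ x, inner ℂ (S.Qlin 0 β ζ x) (u x) = 0) :
    ∃ c : F, S.N0 c = 0 ∧ ∀ᵐ x ∂(volume : Measure X3),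
      u x = ((Real.exp (-(qa x) / 2) : ℝ) : ℂ) • c := by
  have hul := locInt_of_memLp hu
  obtain ⟨v, hvt, hvE, hvw⟩ := exists_approx S hu hw
  have hNc : ContDiff ℝ ∞ (fun _ : X3 => S.N0) := contDiff_const
  have hre : ∀ {f g : X3 → F}, Setup.Tst f → Continuous g →
      (∫ x, inner ℂ (f x) (g x)).re = ∫ x, (inner ℂ (f x) (g x)).re := by
    intro f g hf hg
    exact (integral_re (hf.inner_int hg)).symm
  have hq0 : ∀ f : X3 → F, Setup.Tst f → 0 ≤ (∫ x, inner ℂ (f x) (S.N0 (f x))).re := by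
    intro f hf
    rw [hre hf (Setup.Tst.clm hNc hf).1.continuous]
    exact integral_nonneg fun x => hpos _
  -- the two terms of the energy tend to zero
  have hterm : ∀ n, 8 * (∑ i, ∑ A, nsq (fun x => pd i A (v n) x + (A0 x i A : ℂ) • v n x)) +
      16 * (∫ x, inner ℂ (v n x) (S.N0 (v n x))).re = ∑ β, nsq (S.Qlin 0 β (v n)) := fun n =>
    (hE (v n) (hvt n)).symm
  have hD0 : ∀ i A, Tendsto (fun n => nsq (fun x => pd i A (v n) x + (A0 x i A : ℂ) • v n x))
      atTop (𝓝 0) := by
    intro i A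
    refine squeeze_zero (fun n => nsq_nonneg _) (fun n => ?_) hvE
    have h1 := hterm n
    have h2 := hq0 _ (hvt n)
    have h3 : nsq (fun x => pd i A (v n) x + (A0 x i A : ℂ) • v n x) ≤
        ∑ i, ∑ A, nsq (fun x => pd i A (v n) x + (A0 x i A : ℂ) • v n x) := by
      refine le_trans ?_ (Finset.single_le_sum (f := fun i => ∑ A, nsq (fun x =>
        pd i A (v n) x + (A0 x i A : ℂ) • v n x))
        (fun i _ => Finset.sum_nonneg fun A _ => nsq_nonneg _) (Finset.mem_univ i))
      exact Finset.single_le_sum (f := fun A => nsq (fun x =>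
        pd i A (v n) x + (A0 x i A : ℂ) • v n x)) (fun A _ => nsq_nonneg _) (Finset.mem_univ A)
    have h4 := nsq_nonneg (fun x => pd i A (v n) x + (A0 x i A : ℂ) • v n x)
    linarith
  have hN0 : Tendsto (fun n => (∫ x, inner ℂ (v n x) (S.N0 (v n x))).re) atTop (𝓝 0) := by
    refine squeeze_zero (fun n => hq0 _ (hvt n)) (fun n => ?_) hvE
    have h1 := hterm n
    have h2 := hq0 _ (hvt n)
    have h3 : 0 ≤ ∑ i, ∑ A, nsq (fun x => pd i A (v n) x + (A0 x i A : ℂ) • v n x) :=
      Finset.sum_nonneg fun i _ => Finset.sum_nonneg fun A _ => nsq_nonneg _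
    linarith
  -- `w = e^{q/2} u` is constant
  have hex : ContDiff ℝ ∞ (fun x => Real.exp (qa x / 2)) :=
    Real.contDiff_exp.comp (qa_contDiff.div_const 2)
  have hwl : LocallyIntegrable (fun x => ((Real.exp (qa x / 2) : ℝ) : ℂ) • u x)
      (volume : Measure X3) := by
    rw [locallyIntegrable_iff]
    intro k hk
    exact (hul.integrableOn_isCompact hk).continuousOn_smul
      (Complex.continuous_ofReal.comp hex.continuous).continuousOn hk
  obtain ⟨c, hc⟩ := const_of_weak hwl (fun i A ψ hψ => by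
    have hφ : Setup.Tst (fun x => ((Real.exp (qa x / 2) : ℝ) : ℂ) • ψ x) :=
      Setup.Tst.rsmul hex hψ
    have h1 := weak_D hvt i A (hD0 i A) hvw hφ
    have h2 : ∀ x, pd i A (fun x => ((Real.exp (qa x / 2) : ℝ) : ℂ) • ψ x) x =
        (A0 x i A : ℂ) • ((Real.exp (qa x / 2) : ℝ) : ℂ) • ψ x +
          ((Real.exp (qa x / 2) : ℝ) : ℂ) • pd i A ψ x := by
      intro x
      rw [pd_rsmul (hex.differentiable (by simp) x) (hψ.diff x)]
      have h3 : fderiv ℝ (fun x => Real.exp (qa x / 2)) x (EuclideanSpace.single (i, A) (1 : ℝ)) =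
          A0 x i A * Real.exp (qa x / 2) := by
        have h4 : HasFDerivAt qa (fderiv ℝ qa x) x :=
          (qa_contDiff.differentiable (by simp) x).hasFDerivAt
        have h5 : HasFDerivAt (fun x => qa x / 2) ((2 : ℝ)⁻¹ • fderiv ℝ qa x) x := by
          have := h4.const_mul (2 : ℝ)⁻¹
          refine this.congr_of_eventuallyEq (Filter.Eventually.of_forall fun y => ?_)
          simp only
          ring
        have h6 := h5.exp
        rw [h6.fderiv]
        have h7 := pdr_qa i A x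
        rw [pdr] at h7
        simp only [_root_.smul_apply, smul_eq_mul, h7, A0]
        ring
      rw [h3, smul_smul]
      push_cast
      rfl
    simp only [h2] at h1
    have h8 : ∀ x, inner ℂ (-((A0 x i A : ℂ) • ((Real.exp (qa x / 2) : ℝ) : ℂ) • ψ x +
          ((Real.exp (qa x / 2) : ℝ) : ℂ) • pd i A ψ x) +
          (A0 x i A : ℂ) • ((Real.exp (qa x / 2) : ℝ) : ℂ) • ψ x) (u x) =
        -inner ℂ (pd i A ψ x) (((Real.exp (qa x / 2) : ℝ) : ℂ) • u x) := by
      intro x
      rw [neg_add, add_comm (-((A0 x i A : ℂ) • ((Real.exp (qa x / 2) : ℝ) : ℂ) • ψ x)),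
        neg_add_cancel_right, inner_neg_left, inner_smul_left, inner_smul_right,
        Complex.conj_ofReal]
    simp only [h8] at h1
    rw [integral_neg, neg_eq_zero] at h1
    exact h1)
  have hue : ∀ᵐ x ∂(volume : Measure X3), u x = ((Real.exp (-(qa x) / 2) : ℝ) : ℂ) • c := by
    filter_upwards [hc] with x hx
    rw [← hx, smul_smul, ← Complex.ofReal_mul, ← Real.exp_add]
    have : -(qa x) / 2 + qa x / 2 = 0 := by ring
    rw [this, Real.exp_zero, Complex.ofReal_one, one_smul]
  refine ⟨c, ?_, hue⟩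
  -- the vector is in the kernel of `N0`
  set e := S.N0 c with he
  have hφ : Setup.Tst (fun x => ((rho 0 x : ℝ) : ℂ) • e) := by
    have := tst_kernel (rho_contDiff 0) (rho_hcs 0) (0 : X3) e
    simpa [rho_neg] using this
  set φ : X3 → F := fun x => ((rho 0 x : ℝ) : ℂ) • e with hφd
  have hNφ : Setup.Tst (fun x => S.N0 (φ x)) := Setup.Tst.clm hNc hφ
  have hL := hvw _ hNφ.1.continuous hNφ.2
  have hL' : Tendsto (fun n => (∫ x, inner ℂ (S.N0 (φ x)) (v n x)).re) atTop
      (𝓝 (∫ x, inner ℂ (S.N0 (φ x)) (u x)).re) := (Complex.continuous_re.tendsto _).comp hL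
  set Lr : ℝ := (∫ x, inner ℂ (S.N0 (φ x)) (u x)).re with hLr
  set Q0 : ℝ := (∫ x, inner ℂ (φ x) (S.N0 (φ x))).re with hQ0
  have hineq : ∀ t : ℝ, 0 ≤ Q0 + 2 * t * Lr := by
    intro t
    have h1 : ∀ n, 0 ≤ Q0 + 2 * t * (∫ x, inner ℂ (S.N0 (φ x)) (v n x)).re +
        t ^ 2 * (∫ x, inner ℂ (v n x) (S.N0 (v n x))).re := by
      intro n
      have hf : Setup.Tst (fun x => φ x + ((t : ℝ) : ℂ) • v n x) :=
        hφ.add (Setup.Tst.rsmul (φ := fun _ => t) contDiff_const (hvt n))
      have h2 := hq0 _ hf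
      have hNv : Setup.Tst (fun x => S.N0 (v n x)) := Setup.Tst.clm hNc (hvt n)
      have i1 : Integrable (fun x => inner ℂ (φ x) (S.N0 (φ x))) := hφ.inner_int hNφ.1.continuous
      have i2 : Integrable (fun x => inner ℂ (S.N0 (φ x)) (v n x)) :=
        hNφ.inner_int (hvt n).1.continuous
      have i3 : Integrable (fun x => inner ℂ (v n x) (S.N0 (φ x))) :=
        (hvt n).inner_int hNφ.1.continuous
      have i4 : Integrable (fun x => inner ℂ (v n x) (S.N0 (v n x))) :=
        (hvt n).inner_int hNv.1.continuous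
      have e0 : ∀ a b : F, inner ℂ (a + ((t : ℝ) : ℂ) • b) (S.N0 (a + ((t : ℝ) : ℂ) • b)) =
          inner ℂ a (S.N0 a) + (t : ℂ) * inner ℂ (S.N0 a) b + (t : ℂ) * inner ℂ b (S.N0 a) +
          (t : ℂ) ^ 2 * inner ℂ b (S.N0 b) := by
        intro a b
        rw [map_add, map_smul, inner_add_left, inner_add_right, inner_add_right, inner_smul_left,
          inner_smul_right, inner_smul_left, inner_smul_right, Complex.conj_ofReal, N0_symm S a b]
        ring
      have e1 : ∀ x, inner ℂ (φ x + ((t : ℝ) : ℂ) • v n x)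
          (S.N0 (φ x + ((t : ℝ) : ℂ) • v n x)) =
          inner ℂ (φ x) (S.N0 (φ x)) + (t : ℂ) * inner ℂ (S.N0 (φ x)) (v n x) +
          (t : ℂ) * inner ℂ (v n x) (S.N0 (φ x)) +
          (t : ℂ) ^ 2 * inner ℂ (v n x) (S.N0 (v n x)) := fun x => e0 (φ x) (v n x)
      simp only [e1] at h2
      have i12 : Integrable (fun x => inner ℂ (φ x) (S.N0 (φ x)) +
          (t : ℂ) * inner ℂ (S.N0 (φ x)) (v n x)) := i1.add (i2.const_mul _)
      have i123 : Integrable (fun x => inner ℂ (φ x) (S.N0 (φ x)) +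
          (t : ℂ) * inner ℂ (S.N0 (φ x)) (v n x) + (t : ℂ) * inner ℂ (v n x) (S.N0 (φ x))) :=
        i12.add (i3.const_mul _)
      rw [integral_add i123 (i4.const_mul _), integral_add i12 (i3.const_mul _),
        integral_add i1 (i2.const_mul _), integral_const_mul, integral_const_mul,
        integral_const_mul] at h2
      have e2 : (∫ x, inner ℂ (v n x) (S.N0 (φ x))) =
          (starRingEnd ℂ) (∫ x, inner ℂ (S.N0 (φ x)) (v n x)) := by
        rw [← integral_conj]
        congr 1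
        funext x
        rw [inner_conj_symm]
      rw [e2] at h2
      simp only [Complex.add_re, Complex.re_ofReal_mul, Complex.conj_re, ← Complex.ofReal_pow] at h2
      linarith
    have h3 : Tendsto (fun n => Q0 + 2 * t * (∫ x, inner ℂ (S.N0 (φ x)) (v n x)).re +
        t ^ 2 * (∫ x, inner ℂ (v n x) (S.N0 (v n x))).re) atTop
        (𝓝 (Q0 + 2 * t * Lr + t ^ 2 * 0)) :=
      (tendsto_const_nhds.add (hL'.const_mul _)).add (hN0.const_mul _)
    rw [mul_zero, add_zero] at h3
    exact ge_of_tendsto' h3 h1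
  have hL0 : Lr = 0 := by
    by_contra hne
    have h1 := hineq (-(Q0 + 1) / (2 * Lr))
    have h2 : 2 * (-(Q0 + 1) / (2 * Lr)) * Lr = -(Q0 + 1) := by
      field_simp
    rw [h2] at h1
    linarith
  -- compute `Lr`
  have hI : 0 < ∫ x, rho 0 x * Real.exp (-(qa x) / 2) := by
    have hcont : Continuous (fun x => rho 0 x * Real.exp (-(qa x) / 2)) :=
      (rho_contDiff 0).continuous.mul
        (Real.continuous_exp.comp ((qa_contDiff.continuous.neg).div_const 2))
    refine hcont.integral_pos_of_hasCompactSupport_nonneg_nonzero (x := 0) (rho_hcs 0).mul_right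
      (fun x => mul_nonneg (rho_nonneg 0 x) (Real.exp_pos _).le) ?_
    refine mul_ne_zero ?_ (Real.exp_pos _).ne'
    have : (0 : X3) ∈ Function.support ((bmp 0).normed (volume : Measure X3)) := by
      rw [(bmp 0).support_normed_eq]
      exact Metric.mem_ball_self (bmp 0).rOut_pos
    exact this
  have hcomp : Lr = (∫ x, rho 0 x * Real.exp (-(qa x) / 2)) * ‖e‖ ^ 2 := by
    have h1 : ∫ x, inner ℂ (S.N0 (φ x)) (u x) =
        ∫ x, ((rho 0 x * Real.exp (-(qa x) / 2) * ‖e‖ ^ 2 : ℝ) : ℂ) := by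
      refine integral_congr_ae ?_
      filter_upwards [hue] with x hx
      rw [hx, hφd]
      simp only
      rw [map_smul, inner_smul_left, inner_smul_right, N0_symm, ← he, inner_self_eq_norm_sq_to_K,
        Complex.conj_ofReal]
      push_cast
      simp only [Complex.coe_algebraMap]
      ring
    rw [hLr, h1, integral_complex_ofReal, Complex.ofReal_re, integral_mul_const]
  rw [hL0] at hcomp
  have h9 : ‖e‖ ^ 2 = 0 := by
    rcases mul_eq_zero.mp hcomp.symm with h | h
    · exact absurd h hI.ne'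
    · exact h
  simpa using h9

/-- **C-L0** with a given vacuum vector -/
theorem l0' [CompleteSpace F] (hE : En0Stmt S) (hN : N0Stmt S) (hI : S.Irr) (hne : ∃ v : F, v ≠ 0)
    (Ω : F) (hΩ : ‖Ω‖ = 1) (ha : ∀ A α, S.am A α Ω = 0) (u : X3 → F)
    (hu : MemLp u 2 (volume : Measure X3))
    (hw : ∀ β ζ, Setup.Tst ζ → ∫ x, inner ℂ (S.Qlin 0 β ζ x) (u x) = 0) :
    ∃ c : ℂ, ∀ᵐ x ∂(volume : Measure X3),
      u x = (c * (Real.exp (-(∑ i, ∑ A, aw i * x (i, A) ^ 2) / 2) : ℂ)) • Ω := by
  obtain ⟨hpos, Ω0, h1, h2, h3, h4, h5⟩ := hN hI hne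
  obtain ⟨c, hc0, hc⟩ := lzero_core S hE hpos hu hw
  obtain ⟨a, ha'⟩ := h4 c (by rw [hc0, inner_zero_right, Complex.zero_re])
  obtain ⟨b, hb⟩ := h5 Ω ha
  have hb0 : b ≠ 0 := by
    rintro rfl
    rw [zero_smul] at hb
    rw [hb, norm_zero] at hΩ
    exact zero_ne_one hΩ
  refine ⟨a / b, ?_⟩
  filter_upwards [hc] with x hx
  rw [hx, ha', hb, smul_smul, smul_smul]
  congr 1
  change _ * a = a / b * _ * b
  rw [div_mul_eq_mul_div, div_mul_cancel₀ _ hb0, mul_comm]
  rfl

/-- **C-L0** -/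
theorem l0 [CompleteSpace F] (hE : En0Stmt S) (hN : N0Stmt S) : L0Stmt S := by
  intro hI hne
  obtain ⟨-, Ω, h1, h2, -⟩ := hN hI hne
  exact ⟨Ω, h1, fun u hu hw => l0' S hE hN hI hne Ω h1 h2 u hu hw⟩

end Vale.Agent.P353.U
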