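import Vale.Agent.P353.U.StmtB
import Vale.Agent.P353.U.Sym

/-! # P353, uniqueness for `N = 2`: `LowDimStmt` (task B9) -/

open MeasureTheory Filter Topology
open scoped ContDiff

namespace Vale.Agent.P353.U

open Setup

universe u

variable {F : Type u} [NormedAddCommGroup F] [InnerProductSpace ℂ F]

lemma inner_Lp_eq (f g : Lp F 2 (volume : Measure X3)) :
    (inner ℂ f g : ℂ) = ∫ x, inner ℂ (f x) (g x) := L2.inner_def f g

lemma inner_toLp_left {a : X3 → F} (ha : MemLp a 2 (volume : Measure X3))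
    (g : Lp F 2 (volume : Measure X3)) :
    (inner ℂ (ha.toLp a) g : ℂ) = ∫ x, inner ℂ (a x) (g x) := by
  rw [inner_Lp_eq]
  refine integral_congr_ae ?_
  filter_upwards [ha.coeFn_toLp] with x hx
  rw [hx]

lemma inner_toLp_right {a : X3 → F} (ha : MemLp a 2 (volume : Measure X3))
    (g : Lp F 2 (volume : Measure X3)) :
    (inner ℂ g (ha.toLp a) : ℂ) = ∫ x, inner ℂ (g x) (a x) := by
  rw [inner_Lp_eq]
  refine integral_congr_ae ?_
  filter_upwards [ha.coeFn_toLp] with x hx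
  rw [hx]

lemma nsq_Lp (f : Lp F 2 (volume : Measure X3)) : nsq f = ‖f‖ ^ 2 := by
  have h := norm_toLp (Lp.memLp f)
  rw [Lp.toLp_coeFn] at h
  rw [h, Real.sq_sqrt (nsq_nonneg _)]

omit [InnerProductSpace ℂ F] in
lemma nsq_congr {f g : X3 → F} (h : f =ᵐ[volume] g) : nsq f = nsq g := by
  refine integral_congr_ae ?_
  filter_upwards [h] with x hx
  rw [hx]

omit [InnerProductSpace ℂ F] in
lemma ae_zero_of_nsq {f : X3 → F} (hf : MemLp f 2 (volume : Measure X3)) (h : nsq f = 0) :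
    f =ᵐ[volume] fun _ => 0 := by
  have h1 := (integral_eq_zero_iff_of_nonneg (fun x => by positivity)
    (memLp_norm_sq_int hf)).mp h
  filter_upwards [h1] with x hx
  simpa using hx

/-- generators of the orthogonal complement of the weakly invariant functions -/
def invGen (S : Setup F) : Set (Lp F 2 (volume : Measure X3)) :=
  {h | (∃ C ζ, ∃ hζ : Tst ζ, h = (Tst.G S hζ C).memLp.toLp _) ∨
    ∃ k l ζ, Same k l ∧ ∃ hζ : Tst ζ, h = (Tst.J S hζ k l).memLp.toLp _}

/-- closed space of weakly invariant `L²` functions -/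
noncomputable def KI (S : Setup F) : Submodule ℂ (Lp F 2 (volume : Measure X3)) :=
  (Submodule.span ℂ (invGen S))ᗮ

lemma mem_KI {S : Setup F} {f : Lp F 2 (volume : Measure X3)} : f ∈ KI S ↔ S.wG f ∧ S.wJ f := by
  constructor
  · intro h
    have h1 : ∀ g ∈ invGen S, inner ℂ g f = 0 := fun g hg =>
      (Submodule.mem_orthogonal _ _).mp h g (Submodule.subset_span hg)
    constructor
    · intro C ζ hζ
      have := h1 _ (Or.inl ⟨C, ζ, hζ, rfl⟩)
      rwa [inner_toLp_left] at this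
    · intro k l hkl ζ hζ
      have := h1 _ (Or.inr ⟨k, l, ζ, hkl, hζ, rfl⟩)
      rwa [inner_toLp_left] at this
  · rintro ⟨hG, hJ⟩
    refine (Submodule.mem_orthogonal _ _).mpr fun g hg => ?_
    induction hg using Submodule.span_induction with
    | mem g hg =>
      rcases hg with ⟨C, ζ, hζ, rfl⟩ | ⟨k, l, ζ, hkl, hζ, rfl⟩
      · rw [inner_toLp_left]; exact hG C ζ hζ
      · rw [inner_toLp_left]; exact hJ k l hkl ζ hζ
    | zero => exact inner_zero_left _
    | add a b _ _ ha hb => rw [inner_add_left, ha, hb, add_zero]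
    | smul c a _ ha => rw [inner_smul_left, ha, mul_zero]

lemma Inv_mem_KI {S : Setup F} {v : X3 → F} (hv : S.Inv v) : hv.1.memLp.toLp v ∈ KI S := by
  refine mem_KI.mpr ⟨fun C ζ hζ => ?_, fun k l hkl ζ hζ => ?_⟩
  · rw [← inner_toLp_left (Tst.G S hζ C).memLp, inner_toLp_right]
    have h2 := G_symm S C ζ v hζ hv.1.1
    have h3 : ∫ x, inner ℂ (((Tst.G S hζ C).memLp.toLp (S.G C ζ) : Lp F 2 (volume : Measure X3)) x)
      (v x) = ∫ x, inner ℂ (S.G C ζ x) (v x) := by
      refine integral_congr_ae ?_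
      filter_upwards [(Tst.G S hζ C).memLp.coeFn_toLp] with x hx
      rw [hx]
    rw [h3, h2]
    simp [hv.2.1]
  · rw [← inner_toLp_left (Tst.J S hζ k l).memLp, inner_toLp_right]
    have h2 := J_symm S k l ζ v hζ hv.1.1
    have h3 : ∫ x, inner ℂ (((Tst.J S hζ k l).memLp.toLp (S.J k l ζ) :
        Lp F 2 (volume : Measure X3)) x) (v x) = ∫ x, inner ℂ (S.J k l ζ x) (v x) := by
      refine integral_congr_ae ?_
      filter_upwards [(Tst.J S hζ k l).memLp.coeFn_toLp] with x hx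
      rw [hx]
    rw [h3, h2]
    simp [hv.2.2 k l hkl]

lemma KI_closed (S : Setup F) : IsClosed (KI S : Set (Lp F 2 (volume : Measure X3))) :=
  Submodule.isClosed_orthogonal _

/-- exact invariant zero modes as fixed points of the resolvent -/
noncomputable def EE (S : Setup F)
    (R : Lp F 2 (volume : Measure X3) →L[ℂ] Lp F 2 (volume : Measure X3)) :
    Submodule ℂ (Lp F 2 (volume : Measure X3)) where
  carrier := {f | f ∈ KI S ∧ R f = f}
  add_mem' := by
    rintro a b ⟨ha, ha'⟩ ⟨hb, hb'⟩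
    exact ⟨(KI S).add_mem ha hb, by rw [map_add, ha', hb']⟩
  zero_mem' := ⟨(KI S).zero_mem, map_zero R⟩
  smul_mem' := by
    rintro c a ⟨ha, ha'⟩
    exact ⟨(KI S).smul_mem c ha, by rw [map_smul, ha']⟩

lemma re_inner_self_Lp (f : Lp F 2 (volume : Measure X3)) : (inner ℂ f f : ℂ).re = ‖f‖ ^ 2 := by
  rw [inner_self_eq_norm_sq_to_K]
  norm_cast

lemma EE_Em {S : Setup F} {m : ℝ}
    {R : Lp F 2 (volume : Measure X3) →L[ℂ] Lp F 2 (volume : Measure X3)} (hR : S.IsRes m R)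
    {f : Lp F 2 (volume : Measure X3)} (hf : f ∈ EE S R) : S.Em m f := by
  obtain ⟨hK, hfix⟩ := hf
  obtain ⟨hG, hJ⟩ := mem_KI.mp hK
  refine ⟨Lp.memLp f, hG, hJ, fun β ζ hζ => ?_⟩
  obtain ⟨Φ, hS, -, h3⟩ := hR.2 f
  rw [hfix, re_inner_self_Lp, nsq_Lp] at h3
  have h4 : ∑ β, nsq (Φ β) = 0 := by linarith
  have h5 : nsq (Φ β) = 0 :=
    (Finset.sum_eq_zero_iff_of_nonneg fun b _ => nsq_nonneg (Φ b)).mp h4 β (Finset.mem_univ _)
  have hw := hS.wQ β ζ hζ
  rw [hfix] at hw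
  rw [hw]
  obtain ⟨w, -, -, hL⟩ := hS
  have h6 := ae_zero_of_nsq (hL β).mem' h5
  refine integral_congr_ae ?_
  filter_upwards [h6] with x hx
  rw [hx]

/-- an eigenvector of the resolvent is a weak eigenfunction of `∑ Q_β²` -/
lemma wE_of_eig {S : Setup F} {m : ℝ}
    {R : Lp F 2 (volume : Measure X3) →L[ℂ] Lp F 2 (volume : Measure X3)} (hR : S.IsRes m R)
    {w : Lp F 2 (volume : Measure X3)} {μ : ℝ} (hμ : 0 < μ) (hw : R w = (μ : ℂ) • w) :
    S.wE m (1 / μ - 1) w := by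
  intro ζ hζ
  obtain ⟨Φ, hS, h2, -⟩ := hR.2 w
  have h1 := h2 ζ hζ
  have hRw : ∀ f : X3 → F, MemLp f 2 (volume : Measure X3) →
      ∫ x, inner ℂ (f x) ((R w) x) = (μ : ℂ) * ∫ x, inner ℂ (f x) (w x) := by
    intro f hf
    rw [← inner_toLp_left hf, ← inner_toLp_left hf, hw, inner_smul_right]
  have h3 : ∀ β, ∫ x, inner ℂ (S.Qm m β ζ x) (Φ β x) =
      ∫ x, inner ℂ (S.Qm m β (S.Qm m β ζ) x) ((R w) x) := fun β =>
    (hS.wQ β _ (hζ.Qm S m β)).symm
  simp only [h3] at h1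
  have h4 : ∀ β, ∫ x, inner ℂ (S.Qm m β (S.Qm m β ζ) x) ((R w) x) =
      (μ : ℂ) * ∫ x, inner ℂ (S.Qm m β (S.Qm m β ζ) x) (w x) := fun β =>
    hRw _ ((hζ.Qm S m β).Qm S m β).memLp
  simp only [h4] at h1
  rw [hRw ζ hζ.memLp] at h1
  have h5 : ∫ x, inner ℂ (∑ β, S.Qm m β (S.Qm m β ζ) x) (w x) =
      ∑ β, ∫ x, inner ℂ (S.Qm m β (S.Qm m β ζ) x) (w x) := by
    simp only [sum_inner]
    rw [integral_finsetSum]
    intro β _
    exact integrable_inner_memLp ((hζ.Qm S m β).Qm S m β).memLp (Lp.memLp w)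
  rw [h5]
  rw [← Finset.mul_sum] at h1
  have hμ' : (μ : ℂ) ≠ 0 := by exact_mod_cast hμ.ne'
  push_cast
  field_simp
  linear_combination h1

/-- Rayleigh quotient bound for the resolvent -/
lemma rayleigh {S : Setup F} {m c : ℝ} (hc : 0 < c)
    {R : Lp F 2 (volume : Measure X3) →L[ℂ] Lp F 2 (volume : Measure X3)} (hR : S.IsRes m R)
    {v : X3 → F} (hv : Tst v) (hlt : ∑ β, nsq (S.Qm m β v) < c * nsq v) :
    1 / (1 + c) * ‖hv.memLp.toLp v‖ ^ 2 <
      (inner ℂ (R (hv.memLp.toLp v)) (hv.memLp.toLp v) : ℂ).re := by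
  set f := hv.memLp.toLp v with hf
  obtain ⟨Φ, hS, h2, h3⟩ := hR.2 f
  have h1 := h2 v hv
  have hN : ‖f‖ ^ 2 = nsq v := by
    rw [hf, norm_toLp, Real.sq_sqrt (nsq_nonneg _)]
  have h4 : (∫ x, inner ℂ (v x) (f x)).re = nsq v := by
    rw [← inner_toLp_left hv.memLp, ← hf, re_inner_self_Lp, hN]
  obtain ⟨w, -, -, hL⟩ := hS
  have hy : ∀ {a b : X3 → F}, MemLp a 2 (volume : Measure X3) → MemLp b 2 (volume : Measure X3) →
      2 * (∫ x, inner ℂ (a x) (b x)).re ≤ 1 / (1 + c) * nsq a + (1 + c) * nsq b := by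
    intro a b ha hb
    have e1 : (∫ x, inner ℂ (a x) (b x)).re ≤ Real.sqrt (nsq a) * Real.sqrt (nsq b) :=
      (Complex.re_le_norm _).trans (cs_inner ha hb)
    have e2 : 2 * (Real.sqrt (nsq a) * Real.sqrt (nsq b)) ≤
        1 / (1 + c) * nsq a + (1 + c) * nsq b := by
      have ea := Real.sq_sqrt (nsq_nonneg a)
      have eb := Real.sq_sqrt (nsq_nonneg b)
      have hc1 : (0 : ℝ) < 1 + c := by linarith
      have e3 : 0 ≤ (Real.sqrt (nsq a) - (1 + c) * Real.sqrt (nsq b)) ^ 2 / (1 + c) := by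
        positivity
      have e4 : (Real.sqrt (nsq a) - (1 + c) * Real.sqrt (nsq b)) ^ 2 / (1 + c) =
          1 / (1 + c) * (Real.sqrt (nsq a)) ^ 2 + (1 + c) * (Real.sqrt (nsq b)) ^ 2 -
            2 * (Real.sqrt (nsq a) * Real.sqrt (nsq b)) := by
        field_simp
        ring
      rw [e4, ea, eb] at e3
      linarith
    linarith
  have h5 := hy hv.memLp (Lp.memLp (R f))
  have h6 : ∑ β, 2 * (∫ x, inner ℂ (S.Qm m β v x) (Φ β x)).re ≤
      ∑ β, (1 / (1 + c) * nsq (S.Qm m β v) + (1 + c) * nsq (Φ β)) :=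
    Finset.sum_le_sum fun β _ => hy (hv.Qm S m β).memLp (hL β).mem'
  rw [Finset.sum_add_distrib, ← Finset.mul_sum, ← Finset.mul_sum, ← Finset.mul_sum] at h6
  have h7 := congrArg Complex.re h1
  rw [Complex.add_re, Complex.re_sum, h4] at h7
  have h8 : 2 * nsq v ≤ 1 / (1 + c) * (nsq v + ∑ β, nsq (S.Qm m β v)) +
      (1 + c) * (nsq (R f) + ∑ β, nsq (Φ β)) := by
    rw [mul_add, mul_add]
    linarith
  rw [h3] at h8
  have hc1 : (0 : ℝ) < 1 + c := by linarith
  have h9 : 1 / (1 + c) * (nsq v + ∑ β, nsq (S.Qm m β v)) < nsq v := by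
    rw [div_mul_eq_mul_div, one_mul, div_lt_iff₀ hc1]
    linarith
  rw [hN, div_mul_eq_mul_div, one_mul, div_lt_iff₀ hc1]
  linarith

theorem lowDim [CompleteSpace F] (S : Setup F) (h1 : ResStmt S) (h3 : RCompStmt S)
    (h4 : RInvStmt S) (h5 : EigStmt.{u}) (_h6 : WEStmt S) (h7 : GapStmt S) : LowDimStmt S := by
  intro m hm hlow
  obtain ⟨v, hv, hvlt⟩ := hlow
  obtain ⟨R, hR⟩ := h1 m
  have h8m : (0 : ℝ) < 8 * m := by positivity
  by_cases hrk : ((3 : ℕ) : Cardinal) ≤ Module.rank ℂ (EE S R)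
  · obtain ⟨g, hg⟩ := natCast_le_rank_iff.mp hrk
    refine ⟨fun j => ((g j : Lp F 2 (volume : Measure X3)) : X3 → F),
      fun j => EE_Em hR (g j).2, fun a ha => ?_⟩
    have hne : ∑ j, a j • g j ≠ 0 := by
      intro h0
      apply ha
      funext j
      exact (Fintype.linearIndependent_iff.mp hg) a h0 j
    have hne' : (∑ j, a j • (g j : Lp F 2 (volume : Measure X3))) ≠ 0 := by
      intro h0
      apply hne
      apply Subtype.ext
      simpa using h0
    have hae : (fun x => ∑ j, a j • (g j : Lp F 2 (volume : Measure X3)) x) =ᵐ[volume]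
        ((∑ j, a j • (g j : Lp F 2 (volume : Measure X3)) : Lp F 2 (volume : Measure X3)) :
          X3 → F) := by
      have e0 := Lp.coeFn_smul (a 0) (g 0 : Lp F 2 (volume : Measure X3))
      have e1 := Lp.coeFn_smul (a 1) (g 1 : Lp F 2 (volume : Measure X3))
      have e2 := Lp.coeFn_smul (a 2) (g 2 : Lp F 2 (volume : Measure X3))
      have e3 := Lp.coeFn_add (a 0 • (g 0 : Lp F 2 (volume : Measure X3)))
        (a 1 • (g 1 : Lp F 2 (volume : Measure X3)))
      have e4 := Lp.coeFn_add (a 0 • (g 0 : Lp F 2 (volume : Measure X3)) +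
        a 1 • (g 1 : Lp F 2 (volume : Measure X3))) (a 2 • (g 2 : Lp F 2 (volume : Measure X3)))
      simp only [Fin.sum_univ_three]
      filter_upwards [e0, e1, e2, e3, e4] with x x0 x1 x2 x3 x4
      rw [x4, Pi.add_apply, x3, Pi.add_apply, x0, x1, x2]
      rfl
    rw [nsq_congr hae, nsq_Lp]
    have := norm_pos_iff.mpr hne'
    positivity
  · exfalso
    rw [not_le] at hrk
    have hfin : Module.Finite ℂ (EE S R) := by
      rw [← Module.rank_lt_aleph0_iff]
      exact hrk.trans (Cardinal.natCast_lt_aleph0)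
    have hfr : Module.finrank ℂ (EE S R) < 3 := Module.finrank_lt_of_rank_lt hrk
    let T : (Fin 3 → ℂ) →ₗ[ℂ] (EE S R) :=
      ((EE S R).orthogonalProjectionOnto.toLinearMap).comp
        (Fintype.linearCombination ℂ fun j => (hv j).1.memLp.toLp (v j))
    have hker : LinearMap.ker T ≠ ⊥ := by
      apply LinearMap.ker_ne_bot_of_finrank_lt
      simpa using hfr
    obtain ⟨a, haT, ha⟩ := Submodule.exists_mem_ne_zero_of_ne_bot hker
    have hu : Tst (fun x => ∑ j, a j • v j x) := Tst.sum _ fun j => (hv j).1.cst _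
    set f : Lp F 2 (volume : Measure X3) := hu.memLp.toLp _ with hf
    have hfsum : f = ∑ j, a j • (hv j).1.memLp.toLp (v j) := by
      rw [Fin.sum_univ_three, hf, ← MemLp.toLp_const_smul, ← MemLp.toLp_const_smul,
        ← MemLp.toLp_const_smul, ← MemLp.toLp_add, ← MemLp.toLp_add]
      refine MemLp.toLp_congr _ _ (Filter.Eventually.of_forall fun x => ?_)
      change (∑ j, a j • v j x) = _
      rw [Fin.sum_univ_three]
      rfl
    have hfK : f ∈ KI S := by
      rw [hfsum]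
      exact Submodule.sum_mem _ fun j _ => (KI S).smul_mem _ (Inv_mem_KI (hv j))
    have hfE : f ∈ (EE S R)ᗮ := by
      rw [← Submodule.orthogonalProjectionOnto_eq_zero_iff, hfsum]
      have := LinearMap.mem_ker.mp haT
      simpa [T, Fintype.linearCombination_apply] using this
    have hray := rayleigh h8m hR hu (hvlt a ha)
    rw [← hf] at hray
    let K : Submodule ℂ (Lp F 2 (volume : Measure X3)) := KI S ⊓ (EE S R)ᗮ
    have hKcl : IsClosed (K : Set (Lp F 2 (volume : Measure X3))) :=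
      (KI_closed S).inter (Submodule.isClosed_orthogonal _)
    have hKinv : ∀ g ∈ K, R g ∈ K := by
      rintro g ⟨hg1, hg2⟩
      refine ⟨?_, ?_⟩
      · obtain ⟨hG, hJ⟩ := mem_KI.mp hg1
        exact mem_KI.mpr (h4 m hm R hR g hG hJ)
      · refine (Submodule.mem_orthogonal _ _).mpr fun e he => ?_
        rw [← hR.1, he.2]
        exact (Submodule.mem_orthogonal _ _).mp hg2 e he
    obtain ⟨μ, hμ, w, hwK, hw0, hw⟩ := h5 (Lp F 2 (volume : Measure X3)) R hR.1
      (h3 m hm R hR) K hKcl hKinv (1 / (1 + 8 * m)) (by positivity) f ⟨hfK, hfE⟩ hray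
    have hμ0 : 0 < μ := lt_of_le_of_lt (by positivity) hμ
    have hnw : 0 < ‖w‖ ^ 2 := by
      have := norm_pos_iff.mpr hw0
      positivity
    have hμ1 : μ ≤ 1 := by
      obtain ⟨Φ, -, -, e3⟩ := hR.2 w
      rw [nsq_Lp, hw, norm_smul, inner_smul_left, Complex.conj_ofReal, Complex.re_ofReal_mul,
        re_inner_self_Lp, mul_pow, Complex.norm_real, Real.norm_eq_abs, sq_abs] at e3
      have e4 : 0 ≤ ∑ β, nsq (Φ β) := Finset.sum_nonneg fun b _ => nsq_nonneg _
      have e5 : μ ^ 2 * ‖w‖ ^ 2 ≤ μ * ‖w‖ ^ 2 := by linarith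
      have e6 : μ ^ 2 ≤ μ := le_of_mul_le_mul_right e5 hnw
      nlinarith
    have hwE := wE_of_eig hR hμ0 hw
    rcases eq_or_lt_of_le hμ1 with h | h
    · have hwEE : w ∈ EE S R := ⟨hwK.1, by rw [hw, h]; simp⟩
      have := (Submodule.mem_orthogonal _ _).mp hwK.2 w hwEE
      exact hw0 (inner_self_eq_zero.mp this)
    · have he0 : 0 < 1 / μ - 1 := by
        rw [sub_pos, lt_div_iff₀ hμ0]; linarith
      have he1 : 1 / μ - 1 < 8 * m := by
        rw [div_lt_iff₀ (by positivity)] at hμ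
        rw [sub_lt_iff_lt_add, div_lt_iff₀ hμ0]
        linarith
      obtain ⟨hG, hJ⟩ := mem_KI.mp hwK.1
      have := h7 m _ hm he0 he1 w (Lp.memLp w) hG hJ hwE
      rw [nsq_Lp] at this
      linarith

end Vale.Agent.P353.U
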