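import Vale.Agent.P353.U.StmtD

/-! # P353, uniqueness for `N = 2`: `M12Stmt` (first and second order cancellation at a cone point) -/

open MeasureTheory Filter Topology
open scoped ContDiff

namespace Vale.Agent.P353.U

open Setup

variable {F : Type*} [NormedAddCommGroup F] [InnerProductSpace ℂ F]

/-- `a̸ = ∑ a_i γ^i` -/
noncomputable def sl (S : Setup F) (a : Fin 9 → ℝ) : Matrix (Fin 16) (Fin 16) ℂ :=
  ∑ i, ((a i : ℝ) : ℂ) • S.g i

lemma sl_transpose (S : Setup F) (a : Fin 9 → ℝ) : (sl S a).transpose = sl S a := by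
  unfold sl
  rw [Matrix.transpose_sum]
  refine Finset.sum_congr rfl fun i _ => ?_
  rw [Matrix.transpose_smul, S.g_symm]

lemma sl_anti (S : Setup F) (a b : Fin 9 → ℝ) :
    sl S a * sl S b + sl S b * sl S a = ((2 * ∑ i, a i * b i : ℝ) : ℂ) • 1 := by
  have h1 : sl S a * sl S b = ∑ i, ∑ j, (((a i : ℝ) : ℂ) * ((b j : ℝ) : ℂ)) • (S.g i * S.g j) := by
    unfold sl
    rw [Finset.sum_mul_sum]
    simp only [smul_mul_smul_comm]
  have h2 : sl S b * sl S a = ∑ i, ∑ j, (((a i : ℝ) : ℂ) * ((b j : ℝ) : ℂ)) • (S.g j * S.g i) := by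
    unfold sl
    rw [Finset.sum_mul_sum, Finset.sum_comm]
    simp only [smul_mul_smul_comm]
    refine Finset.sum_congr rfl fun i _ => Finset.sum_congr rfl fun j _ => ?_
    rw [mul_comm]
  rw [h1, h2, ← Finset.sum_add_distrib]
  simp only [← Finset.sum_add_distrib, ← smul_add, S.g_anti]
  have h3 : ∀ i : Fin 9, ∑ j : Fin 9, (((a i : ℝ) : ℂ) * ((b j : ℝ) : ℂ)) •
      (if i = j then (2 : Matrix (Fin 16) (Fin 16) ℂ) else 0) =
      (((2 * (a i * b i) : ℝ)) : ℂ) • (1 : Matrix (Fin 16) (Fin 16) ℂ) := by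
    intro i
    rw [Finset.sum_eq_single i]
    · rw [if_pos rfl]
      have : (2 : Matrix (Fin 16) (Fin 16) ℂ) = (2 : ℂ) • 1 := by
        rw [two_smul, one_add_one_eq_two]
      rw [this, smul_smul]
      congr 1
      push_cast
      ring
    · intro j _ hj
      rw [if_neg (Ne.symm hj), smul_zero]
    · intro h
      exact absurd (Finset.mem_univ _) h
  rw [Finset.sum_congr rfl fun i _ => h3 i, ← Finset.sum_smul]
  congr 1
  rw [Finset.mul_sum]
  push_cast
  rfl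

lemma sl_sq (S : Setup F) (a : Fin 9 → ℝ) :
    sl S a * sl S a = ((∑ i, a i ^ 2 : ℝ) : ℂ) • 1 := by
  have h := sl_anti S a a
  have h2 : (2 : ℂ) • (sl S a * sl S a) = (2 : ℂ) • (((∑ i, a i ^ 2 : ℝ) : ℂ) •
      (1 : Matrix (Fin 16) (Fin 16) ℂ)) := by
    rw [two_smul, h, smul_smul]
    congr 1
    push_cast
    congr 1
    refine Finset.sum_congr rfl fun i _ => ?_
    ring
  exact smul_right_injective _ (two_ne_zero) h2

/-- components of `x` with colour `A` -/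
def col (x : X3) (A : Fin 3) : Fin 9 → ℝ := fun i => x (i, A)

lemma B_eq_sl (S : Setup F) (β : Fin 16) (z : X3) : S.B β z = ∑ A, S.vec (sl S (col z A)) A β := by
  unfold Setup.B sl col
  rw [Finset.sum_comm]
  refine Finset.sum_congr rfl fun A _ => ?_
  rw [S.vec_sum]
  refine Finset.sum_congr rfl fun i _ => ?_
  rw [S.vec_smul]

/-- `∑_{ij} a_i b_j γ^{ij} = ½ (a̸ b̸ - b̸ a̸)` -/
lemma sum_g2 (S : Setup F) (a b : Fin 9 → ℝ) :
    ∑ i, ∑ j, (((a i : ℝ) : ℂ) * ((b j : ℝ) : ℂ)) • S.g2 i j =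
      (1 / 2 : ℂ) • (sl S a * sl S b - sl S b * sl S a) := by
  have h1 : sl S a * sl S b = ∑ i, ∑ j, (((a i : ℝ) : ℂ) * ((b j : ℝ) : ℂ)) • (S.g i * S.g j) := by
    unfold sl
    rw [Finset.sum_mul_sum]
    simp only [smul_mul_smul_comm]
  have h2 : sl S b * sl S a = ∑ i, ∑ j, (((a i : ℝ) : ℂ) * ((b j : ℝ) : ℂ)) • (S.g j * S.g i) := by
    unfold sl
    rw [Finset.sum_mul_sum, Finset.sum_comm]
    simp only [smul_mul_smul_comm]
    refine Finset.sum_congr rfl fun i _ => Finset.sum_congr rfl fun j _ => ?_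
    rw [mul_comm]
  rw [h1, h2, ← Finset.sum_sub_distrib, Finset.smul_sum]
  refine Finset.sum_congr rfl fun i _ => ?_
  rw [← Finset.sum_sub_distrib, Finset.smul_sum]
  refine Finset.sum_congr rfl fun j _ => ?_
  unfold CS.g2
  rw [← smul_sub, smul_comm]

lemma eps_vals : (eps 0 1 2 = 1 ∧ eps 1 2 0 = 1 ∧ eps 2 0 1 = 1 ∧ eps 0 2 1 = -1 ∧ eps 2 1 0 = -1 ∧
    eps 1 0 2 = -1) := by decide

lemma eps_dd (A B : Fin 3) : eps A A B = 0 ∧ eps A B A = 0 ∧ eps A B B = 0 := by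
  revert A B; decide

/-- the general form of `W` and `DW` -/
lemma DW_eq_sl (S : Setup F) (ξ z : X3) (β : Fin 16) :
    S.DW ξ β z = (S.κ : ℂ) • ∑ A, S.vec (∑ B, ∑ C, (eps A B C : ℂ) •
      ((1 / 2 : ℂ) • (sl S (col ξ B) * sl S (col z C) - sl S (col z C) * sl S (col ξ B)))) A β := by
  unfold Setup.DW
  congr 1
  refine Finset.sum_congr rfl fun A _ => ?_
  rw [S.vec_sum]
  refine Finset.sum_congr rfl fun B _ => ?_
  rw [S.vec_sum]
  refine Finset.sum_congr rfl fun C _ => ?_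
  rw [← sum_g2, S.vec_smul, S.vec_sum, Finset.smul_sum]
  refine Finset.sum_congr rfl fun i _ => ?_
  rw [S.vec_sum, Finset.smul_sum]
  refine Finset.sum_congr rfl fun j _ => ?_
  rw [S.vec_smul, smul_smul, ← mul_assoc]
  rfl

lemma W_eq_sl (S : Setup F) (z : X3) (β : Fin 16) :
    S.W β z = ((S.κ : ℂ) / 2) • ∑ A, S.vec (∑ B, ∑ C, (eps A B C : ℂ) •
      (sl S (col z B) * sl S (col z C))) A β := by
  have h : S.W β z = (1 / 2 : ℂ) • S.DW z β z := by
    unfold Setup.W Setup.DW Setup.FF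
    rw [Finset.smul_sum, Finset.smul_sum, Finset.smul_sum]
    refine Finset.sum_congr rfl fun A _ => ?_
    congr 1
    have e1 : ∀ i j : Fin 9, (((S.κ * ∑ B, ∑ C, (eps A B C : ℝ) * z (i, B) * z (j, C) : ℝ)) : ℂ) •
        S.vec (S.g2 i j) A β = ∑ B, ∑ C, ((S.κ : ℂ) * ((eps A B C : ℂ) * (z (i, B) : ℂ) *
          (z (j, C) : ℂ))) • S.vec (S.g2 i j) A β := by
      intro i j
      push_cast
      rw [Finset.mul_sum, Finset.sum_smul]
      refine Finset.sum_congr rfl fun B _ => ?_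
      rw [Finset.mul_sum, Finset.sum_smul]
    simp only [e1]
    rw [Finset.smul_sum]
    have e2 : ∀ i : Fin 9, ∑ j : Fin 9, ∑ B, ∑ C, ((S.κ : ℂ) * ((eps A B C : ℂ) * (z (i, B) : ℂ) *
          (z (j, C) : ℂ))) • S.vec (S.g2 i j) A β = ∑ B, ∑ C, ∑ j : Fin 9,
          ((S.κ : ℂ) * ((eps A B C : ℂ) * (z (i, B) : ℂ) *
          (z (j, C) : ℂ))) • S.vec (S.g2 i j) A β := by
      intro i
      rw [Finset.sum_comm]
      refine Finset.sum_congr rfl fun B _ => ?_
      rw [Finset.sum_comm]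
    simp only [e2]
    rw [Finset.sum_comm]
    refine Finset.sum_congr rfl fun B _ => ?_
    rw [Finset.sum_comm, Finset.smul_sum]
    refine Finset.sum_congr rfl fun C _ => ?_
    rw [Finset.smul_sum]
    refine Finset.sum_congr rfl fun i _ => ?_
    rw [Finset.smul_sum]
    refine Finset.sum_congr rfl fun j _ => ?_
    rw [smul_smul]
  rw [h, DW_eq_sl, smul_smul]
  have e : (1 / 2 : ℂ) * (S.κ : ℂ) = (S.κ : ℂ) / 2 := by ring
  rw [e]
  congr 1
  refine Finset.sum_congr rfl fun A _ => ?_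
  congr 1
  obtain ⟨h1, h2, h3, h4, h5, h6⟩ := eps_vals
  have hd := eps_dd
  fin_cases A <;>
  simp only [Fin.sum_univ_three, Fin.zero_eta, Fin.mk_one, Fin.reduceFinMk, h1, h2, h3, h4, h5, h6,
    (hd _ _).1, (hd _ _).2.1, (hd _ _).2.2, Int.cast_zero, Int.cast_one, Int.cast_neg, zero_smul,
    add_zero, zero_add, one_smul, neg_smul] <;>
  module

section Gen

variable {R : Type*} [Ring R] [Algebra ℂ R]

/-- the commutator of `(Nθ^D)_β` with `F(z)` -/
lemma vec_comm_bil (S : CS R) (N M : Matrix (Fin 16) (Fin 16) ℂ) (D A B : Fin 3) (β : Fin 16) :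
    S.vec N D β * S.bil M A B - S.bil M A B * S.vec N D β =
      (if D = A then S.vec (N * M) B β else 0) -
        (if D = B then S.vec (N * M.transpose) A β else 0) := by
  have hb : S.bil M A B = ∑ δ, S.vec 1 A δ * S.vec M B δ := by
    rw [S.sum_vec_mul_vec]; simp
  rw [hb, Finset.mul_sum, Finset.sum_mul, ← Finset.sum_sub_distrib]
  have h1 : ∀ δ, S.vec N D β * (S.vec 1 A δ * S.vec M B δ) -
      S.vec 1 A δ * S.vec M B δ * S.vec N D β =
      (if D = A then (N β δ) • S.vec M B δ else 0) -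
        (if D = B then ((N * M.transpose) β δ) • S.vec 1 A δ else 0) := by
    intro δ
    have e1 := S.vec_anti N 1 D A β δ
    have e2 := S.vec_anti N M D B β δ
    have : S.vec N D β * (S.vec 1 A δ * S.vec M B δ) -
      S.vec 1 A δ * S.vec M B δ * S.vec N D β =
      (S.vec N D β * S.vec 1 A δ + S.vec 1 A δ * S.vec N D β) * S.vec M B δ -
      S.vec 1 A δ * (S.vec N D β * S.vec M B δ + S.vec M B δ * S.vec N D β) := by
      noncomm_ring
    rw [this, e1, e2]
    by_cases hA : D = A <;> by_cases hB : D = B <;>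
      simp [hA, hB, Matrix.transpose_one]
  rw [Finset.sum_congr rfl fun δ _ => h1 δ, Finset.sum_sub_distrib]
  congr 1
  · by_cases hA : D = A
    · simp only [if_pos hA]
      rw [S.vec_mul]
    · simp only [if_neg hA, Finset.sum_const_zero]
  · by_cases hB : D = B
    · simp only [if_pos hB]
      rw [← S.vec_mul, mul_one]
    · simp only [if_neg hB, Finset.sum_const_zero]

lemma m12_comm_gen (S : CS R) (Z : Fin 3 → Matrix (Fin 16) (Fin 16) ℂ)
    (hZ : ∀ C, (Z C).transpose = Z C) (κ : ℂ) (N : Matrix (Fin 16) (Fin 16) ℂ) (D : Fin 3)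
    (β : Fin 16) :
    S.vec N D β * ((Complex.I / 2 * κ) • ∑ A, ∑ B, ∑ C, (eps A B C : ℂ) • S.bil (Z C) A B) -
      ((Complex.I / 2 * κ) • ∑ A, ∑ B, ∑ C, (eps A B C : ℂ) • S.bil (Z C) A B) * S.vec N D β =
      (Complex.I * κ) • ∑ B, ∑ C, (eps D B C : ℂ) • S.vec (N * Z C) B β := by
  rw [mul_smul_comm, smul_mul_assoc, ← smul_sub]
  have h : S.vec N D β * (∑ A, ∑ B, ∑ C, (eps A B C : ℂ) • S.bil (Z C) A B) -
      (∑ A, ∑ B, ∑ C, (eps A B C : ℂ) • S.bil (Z C) A B) * S.vec N D β =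
      ∑ A, ∑ B, ∑ C, (eps A B C : ℂ) • ((if D = A then S.vec (N * Z C) B β else 0) -
        (if D = B then S.vec (N * Z C) A β else 0)) := by
    rw [Finset.mul_sum, Finset.sum_mul, ← Finset.sum_sub_distrib]
    refine Finset.sum_congr rfl fun A _ => ?_
    rw [Finset.mul_sum, Finset.sum_mul, ← Finset.sum_sub_distrib]
    refine Finset.sum_congr rfl fun B _ => ?_
    rw [Finset.mul_sum, Finset.sum_mul, ← Finset.sum_sub_distrib]
    refine Finset.sum_congr rfl fun C _ => ?_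
    rw [mul_smul_comm, smul_mul_assoc, ← smul_sub, vec_comm_bil, hZ]
  rw [h]
  obtain ⟨h1, h2, h3, h4, h5, h6⟩ := eps_vals
  have hd := eps_dd
  fin_cases D <;>
  simp only [Fin.sum_univ_three, Fin.zero_eta, Fin.mk_one, Fin.reduceFinMk, h1, h2, h3, h4, h5, h6,
    (hd _ _).1, (hd _ _).2.1, (hd _ _).2.2, Int.cast_zero, Int.cast_one, Int.cast_neg, zero_smul,
    add_zero, zero_add, one_smul, neg_smul, if_true, Fin.isValue, Fin.reduceEq, if_false, sub_zero,
    zero_sub, smul_zero] <;>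
  module

lemma comm_gen2 (S : CS R) (P Z : Fin 3 → Matrix (Fin 16) (Fin 16) ℂ) (c : ℂ) (X : R) (β : Fin 16)
    (hX : ∀ (N : Matrix (Fin 16) (Fin 16) ℂ) (D : Fin 3), S.vec N D β * X - X * S.vec N D β =
      c • ∑ B, ∑ C, (eps D B C : ℂ) • S.vec (N * Z C) B β) :
    (c • ∑ A, S.vec (P A) A β) * X - X * (c • ∑ A, S.vec (P A) A β) =
      (c * c) • ∑ B, S.vec (∑ A, ∑ C, (eps A B C : ℂ) • (P A * Z C)) B β := by
  rw [smul_mul_assoc, mul_smul_comm, ← smul_sub, Finset.sum_mul,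
    Finset.mul_sum, ← Finset.sum_sub_distrib, mul_smul]
  congr 1
  simp only [hX]
  rw [← Finset.smul_sum]
  congr 1
  rw [Finset.sum_comm]
  refine Finset.sum_congr rfl fun B _ => ?_
  rw [S.vec_sum]
  refine Finset.sum_congr rfl fun A _ => ?_
  rw [S.vec_sum]
  refine Finset.sum_congr rfl fun C _ => ?_
  rw [S.vec_smul]

lemma comm_gen3 (S : CS R) (κ r ζ : ℂ) (n : Fin 3 → ℂ) (Q : Fin 3 → Matrix (Fin 16) (Fin 16) ℂ)
    (Y : Matrix (Fin 16) (Fin 16) ℂ) (β : Fin 16) :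
    (Complex.I * κ * (Complex.I * κ)) • ∑ B, S.vec (-(r • Q B + (Complex.I * ζ * n B) • Y)) B β =
      (κ ^ 2) • (r • ∑ B, S.vec (Q B) B β + (Complex.I * ζ) • ∑ B, n B • S.vec Y B β) := by
  have hI : Complex.I * κ * (Complex.I * κ) = -κ ^ 2 := by
    have := Complex.I_mul_I
    linear_combination κ ^ 2 * this
  rw [hI]
  simp only [S.vec_neg, S.vec_add, S.vec_smul]
  rw [Finset.sum_neg_distrib, Finset.sum_add_distrib, smul_neg, neg_smul, neg_neg,
    ← Finset.smul_sum]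
  congr 2
  rw [Finset.smul_sum]
  refine Finset.sum_congr rfl fun B _ => ?_
  rw [smul_smul]

end Gen

lemma Fx_eq_sl (S : Setup F) (z : X3) :
    S.Fx z = (Complex.I / 2 * (S.κ : ℂ)) • ∑ A, ∑ B, ∑ C, (eps A B C : ℂ) •
      S.bil (sl S (col z C)) A B := by
  unfold Setup.Fx sl col
  congr 1
  rw [Finset.sum_comm]
  refine Finset.sum_congr rfl fun A _ => ?_
  rw [Finset.sum_comm]
  refine Finset.sum_congr rfl fun B _ => ?_
  rw [Finset.sum_comm]
  refine Finset.sum_congr rfl fun C _ => ?_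
  rw [S.bil_sum, Finset.smul_sum]
  refine Finset.sum_congr rfl fun i _ => ?_
  rw [S.bil_smul, smul_smul]

/-- the coefficient matrices of `T1` -/
noncomputable def PP (S : Setup F) (n : Fin 3 → ℝ) (y : Fin 9 → ℝ) (z : X3) (A : Fin 3) :
    Matrix (Fin 16) (Fin 16) ℂ :=
  ((ry y : ℝ) : ℂ) • sl S (col z A) -
    Complex.I • ∑ D, ∑ B, ((eps D B A : ℂ) * (n B : ℂ)) • (sl S (col z D) * sl S y)

lemma sl_cone (S : Setup F) (n : Fin 3 → ℝ) (y : Fin 9 → ℝ) (A : Fin 3) :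
    sl S (col (cone n y) A) = ((n A : ℝ) : ℂ) • sl S y := by
  unfold sl
  rw [Finset.smul_sum]
  refine Finset.sum_congr rfl fun i _ => ?_
  rw [smul_smul]
  congr 1
  show (((y i * n A : ℝ)) : ℂ) = _
  push_cast
  ring

lemma T1_eq (S : Setup F) (n : Fin 3 → ℝ) (y : Fin 9 → ℝ) (z : X3)
    (hy : ∀ A, ∑ i, y i * z (i, A) = 0) (β : Fin 16) :
    S.T1 n y β z = (Complex.I * (S.κ : ℂ)) • ∑ A, S.vec (PP S n y z A) A β := by
  have hYZ : ∀ C, sl S y * sl S (col z C) = -(sl S (col z C) * sl S y) := by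
    intro C
    have h := sl_anti S y (col z C)
    have h0 : ∑ i, y i * col z C i = 0 := hy C
    rw [h0, mul_zero, Complex.ofReal_zero, zero_smul] at h
    exact eq_neg_of_add_eq_zero_left h
  unfold Setup.T1
  rw [B_eq_sl, DW_eq_sl]
  simp only [sl_cone]
  have h2 : ∀ A : Fin 3, (∑ B, ∑ C, (eps A B C : ℂ) • ((1 / 2 : ℂ) •
      (((n B : ℝ) : ℂ) • sl S y * sl S (col z C) - sl S (col z C) * ((n B : ℝ) : ℂ) • sl S y))) =
      ∑ D, ∑ B, ((eps D B A : ℂ) * (n B : ℂ)) • (sl S (col z D) * sl S y) := by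
    intro A
    rw [Finset.sum_comm]
    refine Finset.sum_congr rfl fun C _ => Finset.sum_congr rfl fun B _ => ?_
    have e : (eps A B C : ℂ) = -(eps C B A : ℂ) := by
      have : eps A B C = -eps C B A := by revert A B C; decide
      rw [this]; push_cast; ring
    rw [smul_mul_assoc, mul_smul_comm, hYZ, e]
    module
  simp only [h2]
  rw [Finset.smul_sum, Finset.smul_sum, Finset.smul_sum, ← Finset.sum_add_distrib]
  refine Finset.sum_congr rfl fun A _ => ?_
  unfold PP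
  rw [S.vec_sub, S.vec_smul, S.vec_smul, smul_sub, smul_smul, smul_smul]
  have hI : Complex.I * (S.κ : ℂ) * Complex.I = -(S.κ : ℂ) := by
    have := Complex.I_mul_I
    linear_combination (S.κ : ℂ) * this
  rw [hI, Complex.ofReal_mul, mul_assoc]
  module

/-- first order cancellation, for an arbitrary coefficient matrix -/
lemma T1_zero (S : Setup F) (n : Fin 3 → ℝ) (y : Fin 9 → ℝ) (v : F) (hv : S.VT n y v) (z : X3)
    (hn : ∀ i, ∑ A, z (i, A) * n A = 0) (hy : ∀ A, ∑ i, y i * z (i, A) = 0) (β : Fin 16) :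
    S.T1 n y β z v = 0 := by
  have hvec : ∀ (N : Matrix (Fin 16) (Fin 16) ℂ) (D : Fin 3),
      ((ry y : ℝ) : ℂ) • S.vec N D β v =
        Complex.I • ∑ B, ∑ C, ((eps D B C : ℂ) * (n B : ℂ)) • S.vec (N * sl S y) C β v +
        (((ry y : ℝ) : ℂ) * (n D : ℂ)) • ∑ E, ((n E : ℝ) : ℂ) • S.vec N E β v := by
    intro N D
    have h := fun α => hv D α
    have h1 : ∑ α, N β α • (((ry y : ℝ) : ℂ) • (S.th α D v - ((n D : ℝ) : ℂ) • S.thn n α v)) =
        ∑ α, N β α • (Complex.I • ∑ B, ∑ C, ∑ i, ((eps D B C : ℂ) * (n B : ℂ) * (y i : ℂ)) •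
          S.vec (S.g i) C α v) := Finset.sum_congr rfl fun α _ => by rw [h α]
    have h2 : ∑ α, N β α • (((ry y : ℝ) : ℂ) • (S.th α D v - ((n D : ℝ) : ℂ) • S.thn n α v)) =
        ((ry y : ℝ) : ℂ) • S.vec N D β v -
          (((ry y : ℝ) : ℂ) * (n D : ℂ)) • ∑ E, ((n E : ℝ) : ℂ) • S.vec N E β v := by
      have e1 : S.vec N D β v = ∑ α, N β α • S.th α D v := by
        simp [CS.vec]
      have e2 : ∑ E, ((n E : ℝ) : ℂ) • S.vec N E β v = ∑ α, N β α • S.thn n α v := by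
        unfold Setup.thn
        simp only [CS.vec, sum_apply, smul_apply,
          Finset.smul_sum]
        rw [Finset.sum_comm]
        refine Finset.sum_congr rfl fun α _ => Finset.sum_congr rfl fun E _ => ?_
        rw [smul_comm]
      rw [e1, e2, Finset.smul_sum, Finset.smul_sum, ← Finset.sum_sub_distrib]
      refine Finset.sum_congr rfl fun α _ => ?_
      module
    have h3 : ∑ α, N β α • (Complex.I • ∑ B, ∑ C, ∑ i, ((eps D B C : ℂ) * (n B : ℂ) * (y i : ℂ)) •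
          S.vec (S.g i) C α v) =
        Complex.I • ∑ B, ∑ C, ((eps D B C : ℂ) * (n B : ℂ)) • S.vec (N * sl S y) C β v := by
      have e1 : ∀ C α, S.vec (sl S y) C α v = ∑ i, ((y i : ℝ) : ℂ) • S.vec (S.g i) C α v := by
        intro C α
        unfold sl
        rw [S.vec_sum, sum_apply]
        refine Finset.sum_congr rfl fun i _ => ?_
        rw [S.vec_smul, smul_apply]
      have e2 : ∀ C, S.vec (N * sl S y) C β v = ∑ α, N β α • S.vec (sl S y) C α v := by
        intro C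
        rw [S.vec_mul, sum_apply]
        refine Finset.sum_congr rfl fun α _ => ?_
        rw [smul_apply]
      simp only [e2, e1, Finset.smul_sum, smul_smul]
      rw [Finset.sum_comm]
      refine Finset.sum_congr rfl fun B _ => ?_
      rw [Finset.sum_comm]
      refine Finset.sum_congr rfl fun C _ => Finset.sum_congr rfl fun α _ =>
        Finset.sum_congr rfl fun i _ => ?_
      congr 1
      ring
    rw [h2, h3] at h1
    rw [← h1]
    module
  have hnZ : ∑ D, ((n D : ℝ) : ℂ) • sl S (col z D) = 0 := by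
    unfold sl col
    simp only [Finset.smul_sum, smul_smul]
    rw [Finset.sum_comm]
    refine Finset.sum_eq_zero fun i _ => ?_
    rw [← Finset.sum_smul]
    have : ∑ D, ((n D : ℝ) : ℂ) * ((z (i, D) : ℝ) : ℂ) = 0 := by
      have := congrArg (fun t : ℝ => (t : ℂ)) (hn i)
      push_cast at this
      rw [← this]
      refine Finset.sum_congr rfl fun D _ => mul_comm _ _
    rw [this, zero_smul]
  rw [T1_eq S n y z hy, smul_apply, sum_apply]
  have h4 : ∑ A, S.vec (PP S n y z A) A β v = 0 := by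
    have e1 : ∀ A, S.vec (PP S n y z A) A β v = ((ry y : ℝ) : ℂ) • S.vec (sl S (col z A)) A β v -
        Complex.I • ∑ D, ∑ B, ((eps D B A : ℂ) * (n B : ℂ)) •
          S.vec (sl S (col z D) * sl S y) A β v := by
      intro A
      unfold PP
      rw [S.vec_sub, S.vec_smul, S.vec_smul, S.vec_sum]
      simp only [S.vec_sum, S.vec_smul, sub_apply,
        smul_apply, sum_apply]
    simp only [e1]
    rw [Finset.sum_sub_distrib]
    simp only [hvec]
    rw [Finset.sum_add_distrib, ← Finset.smul_sum, ← Finset.smul_sum]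
    have e2 : ∑ A, ∑ D, ∑ B, ((eps D B A : ℂ) * (n B : ℂ)) • S.vec (sl S (col z D) * sl S y) A β v =
        ∑ D, ∑ B, ∑ A, ((eps D B A : ℂ) * (n B : ℂ)) • S.vec (sl S (col z D) * sl S y) A β v := by
      rw [Finset.sum_comm]
      refine Finset.sum_congr rfl fun D _ => ?_
      rw [Finset.sum_comm]
    rw [e2]
    have e3 : ∑ D, (((ry y : ℝ) : ℂ) * (n D : ℂ)) • ∑ E, ((n E : ℝ) : ℂ) •
        S.vec (sl S (col z D)) E β v = 0 := by
      have e4 : ∑ D, (((ry y : ℝ) : ℂ) * (n D : ℂ)) • ∑ E, ((n E : ℝ) : ℂ) •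
          S.vec (sl S (col z D)) E β v = ((ry y : ℝ) : ℂ) • ∑ E, ((n E : ℝ) : ℂ) •
          S.vec (∑ D, ((n D : ℝ) : ℂ) • sl S (col z D)) E β v := by
        simp only [S.vec_sum, S.vec_smul, sum_apply,
          smul_apply, Finset.smul_sum, smul_smul]
        rw [Finset.sum_comm]
        refine Finset.sum_congr rfl fun E _ => Finset.sum_congr rfl fun D _ => ?_
        congr 1
        ring
      rw [e4, hnZ]
      simp [S.vec_zero]
    rw [e3]
    simp
  rw [h4, smul_zero]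

/-- the abstract identity behind the second order cancellation -/
lemma eps_alg {R : Type*} [Ring R] [Algebra ℂ R] (Z : Fin 3 → R) (Y : R) (n : Fin 3 → ℂ) (r : ℂ)
    (hn : n 0 • Z 0 + n 1 • Z 1 + n 2 • Z 2 = 0) (hYZ : ∀ C, Z C * Y = -(Y * Z C)) (B : Fin 3) :
    ∑ A, ∑ C, (eps A B C : ℂ) • ((r • Z A - Complex.I • ∑ D, ∑ E, ((eps D E A : ℂ) * n E) •
      (Z D * Y)) * Z C) =
      -(r • ∑ A, ∑ C, (eps B A C : ℂ) • (Z A * Z C) +
        (Complex.I * n B) • (Y * (Z 0 * Z 0 + Z 1 * Z 1 + Z 2 * Z 2))) := by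
  obtain ⟨h1, h2, h3, h4, h5, h6⟩ := eps_vals
  have hd := eps_dd
  have e : (Y * Z B) * (n 0 • Z 0 + n 1 • Z 1 + n 2 • Z 2) = 0 := by rw [hn, mul_zero]
  have key : ∀ X Y' E : R, E = 0 → X = Y' + Complex.I • E → X = Y' := by
    intro X Y' E hE hX
    rw [hX, hE, smul_zero, add_zero]
  have hYZ0 := hYZ 0
  have hYZ1 := hYZ 1
  have hYZ2 := hYZ 2
  clear hYZ hn
  simp only [Fin.sum_univ_three]
  revert e
  fin_cases B <;> intro e <;>
  · simp only [mul_add, mul_smul_comm, Fin.zero_eta, Fin.mk_one, Fin.reduceFinMk] at e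
    simp only [Fin.zero_eta, Fin.mk_one, Fin.reduceFinMk, h1, h2, h3, h4, h5,
      h6, (hd _ _).1, (hd _ _).2.1, (hd _ _).2.2, Int.cast_zero, Int.cast_one, Int.cast_neg,
      zero_smul, add_zero, zero_add, one_smul, neg_smul, zero_mul, one_mul, neg_mul, sub_mul,
      add_mul, smul_mul_assoc, hYZ0, hYZ1, hYZ2, mul_add, Fin.isValue]
    simp only [mul_assoc] at e ⊢
    refine key _ _ _ e ?_
    module

/-- the matrix identity behind the second order cancellation -/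
lemma PP_eps (S : Setup F) (n : Fin 3 → ℝ) (y : Fin 9 → ℝ) (z : X3)
    (hn : ∀ i, ∑ A, z (i, A) * n A = 0) (hy : ∀ A, ∑ i, y i * z (i, A) = 0) (B : Fin 3) :
    ∑ A, ∑ C, (eps A B C : ℂ) • (PP S n y z A * sl S (col z C)) =
      -(((ry y : ℝ) : ℂ) • ∑ A, ∑ C, (eps B A C : ℂ) • (sl S (col z A) * sl S (col z C)) +
        (Complex.I * ((‖z‖ ^ 2 : ℝ) : ℂ) * (n B : ℂ)) • sl S y) := by
  have hnZ : ∑ D, ((n D : ℝ) : ℂ) • sl S (col z D) = 0 := by
    unfold sl col
    simp only [Finset.smul_sum, smul_smul]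
    rw [Finset.sum_comm]
    refine Finset.sum_eq_zero fun i _ => ?_
    rw [← Finset.sum_smul]
    have : ∑ D, ((n D : ℝ) : ℂ) * ((z (i, D) : ℝ) : ℂ) = 0 := by
      have := congrArg (fun t : ℝ => (t : ℂ)) (hn i)
      push_cast at this
      rw [← this]
      refine Finset.sum_congr rfl fun D _ => mul_comm _ _
    rw [this, zero_smul]
  have hYZ : ∀ C, sl S (col z C) * sl S y = -(sl S y * sl S (col z C)) := by
    intro C
    have h := sl_anti S y (col z C)
    have h0 : ∑ i, y i * col z C i = 0 := hy C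
    rw [h0, mul_zero, Complex.ofReal_zero, zero_smul] at h
    exact eq_neg_of_add_eq_zero_right h
  have hZZ : ∑ C, sl S (col z C) * sl S (col z C) = ((‖z‖ ^ 2 : ℝ) : ℂ) • 1 := by
    have hre : ∑ C, ∑ i, col z C i ^ 2 = ‖z‖ ^ 2 := by
      rw [EuclideanSpace.norm_sq_eq, Fintype.sum_prod_type, Finset.sum_comm]
      refine Finset.sum_congr rfl fun i _ => Finset.sum_congr rfl fun C _ => ?_
      rw [Real.norm_eq_abs, sq_abs]
      rfl
    simp only [sl_sq]
    rw [← Finset.sum_smul, ← Complex.ofReal_sum, hre]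
  rw [Fin.sum_univ_three] at hnZ hZZ
  have h := eps_alg (fun C => sl S (col z C)) (sl S y) (fun C => ((n C : ℝ) : ℂ))
    ((ry y : ℝ) : ℂ) hnZ hYZ B
  unfold PP
  refine h.trans ?_
  congr 2
  rw [hZZ, mul_smul_comm, mul_one, smul_smul]
  congr 1
  ring

lemma comm_apply (P Q : F →L[ℂ] F) (v : F) (h : P v = 0) : P (Q v) = (P * Q - Q * P) v := by
  have e : (P * Q - Q * P) v = P (Q v) - Q (P v) := rfl
  rw [e, h, ContinuousLinearMap.map_zero, sub_zero]

lemma m12_comm (S : Setup F) (n : Fin 3 → ℝ) (y : Fin 9 → ℝ) (z : X3)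
    (hn : ∀ i, ∑ A, z (i, A) * n A = 0) (hy : ∀ A, ∑ i, y i * z (i, A) = 0) (β : Fin 16) :
    S.T1 n y β z * S.Fx z - S.Fx z * S.T1 n y β z = ((S.κ : ℂ) ^ 2) • (((ry y : ℝ) : ℂ) •
      ∑ B, S.vec (∑ A, ∑ C, (eps B A C : ℂ) • (sl S (col z A) * sl S (col z C))) B β +
      (Complex.I * ((‖z‖ ^ 2 : ℝ) : ℂ)) • ∑ B, (n B : ℂ) • S.vec (sl S y) B β) := by
  rw [T1_eq S n y z hy, Fx_eq_sl]
  rw [comm_gen2 S.toCS (PP S n y z) (fun C => sl S (col z C)) _ _ β
    (m12_comm_gen S.toCS (fun C => sl S (col z C)) (fun C => sl_transpose S _) (S.κ : ℂ) · · β)]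
  simp only [PP_eps S n y z hn hy]
  exact comm_gen3 S.toCS _ _ _ _ _ _ β

lemma m12_scal (κ r ζ : ℂ) (hκ : κ ≠ 0) (hr : r ≠ 0) (P R : F) :
    (Complex.I * (κ * ζ / (2 * r))) • R + (κ / 2) • P -
      (1 / (2 * κ * r)) • (κ ^ 2 • (r • P + (Complex.I * ζ) • R)) = 0 := by
  have c1 : 1 / (2 * κ * r) * κ ^ 2 * r = κ / 2 := by field_simp
  have c2 : 1 / (2 * κ * r) * κ ^ 2 * (Complex.I * ζ) = Complex.I * (κ * ζ / (2 * r)) := by
    field_simp
  rw [smul_smul, smul_add, smul_smul, smul_smul, c1, c2]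
  abel

/-- **D-M12** -/
theorem m12 (S : Setup F) : M12Stmt S := by
  intro n y _ hry v hv z hn hy β
  have h0 : S.T1 n y β z v = 0 := T1_zero S n y v hv z hn hy β
  refine ⟨h0, ?_⟩
  have hB : S.B β (cone n y) = ∑ B, (n B : ℂ) • S.vec (sl S y) B β := by
    rw [B_eq_sl]
    refine Finset.sum_congr rfl fun A _ => ?_
    rw [sl_cone, S.vec_smul]
  have hκ : (S.κ : ℂ) ≠ 0 := by exact_mod_cast S.κ_pos.ne'
  have hr : ((ry y : ℝ) : ℂ) ≠ 0 := by exact_mod_cast hry.ne'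
  rw [comm_apply _ _ v h0, m12_comm S n y z hn hy β, hB, W_eq_sl]
  have key := m12_scal (S.κ : ℂ) ((ry y : ℝ) : ℂ) ((‖z‖ ^ 2 : ℝ) : ℂ) hκ hr
    ((∑ B, S.vec (∑ A, ∑ C, (eps B A C : ℂ) • (sl S (col z A) * sl S (col z C))) B β) v)
    ((∑ B, (n B : ℂ) • S.vec (sl S y) B β) v)
  rw [← key]
  congr 2
  · congr 2
    push_cast
    ring
  · push_cast
    ring

end Vale.Agent.P353.U
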