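import Vale.Agent.P353.U.StmtA
import Vale.Agent.P353.U.StmtD
import Vale.Agent.P353.Ident

/-! # P353, uniqueness for `N = 2`: D-M3 (cancellation of the `1/ρ` terms) -/

open MeasureTheory Filter Topology
open scoped ContDiff

namespace Vale.Agent.P353.U

variable {F : Type*} [NormedAddCommGroup F] [InnerProductSpace ℂ F]

section fierz

variable (S : Setup F)

/-- `∑ K_{αγδ} θ^A_α θ^D_γ θ^E_δ` -/
noncomputable def m3T (K : Fin 16 → Fin 16 → Fin 16 → ℂ) (A D E : Fin 3) : F →L[ℂ] F :=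
  ∑ α, ∑ γ, ∑ δ, K α γ δ • (S.th α A * (S.th γ D * S.th δ E))

lemma m3_th_sw {A D : Fin 3} (h : A ≠ D) (α γ : Fin 16) :
    S.th α A * S.th γ D = -(S.th γ D * S.th α A) := by
  have := S.th_anti α A γ D
  rw [if_neg (fun h' => h h'.2)] at this
  exact eq_neg_of_add_eq_zero_left this

lemma m3_sum_rot {M : Type*} [AddCommMonoid M] (f : Fin 16 → Fin 16 → Fin 16 → M) :
    ∑ α, ∑ γ, ∑ δ, f δ α γ = ∑ α, ∑ γ, ∑ δ, f α γ δ := by
  calc ∑ α, ∑ γ, ∑ δ, f δ α γ = ∑ α, ∑ δ, ∑ γ, f δ α γ :=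
        Finset.sum_congr rfl fun α _ => Finset.sum_comm
    _ = ∑ δ, ∑ α, ∑ γ, f δ α γ := Finset.sum_comm

lemma m3T_cyc {A D E : Fin 3} (hAD : A ≠ D) (hAE : A ≠ E)
    (K : Fin 16 → Fin 16 → Fin 16 → ℂ) :
    m3T S K D E A = m3T S (fun α γ δ => K γ δ α) A D E := by
  unfold m3T
  have h : ∀ α γ δ, S.th α D * (S.th γ E * S.th δ A) = S.th δ A * (S.th α D * S.th γ E) := by
    intro α γ δ
    rw [m3_th_sw S hAE.symm γ δ, mul_neg, ← mul_assoc, m3_th_sw S hAD.symm α δ, neg_mul, neg_neg,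
      mul_assoc]
  simp only [h]
  exact m3_sum_rot (fun δ α γ => K α γ δ • (S.th δ A * (S.th α D * S.th γ E)))

lemma m3T_add (K L : Fin 16 → Fin 16 → Fin 16 → ℂ) (A D E : Fin 3) :
    m3T S K A D E + m3T S L A D E = m3T S (fun α γ δ => K α γ δ + L α γ δ) A D E := by
  simp only [m3T, add_smul, Finset.sum_add_distrib]

lemma m3T_vec_bil (N N' : Matrix (Fin 16) (Fin 16) ℂ) (β : Fin 16) (A D E : Fin 3) :
    S.vec N A β * S.bil N' D E = m3T S (fun α γ δ => N β α * N' γ δ) A D E := by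
  unfold CS.vec CS.bil m3T CS.vec
  rw [Finset.sum_mul_sum]
  refine Finset.sum_congr rfl fun α _ => Finset.sum_congr rfl fun γ _ => ?_
  rw [Finset.mul_sum, Finset.mul_sum]
  refine Finset.sum_congr rfl fun δ _ => ?_
  rw [mul_smul_comm, mul_smul_comm, smul_mul_assoc, smul_smul, mul_comm]

lemma m3T_sum {ι : Type*} (s : Finset ι) (K : ι → Fin 16 → Fin 16 → Fin 16 → ℂ) (A D E : Fin 3) :
    ∑ i ∈ s, m3T S (K i) A D E = m3T S (fun α γ δ => ∑ i ∈ s, K i α γ δ) A D E := by
  simp only [m3T, Finset.sum_smul]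
  rw [Finset.sum_comm]
  refine Finset.sum_congr rfl fun α _ => ?_
  rw [Finset.sum_comm]
  refine Finset.sum_congr rfl fun γ _ => ?_
  rw [Finset.sum_comm]

/-- Fierz identity for three different colours -/
lemma fierz3 (hF : F10Stmt S) (β : Fin 16) {A D E : Fin 3} (hAD : A ≠ D) (hDE : D ≠ E)
    (hAE : A ≠ E) :
    ∑ i, (S.vec (S.g i) A β * S.bil (S.g i) D E + S.vec (S.g i) D β * S.bil (S.g i) E A +
      S.vec (S.g i) E β * S.bil (S.g i) A D) =
    S.th β A * S.bil 1 D E + S.th β D * S.bil 1 E A + S.th β E * S.bil 1 A D := by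
  have h1 : ∀ A, S.th β A = S.vec 1 A β := fun A => (S.vec_one A β).symm
  have hc2 : ∀ K, m3T S K E A D = m3T S (fun α γ δ => K δ α γ) A D E := by
    intro K
    rw [m3T_cyc S hDE hAD.symm, m3T_cyc S hAD hAE]
  simp only [Finset.sum_add_distrib, h1, m3T_vec_bil, m3T_sum]
  simp only [m3T_cyc S hAD hAE, hc2, m3T_add]
  unfold m3T
  refine Finset.sum_congr rfl fun α _ => Finset.sum_congr rfl fun γ _ =>
    Finset.sum_congr rfl fun δ _ => ?_
  congr 1
  have h := hF β α γ δ
  simp only [Finset.sum_add_distrib] at h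
  have hs : ∀ (i : Fin 9) (a b : Fin 16), S.g i a b = S.g i b a := fun i a b => by
    have := congrFun (congrFun (S.g_symm i) b) a
    simpa [Matrix.transpose_apply] using this
  have e1 : ∑ i, S.g i β γ * S.g i δ α = ∑ i, S.g i γ β * S.g i α δ :=
    Finset.sum_congr rfl fun i _ => by rw [hs i β γ, hs i δ α]
  have e2 : ∑ i, S.g i β δ * S.g i α γ = ∑ i, S.g i α γ * S.g i β δ :=
    Finset.sum_congr rfl fun i _ => mul_comm _ _
  beta_reduce
  rw [e1, e2]
  simp only [Matrix.one_apply, ite_mul, one_mul, zero_mul, ← ite_and]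
  have c1 : (if β = γ ∧ δ = α then (1 : ℂ) else 0) = if γ = β ∧ α = δ then 1 else 0 := by
    congr 1
    exact propext ⟨fun h => ⟨h.1.symm, h.2.symm⟩, fun h => ⟨h.1.symm, h.2.symm⟩⟩
  have c2 : (if β = δ ∧ α = γ then (1 : ℂ) else 0) = if α = γ ∧ β = δ then 1 else 0 := by
    congr 1
    exact propext and_comm
  rw [c1, c2]
  linear_combination h

end fierz

section closed

/-- linear algebra: the bilinears in the transverse vacuum -/
lemma m3_closed {M : Type*} [AddCommGroup M] [Module ℂ M] (n : Fin 3 → ℂ)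
    (hn : n 0 ^ 2 + n 1 ^ 2 + n 2 ^ 2 = 1) (a b : Fin 3 → Fin 3 → M) (v : M)
    (ha : ∀ A B, a A B + a B A = if A = B then (16 : ℂ) • v else 0)
    (hb : ∀ A B, b A B + b B A = 0)
    (h0 : ∀ A B, a A B - n B • ∑ D, n D • a A D =
      Complex.I • ∑ C, ∑ D, ((eps B C D : ℂ) * n C) • b A D) :
    (∀ A, ∑ D, ∑ E, (eps A D E : ℂ) • a D E =
      (-2 : ℂ) • ∑ D, ∑ E, ((eps A D E : ℂ) * n D) • ∑ G, n G • a E G) ∧
    (∀ A, ∑ D, ∑ E, (eps A D E : ℂ) • b D E = (2 * Complex.I) • ∑ D, n D • a A D) ∧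
    ∑ D, n D • ∑ E, n E • a D E = (8 : ℂ) • v := by
  have hI := Complex.I_mul_I
  -- symmetric parts
  have a00 : a 0 0 = (8 : ℂ) • v := by
    have h := ha 0 0
    rw [if_pos rfl] at h
    linear_combination (norm := module) (1 / 2 : ℂ) • h
  have a11 : a 1 1 = (8 : ℂ) • v := by
    have h := ha 1 1
    rw [if_pos rfl] at h
    linear_combination (norm := module) (1 / 2 : ℂ) • h
  have a22 : a 2 2 = (8 : ℂ) • v := by
    have h := ha 2 2
    rw [if_pos rfl] at h
    linear_combination (norm := module) (1 / 2 : ℂ) • h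
  have a10 : a 1 0 = -a 0 1 := by
    have h := ha 0 1
    rw [if_neg (by decide)] at h
    linear_combination (norm := module) h
  have a20 : a 2 0 = -a 0 2 := by
    have h := ha 0 2
    rw [if_neg (by decide)] at h
    linear_combination (norm := module) h
  have a21 : a 2 1 = -a 1 2 := by
    have h := ha 1 2
    rw [if_neg (by decide)] at h
    linear_combination (norm := module) h
  have b00 : b 0 0 = 0 := by
    linear_combination (norm := module) (1 / 2 : ℂ) • hb 0 0
  have b11 : b 1 1 = 0 := by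
    linear_combination (norm := module) (1 / 2 : ℂ) • hb 1 1
  have b22 : b 2 2 = 0 := by
    linear_combination (norm := module) (1 / 2 : ℂ) • hb 2 2
  have b10 : b 1 0 = -b 0 1 := by
    linear_combination (norm := module) hb 0 1
  have b02 : b 0 2 = -b 2 0 := by
    linear_combination (norm := module) hb 0 2
  have b21 : b 2 1 = -b 1 2 := by
    linear_combination (norm := module) hb 1 2
  have g := fun A B => h0 A B
  simp only [Fin.sum_univ_three] at g ⊢
  have g00 := g 0 0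
  have g01 := g 0 1
  have g02 := g 0 2
  have g10 := g 1 0
  have g11 := g 1 1
  have g12 := g 1 2
  have g20 := g 2 0
  have g21 := g 2 1
  have g22 := g 2 2
  simp [eps, a00, a11, a22, a10, a20, a21, b00, b11, b22, b10, b02, b21] at g00 g01 g02 g10 g11 g12 g20 g21 g22
  obtain ⟨α0, hα0⟩ : ∃ x, x = (8 * n 0) • v + n 1 • a 0 1 + n 2 • a 0 2 := ⟨_, rfl⟩
  obtain ⟨α1, hα1⟩ : ∃ x, x = (8 * n 1) • v - n 0 • a 0 1 + n 2 • a 1 2 := ⟨_, rfl⟩
  obtain ⟨α2, hα2⟩ : ∃ x, x = (8 * n 2) • v - n 0 • a 0 2 - n 1 • a 1 2 := ⟨_, rfl⟩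
  obtain ⟨c0, hc0⟩ : ∃ x, x = α0 + Complex.I • b 1 2 := ⟨_, rfl⟩
  obtain ⟨c1, hc1⟩ : ∃ x, x = α1 + Complex.I • b 2 0 := ⟨_, rfl⟩
  obtain ⟨c2, hc2⟩ : ∃ x, x = α2 + Complex.I • b 0 1 := ⟨_, rfl⟩
  have hsum : n 0 • c0 + n 1 • c1 + n 2 • c2 = 0 := by
    rw [hc0, hc1, hc2, hα0, hα1, hα2]
    linear_combination (norm := module) (1 / 2 : ℂ) • (g00 + g11 + g22) + ((12 : ℂ) * hn) • v
  have d01 : n 0 • c0 - n 1 • c1 = 0 := by
    rw [hc0, hc1, hα0, hα1]
    linear_combination (norm := module) (-1 : ℂ) • (g00 - g11)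
  have d02 : n 0 • c0 - n 2 • c2 = 0 := by
    rw [hc0, hc2, hα0, hα2]
    linear_combination (norm := module) (-1 : ℂ) • (g00 - g22)
  have z0 : n 0 • c0 = 0 := by
    linear_combination (norm := module) (1 / 3 : ℂ) • (hsum + d01 + d02)
  have z1 : n 1 • c1 = 0 := by
    linear_combination (norm := module) z0 - d01
  have z2 : n 2 • c2 = 0 := by
    linear_combination (norm := module) z0 - d02
  have e01 : n 1 • c0 + n 0 • c1 = 0 := by
    rw [hc0, hc1, hα0, hα1]
    linear_combination (norm := module) (-1 : ℂ) • (g01 + g10)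
  have e02 : n 2 • c0 + n 0 • c2 = 0 := by
    rw [hc0, hc2, hα0, hα2]
    linear_combination (norm := module) (-1 : ℂ) • (g02 + g20)
  have e12 : n 2 • c1 + n 1 • c2 = 0 := by
    rw [hc1, hc2, hα1, hα2]
    linear_combination (norm := module) (-1 : ℂ) • (g12 + g21)
  have k0 : c0 = 0 := by
    linear_combination (norm := module) n 0 • z0 + n 1 • e01 - n 0 • z1 + n 2 • e02 - n 0 • z2 +
      (-hn) • c0
  have k1 : c1 = 0 := by
    linear_combination (norm := module) n 1 • z1 + n 0 • e01 - n 1 • z0 + n 2 • e12 - n 1 • z2 +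
      (-hn) • c1
  have k2 : c2 = 0 := by
    linear_combination (norm := module) n 2 • z2 + n 0 • e02 - n 2 • z0 + n 1 • e12 - n 2 • z1 +
      (-hn) • c2
  rw [hc0] at k0
  rw [hc1] at k1
  rw [hc2] at k2
  have B0 : b 1 2 = Complex.I • α0 := by
    linear_combination (norm := module) (-Complex.I) • k0 + hI • b 1 2
  have B1 : b 2 0 = Complex.I • α1 := by
    linear_combination (norm := module) (-Complex.I) • k1 + hI • b 2 0
  have B2 : b 0 1 = Complex.I • α2 := by
    linear_combination (norm := module) (-Complex.I) • k2 + hI • b 0 1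
  have A01 : a 0 1 = n 1 • α0 - n 0 • α1 := by
    have h : a 0 1 - n 1 • α0 = (Complex.I * n 0) • b 2 0 := by
      rw [hα0]
      linear_combination (norm := module) g01
    rw [B1] at h
    linear_combination (norm := module) h + (n 0 * hI) • α1
  have A02 : a 0 2 = n 2 • α0 - n 0 • α2 := by
    have h : a 0 2 - n 2 • α0 = (Complex.I * n 0) • b 0 1 := by
      rw [hα0]
      linear_combination (norm := module) g02
    rw [B2] at h
    linear_combination (norm := module) h + (n 0 * hI) • α2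
  have A12 : a 1 2 = n 2 • α1 - n 1 • α2 := by
    have h : a 1 2 - n 2 • α1 = (Complex.I * n 1) • b 0 1 := by
      rw [hα1]
      linear_combination (norm := module) g12
    rw [B2] at h
    linear_combination (norm := module) h + (n 1 * hI) • α2
  have s0 : n 0 • a 0 0 + n 1 • a 0 1 + n 2 • a 0 2 = α0 := by
    rw [hα0, a00]; module
  have s1 : n 0 • a 1 0 + n 1 • a 1 1 + n 2 • a 1 2 = α1 := by
    rw [hα1, a11, a10]; module
  have s2 : n 0 • a 2 0 + n 1 • a 2 1 + n 2 • a 2 2 = α2 := by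
    rw [hα2, a22, a20, a21]; module
  rw [s0, s1, s2]
  refine ⟨?_, ?_, ?_⟩
  · intro A
    rw [a00, a11, a22, a10, a20, a21, A01, A02, A12]
    fin_cases A <;> simp [eps] <;> module
  · intro A
    rw [b00, b11, b22, b10, b02, b21, B0, B1, B2]
    fin_cases A
    · simp only [Fin.zero_eta, s0]
      simp [eps]
      module
    · simp only [Fin.mk_one, s1]
      simp [eps]
      module
    · simp only [Fin.reduceFinMk, s2]
      simp [eps]
      module
  · rw [hα0, hα1, hα2]
    linear_combination (norm := module) ((8 : ℂ) * hn) • v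

end closed

section vac

variable (S : Setup F)

/-- `ŷ̸` -/
noncomputable def yhm (y : Fin 9 → ℝ) : Matrix (Fin 16) (Fin 16) ℂ :=
  ∑ i, ((y i / ry y : ℝ) : ℂ) • S.g i

lemma ry_sq {y : Fin 9 → ℝ} : ry y ^ 2 = ∑ i, y i ^ 2 :=
  Real.sq_sqrt (Finset.sum_nonneg fun _ _ => sq_nonneg _)

lemma yhm_sq {y : Fin 9 → ℝ} (hy : 0 < ry y) : yhm S y * yhm S y = 1 := by
  have h1 : yhm S y * yhm S y = ∑ i, ∑ j,
      (((y i / ry y : ℝ) : ℂ) * ((y j / ry y : ℝ) : ℂ)) • (S.g i * S.g j) := by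
    simp only [yhm, Finset.sum_mul_sum, smul_mul_smul_comm]
  have h2 : yhm S y * yhm S y = ∑ i, ∑ j,
      (((y i / ry y : ℝ) : ℂ) * ((y j / ry y : ℝ) : ℂ)) • (S.g j * S.g i) := by
    rw [h1, Finset.sum_comm]
    refine Finset.sum_congr rfl fun i _ => Finset.sum_congr rfl fun j _ => ?_
    rw [mul_comm]
  have h3 : (2 : ℂ) • (yhm S y * yhm S y) = ∑ i, ∑ j,
      (((y i / ry y : ℝ) : ℂ) * ((y j / ry y : ℝ) : ℂ)) •
        (if i = j then (2 : Matrix (Fin 16) (Fin 16) ℂ) else 0) := by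
    rw [two_smul]
    nth_rewrite 1 [h1]
    rw [h2]
    simp only [← Finset.sum_add_distrib, ← smul_add, S.g_anti]
  have h4 : ∑ i, ((y i / ry y : ℝ) : ℂ) * ((y i / ry y : ℝ) : ℂ) = 1 := by
    have : ∑ i, (y i / ry y) * (y i / ry y) = 1 := by
      have e : ∀ i, (y i / ry y) * (y i / ry y) = y i ^ 2 / ry y ^ 2 := fun i => by ring
      simp only [e, ← Finset.sum_div, ← ry_sq]
      exact div_self (by positivity)
    exact_mod_cast this
  have h5 : (2 : ℂ) • (yhm S y * yhm S y) = (2 : ℂ) • (1 : Matrix (Fin 16) (Fin 16) ℂ) := by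
    rw [h3]
    simp only [smul_ite, smul_zero, Finset.sum_ite_eq, Finset.mem_univ, if_true,
      ← Finset.sum_smul, h4]
    rw [one_smul, two_smul]
    norm_num
  have h6 := congrArg (fun X => (1 / 2 : ℂ) • X) h5
  simpa only [smul_smul, show (1 / 2 : ℂ) * 2 = 1 by norm_num, one_smul] using h6

lemma yhm_transpose (y : Fin 9 → ℝ) : (yhm S y).transpose = yhm S y := by
  simp only [yhm, Matrix.transpose_sum, Matrix.transpose_smul, S.g_symm]

lemma yhm_trace (y : Fin 9 → ℝ) : (yhm S y).trace = 0 := by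
  simp only [yhm, Matrix.trace_sum, Matrix.trace_smul, S.trace_g, smul_zero,
    Finset.sum_const_zero]

lemma vt_vec {n : Fin 3 → ℝ} {y : Fin 9 → ℝ} (hy : 0 < ry y) {v : F} (h : S.VT n y v)
    (N : Matrix (Fin 16) (Fin 16) ℂ) (A : Fin 3) (β : Fin 16) :
    S.vec N A β v - (n A : ℂ) • ∑ D, (n D : ℂ) • S.vec N D β v =
      Complex.I • ∑ C, ∑ D, ((eps A C D : ℂ) * (n C : ℂ)) • S.vec (N * yhm S y) D β v := by
  have hr : ((ry y : ℝ) : ℂ) ≠ 0 := by exact_mod_cast hy.ne'
  have h1 : ∀ α, S.th α A v - (n A : ℂ) • S.thn n α v =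
      Complex.I • ∑ C, ∑ D, ((eps A C D : ℂ) * (n C : ℂ)) • S.vec (yhm S y) D α v := by
    intro α
    have h2 := h A α
    have h3 : ∀ D, ((ry y : ℝ) : ℂ) • S.vec (yhm S y) D α v =
        ∑ i, (y i : ℂ) • S.vec (S.g i) D α v := by
      intro D
      simp only [yhm, S.vec_sum, S.vec_smul, _root_.sum_apply, _root_.smul_apply,
        Finset.smul_sum, smul_smul]
      refine Finset.sum_congr rfl fun i _ => ?_
      congr 1
      push_cast
      field_simp
    have h4 : ∑ B, ∑ C, ∑ i, ((eps A B C : ℂ) * (n B : ℂ) * (y i : ℂ)) • S.vec (S.g i) C α v =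
        ((ry y : ℝ) : ℂ) • ∑ C, ∑ D, ((eps A C D : ℂ) * (n C : ℂ)) • S.vec (yhm S y) D α v := by
      simp only [Finset.smul_sum]
      refine Finset.sum_congr rfl fun B _ => Finset.sum_congr rfl fun C _ => ?_
      rw [smul_comm, h3, Finset.smul_sum]
      simp only [smul_smul]
    rw [h4, smul_comm] at h2
    exact smul_right_injective F hr h2
  have h5 : S.vec N A β v = ∑ γ, N β γ • S.th γ A v := by
    simp only [CS.vec, _root_.sum_apply, _root_.smul_apply]
  have h6 : ∑ D, (n D : ℂ) • S.vec N D β v = ∑ γ, N β γ • S.thn n γ v := by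
    simp only [CS.vec, Setup.thn, _root_.sum_apply, _root_.smul_apply, Finset.smul_sum]
    rw [Finset.sum_comm]
    refine Finset.sum_congr rfl fun γ _ => Finset.sum_congr rfl fun D _ => ?_
    rw [smul_comm]
  have h7 : ∑ C, ∑ D, ((eps A C D : ℂ) * (n C : ℂ)) • S.vec (N * yhm S y) D β v =
      ∑ γ, N β γ • ∑ C, ∑ D, ((eps A C D : ℂ) * (n C : ℂ)) • S.vec (yhm S y) D γ v := by
    simp only [S.vec_mul, _root_.sum_apply, _root_.smul_apply, Finset.smul_sum]
    calc _ = ∑ C, ∑ γ, ∑ D, ((eps A C D : ℂ) * (n C : ℂ)) • N β γ • S.vec (yhm S y) D γ v :=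
          Finset.sum_congr rfl fun C _ => Finset.sum_comm
      _ = _ := by
          rw [Finset.sum_comm]
          refine Finset.sum_congr rfl fun γ _ => Finset.sum_congr rfl fun C _ =>
            Finset.sum_congr rfl fun D _ => ?_
          rw [smul_comm]
  rw [h5, h6, h7, Finset.smul_sum, ← Finset.sum_sub_distrib, Finset.smul_sum]
  refine Finset.sum_congr rfl fun γ _ => ?_
  rw [smul_comm, ← smul_sub, h1, smul_comm]

lemma bil_apply (N : Matrix (Fin 16) (Fin 16) ℂ) (A B : Fin 3) (v : F) :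
    S.bil N A B v = ∑ α, S.th α A (S.vec N B α v) := by
  simp only [CS.bil, _root_.sum_apply, mul_apply_eq_comp]

lemma bil_vac {n : Fin 3 → ℝ} {y : Fin 9 → ℝ} (hy : 0 < ry y) {v : F} (h : S.VT n y v)
    (N : Matrix (Fin 16) (Fin 16) ℂ) (A B : Fin 3) :
    S.bil N A B v - (n B : ℂ) • ∑ D, (n D : ℂ) • S.bil N A D v =
      Complex.I • ∑ C, ∑ D, ((eps B C D : ℂ) * (n C : ℂ)) • S.bil (N * yhm S y) A D v := by
  have h1 := fun α => congrArg (S.th α A) (vt_vec S hy h N B α)
  have h2 := Finset.sum_congr rfl (fun α (_ : α ∈ (Finset.univ : Finset (Fin 16))) => h1 α)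
  simp only [map_sub, map_smul, map_sum] at h2
  rw [Finset.sum_sub_distrib, ← Finset.smul_sum, ← Finset.smul_sum] at h2
  simp only [bil_apply]
  rw [Finset.sum_comm] at h2
  simp only [← Finset.smul_sum] at h2
  rw [h2]
  congr 1
  rw [Finset.sum_comm]
  refine Finset.sum_congr rfl fun C _ => ?_
  rw [Finset.sum_comm]
  simp only [Finset.smul_sum]

/-- colour identity used for `XX` -/
lemma m3_colour {M : Type*} [AddCommGroup M] [Module ℂ M] (n : Fin 3 → ℂ) (c : Fin 3 → Fin 3 → M)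
    (A : Fin 3) :
    n A • ∑ B, ∑ C, ∑ D, ((eps B C D : ℂ) * n C) • c B D -
      ∑ D, ∑ E, ∑ C, ((eps D E C : ℂ) * ((if C = A then 1 else 0) - n C * n A)) • c D E =
    -∑ D, ∑ E, (eps A D E : ℂ) • c D E := by
  simp only [Fin.sum_univ_three]
  fin_cases A <;> simp [eps] <;> module

/-- closed form of `XX v` in the transverse vacuum -/
lemma XX_vac {n : Fin 3 → ℝ} {y : Fin 9 → ℝ} (hy : 0 < ry y) {v : F} (h : S.VT n y v)
    (i : Fin 9) (A : Fin 3) :
    S.XX n y i A v = ((1 / ry y : ℝ) : ℂ) • (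
      (-(Complex.I / 4)) • (∑ k, (((if k = i then 1 else 0) -
          (y k / ry y) * (y i / ry y) : ℝ) : ℂ) • ∑ D, ∑ E, (eps A D E : ℂ) • S.bil (S.g k) D E v) +
      ((y i / ry y : ℝ) : ℂ) • ∑ B, ∑ D, ((((if B = A then 1 else 0) - n B * n A) * n D : ℝ) : ℂ) •
        S.bil 1 B D v) := by
  have hr : ry y ≠ 0 := hy.ne'
  have hrc : ((ry y : ℝ) : ℂ) ≠ 0 := by exact_mod_cast hr
  have hκ : (S.κ : ℂ) ≠ 0 := by exact_mod_cast S.κ_pos.ne'
  -- first term
  have t1 : ((n A / (4 * ry y ^ 2) : ℝ) : ℂ) • (∑ B, ∑ D, ∑ k, ∑ j,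
      ((((if B = D then 1 else 0) - n B * n D) *
        ((if k = i then 1 else 0) - y k * y i / ry y ^ 2) * y j : ℝ) : ℂ) •
        S.bil (S.g k * S.g j) B D v) =
      ((1 / ry y : ℝ) : ℂ) • (Complex.I / 4) • ∑ k, (((if k = i then 1 else 0) -
          (y k / ry y) * (y i / ry y) : ℝ) : ℂ) • ((n A : ℂ) • ∑ B, ∑ C, ∑ D,
            ((eps B C D : ℂ) * (n C : ℂ)) • S.bil (S.g k) B D v) := by
    have e1 : ∀ B D k, ∑ j, ((((if B = D then 1 else 0) - n B * n D) *
        ((if k = i then 1 else 0) - y k * y i / ry y ^ 2) * y j : ℝ) : ℂ) •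
        S.bil (S.g k * S.g j) B D v =
        ((ry y : ℝ) : ℂ) • (((if k = i then 1 else 0) -
          (y k / ry y) * (y i / ry y) : ℝ) : ℂ) • ((((if B = D then 1 else 0) - n B * n D : ℝ) : ℂ) •
          S.bil (S.g k * yhm S y) B D v) := by
      intro B D k
      simp only [yhm, Finset.mul_sum, Matrix.mul_smul, S.bil_sum, S.bil_smul, _root_.sum_apply,
        _root_.smul_apply, Finset.smul_sum, smul_smul, ← Complex.ofReal_mul]
      refine Finset.sum_congr rfl fun j _ => ?_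
      congr 2
      field_simp
    have e2 : ∀ B k, ∑ D, (((if B = D then 1 else 0) - n B * n D : ℝ) : ℂ) •
        S.bil (S.g k * yhm S y) B D v =
        Complex.I • ∑ C, ∑ D, ((eps B C D : ℂ) * (n C : ℂ)) • S.bil (S.g k) B D v := by
      intro B k
      have h1 := bil_vac S hy h (S.g k * yhm S y) B B
      rw [mul_assoc, yhm_sq S hy, mul_one] at h1
      rw [← h1]
      simp only [Complex.ofReal_sub, sub_smul, Finset.sum_sub_distrib, Complex.ofReal_mul,
        mul_smul, Finset.smul_sum]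
      congr 1
      rw [Finset.sum_eq_single B]
      · simp
      · intro D _ hD
        simp [Ne.symm hD]
      · intro h; exact absurd (Finset.mem_univ _) h
    simp only [e1]
    calc _ = ((n A / (4 * ry y ^ 2) : ℝ) : ℂ) • (∑ k, ∑ B, ((ry y : ℝ) : ℂ) •
          (((if k = i then 1 else 0) - (y k / ry y) * (y i / ry y) : ℝ) : ℂ) • ∑ D,
            ((((if B = D then 1 else 0) - n B * n D : ℝ) : ℂ) •
              S.bil (S.g k * yhm S y) B D v)) := by
          congr 1
          rw [Finset.sum_comm]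
          simp only [Finset.smul_sum]
          calc _ = ∑ D, ∑ k, ∑ B, ((ry y : ℝ) : ℂ) •
                (((if k = i then 1 else 0) - (y k / ry y) * (y i / ry y) : ℝ) : ℂ) •
                ((((if B = D then 1 else 0) - n B * n D : ℝ) : ℂ) •
                  S.bil (S.g k * yhm S y) B D v) :=
                Finset.sum_congr rfl fun D _ => Finset.sum_comm
            _ = _ := by
                rw [Finset.sum_comm]
                exact Finset.sum_congr rfl fun k _ => Finset.sum_comm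
      _ = _ := by
          simp only [e2]
          simp only [Finset.smul_sum, smul_smul]
          refine Finset.sum_congr rfl fun k _ => Finset.sum_congr rfl fun B _ =>
            Finset.sum_congr rfl fun C _ => Finset.sum_congr rfl fun D _ => ?_
          congr 1
          push_cast
          field_simp
  -- third term
  have t3 : ((1 / (2 * S.κ * ry y) : ℝ) : ℂ) • S.Fx (cone
      (fun B => (if B = A then 1 else 0) - n B * n A)
      (fun k => (if k = i then 1 else 0) - y k * y i / ry y ^ 2)) v =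
      ((1 / ry y : ℝ) : ℂ) • (Complex.I / 4) • ∑ k, (((if k = i then 1 else 0) -
          (y k / ry y) * (y i / ry y) : ℝ) : ℂ) • (∑ D, ∑ E, ∑ C,
            ((eps D E C : ℂ) * ((if C = A then 1 else 0) - (n C : ℂ) * (n A : ℂ))) •
              S.bil (S.g k) D E v) := by
    simp only [Setup.Fx, cone, _root_.smul_apply, _root_.sum_apply, Finset.smul_sum, smul_smul]
    refine Finset.sum_congr rfl fun k _ => Finset.sum_congr rfl fun D _ =>
      Finset.sum_congr rfl fun E _ => Finset.sum_congr rfl fun C _ => ?_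
    congr 1
    have ei : (((if C = A then 1 else 0 : ℝ)) : ℂ) = if C = A then 1 else 0 := by
      split_ifs <;> simp
    push_cast
    rw [ei]
    field_simp
    ring
  have e0 : S.XX n y i A v = ((n A / (4 * ry y ^ 2) : ℝ) : ℂ) • (∑ B, ∑ D, ∑ k, ∑ j,
      ((((if B = D then 1 else 0) - n B * n D) *
        ((if k = i then 1 else 0) - y k * y i / ry y ^ 2) * y j : ℝ) : ℂ) •
        S.bil (S.g k * S.g j) B D v) +
      ((y i / ry y ^ 2 : ℝ) : ℂ) • (∑ B, ∑ D,
      ((((if B = A then 1 else 0) - n B * n A) * n D : ℝ) : ℂ) • S.bil 1 B D v) -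
      ((1 / (2 * S.κ * ry y) : ℝ) : ℂ) • S.Fx (cone
      (fun B => (if B = A then 1 else 0) - n B * n A)
      (fun k => (if k = i then 1 else 0) - y k * y i / ry y ^ 2)) v := by
    simp only [Setup.XX, _root_.sub_apply, _root_.add_apply, _root_.smul_apply, _root_.sum_apply]
  have hcol := fun k => m3_colour (fun A => ((n A : ℝ) : ℂ)) (fun B D => S.bil (S.g k) B D v) A
  beta_reduce at hcol
  rw [e0, t1, t3, add_sub_right_comm, ← smul_sub, ← smul_sub, ← Finset.sum_sub_distrib, smul_add]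
  simp only [← smul_sub, hcol]
  congr 1
  · congr 1
    simp only [smul_neg, Finset.sum_neg_distrib, neg_smul]
  · rw [smul_smul]
    congr 1
    push_cast
    field_simp

lemma vec_bil_one (P : Matrix (Fin 16) (Fin 16) ℂ) (A : Fin 3) (β : Fin 16) (D E : Fin 3) (w : F) :
    S.vec P A β (S.bil 1 D E w) = S.bil 1 D E (S.vec P A β w) +
      ((if A = D then S.vec P E β w else 0) - (if A = E then S.vec P D β w else 0)) := by
  have hb : S.bil 1 D E = ∑ δ, S.vec 1 D δ * S.vec 1 E δ := by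
    rw [S.sum_vec_mul_vec]; simp
  have h1 : ∀ δ, S.vec P A β * (S.vec 1 D δ * S.vec 1 E δ) -
      S.vec 1 D δ * S.vec 1 E δ * S.vec P A β =
      (if A = D then (P β δ) • S.vec 1 E δ else 0) -
      (if A = E then (P β δ) • S.vec 1 D δ else 0) := by
    intro δ
    have e1 := S.vec_anti P 1 A D β δ
    have e2 := S.vec_anti P 1 A E β δ
    have : S.vec P A β * (S.vec 1 D δ * S.vec 1 E δ) -
      S.vec 1 D δ * S.vec 1 E δ * S.vec P A β =
      (S.vec P A β * S.vec 1 D δ + S.vec 1 D δ * S.vec P A β) * S.vec 1 E δ -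
      S.vec 1 D δ * (S.vec P A β * S.vec 1 E δ + S.vec 1 E δ * S.vec P A β) := by
      noncomm_ring
    rw [this, e1, e2, Matrix.transpose_one, mul_one]
    by_cases h : A = D <;> by_cases h' : A = E <;> simp [h, h']
  have key : S.vec P A β * S.bil 1 D E - S.bil 1 D E * S.vec P A β =
      (if A = D then S.vec P E β else 0) - (if A = E then S.vec P D β else 0) := by
    rw [hb, Finset.mul_sum, Finset.sum_mul, ← Finset.sum_sub_distrib]
    rw [Finset.sum_congr rfl fun δ _ => h1 δ, Finset.sum_sub_distrib]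
    congr 1
    · by_cases h : A = D
      · simp only [h, if_true, CS.vec_one]; rfl
      · simp [h]
    · by_cases h : A = E
      · simp only [h, if_true, CS.vec_one]; rfl
      · simp [h]
  have h2 := congrArg (fun T : F →L[ℂ] F => T w) key
  have h3 : S.vec P A β (S.bil 1 D E w) - S.bil 1 D E (S.vec P A β w) =
      (if A = D then S.vec P E β w else 0) - (if A = E then S.vec P D β w else 0) := by
    have e : ∀ (c : Prop) [Decidable c] (T : F →L[ℂ] F), (if c then T else 0) w =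
        if c then T w else 0 := by
      intro c _ T
      split_ifs <;> rfl
    simpa only [_root_.sub_apply, mul_apply_eq_comp, e] using h2
  rw [← h3]
  abel

lemma fierz_sum (hF : F10Stmt S) (β : Fin 16) (v : F) :
    ∑ A, ∑ D, ∑ E, (eps A D E : ℂ) • ∑ i, S.vec (S.g i) A β (S.bil (S.g i) D E v) =
      ∑ A, ∑ D, ∑ E, (eps A D E : ℂ) • S.th β A (S.bil 1 D E v) := by
  have h : ∀ A D E : Fin 3, A ≠ D → D ≠ E → A ≠ E →
      ∑ i, S.vec (S.g i) A β (S.bil (S.g i) D E v) + ∑ i, S.vec (S.g i) D β (S.bil (S.g i) E A v) +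
        ∑ i, S.vec (S.g i) E β (S.bil (S.g i) A D v) =
      S.th β A (S.bil 1 D E v) + S.th β D (S.bil 1 E A v) + S.th β E (S.bil 1 A D v) := by
    intro A D E h1 h2 h3
    have h4 := congrArg (fun T : F →L[ℂ] F => T v) (fierz3 S hF β h1 h2 h3)
    simpa only [_root_.sum_apply, _root_.add_apply, mul_apply_eq_comp,
      Finset.sum_add_distrib] using h4
  have f1 := h 0 1 2 (by decide) (by decide) (by decide)
  have f2 := h 0 2 1 (by decide) (by decide) (by decide)
  have e : ∀ X : Fin 3 → Fin 3 → Fin 3 → F, ∑ A, ∑ D, ∑ E, (eps A D E : ℂ) • X A D E =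
      (X 0 1 2 + X 1 2 0 + X 2 0 1) - (X 0 2 1 + X 2 1 0 + X 1 0 2) := by
    intro X
    simp only [Fin.sum_univ_three]
    simp [eps]
    abel
  rw [e, e, f1, f2]

lemma sum_Pk (y : Fin 9 → ℝ) (A D E : Fin 3) (β : Fin 16) (v : F) :
    ∑ i, ∑ k, (((if k = i then 1 else 0) - (y k / ry y) * (y i / ry y) : ℝ) : ℂ) •
      S.vec (S.g i) A β (S.bil (S.g k) D E v) =
    ∑ i, S.vec (S.g i) A β (S.bil (S.g i) D E v) -
      S.vec (yhm S y) A β (S.bil (yhm S y) D E v) := by
  have e1 : S.vec (yhm S y) A β (S.bil (yhm S y) D E v) = ∑ i, ∑ k,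
      ((y k / ry y * (y i / ry y) : ℝ) : ℂ) • S.vec (S.g i) A β (S.bil (S.g k) D E v) := by
    simp only [yhm, S.vec_sum, S.vec_smul, S.bil_sum, S.bil_smul, _root_.sum_apply,
      _root_.smul_apply, map_sum, map_smul, Finset.smul_sum, smul_smul, ← Complex.ofReal_mul]
    rw [Finset.sum_comm]
  rw [e1]
  simp only [Complex.ofReal_sub, sub_smul, Finset.sum_sub_distrib]
  congr 1
  refine Finset.sum_congr rfl fun i _ => ?_
  rw [Finset.sum_eq_single i]
  · simp
  · intro k _ hk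
    simp [hk]
  · intro h; exact absurd (Finset.mem_univ _) h

/-- the final cancellation -/
lemma m3_final {n : Fin 3 → ℝ} (hn : ∑ A, n A ^ 2 = 1) {y : Fin 9 → ℝ} (hy : 0 < ry y) {v : F}
    (h : S.VT n y v) (β : Fin 16) :
    (-(Complex.I / 4)) • (∑ A, ∑ D, ∑ E, (eps A D E : ℂ) • S.th β A (S.bil 1 D E v) -
      ∑ A, ∑ D, ∑ E, (eps A D E : ℂ) • S.vec (yhm S y) A β (S.bil (yhm S y) D E v)) +
    ∑ A, ∑ B, ∑ D, ((((if B = A then 1 else 0) - n B * n A) * n D : ℝ) : ℂ) •
      S.vec (yhm S y) A β (S.bil 1 B D v) +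
    (3 : ℂ) • ∑ A, (n A : ℂ) • S.vec (yhm S y) A β v = 0 := by
  have hI := Complex.I_mul_I
  have hn' : (n 0 : ℂ) ^ 2 + (n 1 : ℂ) ^ 2 + (n 2 : ℂ) ^ 2 = 1 := by
    rw [Fin.sum_univ_three] at hn
    exact_mod_cast hn
  have hsw : ∀ A B (w : F), S.bil 1 A B w + S.bil 1 B A w = if A = B then (16 : ℂ) • w else 0 := by
    intro A B w
    have h1 := congrArg (fun T : F →L[ℂ] F => T w) (S.bil_swap 1 A B)
    rw [Matrix.transpose_one, Matrix.trace_one, Fintype.card_fin] at h1
    by_cases hAB : A = B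
    · rw [if_pos hAB] at h1 ⊢
      simp only [_root_.sub_apply, _root_.smul_apply, one_apply_eq_self] at h1
      rw [h1]
      push_cast
      module
    · rw [if_neg hAB] at h1 ⊢
      simp only [_root_.sub_apply, _root_.zero_apply] at h1
      rw [h1]
      module
  have hsb : ∀ A B, S.bil (yhm S y) A B v + S.bil (yhm S y) B A v = 0 := by
    intro A B
    have h1 := congrArg (fun T : F →L[ℂ] F => T v) (S.bil_swap (yhm S y) A B)
    rw [yhm_transpose, yhm_trace] at h1
    simp only [zero_smul, ite_self, zero_sub, _root_.neg_apply] at h1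
    rw [h1]
    module
  obtain ⟨F1, F2, F3⟩ := m3_closed (fun A => ((n A : ℝ) : ℂ)) hn' (fun A B => S.bil 1 A B v)
    (fun A B => S.bil (yhm S y) A B v) v (fun A B => hsw A B v) hsb (fun A B => by
      have h1 := bil_vac S hy h 1 A B
      rw [one_mul] at h1
      exact h1)
  -- notation
  obtain ⟨X, hX⟩ : ∃ X, X = ∑ D, (n D : ℂ) • S.vec (yhm S y) D β v := ⟨_, rfl⟩
  obtain ⟨Bx, hBx⟩ : ∃ Bx : Fin 3 → F →L[ℂ] F, ∀ E w, Bx E w = ∑ D, (n D : ℂ) • S.bil 1 E D w :=
    ⟨fun E => ∑ D, (n D : ℂ) • S.bil 1 E D, fun E w => by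
      simp only [_root_.sum_apply, _root_.smul_apply]⟩
  have hi : ∀ (P : Matrix (Fin 16) (Fin 16) ℂ) (A E : Fin 3),
      S.vec P A β (∑ D, (n D : ℂ) • S.bil 1 E D v) = Bx E (S.vec P A β v) +
        ((if A = E then ∑ D, (n D : ℂ) • S.vec P D β v else 0) - (n A : ℂ) • S.vec P E β v) := by
    intro P A E
    simp only [map_sum, map_smul, vec_bil_one, hBx, smul_add, smul_sub, Finset.sum_add_distrib,
      Finset.sum_sub_distrib, smul_ite, smul_zero]
    congr 2
    · by_cases hAE : A = E <;> simp [hAE]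
    · simp
  have h8 : ∀ w, ∑ E, (n E : ℂ) • Bx E w = (8 : ℂ) • w := by
    intro w
    have g00 := hsw 0 0 w
    have g11 := hsw 1 1 w
    have g22 := hsw 2 2 w
    have g01 := hsw 0 1 w
    have g02 := hsw 0 2 w
    have g12 := hsw 1 2 w
    rw [if_pos rfl] at g00 g11 g22
    rw [if_neg (by decide)] at g01 g02 g12
    simp only [hBx, Fin.sum_univ_three]
    linear_combination (norm := module) ((n 0 : ℂ) ^ 2 / 2) • g00 + ((n 1 : ℂ) ^ 2 / 2) • g11 +
      ((n 2 : ℂ) ^ 2 / 2) • g22 + ((n 0 : ℂ) * (n 1 : ℂ)) • g01 + ((n 0 : ℂ) * (n 2 : ℂ)) • g02 +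
      ((n 1 : ℂ) * (n 2 : ℂ)) • g12 + ((8 : ℂ) * hn') • w
  have hIII : ∀ E, ∑ A, ∑ D, ((eps A D E : ℂ) * (n D : ℂ)) • S.th β A v =
      Complex.I • (S.vec (yhm S y) E β v - (n E : ℂ) • X) := by
    intro E
    have h1 := vt_vec S hy h (yhm S y) E β
    rw [yhm_sq S hy, ← hX] at h1
    simp only [CS.vec_one] at h1
    rw [h1, smul_smul, hI, neg_one_smul, ← Finset.sum_neg_distrib, Finset.sum_comm]
    refine Finset.sum_congr rfl fun C _ => ?_
    rw [← Finset.sum_neg_distrib]
    refine Finset.sum_congr rfl fun D _ => ?_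
    have he : ∀ A D E : Fin 3, eps A D E = -eps E D A := by decide
    rw [he D C E, ← neg_smul]
    push_cast
    congr 1
    ring
  have hT1 : ∑ A, ∑ D, ∑ E, (eps A D E : ℂ) • S.th β A (S.bil 1 D E v) =
      (-2 : ℂ) • ∑ A, ∑ D, ∑ E, ((eps A D E : ℂ) * (n D : ℂ)) •
        S.th β A (∑ G, (n G : ℂ) • S.bil 1 E G v) := by
    rw [Finset.smul_sum]
    refine Finset.sum_congr rfl fun A _ => ?_
    have h1 := congrArg (S.th β A) (F1 A)
    simpa only [map_sum, map_smul] using h1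
  have hT2 : ∑ A, ∑ D, ∑ E, (eps A D E : ℂ) • S.vec (yhm S y) A β (S.bil (yhm S y) D E v) =
      (2 * Complex.I) • ∑ A, S.vec (yhm S y) A β (∑ G, (n G : ℂ) • S.bil 1 A G v) := by
    rw [Finset.smul_sum]
    refine Finset.sum_congr rfl fun A _ => ?_
    have h1 := congrArg (S.vec (yhm S y) A β) (F2 A)
    simpa only [map_sum, map_smul] using h1
  have hT3 : ∑ A, ∑ B, ∑ D, ((((if B = A then 1 else 0) - n B * n A) * n D : ℝ) : ℂ) •
      S.vec (yhm S y) A β (S.bil 1 B D v) =
      ∑ A, S.vec (yhm S y) A β (∑ G, (n G : ℂ) • S.bil 1 A G v) - (8 : ℂ) • X := by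
    have h1 : ∀ A, ∑ B, ∑ D, ((((if B = A then 1 else 0) - n B * n A) * n D : ℝ) : ℂ) •
        S.vec (yhm S y) A β (S.bil 1 B D v) =
        S.vec (yhm S y) A β (∑ G, (n G : ℂ) • S.bil 1 A G v) -
          (n A : ℂ) • S.vec (yhm S y) A β (∑ B, (n B : ℂ) • ∑ G, (n G : ℂ) • S.bil 1 B G v) := by
      intro A
      have h2 : ∀ B, ∑ D, ((((if B = A then 1 else 0) - n B * n A) * n D : ℝ) : ℂ) •
          S.vec (yhm S y) A β (S.bil 1 B D v) =
          (if B = A then S.vec (yhm S y) A β (∑ G, (n G : ℂ) • S.bil 1 B G v) else 0) -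
            ((n A : ℂ) * (n B : ℂ)) • S.vec (yhm S y) A β (∑ G, (n G : ℂ) • S.bil 1 B G v) := by
        intro B
        simp only [map_sum, map_smul, Finset.smul_sum]
        by_cases hBA : B = A
        · simp only [if_pos hBA]
          rw [← Finset.sum_sub_distrib]
          refine Finset.sum_congr rfl fun D _ => ?_
          push_cast
          module
        · simp only [if_neg hBA, zero_sub]
          rw [← Finset.sum_neg_distrib]
          refine Finset.sum_congr rfl fun D _ => ?_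
          push_cast
          module
      simp only [h2, Finset.sum_sub_distrib]
      congr 1
      · simp
      · rw [map_sum, Finset.smul_sum]
        refine Finset.sum_congr rfl fun B _ => ?_
        rw [map_smul, smul_smul]
    simp only [h1, F3, Finset.sum_sub_distrib, map_smul]
    congr 1
    rw [hX, Finset.smul_sum]
    refine Finset.sum_congr rfl fun A _ => ?_
    rw [smul_comm]
  have hSA : ∑ A, ∑ D, ∑ E, ((eps A D E : ℂ) * (n D : ℂ)) •
      S.th β A (∑ G, (n G : ℂ) • S.bil 1 E G v) =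
      Complex.I • ∑ E, Bx E (S.vec (yhm S y) E β v) - (8 * Complex.I) • X := by
    have h1 : ∀ A E, S.th β A (∑ G, (n G : ℂ) • S.bil 1 E G v) = Bx E (S.th β A v) +
        ((if A = E then ∑ D, (n D : ℂ) • S.th β D v else 0) - (n A : ℂ) • S.th β E v) := by
      intro A E
      have h2 := hi 1 A E
      simpa only [CS.vec_one] using h2
    have h2 : ∑ A, ∑ D, ∑ E, ((eps A D E : ℂ) * (n D : ℂ)) •
        S.th β A (∑ G, (n G : ℂ) • S.bil 1 E G v) =
        ∑ E, Bx E (∑ A, ∑ D, ((eps A D E : ℂ) * (n D : ℂ)) • S.th β A v) := by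
      simp only [h1, map_sum, map_smul]
      simp only [Fin.sum_univ_three]
      simp [eps]
      module
    rw [h2]
    simp only [hIII, map_smul, map_sub, smul_sub, Finset.sum_sub_distrib]
    congr 1
    · rw [Finset.smul_sum]
    · rw [← Finset.smul_sum, h8, smul_smul, mul_comm]
  have hSB : ∑ A, S.vec (yhm S y) A β (∑ G, (n G : ℂ) • S.bil 1 A G v) =
      ∑ E, Bx E (S.vec (yhm S y) E β v) + (2 : ℂ) • X := by
    simp only [hi, if_true, ← hX]
    rw [Finset.sum_add_distrib, Finset.sum_sub_distrib, ← hX, Finset.sum_const, Finset.card_univ,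
      Fintype.card_fin]
    congr 1
    rw [← Nat.cast_smul_eq_nsmul ℂ]
    push_cast
    module
  rw [hT1, hT2, hT3, hSA, hSB, ← hX]
  linear_combination (norm := module) hI • (∑ E, Bx E (S.vec (yhm S y) E β v)) -
    ((3 : ℂ) * hI) • X

theorem m3 (hF : F10Stmt S) : M3Stmt S := by
  intro n y hn hy v h β
  have hr : ry y ≠ 0 := hy.ne'
  have hrc : ((ry y : ℝ) : ℂ) ≠ 0 := by exact_mod_cast hr
  have h1 := m3_final S hn hy h β
  have hB : ((3 / ry y ^ 2 : ℝ) : ℂ) • S.B β (cone n y) v = ((1 / ry y : ℝ) : ℂ) •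
      ((3 : ℂ) • ∑ A, (n A : ℂ) • S.vec (yhm S y) A β v) := by
    simp only [Setup.B, cone, yhm, S.vec_sum, S.vec_smul, _root_.sum_apply, _root_.smul_apply,
      Finset.smul_sum, smul_smul]
    rw [Finset.sum_comm]
    refine Finset.sum_congr rfl fun A _ => Finset.sum_congr rfl fun i _ => ?_
    congr 1
    push_cast
    field_simp
  have hX : ∑ i, ∑ A, S.vec (S.g i) A β (S.XX n y i A v) = ((1 / ry y : ℝ) : ℂ) • (
      (-(Complex.I / 4)) • (∑ A, ∑ D, ∑ E, (eps A D E : ℂ) • S.th β A (S.bil 1 D E v) -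
      ∑ A, ∑ D, ∑ E, (eps A D E : ℂ) • S.vec (yhm S y) A β (S.bil (yhm S y) D E v)) +
    ∑ A, ∑ B, ∑ D, ((((if B = A then 1 else 0) - n B * n A) * n D : ℝ) : ℂ) •
      S.vec (yhm S y) A β (S.bil 1 B D v)) := by
    have e1 : ∑ A, ∑ D, ∑ E, (eps A D E : ℂ) • S.th β A (S.bil 1 D E v) -
        ∑ A, ∑ D, ∑ E, (eps A D E : ℂ) • S.vec (yhm S y) A β (S.bil (yhm S y) D E v) =
        ∑ A, ∑ D, ∑ E, (eps A D E : ℂ) • ∑ i, ∑ k, (((if k = i then 1 else 0) -
          (y k / ry y) * (y i / ry y) : ℝ) : ℂ) • S.vec (S.g i) A β (S.bil (S.g k) D E v) := by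
      rw [← fierz_sum S hF]
      simp only [← Finset.sum_sub_distrib, ← smul_sub, sum_Pk]
    have e2 : ∑ A, ∑ B, ∑ D, ((((if B = A then 1 else 0) - n B * n A) * n D : ℝ) : ℂ) •
        S.vec (yhm S y) A β (S.bil 1 B D v) =
        ∑ i, ∑ A, ((y i / ry y : ℝ) : ℂ) • S.vec (S.g i) A β
          (∑ B, ∑ D, ((((if B = A then 1 else 0) - n B * n A) * n D : ℝ) : ℂ) •
            S.bil 1 B D v) := by
      rw [Finset.sum_comm (s := (Finset.univ : Finset (Fin 9)))]
      refine Finset.sum_congr rfl fun A _ => ?_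
      have e3 : ∀ w, S.vec (yhm S y) A β w =
          ∑ i, ((y i / ry y : ℝ) : ℂ) • S.vec (S.g i) A β w := by
        intro w
        simp only [yhm, S.vec_sum, S.vec_smul, _root_.sum_apply, _root_.smul_apply]
      rw [← e3]
      simp only [map_sum, map_smul]
    have e4 : ∑ A, ∑ D, ∑ E, (eps A D E : ℂ) • ∑ i, ∑ k, (((if k = i then 1 else 0) -
          (y k / ry y) * (y i / ry y) : ℝ) : ℂ) • S.vec (S.g i) A β (S.bil (S.g k) D E v) =
        ∑ i, ∑ A, S.vec (S.g i) A β (∑ k, (((if k = i then 1 else 0) -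
          (y k / ry y) * (y i / ry y) : ℝ) : ℂ) • ∑ D, ∑ E, (eps A D E : ℂ) •
            S.bil (S.g k) D E v) := by
      rw [Finset.sum_comm (s := (Finset.univ : Finset (Fin 9)))]
      refine Finset.sum_congr rfl fun A _ => ?_
      simp only [map_sum, map_smul, Finset.smul_sum]
      calc _ = ∑ D, ∑ i, ∑ E, ∑ k, (eps A D E : ℂ) • (((if k = i then 1 else 0) -
          (y k / ry y) * (y i / ry y) : ℝ) : ℂ) • S.vec (S.g i) A β (S.bil (S.g k) D E v) :=
            Finset.sum_congr rfl fun D _ => Finset.sum_comm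
        _ = ∑ i, ∑ D, ∑ E, ∑ k, (eps A D E : ℂ) • (((if k = i then 1 else 0) -
          (y k / ry y) * (y i / ry y) : ℝ) : ℂ) • S.vec (S.g i) A β (S.bil (S.g k) D E v) :=
            Finset.sum_comm
        _ = ∑ i, ∑ D, ∑ k, ∑ E, (eps A D E : ℂ) • (((if k = i then 1 else 0) -
          (y k / ry y) * (y i / ry y) : ℝ) : ℂ) • S.vec (S.g i) A β (S.bil (S.g k) D E v) :=
            Finset.sum_congr rfl fun i _ => Finset.sum_congr rfl fun D _ => Finset.sum_comm
        _ = ∑ i, ∑ k, ∑ D, ∑ E, (eps A D E : ℂ) • (((if k = i then 1 else 0) -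
          (y k / ry y) * (y i / ry y) : ℝ) : ℂ) • S.vec (S.g i) A β (S.bil (S.g k) D E v) :=
            Finset.sum_congr rfl fun i _ => Finset.sum_comm
        _ = _ := by
            refine Finset.sum_congr rfl fun i _ => Finset.sum_congr rfl fun k _ =>
              Finset.sum_congr rfl fun D _ => Finset.sum_congr rfl fun E _ => ?_
            rw [smul_comm]
    rw [e1, e2, e4, Finset.smul_sum, ← Finset.sum_add_distrib, Finset.smul_sum]
    refine Finset.sum_congr rfl fun i _ => ?_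
    rw [Finset.smul_sum, ← Finset.sum_add_distrib, Finset.smul_sum]
    refine Finset.sum_congr rfl fun A _ => ?_
    rw [XX_vac S hy h, map_smul, map_add, map_smul, map_smul]
  rw [hX, hB, ← smul_add, h1, smul_zero]

end vac

end Vale.Agent.P353.U
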