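import Vale.Agent.P353.U.StmtC

/-! # P353, uniqueness for `N = 2`: the fermionic mass term at `ξ₀` (task C-N1) -/

open MeasureTheory Filter Topology
open scoped ContDiff Matrix Kronecker

namespace Vale.Agent.P353.U

variable {F : Type*} [NormedAddCommGroup F] [InnerProductSpace ℂ F]

/-- the index set of the 48 fermions -/
abbrev N1I : Type := Fin 16 × Fin 3

variable (S : Setup F)

/-- `θ(z)` -/
noncomputable def n1_l (z : N1I → ℂ) : F →L[ℂ] F := ∑ p, z p • S.th p.1 p.2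

/-- `∑ K_{pq} θ_p θ_q` -/
noncomputable def n1_q (K : Matrix N1I N1I ℂ) : F →L[ℂ] F :=
  ∑ p, ∑ q, K p q • (S.th p.1 p.2 * S.th q.1 q.2)

lemma n1_q_add (K L : Matrix N1I N1I ℂ) : n1_q S (K + L) = n1_q S K + n1_q S L := by
  simp only [n1_q, Matrix.add_apply, add_smul, Finset.sum_add_distrib]

lemma n1_q_smul (c : ℂ) (K : Matrix N1I N1I ℂ) : n1_q S (c • K) = c • n1_q S K := by
  simp only [n1_q, Matrix.smul_apply, smul_eq_mul, mul_smul, Finset.smul_sum]

lemma n1_q_neg (K : Matrix N1I N1I ℂ) : n1_q S (-K) = -n1_q S K := by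
  simp only [n1_q, Matrix.neg_apply, neg_smul, Finset.sum_neg_distrib]

lemma n1_q_sub (K L : Matrix N1I N1I ℂ) : n1_q S (K - L) = n1_q S K - n1_q S L := by
  rw [sub_eq_add_neg, n1_q_add, n1_q_neg, ← sub_eq_add_neg]

lemma n1_q_tr (K : Matrix N1I N1I ℂ) :
    n1_q S K + n1_q S Kᵀ = K.trace • (1 : F →L[ℂ] F) := by
  have h1 : n1_q S Kᵀ = ∑ p, ∑ q, K p q • (S.th q.1 q.2 * S.th p.1 p.2) := by
    unfold n1_q
    rw [Finset.sum_comm]
    rfl
  rw [h1]
  unfold n1_q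
  rw [← Finset.sum_add_distrib, Matrix.trace, Finset.sum_smul]
  refine Finset.sum_congr rfl fun p _ => ?_
  rw [← Finset.sum_add_distrib]
  rw [Finset.sum_eq_single p]
  · rw [← smul_add, S.th_anti, if_pos ⟨rfl, rfl⟩, Matrix.diag_apply]
  · intro q _ hq
    rw [← smul_add, S.th_anti, if_neg, smul_zero]
    rintro ⟨h1, h2⟩
    exact hq (Prod.ext h1.symm h2.symm)
  · intro h
    exact absurd (Finset.mem_univ p) h

lemma n1_q_symm {K : Matrix N1I N1I ℂ} (hK : Kᵀ = K) :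
    n1_q S K = (K.trace / 2) • (1 : F →L[ℂ] F) := by
  have h := n1_q_tr S K
  rw [hK, ← two_smul ℂ] at h
  calc n1_q S K = (1 / 2 : ℂ) • ((2 : ℂ) • n1_q S K) := by rw [smul_smul]; norm_num
    _ = (K.trace / 2) • (1 : F →L[ℂ] F) := by
        rw [h, smul_smul]
        congr 1
        ring

/-- products of linear expressions -/
lemma n1_q_sandwich {m : ℕ} (N M : Matrix (Fin m) N1I ℂ) (X : Matrix (Fin m) (Fin m) ℂ) :
    ∑ α, ∑ β, X α β • (n1_l S (N α) * n1_l S (M β)) = n1_q S (Nᵀ * X * M) := by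
  have h1 : ∀ α β, X α β • (n1_l S (N α) * n1_l S (M β)) =
      ∑ p, ∑ q, (N α p * X α β * M β q) • (S.th p.1 p.2 * S.th q.1 q.2) := by
    intro α β
    unfold n1_l
    rw [Finset.sum_mul, Finset.smul_sum]
    refine Finset.sum_congr rfl fun p _ => ?_
    rw [Finset.mul_sum, Finset.smul_sum]
    refine Finset.sum_congr rfl fun q _ => ?_
    rw [smul_mul_smul_comm, smul_smul]
    congr 1
    ring
  have h2 : n1_q S (Nᵀ * X * M) =
      ∑ p, ∑ q, ∑ β, ∑ α, (N α p * X α β * M β q) • (S.th p.1 p.2 * S.th q.1 q.2) := by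
    unfold n1_q
    refine Finset.sum_congr rfl fun p _ => Finset.sum_congr rfl fun q _ => ?_
    rw [Matrix.mul_apply, Finset.sum_smul]
    refine Finset.sum_congr rfl fun β _ => ?_
    rw [Matrix.mul_apply, Finset.sum_mul, Finset.sum_smul]
    rfl
  rw [h2]
  simp_rw [h1]
  calc ∑ α, ∑ β, ∑ p, ∑ q, (N α p * X α β * M β q) • (S.th p.1 p.2 * S.th q.1 q.2)
      = ∑ β, ∑ α, ∑ p, ∑ q, (N α p * X α β * M β q) • (S.th p.1 p.2 * S.th q.1 q.2) :=
        Finset.sum_comm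
    _ = ∑ β, ∑ p, ∑ α, ∑ q, (N α p * X α β * M β q) • (S.th p.1 p.2 * S.th q.1 q.2) :=
        Finset.sum_congr rfl fun β _ => Finset.sum_comm
    _ = ∑ p, ∑ β, ∑ α, ∑ q, (N α p * X α β * M β q) • (S.th p.1 p.2 * S.th q.1 q.2) :=
        Finset.sum_comm
    _ = ∑ p, ∑ β, ∑ q, ∑ α, (N α p * X α β * M β q) • (S.th p.1 p.2 * S.th q.1 q.2) :=
        Finset.sum_congr rfl fun p _ => Finset.sum_congr rfl fun β _ => Finset.sum_comm
    _ = ∑ p, ∑ q, ∑ β, ∑ α, (N α p * X α β * M β q) • (S.th p.1 p.2 * S.th q.1 q.2) :=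
        Finset.sum_congr rfl fun p _ => Finset.sum_comm

lemma n1_l_apply (z : N1I → ℂ) (v : F) : n1_l S z v = ∑ p, z p • S.th p.1 p.2 v := by
  unfold n1_l
  rw [_root_.sum_apply]
  rfl

lemma n1_q_apply (K : Matrix N1I N1I ℂ) (v : F) :
    n1_q S K v = ∑ p, ∑ q, K p q • S.th p.1 p.2 (S.th q.1 q.2 v) := by
  unfold n1_q
  rw [_root_.sum_apply]
  refine Finset.sum_congr rfl fun p _ => ?_
  rw [_root_.sum_apply]
  rfl

/-- `n1_q (Kᴴ K) v` as a sum over the rows of `K` -/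
lemma n1_q_rows (K : Matrix N1I N1I ℂ) (v : F) :
    n1_q S (Kᴴ * K) v = ∑ p, n1_l S (fun q => star (K p q)) (n1_l S (K p) v) := by
  rw [n1_q_apply]
  have h1 : ∀ p, n1_l S (fun q => star (K p q)) (n1_l S (K p) v) =
      ∑ q, ∑ r, (star (K p q) * K p r) • S.th q.1 q.2 (S.th r.1 r.2 v) := by
    intro p
    rw [n1_l_apply]
    refine Finset.sum_congr rfl fun q _ => ?_
    rw [n1_l_apply, map_sum, Finset.smul_sum]
    refine Finset.sum_congr rfl fun r _ => ?_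
    rw [map_smul, smul_smul]
  rw [Finset.sum_congr rfl fun p _ => h1 p]
  have h2 : ∀ q r, (Kᴴ * K) q r • S.th q.1 q.2 (S.th r.1 r.2 v) =
      ∑ p, (star (K p q) * K p r) • S.th q.1 q.2 (S.th r.1 r.2 v) := by
    intro q r
    rw [Matrix.mul_apply, Finset.sum_smul]
    rfl
  calc ∑ q, ∑ r, (Kᴴ * K) q r • S.th q.1 q.2 (S.th r.1 r.2 v)
      = ∑ q, ∑ r, ∑ p, (star (K p q) * K p r) • S.th q.1 q.2 (S.th r.1 r.2 v) :=
        Finset.sum_congr rfl fun q _ => Finset.sum_congr rfl fun r _ => h2 q r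
    _ = ∑ q, ∑ p, ∑ r, (star (K p q) * K p r) • S.th q.1 q.2 (S.th r.1 r.2 v) :=
        Finset.sum_congr rfl fun q _ => Finset.sum_comm
    _ = ∑ p, ∑ q, ∑ r, (star (K p q) * K p r) • S.th q.1 q.2 (S.th r.1 r.2 v) :=
        Finset.sum_comm

lemma n1_l_adj (z : N1I → ℂ) (v w : F) :
    inner ℂ v (n1_l S (fun q => star (z q)) w) = inner ℂ (n1_l S z v) w := by
  rw [n1_l_apply, n1_l_apply, inner_sum, sum_inner]
  refine Finset.sum_congr rfl fun p _ => ?_
  rw [inner_smul_right, inner_smul_left, ← S.th_sa]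
  rfl

lemma n1_q_inner (K : Matrix N1I N1I ℂ) (v : F) :
    (inner ℂ v (n1_q S (Kᴴ * K) v)).re = ∑ p, ‖n1_l S (K p) v‖ ^ 2 := by
  rw [n1_q_rows, inner_sum, Complex.re_sum]
  refine Finset.sum_congr rfl fun p _ => ?_
  rw [n1_l_adj, inner_self_eq_norm_sq_to_K]
  norm_cast

/-! ### the matrices -/

/-- the coefficients of `χ` -/
noncomputable def n1_T : Matrix (Fin 16) N1I ℂ := fun α q => S.g (ci q.2) α q.1

/-- `Γ ⊗ 1` -/
noncomputable def n1_Gh : Matrix N1I N1I ℂ := S.Gam ⊗ₖ (1 : Matrix (Fin 3) (Fin 3) ℂ)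

/-- the projection on the trace part -/
noncomputable def n1_P : Matrix N1I N1I ℂ := (1 / 3 : ℂ) • ((n1_T S)ᵀ * n1_T S)

/-- `iΓ ⊗ 1` -/
noncomputable def n1_G : Matrix N1I N1I ℂ := Complex.I • n1_Gh S

lemma n1_TT : n1_T S * (n1_T S)ᵀ = (3 : ℂ) • (1 : Matrix (Fin 16) (Fin 16) ℂ) := by
  have h1 : n1_T S * (n1_T S)ᵀ = ∑ A : Fin 3, S.g (ci A) * S.g (ci A) := by
    ext α β
    rw [Matrix.mul_apply, Matrix.sum_apply, Fintype.sum_prod_type_right]
    refine Finset.sum_congr rfl fun A _ => ?_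
    rw [Matrix.mul_apply]
    refine Finset.sum_congr rfl fun γ _ => ?_
    show S.g (ci A) α γ * S.g (ci A) β γ = S.g (ci A) α γ * S.g (ci A) γ β
    congr 1
    have := congrFun (congrFun (S.g_symm (ci A)) γ) β
    rw [Matrix.transpose_apply] at this
    exact this
  rw [h1]
  simp_rw [S.g_sq']
  rw [Finset.sum_const, Finset.card_univ, Fintype.card_fin, ← Nat.cast_smul_eq_nsmul ℂ]
  norm_num

lemma n1_T_Gh : n1_T S * n1_Gh S = S.Gam * n1_T S := by
  ext α ⟨β, B⟩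
  rw [Matrix.mul_apply, Fintype.sum_prod_type_right, Finset.sum_eq_single B]
  · have h := congrFun (congrFun (S.g_Gam_comm (i := ci B) (by simp [ci])) α) β
    rw [Matrix.mul_apply] at h
    rw [Matrix.mul_apply] at h
    rw [Matrix.mul_apply]
    refine Eq.trans (Finset.sum_congr rfl fun γ _ => ?_) h
    show S.g (ci B) α γ * (S.Gam γ β * (1 : Matrix (Fin 3) (Fin 3) ℂ) B B) = _
    rw [Matrix.one_apply_eq, mul_one]
  · intro A _ hA
    refine Finset.sum_eq_zero fun γ _ => ?_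
    show S.g (ci A) α γ * (S.Gam γ β * (1 : Matrix (Fin 3) (Fin 3) ℂ) A B) = 0
    rw [Matrix.one_apply_ne hA, mul_zero, mul_zero]
  · intro h
    exact absurd (Finset.mem_univ B) h

lemma n1_Gh_sq : n1_Gh S * n1_Gh S = -1 := by
  unfold n1_Gh
  rw [← Matrix.mul_kronecker_mul, S.Gam_sq, Matrix.one_mul]
  ext ⟨α, A⟩ ⟨β, B⟩
  by_cases h1 : α = β <;> by_cases h2 : A = B <;>
    simp [Matrix.kroneckerMap_apply, h1, h2]

lemma n1_Gh_tr : (n1_Gh S)ᵀ = -n1_Gh S := by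
  unfold n1_Gh
  ext ⟨α, A⟩ ⟨β, B⟩
  have h := congrFun (congrFun S.Gam_transpose α) β
  rw [Matrix.transpose_apply, Matrix.neg_apply] at h
  by_cases h2 : A = B
  · simp [Matrix.kroneckerMap_apply, h, h2]
  · simp [Matrix.kroneckerMap_apply, Matrix.one_apply_ne h2, Matrix.one_apply_ne (Ne.symm h2)]

lemma n1_Tt_Gh : n1_Gh S * (n1_T S)ᵀ = (n1_T S)ᵀ * S.Gam := by
  have h := congrArg Matrix.transpose (n1_T_Gh S)
  rw [Matrix.transpose_mul, Matrix.transpose_mul, n1_Gh_tr, S.Gam_transpose, Matrix.neg_mul,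
    Matrix.mul_neg, neg_inj] at h
  exact h

lemma n1_PP : n1_P S * n1_P S = n1_P S := by
  unfold n1_P
  rw [Matrix.smul_mul, Matrix.mul_smul]
  have h : (n1_T S)ᵀ * n1_T S * ((n1_T S)ᵀ * n1_T S) =
      (n1_T S)ᵀ * (n1_T S * (n1_T S)ᵀ) * n1_T S := by simp only [Matrix.mul_assoc]
  rw [h, n1_TT, Matrix.mul_smul, Matrix.mul_one, Matrix.smul_mul, smul_smul, smul_smul]
  norm_num

lemma n1_PG : n1_P S * n1_G S = n1_G S * n1_P S := by
  unfold n1_P n1_G
  rw [Matrix.smul_mul, Matrix.mul_smul, Matrix.smul_mul, Matrix.mul_smul, smul_comm]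
  congr 2
  rw [Matrix.mul_assoc, n1_T_Gh, ← Matrix.mul_assoc, ← n1_Tt_Gh, Matrix.mul_assoc]

lemma n1_GG : n1_G S * n1_G S = 1 := by
  unfold n1_G
  rw [Matrix.smul_mul, Matrix.mul_smul, n1_Gh_sq, smul_smul, Complex.I_mul_I]
  simp

lemma n1_P_tr : (n1_P S)ᵀ = n1_P S := by
  unfold n1_P
  rw [Matrix.transpose_smul, Matrix.transpose_mul, Matrix.transpose_transpose]

lemma n1_G_tr : (n1_G S)ᵀ = -n1_G S := by
  unfold n1_G
  rw [Matrix.transpose_smul, n1_Gh_tr, smul_neg]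

lemma n1_T_star : (n1_T S)ᴴ = (n1_T S)ᵀ := by
  ext p α
  rw [Matrix.conjTranspose_apply, Matrix.transpose_apply]
  exact Complex.conj_eq_iff_im.2 (S.g_real _ _ _)

lemma n1_Tt_star : ((n1_T S)ᵀ)ᴴ = n1_T S := by
  rw [← n1_T_star, Matrix.conjTranspose_conjTranspose]

lemma n1_P_star : (n1_P S)ᴴ = n1_P S := by
  unfold n1_P
  rw [Matrix.conjTranspose_smul, Matrix.conjTranspose_mul, n1_Tt_star, n1_T_star]
  congr 1
  norm_num

lemma n1_Gh_star : (n1_Gh S)ᴴ = -n1_Gh S := by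
  rw [← n1_Gh_tr]
  ext ⟨α, A⟩ ⟨β, B⟩
  rw [Matrix.conjTranspose_apply, Matrix.transpose_apply]
  refine Complex.conj_eq_iff_im.2 ?_
  show (S.Gam β α * (1 : Matrix (Fin 3) (Fin 3) ℂ) B A).im = 0
  rw [Complex.mul_im, S.Gam_real, Matrix.one_apply]
  split_ifs <;> simp

lemma n1_G_star : (n1_G S)ᴴ = n1_G S := by
  unfold n1_G
  rw [Matrix.conjTranspose_smul, n1_Gh_star, smul_neg, ← neg_smul]
  congr 1
  simp

lemma n1_P_trace : (n1_P S).trace = 16 := by
  unfold n1_P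
  rw [Matrix.trace_smul, Matrix.trace_mul_comm, n1_TT, Matrix.trace_smul, Matrix.trace_one]
  norm_num

/-- the reflection whose `+1` eigenspace is the isotropic space -/
noncomputable def n1_R : Matrix N1I N1I ℂ := n1_G S - (2 : ℂ) • (n1_G S * n1_P S)

/-- projection, trace free part -/
noncomputable def n1_K1 : Matrix N1I N1I ℂ :=
  (1 / 2 : ℂ) • (1 - n1_P S - n1_G S + n1_G S * n1_P S)

/-- projection, trace part -/
noncomputable def n1_K2 : Matrix N1I N1I ℂ := (1 / 2 : ℂ) • (n1_P S + n1_G S * n1_P S)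

lemma n1_GPG : n1_G S * n1_P S * n1_G S = n1_P S := by
  rw [Matrix.mul_assoc, n1_PG, ← Matrix.mul_assoc, n1_GG, Matrix.one_mul]

lemma n1_GPP : n1_G S * n1_P S * n1_P S = n1_G S * n1_P S := by
  rw [Matrix.mul_assoc, n1_PP]

lemma n1_PGP : n1_P S * (n1_G S * n1_P S) = n1_G S * n1_P S := by
  rw [← Matrix.mul_assoc, n1_PG, Matrix.mul_assoc, n1_PP]

lemma n1_GGP : n1_G S * (n1_G S * n1_P S) = n1_P S := by
  rw [← Matrix.mul_assoc, n1_GG, Matrix.one_mul]

lemma n1_GPGP : n1_G S * n1_P S * (n1_G S * n1_P S) = n1_P S := by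
  rw [← Matrix.mul_assoc, n1_GPG, n1_PP]

lemma n1_K1_sq : n1_K1 S * n1_K1 S = n1_K1 S := by
  unfold n1_K1
  rw [Matrix.smul_mul, Matrix.mul_smul, smul_smul]
  have h : (1 - n1_P S - n1_G S + n1_G S * n1_P S) * (1 - n1_P S - n1_G S + n1_G S * n1_P S) =
      (2 : ℂ) • (1 - n1_P S - n1_G S + n1_G S * n1_P S) := by
    simp only [Matrix.mul_add, Matrix.mul_sub, Matrix.add_mul, Matrix.sub_mul, Matrix.one_mul,
      Matrix.mul_one, n1_PP, n1_PG, n1_GG, n1_GPG, n1_GPP, n1_PGP, n1_GGP, n1_GPGP, two_smul]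
    abel
  rw [h, smul_smul]
  norm_num

lemma n1_K2_sq : n1_K2 S * n1_K2 S = n1_K2 S := by
  unfold n1_K2
  rw [Matrix.smul_mul, Matrix.mul_smul, smul_smul]
  have h : (n1_P S + n1_G S * n1_P S) * (n1_P S + n1_G S * n1_P S) =
      (2 : ℂ) • (n1_P S + n1_G S * n1_P S) := by
    simp only [Matrix.mul_add, Matrix.add_mul, n1_PP, n1_GPP, n1_PGP, n1_GPGP, two_smul]
    abel
  rw [h, smul_smul]
  norm_num

lemma n1_GP_star : (n1_G S * n1_P S)ᴴ = n1_G S * n1_P S := by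
  rw [Matrix.conjTranspose_mul, n1_P_star, n1_G_star, n1_PG]

lemma n1_GP_tr : (n1_G S * n1_P S)ᵀ = -(n1_G S * n1_P S) := by
  rw [Matrix.transpose_mul, n1_P_tr, n1_G_tr, Matrix.mul_neg, n1_PG]

lemma n1_half_star : star (1 / 2 : ℂ) = 1 / 2 := by
  rw [star_div₀, star_one]
  congr 1
  exact Complex.conj_eq_iff_im.2 (by simp)

lemma n1_K1_star : (n1_K1 S)ᴴ = n1_K1 S := by
  unfold n1_K1
  rw [Matrix.conjTranspose_smul, n1_half_star, Matrix.conjTranspose_add,
    Matrix.conjTranspose_sub, Matrix.conjTranspose_sub, Matrix.conjTranspose_one, n1_P_star,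
    n1_G_star, n1_GP_star]

lemma n1_K2_star : (n1_K2 S)ᴴ = n1_K2 S := by
  unfold n1_K2
  rw [Matrix.conjTranspose_smul, n1_half_star, Matrix.conjTranspose_add, n1_P_star, n1_GP_star]

lemma n1_R_tr : (n1_R S)ᵀ = -n1_R S := by
  unfold n1_R
  rw [Matrix.transpose_sub, Matrix.transpose_smul, n1_G_tr, n1_GP_tr, smul_neg]
  abel

lemma n1_R_star : (n1_R S)ᴴ = n1_R S := by
  unfold n1_R
  rw [Matrix.conjTranspose_sub, Matrix.conjTranspose_smul, n1_G_star, n1_GP_star]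
  congr 2
  exact Complex.conj_eq_iff_im.2 (by simp)

lemma n1_R_sq : n1_R S * n1_R S = 1 := by
  unfold n1_R
  simp only [Matrix.mul_sub, Matrix.sub_mul, Matrix.smul_mul, Matrix.mul_smul, n1_GG, n1_GPG,
    n1_GGP, n1_GPGP]
  module

lemma n1_K1_R : n1_K1 S * n1_R S = -n1_K1 S := by
  unfold n1_K1 n1_R
  rw [Matrix.smul_mul, ← smul_neg]
  congr 1
  simp only [Matrix.mul_sub, Matrix.add_mul, Matrix.sub_mul, Matrix.one_mul, Matrix.mul_smul,
    n1_PG, n1_GG, n1_GPG, n1_PGP, n1_GGP, n1_GPGP]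
  module

lemma n1_K2_R : n1_K2 S * n1_R S = -n1_K2 S := by
  unfold n1_K2 n1_R
  rw [Matrix.smul_mul, ← smul_neg]
  congr 1
  simp only [Matrix.mul_sub, Matrix.add_mul, Matrix.mul_smul,
    n1_PG, n1_GPG, n1_PGP, n1_GPGP]
  module

lemma n1_K_add : n1_K1 S + n1_K2 S = (1 / 2 : ℂ) • (1 - n1_R S) := by
  unfold n1_K1 n1_K2 n1_R
  rw [← smul_add]
  congr 1
  rw [two_smul]
  abel

/-! ### the mass term -/

lemma n1_FG : S.FG = n1_q S (n1_G S) := by
  unfold n1_G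
  rw [n1_q_smul]
  unfold Setup.FG CS.tot CS.bil CS.vec n1_q
  congr 1
  rw [Fintype.sum_prod_type_right]
  refine Finset.sum_congr rfl fun A _ => Finset.sum_congr rfl fun α _ => ?_
  rw [Fintype.sum_prod_type_right, Finset.sum_eq_single A, Finset.mul_sum]
  · refine Finset.sum_congr rfl fun β _ => ?_
    show _ = (S.Gam α β * (1 : Matrix (Fin 3) (Fin 3) ℂ) A A) • _
    rw [Matrix.one_apply_eq, mul_one, mul_smul_comm]
  · intro B _ hB
    refine Finset.sum_eq_zero fun β _ => ?_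
    show (S.Gam α β * (1 : Matrix (Fin 3) (Fin 3) ℂ) A B) • _ = 0
    rw [Matrix.one_apply_ne hB.symm, mul_zero, zero_smul]
  · intro h
    exact absurd (Finset.mem_univ A) h

lemma n1_chi (α : Fin 16) : S.chi α = n1_l S (n1_T S α) := by
  unfold Setup.chi CS.vec n1_l
  rw [Fintype.sum_prod_type_right]
  rfl

lemma n1_chichi : Complex.I • ∑ α, ∑ β, S.Gam α β • (S.chi α * S.chi β) =
    (3 : ℂ) • n1_q S (n1_G S * n1_P S) := by
  simp_rw [n1_chi]
  rw [n1_q_sandwich, ← n1_q_smul, ← n1_q_smul]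
  congr 1
  unfold n1_G n1_P
  rw [Matrix.smul_mul, Matrix.mul_smul, smul_smul, smul_smul, ← Matrix.mul_assoc, n1_Tt_Gh]
  congr 1
  ring

lemma n1_main : S.N1 = (7 / 2 : ℂ) • n1_q S ((n1_K1 S)ᴴ * n1_K1 S) +
    (5 / 2 : ℂ) • n1_q S ((n1_K2 S)ᴴ * n1_K2 S) := by
  rw [n1_K1_star, n1_K2_star, n1_K1_sq, n1_K2_sq]
  unfold Setup.N1
  rw [n1_chichi, n1_FG]
  unfold n1_K1 n1_K2
  rw [n1_q_smul, n1_q_smul, n1_q_add, n1_q_add, n1_q_sub,
    n1_q_symm S (K := 1 - n1_P S) (by rw [Matrix.transpose_sub, Matrix.transpose_one, n1_P_tr]),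
    n1_q_symm S (n1_P_tr S), Matrix.trace_sub, n1_P_trace, Matrix.trace_one]
  simp only [Fintype.card_prod, Fintype.card_fin]
  push_cast
  module

theorem n1 (h : VacStmt S) : N1Stmt S := by
  intro hirr hne
  let 𝒜 : Submodule ℂ (N1I → ℂ) :=
    { carrier := {z | n1_R S *ᵥ z = z}
      add_mem' := by
        intro a b ha hb
        rw [Set.mem_ofPred_eq] at *
        rw [Matrix.mulVec_add, ha, hb]
      zero_mem' := by
        rw [Set.mem_ofPred_eq, Matrix.mulVec_zero]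
      smul_mem' := by
        intro c a ha
        rw [Set.mem_ofPred_eq] at *
        rw [Matrix.mulVec_smul, ha] }
  have hmem : ∀ z, z ∈ 𝒜 ↔ n1_R S *ᵥ z = z := fun z => Iff.rfl
  have hrow : ∀ K : Matrix N1I N1I ℂ, K * n1_R S = -K → ∀ p, K p ∈ 𝒜 := by
    intro K hK p
    rw [hmem]
    ext s
    have h1 : (K * (n1_R S)ᵀ) p s = K p s := by
      rw [n1_R_tr, Matrix.mul_neg, hK, neg_neg]
    rw [← h1, Matrix.mul_apply]
    unfold Matrix.mulVec dotProduct
    refine Finset.sum_congr rfl fun q _ => ?_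
    rw [Matrix.transpose_apply, mul_comm]
  have hiso : ∀ a ∈ 𝒜, ∀ b ∈ 𝒜, ∑ p, a p * b p = 0 := by
    intro a ha b hb
    rw [hmem] at ha hb
    have h1 : ∑ p, a p * b p = (n1_R S *ᵥ a) ⬝ᵥ b := by
      rw [ha]
      rfl
    have h2 : (n1_R S *ᵥ a) ⬝ᵥ b = a ⬝ᵥ ((n1_R S)ᵀ *ᵥ b) := by
      rw [dotProduct_comm, Matrix.dotProduct_mulVec, ← Matrix.mulVec_transpose, dotProduct_comm]
    rw [n1_R_tr, Matrix.neg_mulVec, hb, dotProduct_neg] at h2
    have h3 : ∑ p, a p * b p = -∑ p, a p * b p := by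
      conv_lhs => rw [h1, h2]
      rfl
    have h4 : (2 : ℂ) * ∑ p, a p * b p = 0 := by
      rw [two_mul]
      nth_rewrite 1 [h3]
      ring
    exact (mul_eq_zero.1 h4).resolve_left two_ne_zero
  have hspan : ∀ z : N1I → ℂ, ∃ a ∈ 𝒜, ∃ b ∈ 𝒜, z = a + fun p => (starRingEnd ℂ) (b p) := by
    intro z
    have hcj : ∀ w : N1I → ℂ, (n1_R S *ᵥ fun p => star (w p)) =
        fun p => -star ((n1_R S *ᵥ w) p) := by
      intro w
      ext p
      unfold Matrix.mulVec dotProduct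
      rw [star_sum, ← Finset.sum_neg_distrib]
      refine Finset.sum_congr rfl fun q _ => ?_
      have h7 := congrFun (congrFun (n1_R_tr S) p) q
      rw [Matrix.transpose_apply, Matrix.neg_apply] at h7
      have h8 := congrFun (congrFun (n1_R_star S) q) p
      rw [Matrix.conjTranspose_apply, h7] at h8
      rw [star_mul', h8]
      ring
    refine ⟨fun p => (1 / 2 : ℂ) * (z p + (n1_R S *ᵥ z) p), ?_,
      fun p => (1 / 2 : ℂ) * star (z p - (n1_R S *ᵥ z) p), ?_, ?_⟩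
    · rw [hmem]
      have e : (fun p => (1 / 2 : ℂ) * (z p + (n1_R S *ᵥ z) p)) =
          (1 / 2 : ℂ) • (z + n1_R S *ᵥ z) := by
        ext p
        simp
      rw [e, Matrix.mulVec_smul, Matrix.mulVec_add, Matrix.mulVec_mulVec, n1_R_sq,
        Matrix.one_mulVec, add_comm]
    · rw [hmem]
      have e : (fun p => (1 / 2 : ℂ) * star (z p - (n1_R S *ᵥ z) p)) =
          (1 / 2 : ℂ) • (fun p => star ((z - n1_R S *ᵥ z) p)) := by
        ext p
        simp
      rw [e, Matrix.mulVec_smul, hcj]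
      congr 1
      ext p
      rw [Matrix.mulVec_sub, Matrix.mulVec_mulVec, n1_R_sq, Matrix.one_mulVec, ← star_neg]
      congr 1
      simp
    · ext p
      rw [Pi.add_apply]
      show z p = _ + (starRingEnd ℂ) ((1 / 2 : ℂ) * (starRingEnd ℂ) (z p - (n1_R S *ᵥ z) p))
      rw [map_mul, Complex.conj_conj]
      have : (starRingEnd ℂ) (1 / 2 : ℂ) = 1 / 2 := n1_half_star
      rw [this]
      ring
  obtain ⟨Ω, hΩ1, hΩ2, hΩ3⟩ := h hirr hne 𝒜 hiso hspan
  have hkill : ∀ K : Matrix N1I N1I ℂ, K * n1_R S = -K → n1_q S (Kᴴ * K) Ω = 0 := by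
    intro K hK
    rw [n1_q_rows]
    refine Finset.sum_eq_zero fun p _ => ?_
    have h2 := hΩ2 (K p) (hrow K hK p)
    rw [← n1_l_apply] at h2
    rw [h2, map_zero]
  have hform : ∀ v : F, (inner ℂ v (S.N1 v)).re =
      7 / 2 * (∑ p, ‖n1_l S (n1_K1 S p) v‖ ^ 2) + 5 / 2 * ∑ p, ‖n1_l S (n1_K2 S p) v‖ ^ 2 := by
    intro v
    rw [n1_main, _root_.add_apply, _root_.smul_apply,
      _root_.smul_apply, inner_add_right, inner_smul_right, inner_smul_right,
      Complex.add_re, ← n1_q_inner, ← n1_q_inner]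
    have e1 : (7 / 2 : ℂ) = ((7 / 2 : ℝ) : ℂ) := by push_cast; rfl
    have e2 : (5 / 2 : ℂ) = ((5 / 2 : ℝ) : ℂ) := by push_cast; rfl
    rw [e1, e2, Complex.re_ofReal_mul, Complex.re_ofReal_mul]
  have hn1 : ∀ v : F, 0 ≤ ∑ p, ‖n1_l S (n1_K1 S p) v‖ ^ 2 := fun v =>
    Finset.sum_nonneg fun p _ => sq_nonneg _
  have hn2 : ∀ v : F, 0 ≤ ∑ p, ‖n1_l S (n1_K2 S p) v‖ ^ 2 := fun v =>
    Finset.sum_nonneg fun p _ => sq_nonneg _
  refine ⟨fun v => ?_, Ω, hΩ1, ?_, fun v hv => ?_⟩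
  · rw [hform]
    have := hn1 v
    have := hn2 v
    positivity
  · rw [n1_main, _root_.add_apply, _root_.smul_apply,
      _root_.smul_apply, hkill _ (n1_K1_R S), hkill _ (n1_K2_R S), smul_zero,
      smul_zero, add_zero]
  · refine hΩ3 v fun z hz => ?_
    rw [← n1_l_apply]
    rw [hform] at hv
    have h1 : ∑ p, ‖n1_l S (n1_K1 S p) v‖ ^ 2 = 0 := by
      linarith [hn1 v, hn2 v]
    have h2 : ∑ p, ‖n1_l S (n1_K2 S p) v‖ ^ 2 = 0 := by
      linarith [hn1 v, hn2 v]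
    rw [Finset.sum_eq_zero_iff_of_nonneg (fun p _ => sq_nonneg _)] at h1 h2
    have h3 : ∀ p, n1_l S ((n1_K1 S + n1_K2 S) p) v = 0 := by
      intro p
      have a1 : n1_l S (n1_K1 S p) v = 0 := by
        have := h1 p (Finset.mem_univ p)
        rwa [sq_eq_zero_iff, norm_eq_zero] at this
      have a2 : n1_l S (n1_K2 S p) v = 0 := by
        have := h2 p (Finset.mem_univ p)
        rwa [sq_eq_zero_iff, norm_eq_zero] at this
      rw [n1_l_apply] at *
      simp only [Matrix.add_apply, add_smul, Finset.sum_add_distrib]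
      rw [a1, a2, add_zero]
    -- `z = zᵀ (K1 + K2)`
    have h4 : ∀ q, z q = ∑ p, z p * (n1_K1 S + n1_K2 S) p q := by
      intro q
      have h5 := congrFun ((hmem z).1 hz) q
      have h6 : ∑ p, z p * n1_R S p q = - z q := by
        rw [← h5]
        unfold Matrix.mulVec dotProduct
        rw [← Finset.sum_neg_distrib]
        refine Finset.sum_congr rfl fun p _ => ?_
        have h7 := congrFun (congrFun (n1_R_tr S) q) p
        rw [Matrix.transpose_apply, Matrix.neg_apply] at h7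
        rw [h7]
        ring
      rw [n1_K_add]
      simp only [Matrix.smul_apply, Matrix.sub_apply, smul_eq_mul]
      have h8 : ∀ p, z p * (1 / 2 * ((1 : Matrix N1I N1I ℂ) p q - n1_R S p q)) =
          1 / 2 * (z p * (1 : Matrix N1I N1I ℂ) p q) - 1 / 2 * (z p * n1_R S p q) := by
        intro p
        ring
      simp_rw [h8]
      rw [Finset.sum_sub_distrib, ← Finset.mul_sum, ← Finset.mul_sum, h6]
      have h9 : ∑ p, z p * (1 : Matrix N1I N1I ℂ) p q = z q := by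
        rw [Finset.sum_eq_single q]
        · rw [Matrix.one_apply_eq, mul_one]
        · intro p _ hp
          rw [Matrix.one_apply_ne hp, mul_zero]
        · intro h
          exact absurd (Finset.mem_univ q) h
      rw [h9]
      ring
    have h5 : n1_l S z v = ∑ p, z p • n1_l S ((n1_K1 S + n1_K2 S) p) v := by
      simp_rw [n1_l_apply]
      simp_rw [Finset.smul_sum]
      rw [Finset.sum_comm]
      refine Finset.sum_congr rfl fun q _ => ?_
      simp_rw [smul_smul]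
      rw [← Finset.sum_smul, ← h4 q]
    rw [h5]
    exact Finset.sum_eq_zero fun p _ => by rw [h3 p, smul_zero]

end Vale.Agent.P353.U
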