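import Vale.Agent.P353.U.StmtC
import Vale.Agent.P353.Gamma

/-! # P353, uniqueness for `N = 2`: the mass term at `0` (task C-N0) -/

open MeasureTheory Filter Topology
open scoped ContDiff Matrix

namespace Vale.Agent.P353

variable {F : Type*} [NormedAddCommGroup F] [InnerProductSpace ℂ F]

namespace Setup

variable (S : Setup F)

/-- the projection `½(1 - iΓ)` -/
noncomputable def n0Pa : Matrix (Fin 16) (Fin 16) ℂ := (1 / 2 : ℂ) • (1 - Complex.I • S.Gam)

/-- the projection `½(1 + iΓ)` -/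
noncomputable def n0Pb : Matrix (Fin 16) (Fin 16) ℂ := (1 / 2 : ℂ) • (1 + Complex.I • S.Gam)

lemma n0_am (A : Fin 3) (α : Fin 16) : S.am A α = S.vec S.n0Pa A α := by
  unfold am n0Pa
  rw [S.vec_smul, S.vec_sub, S.vec_one, S.vec_smul]

lemma n0_bm (A : Fin 3) (α : Fin 16) : S.bm A α = S.vec S.n0Pb A α := by
  unfold bm n0Pb
  rw [S.vec_smul, S.vec_add, S.vec_one, S.vec_smul]

lemma n0_Pa_transpose : S.n0Paᵀ = S.n0Pb := by
  unfold n0Pa n0Pb
  rw [Matrix.transpose_smul, Matrix.transpose_sub, Matrix.transpose_smul, Matrix.transpose_one,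
    S.Gam_transpose, smul_neg, sub_neg_eq_add]

lemma n0_Pb_transpose : S.n0Pbᵀ = S.n0Pa := by
  rw [← S.n0_Pa_transpose, Matrix.transpose_transpose]

lemma n0_Pa_add_Pb : S.n0Pa + S.n0Pb = 1 := by
  unfold n0Pa n0Pb
  module

lemma n0_IGam_sq : (Complex.I • S.Gam) * (Complex.I • S.Gam) = 1 := by
  rw [smul_mul_smul_comm, Complex.I_mul_I, S.Gam_sq, neg_smul, one_smul, neg_neg]

lemma n0_Pa_sq : S.n0Pa * S.n0Pa = S.n0Pa := by
  unfold n0Pa
  rw [smul_mul_smul_comm]
  have : (1 - Complex.I • S.Gam) * (1 - Complex.I • S.Gam) =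
      (2 : ℂ) • (1 - Complex.I • S.Gam) := by
    rw [sub_mul, one_mul, mul_sub, mul_one, S.n0_IGam_sq]
    module
  rw [this, smul_smul]
  norm_num

lemma n0_Pa_Pb : S.n0Pa * S.n0Pb = 0 := by
  unfold n0Pa n0Pb
  rw [smul_mul_smul_comm]
  have : (1 - Complex.I • S.Gam) * (1 + Complex.I • S.Gam) = 0 := by
    rw [sub_mul, one_mul, mul_add, mul_one, S.n0_IGam_sq]
    abel
  rw [this, smul_zero]

lemma n0_Pb_Pa : S.n0Pb * S.n0Pa = 0 := by
  unfold n0Pa n0Pb
  rw [smul_mul_smul_comm]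
  have : (1 + Complex.I • S.Gam) * (1 - Complex.I • S.Gam) = 0 := by
    rw [add_mul, one_mul, mul_sub, mul_one, S.n0_IGam_sq]
    abel
  rw [this, smul_zero]

/-- `∑_α b_α^A a_α^A = 12 - (i/2) θΓθ` summed over `A`. -/
lemma n0_sum_ba : ∑ A, ∑ α, S.bm A α * S.am A α = (12 : ℂ) • (1 : F →L[ℂ] F) -
    (1 / 2 : ℂ) • S.FG := by
  have h1 : ∀ A, ∑ α, S.bm A α * S.am A α = S.bil S.n0Pa A A := by
    intro A
    simp only [n0_am, n0_bm]
    rw [S.sum_vec_mul_vec, S.n0_Pb_transpose, S.n0_Pa_sq]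
  rw [Finset.sum_congr rfl fun A _ => h1 A]
  change S.tot S.n0Pa = _
  unfold n0Pa FG
  rw [S.tot_smul, S.tot_sub, S.tot_one, S.tot_smul, smul_sub, smul_smul]
  norm_num

lemma n0_N0_eq : S.N0 = (3 / 2 : ℂ) • ∑ A, ∑ α, S.bm A α * S.am A α := by
  rw [n0_sum_ba]
  unfold N0
  rw [smul_sub, smul_smul, smul_smul]
  norm_num

lemma n0_inner_vecGam (A : Fin 3) (α : Fin 16) (v w : F) :
    inner ℂ (S.vec S.Gam A α v) w = inner ℂ v (S.vec S.Gam A α w) := by
  unfold CS.vec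
  rw [_root_.sum_apply, _root_.sum_apply, sum_inner, inner_sum]
  refine Finset.sum_congr rfl fun γ _ => ?_
  rw [_root_.smul_apply, _root_.smul_apply, inner_smul_left,
    inner_smul_right, S.th_sa, Complex.conj_eq_iff_im.2 (S.Gam_real α γ)]

/-- `b` is the adjoint of `a`. -/
lemma n0_inner_bm (A : Fin 3) (α : Fin 16) (v w : F) :
    inner ℂ v (S.bm A α w) = inner ℂ (S.am A α v) w := by
  unfold bm am
  rw [_root_.smul_apply, _root_.smul_apply,
    _root_.add_apply, _root_.sub_apply, _root_.smul_apply,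
    _root_.smul_apply, inner_smul_left, inner_smul_right, inner_add_right,
    inner_sub_left, inner_smul_left, inner_smul_right, S.th_sa, S.n0_inner_vecGam, Complex.conj_I]
  simp only [map_div₀, map_one, Complex.conj_ofNat]
  ring

lemma n0_inner_N0 (v : F) : (inner ℂ v (S.N0 v)).re = 3 / 2 * ∑ A, ∑ α, ‖S.am A α v‖ ^ 2 := by
  rw [S.n0_N0_eq, _root_.smul_apply, _root_.sum_apply,
    inner_smul_right, inner_sum]
  have h : ∀ A, inner ℂ v ((∑ α, S.bm A α * S.am A α) v) =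
      ((∑ α, ‖S.am A α v‖ ^ 2 : ℝ) : ℂ) := by
    intro A
    rw [_root_.sum_apply, inner_sum, Complex.ofReal_sum]
    refine Finset.sum_congr rfl fun α _ => ?_
    rw [_root_.mul_apply_eq_comp, S.n0_inner_bm, inner_self_eq_norm_sq_to_K]
    norm_cast
  rw [Finset.sum_congr rfl fun A _ => h A, ← Complex.ofReal_sum]
  have e : (3 / 2 : ℂ) = ((3 / 2 : ℝ) : ℂ) := by norm_num
  rw [e, ← Complex.ofReal_mul, Complex.ofReal_re]

/-- bilinears acting on a vector killed by all `a_α^A` -/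
lemma n0_bil_vac {N : Matrix (Fin 16) (Fin 16) ℂ} (hN : N * S.Gam = S.Gam * N) {Ω : F}
    (hΩ : ∀ A α, S.am A α Ω = 0) (D E : Fin 3) :
    S.bil N D E Ω = if D = E then (N * S.n0Pb).trace • Ω else 0 := by
  have hv : ∀ (M : Matrix (Fin 16) (Fin 16) ℂ) (C D' : Fin 3),
      S.bil (M * S.n0Pa) C D' Ω = 0 := by
    intro M C D'
    unfold CS.bil
    rw [_root_.sum_apply]
    refine Finset.sum_eq_zero fun α _ => ?_
    rw [_root_.mul_apply_eq_comp, S.vec_mul, _root_.sum_apply]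
    have : ∑ γ, (M α γ • S.vec S.n0Pa D' γ) Ω = 0 := by
      refine Finset.sum_eq_zero fun γ _ => ?_
      rw [_root_.smul_apply, ← S.n0_am, hΩ, smul_zero]
    rw [this, map_zero]
  have hd : N = N * S.n0Pa + N * S.n0Pb := by
    rw [← mul_add, S.n0_Pa_add_Pb, mul_one]
  have hc : S.n0Pa * Nᵀ = Nᵀ * S.n0Pa := by
    have h1 : N * S.n0Pb = S.n0Pb * N := by
      unfold n0Pb
      rw [Matrix.mul_smul, Matrix.smul_mul, mul_add, add_mul, Matrix.mul_smul, Matrix.smul_mul,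
        hN, mul_one, one_mul]
    have h2 := congrArg Matrix.transpose h1
    rw [Matrix.transpose_mul, Matrix.transpose_mul, S.n0_Pb_transpose] at h2
    exact h2
  have e1 : S.bil N D E Ω = S.bil (N * S.n0Pb) D E Ω := by
    conv_lhs => rw [hd, S.bil_add, _root_.add_apply, hv, zero_add]
  rw [e1, S.bil_swap, _root_.sub_apply, Matrix.transpose_mul, S.n0_Pb_transpose,
    hc, hv, sub_zero]
  split_ifs
  · rfl
  · rfl

lemma n0_trace_Gam : (S.Gam).trace = 0 := by
  unfold Gam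
  exact S.trace_ggg 0 1 2

/-- the spin part of the gauge generators kills the vacuum -/
theorem cS_vac {Ω : F} (hΩ : ∀ A α, S.am A α Ω = 0) (C : Fin 3) : S.cS C Ω = 0 := by
  unfold cS
  rw [_root_.smul_apply, _root_.sum_apply]
  have : ∀ D ∈ Finset.univ, (∑ E, (eps C D E : ℂ) • S.bil 1 D E) Ω = 0 := by
    intro D _
    rw [_root_.sum_apply]
    refine Finset.sum_eq_zero fun E _ => ?_
    rw [_root_.smul_apply, S.n0_bil_vac (by rw [one_mul, mul_one]) hΩ]
    split_ifs with h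
    · subst h
      have : eps C D D = 0 := by simp [eps]
      rw [this, Int.cast_zero, zero_smul]
    · rw [smul_zero]
  rw [Finset.sum_eq_zero this, smul_zero]

/-- the spin generators inside the blocks kill the vacuum -/
theorem Skl_vac {Ω : F} (hΩ : ∀ A α, S.am A α Ω = 0) {k l : Fin 9} (h : Same k l) :
    S.Skl k l Ω = 0 := by
  unfold Skl CS.tot
  rw [_root_.smul_apply, _root_.sum_apply]
  have htr : (S.g2 k l * S.n0Pb).trace = 0 := by
    unfold n0Pb
    rw [Matrix.mul_smul, mul_add, mul_one, Matrix.mul_smul, Matrix.trace_smul, Matrix.trace_add,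
      Matrix.trace_smul, S.trace_g2]
    have : (S.g2 k l * S.Gam).trace = 0 := by
      unfold CS.g2 Gam
      rw [Matrix.smul_mul, Matrix.trace_smul, sub_mul, Matrix.trace_sub, ← mul_assoc, ← mul_assoc,
        ← mul_assoc, ← mul_assoc, S.trace_ggggg, S.trace_ggggg, sub_zero, smul_zero]
    rw [this, smul_zero, add_zero, smul_zero]
  have : ∀ C ∈ Finset.univ, S.bil (S.g2 k l) C C Ω = 0 := by
    intro C _
    rw [S.n0_bil_vac (S.Gam_comm_g2 h) hΩ, if_pos rfl, htr, zero_smul]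
  rw [Finset.sum_eq_zero this, smul_zero]

/-- the projection onto the coefficient vectors of the operators `a_α^A` -/
noncomputable def n0Proj (w : Fin 16 × Fin 3 → ℂ) (p : Fin 16 × Fin 3) : ℂ :=
  ∑ β, S.n0Pa β p.1 * w (β, p.2)

/-- the isotropic subspace belonging to the operators `a_α^A` -/
noncomputable def n0Sub : Submodule ℂ (Fin 16 × Fin 3 → ℂ) where
  carrier := {z | S.n0Proj z = z}
  add_mem' := by
    intro a b ha hb
    have h : S.n0Proj (a + b) = S.n0Proj a + S.n0Proj b := by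
      funext p
      simp only [n0Proj, Pi.add_apply, mul_add, Finset.sum_add_distrib]
    change S.n0Proj (a + b) = a + b
    rw [h, ha, hb]
  zero_mem' := by
    funext p
    simp only [n0Proj, Pi.zero_apply, mul_zero, Finset.sum_const_zero]
  smul_mem' := by
    intro c a ha
    have h : S.n0Proj (c • a) = c • S.n0Proj a := by
      funext p
      simp only [n0Proj, Pi.smul_apply, smul_eq_mul, Finset.mul_sum]
      exact Finset.sum_congr rfl fun β _ => by ring
    change S.n0Proj (c • a) = c • a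
    rw [h, ha]

lemma n0_mem (w : Fin 16 × Fin 3 → ℂ) : S.n0Proj w ∈ S.n0Sub := by
  change S.n0Proj (S.n0Proj w) = S.n0Proj w
  funext p
  have e : ∀ γ, ∑ β, S.n0Pa γ β * S.n0Pa β p.1 = S.n0Pa γ p.1 := by
    intro γ
    rw [← Matrix.mul_apply, S.n0_Pa_sq]
  calc ∑ β, S.n0Pa β p.1 * ∑ γ, S.n0Pa γ β * w (γ, p.2)
      = ∑ β, ∑ γ, (S.n0Pa γ β * S.n0Pa β p.1) * w (γ, p.2) := by
        simp only [Finset.mul_sum]
        exact Finset.sum_congr rfl fun β _ => Finset.sum_congr rfl fun γ _ => by ring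
    _ = ∑ γ, (∑ β, S.n0Pa γ β * S.n0Pa β p.1) * w (γ, p.2) := by
        rw [Finset.sum_comm]
        simp only [Finset.sum_mul]
    _ = ∑ γ, S.n0Pa γ p.1 * w (γ, p.2) := by simp only [e]

lemma n0_sum_proj (w : Fin 16 × Fin 3 → ℂ) (v : F) :
    ∑ p : Fin 16 × Fin 3, S.n0Proj w p • S.th p.1 p.2 v =
      ∑ p : Fin 16 × Fin 3, w p • S.am p.2 p.1 v := by
  rw [Fintype.sum_prod_type_right, Fintype.sum_prod_type_right]
  refine Finset.sum_congr rfl fun A _ => ?_
  simp only [n0Proj, Finset.sum_smul]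
  rw [Finset.sum_comm]
  refine Finset.sum_congr rfl fun γ _ => ?_
  rw [S.n0_am]
  unfold CS.vec
  rw [_root_.sum_apply, Finset.smul_sum]
  refine Finset.sum_congr rfl fun β _ => ?_
  rw [_root_.smul_apply, smul_smul, mul_comm]

lemma n0_kill {v : F} (hv : ∀ A α, S.am A α v = 0) {a : Fin 16 × Fin 3 → ℂ} (ha : a ∈ S.n0Sub) :
    ∑ p : Fin 16 × Fin 3, a p • S.th p.1 p.2 v = 0 := by
  have ha' : S.n0Proj a = a := ha
  have h := S.n0_sum_proj a v
  rw [ha'] at h
  rw [h]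
  exact Finset.sum_eq_zero fun p _ => by rw [hv, smul_zero]

lemma n0_kill' {v : F}
    (hv : ∀ a ∈ S.n0Sub, ∑ p : Fin 16 × Fin 3, a p • S.th p.1 p.2 v = 0) (A : Fin 3)
    (α : Fin 16) : S.am A α v = 0 := by
  have h := hv _ (S.n0_mem (Pi.single (α, A) 1))
  rw [S.n0_sum_proj, Finset.sum_eq_single (α, A)] at h
  · simpa using h
  · intro p _ hp
    rw [Pi.single_eq_of_ne hp, zero_smul]
  · intro hp
    exact absurd (Finset.mem_univ _) hp

lemma n0_iso {a b : Fin 16 × Fin 3 → ℂ} (ha : a ∈ S.n0Sub) (hb : b ∈ S.n0Sub) :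
    ∑ p, a p * b p = 0 := by
  have ha' : S.n0Proj a = a := ha
  have hb' : S.n0Proj b = b := hb
  rw [← ha', ← hb', Fintype.sum_prod_type_right]
  refine Finset.sum_eq_zero fun A _ => ?_
  unfold n0Proj
  have e : ∀ β γ, ∑ α, S.n0Pa β α * S.n0Pa γ α = 0 := by
    intro β γ
    have h := congrFun (congrFun S.n0_Pa_Pb β) γ
    rw [← S.n0_Pa_transpose, Matrix.mul_apply] at h
    simpa only [Matrix.transpose_apply, Matrix.zero_apply] using h
  simp only [Finset.sum_mul_sum]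
  rw [Finset.sum_comm]
  refine Finset.sum_eq_zero fun β _ => ?_
  rw [Finset.sum_comm]
  refine Finset.sum_eq_zero fun γ _ => ?_
  calc ∑ α, S.n0Pa β α * a (β, A) * (S.n0Pa γ α * b (γ, A)) =
      ∑ α, (a (β, A) * b (γ, A)) * (S.n0Pa β α * S.n0Pa γ α) :=
        Finset.sum_congr rfl fun α _ => by ring
    _ = 0 := by rw [← Finset.mul_sum, e, mul_zero]

lemma n0_conj_Pa (β α : Fin 16) : (starRingEnd ℂ) (S.n0Pa β α) = S.n0Pb β α := by
  have h1 : (starRingEnd ℂ) ((1 : Matrix (Fin 16) (Fin 16) ℂ) β α) =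
      (1 : Matrix (Fin 16) (Fin 16) ℂ) β α := by
    rw [Matrix.one_apply]
    split_ifs <;> simp
  simp only [n0Pa, n0Pb, Matrix.smul_apply, Matrix.sub_apply, Matrix.add_apply, smul_eq_mul,
    map_mul, map_sub, Complex.conj_I, Complex.conj_eq_iff_im.2 (S.Gam_real β α), h1, map_div₀,
    map_one, Complex.conj_ofNat]
  ring

lemma n0_decomp (z : Fin 16 × Fin 3 → ℂ) :
    ∃ a ∈ S.n0Sub, ∃ b ∈ S.n0Sub, z = a + fun p => (starRingEnd ℂ) (b p) := by
  refine ⟨S.n0Proj z, S.n0_mem z, S.n0Proj (fun p => (starRingEnd ℂ) (z p)), S.n0_mem _, ?_⟩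
  funext p
  simp only [Pi.add_apply, n0Proj, map_sum, map_mul, n0_conj_Pa, Complex.conj_conj]
  rw [← Finset.sum_add_distrib]
  have e : ∀ β, S.n0Pa β p.1 * z (β, p.2) + S.n0Pb β p.1 * z (β, p.2) =
      if β = p.1 then z (β, p.2) else 0 := by
    intro β
    rw [← add_mul, ← Matrix.add_apply, S.n0_Pa_add_Pb, Matrix.one_apply]
    split_ifs <;> simp
  rw [Finset.sum_congr rfl fun β _ => e β, Finset.sum_ite_eq' Finset.univ p.1, if_pos
    (Finset.mem_univ _)]

end Setup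

namespace U

open Setup

variable {S : Setup F}

/-- **C-N0** -/
theorem n0 (h : VacStmt S) : N0Stmt S := by
  intro hI hne
  obtain ⟨Ω, h1, h2, h3⟩ := h hI hne S.n0Sub (fun a ha b hb => S.n0_iso ha hb) S.n0_decomp
  have h4 : ∀ v : F, (∀ A α, S.am A α v = 0) → ∃ c : ℂ, v = c • Ω := fun v hv =>
    h3 v fun a ha => S.n0_kill hv ha
  have h5 : ∀ A α, S.am A α Ω = 0 := S.n0_kill' h2
  refine ⟨?_, Ω, h1, h5, ?_, ?_, h4⟩
  · intro v
    rw [S.n0_inner_N0]
    positivity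
  · rw [S.n0_N0_eq, _root_.smul_apply, _root_.sum_apply]
    have : ∀ A ∈ Finset.univ, (∑ α, S.bm A α * S.am A α) Ω = 0 := by
      intro A _
      rw [_root_.sum_apply]
      refine Finset.sum_eq_zero fun α _ => ?_
      rw [_root_.mul_apply_eq_comp, h5, map_zero]
    rw [Finset.sum_eq_zero this, smul_zero]
  · intro v hv
    refine h4 v fun A α => ?_
    rw [S.n0_inner_N0] at hv
    have h6 : ∑ A, ∑ α, ‖S.am A α v‖ ^ 2 = 0 := by linarith
    have h7 := (Finset.sum_eq_zero_iff_of_nonneg (fun A _ =>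
      Finset.sum_nonneg fun α _ => sq_nonneg ‖S.am A α v‖)).1 h6 A (Finset.mem_univ _)
    have h8 := (Finset.sum_eq_zero_iff_of_nonneg (fun α _ =>
      sq_nonneg ‖S.am A α v‖)).1 h7 α (Finset.mem_univ _)
    exact norm_eq_zero.1 (pow_eq_zero_iff (two_ne_zero)|>.1 h8)

end U
end Vale.Agent.P353
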