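import Vale.Agent.P353.U.StmtD

/-! # P353, D-norm: `‖ω‖` is constant on the cone -/

open MeasureTheory Filter Topology
open scoped ContDiff

namespace Vale.Agent.P353

namespace U

namespace ON

variable {F : Type*} [NormedAddCommGroup F] [InnerProductSpace ℂ F]

/-! ### real derivative of `‖·‖²` -/

lemma hasFDerivAt_nsq {E : Type*} [NormedAddCommGroup E] [NormedSpace ℝ E] {f : E → F} {x : E}
    (hf : DifferentiableAt ℝ f x) : ∃ L : E →L[ℝ] ℝ, HasFDerivAt (fun y => ‖f y‖ ^ 2) L x ∧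
      ∀ v, L v = 2 * (inner ℂ (f x) (fderiv ℝ f x v)).re := by
  have h1 := hf.hasFDerivAt.inner ℂ hf.hasFDerivAt
  have h2 := Complex.reCLM.hasFDerivAt.comp x h1
  have e : (fun y => ‖f y‖ ^ 2) = Complex.reCLM ∘ fun t => inner ℂ (f t) (f t) := by
    funext y
    simp only [Function.comp, Complex.reCLM_apply, inner_self_eq_norm_sq_to_K]
    norm_cast
  rw [e]
  refine ⟨_, h2, fun v => ?_⟩
  simp only [ContinuousLinearMap.comp_apply, ContinuousLinearMap.prod_apply,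
    fderivInnerCLM_apply, Complex.reCLM_apply, Complex.add_re]
  have : (inner ℂ (fderiv ℝ f x v) (f x)).re = (inner ℂ (f x) (fderiv ℝ f x v)).re := by
    rw [← inner_conj_symm, Complex.conj_re]
  rw [this]; ring

/-! ### the cone -/

/-- `y ↦ cone n y` -/
noncomputable def coneY (n : Fin 3 → ℝ) : (Fin 9 → ℝ) →L[ℝ] X3 :=
  LinearMap.toContinuousLinearMap
    { toFun := fun y => cone n y
      map_add' := fun y z => by
        ext p; simp [cone, add_mul]
      map_smul' := fun c y => by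
        ext p; simp [cone, mul_assoc] }

lemma coneY_apply (n : Fin 3 → ℝ) (y : Fin 9 → ℝ) : coneY n y = cone n y := rfl

/-- `n ↦ cone n y` -/
noncomputable def coneN (y : Fin 9 → ℝ) : (Fin 3 → ℝ) →L[ℝ] X3 :=
  LinearMap.toContinuousLinearMap
    { toFun := fun n => cone n y
      map_add' := fun n m => by
        ext p; simp [cone, mul_add]
      map_smul' := fun c n => by
        ext p; simp [cone]; ring }

lemma coneN_apply (n : Fin 3 → ℝ) (y : Fin 9 → ℝ) : coneN y n = cone n y := rfl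

lemma rho6sq_cone (n : Fin 3 → ℝ) (y : Fin 9 → ℝ) :
    rho6sq (cone n y) = (∑ A, n A ^ 2) * ∑ i : Fin 9, if 3 ≤ i.val then y i ^ 2 else 0 := by
  unfold rho6sq
  rw [Finset.mul_sum]
  refine Finset.sum_congr rfl fun i _ => ?_
  by_cases h : 3 ≤ i.val
  · simp only [h, if_true, Finset.sum_mul, cone]
    refine Finset.sum_congr rfl fun A _ => ?_
    ring
  · simp [h]

lemma sum_y_pos {n : Fin 3 → ℝ} {y : Fin 9 → ℝ} (h : 0 < rho6sq (cone n y)) :
    0 < ∑ i, y i ^ 2 := by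
  rw [rho6sq_cone] at h
  have h1 : 0 ≤ ∑ A, n A ^ 2 := Finset.sum_nonneg fun _ _ => sq_nonneg _
  have h2 : 0 < ∑ i : Fin 9, if 3 ≤ i.val then y i ^ 2 else 0 := by
    by_contra hcon
    push Not at hcon
    exact absurd h (not_lt.2 (mul_nonpos_of_nonneg_of_nonpos h1 hcon))
  refine h2.trans_le (Finset.sum_le_sum fun i _ => ?_)
  split_ifs
  · exact le_rfl
  · exact sq_nonneg _

lemma isOpen_rho : IsOpen {x : X3 | 0 < rho6sq x} := by
  have : Continuous (rho6sq) := by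
    unfold rho6sq
    refine continuous_finsetSum _ fun i _ => continuous_finsetSum _ fun A _ => ?_
    split_ifs
    · fun_prop
    · exact continuous_const
  exact isOpen_lt continuous_const this

variable {S : Setup F}

lemma diff_om (hs : SmStmt S) {Ω : F} (hΩ : ∀ A α, S.am A α Ω = 0) {x : X3} (hx : 0 < rho6sq x) :
    DifferentiableAt ℝ (S.om Ω) x :=
  (((hs Ω hΩ).1.contDiffAt (isOpen_rho.mem_nhds hx)).differentiableAt (by simp))

/-- radial derivative -/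
lemma radial (hs : SmStmt S) {Ω : F} (hΩ : ∀ A α, S.am A α Ω = 0) {x : X3} (hx : 0 < rho6sq x) :
    fderiv ℝ (S.om Ω) x x = 0 := by
  have h1 := (diff_om hs hΩ hx).hasFDerivAt
  have h2 : HasDerivAt (fun t : ℝ => t • x) x 1 := by
    simpa using (hasDerivAt_id (1 : ℝ)).smul_const x
  have h3 : HasDerivAt (fun t : ℝ => S.om Ω (t • x)) (fderiv ℝ (S.om Ω) x x) 1 := by
    have h1' : HasFDerivAt (S.om Ω) (fderiv ℝ (S.om Ω) x) ((1 : ℝ) • x) := by
      rw [one_smul]; exact h1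
    exact h1'.comp_hasDerivAt (1 : ℝ) h2
  have h4 : HasDerivAt (fun t : ℝ => S.om Ω (t • x)) 0 1 := by
    refine (hasDerivAt_const (1 : ℝ) (S.om Ω x)).congr_of_eventuallyEq ?_
    filter_upwards [lt_mem_nhds (show (0 : ℝ) < 1 by norm_num)] with t ht
    exact ((hs Ω hΩ).2.2.2.1 x t ht).1
  exact h3.unique h4

/-! ### antihermitian operators -/

lemma re_zero_of_anti {v : F} {X : F →L[ℂ] F} (h : inner ℂ (X v) v = -inner ℂ v (X v)) :
    (inner ℂ v (X v)).re = 0 := by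
  have h1 : (inner ℂ (X v) v).re = (inner ℂ v (X v)).re := by
    rw [← inner_conj_symm, Complex.conj_re]
  rw [h, Complex.neg_re] at h1
  linarith

lemma real_mul {P Q : Matrix (Fin 16) (Fin 16) ℂ} (hP : ∀ a b, (P a b).im = 0)
    (hQ : ∀ a b, (Q a b).im = 0) (a b : Fin 16) : ((P * Q) a b).im = 0 := by
  rw [Matrix.mul_apply, Complex.im_sum]
  refine Finset.sum_eq_zero fun c _ => ?_
  rw [Complex.mul_im, hP, hQ]
  simp

/-- first kind -/
lemma anti1_key (S : Setup F) (y w : Fin 9 → ℝ) (hw : ∑ i, w i * y i = 0) (s : ℝ)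
    (v : F) (A B : Fin 3) :
    (∑ i, ∑ j, ((s * w i * y j : ℝ) : ℂ) * inner ℂ v (S.bil (S.g j * S.g i) A B v)) =
      -∑ i, ∑ j, ((s * w i * y j : ℝ) : ℂ) * inner ℂ v (S.bil (S.g i * S.g j) A B v) := by
  rw [eq_neg_iff_add_eq_zero, ← Finset.sum_add_distrib]
  have h1 : ∀ i, (∑ j, ((s * w i * y j : ℝ) : ℂ) * inner ℂ v (S.bil (S.g j * S.g i) A B v)) +
      (∑ j, ((s * w i * y j : ℝ) : ℂ) * inner ℂ v (S.bil (S.g i * S.g j) A B v)) =
      ((w i * y i : ℝ) : ℂ) * (2 * (s : ℂ) * inner ℂ v (S.bil 1 A B v)) := by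
    intro i
    rw [← Finset.sum_add_distrib]
    have h2 : ∀ j, ((s * w i * y j : ℝ) : ℂ) * inner ℂ v (S.bil (S.g j * S.g i) A B v) +
        ((s * w i * y j : ℝ) : ℂ) * inner ℂ v (S.bil (S.g i * S.g j) A B v) =
        if i = j then ((w i * y i : ℝ) : ℂ) * (2 * (s : ℂ) * inner ℂ v (S.bil 1 A B v)) else 0 := by
      intro j
      rw [← mul_add, ← inner_add_right, ← _root_.add_apply, ← S.bil_add, add_comm (S.g j * S.g i),
        S.g_anti i j]
      by_cases hij : i = j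
      · subst hij
        rw [if_pos rfl, if_pos rfl]
        have : (2 : Matrix (Fin 16) (Fin 16) ℂ) = (2 : ℂ) • 1 := by
          rw [two_smul, one_add_one_eq_two]
        rw [this, S.bil_smul, _root_.smul_apply, inner_smul_right]
        push_cast
        ring
      · rw [if_neg hij, if_neg hij, S.bil_zero, _root_.zero_apply, inner_zero_right, mul_zero]
    rw [Finset.sum_congr rfl fun j _ => h2 j, Finset.sum_ite_eq, if_pos (Finset.mem_univ _)]
  rw [Finset.sum_congr rfl fun i _ => h1 i, ← Finset.sum_mul, ← Complex.ofReal_sum, hw]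
  simp

lemma anti1 (S : Setup F) (n : Fin 3 → ℝ) (y w : Fin 9 → ℝ) (hw : ∑ i, w i * y i = 0) (c : ℝ)
    (v : F) : (inner ℂ v (((c : ℝ) : ℂ) • ∑ A, ∑ B, ∑ i, ∑ j,
      ((((if A = B then 1 else 0) - n A * n B) * w i * y j : ℝ) : ℂ) •
        S.bil (S.g i * S.g j) A B v)).re = 0 := by
  set X : F →L[ℂ] F := ((c : ℝ) : ℂ) • ∑ A, ∑ B, ∑ i, ∑ j,
      ((((if A = B then 1 else 0) - n A * n B) * w i * y j : ℝ) : ℂ) •
        S.bil (S.g i * S.g j) A B with hX
  have hXv : ((c : ℝ) : ℂ) • ∑ A, ∑ B, ∑ i, ∑ j,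
      ((((if A = B then 1 else 0) - n A * n B) * w i * y j : ℝ) : ℂ) •
        S.bil (S.g i * S.g j) A B v = X v := by
    rw [hX]
    simp only [_root_.smul_apply, _root_.sum_apply]
  rw [hXv]
  apply re_zero_of_anti
  rw [← hXv]
  simp only [inner_smul_left, inner_smul_right, sum_inner, inner_sum, Complex.conj_ofReal]
  rw [← mul_neg]
  congr 1
  have h1 : ∀ i j A B, inner ℂ (S.bil (S.g i * S.g j) A B v) v =
      inner ℂ v (S.bil (S.g j * S.g i) B A v) := by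
    intro i j A B
    rw [S.bil_adj _ (real_mul (S.g_real i) (S.g_real j)), Matrix.transpose_mul, S.g_symm,
      S.g_symm]
  simp only [h1]
  rw [Finset.sum_comm, ← Finset.sum_neg_distrib]
  refine Finset.sum_congr rfl fun B _ => ?_
  rw [← Finset.sum_neg_distrib]
  refine Finset.sum_congr rfl fun A _ => ?_
  have h2 := anti1_key S y w hw ((if B = A then 1 else 0) - n B * n A) v B A
  have h3 : ((if A = B then (1:ℝ) else 0) - n A * n B) = ((if B = A then 1 else 0) - n B * n A) := by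
    rw [mul_comm]; simp [eq_comm]
  rw [h3]
  exact h2

/-- second kind -/
lemma anti2 (S : Setup F) (n e : Fin 3 → ℝ) (he : ∑ A, e A * n A = 0)
    (v : F) : (inner ℂ v (∑ A, ∑ B, ((e A * n B : ℝ) : ℂ) • S.bil 1 A B v)).re = 0 := by
  set X : F →L[ℂ] F := ∑ A, ∑ B, ((e A * n B : ℝ) : ℂ) • S.bil 1 A B with hX
  have hXv : ∑ A, ∑ B, ((e A * n B : ℝ) : ℂ) • S.bil 1 A B v = X v := by
    rw [hX]
    simp only [_root_.smul_apply, _root_.sum_apply]
  rw [hXv]
  apply re_zero_of_anti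
  rw [← hXv]
  simp only [inner_smul_left, inner_smul_right, sum_inner, inner_sum, Complex.conj_ofReal]
  have hone : ∀ α β, ((1 : Matrix (Fin 16) (Fin 16) ℂ) α β).im = 0 := by
    intro α β
    rw [Matrix.one_apply]
    split_ifs <;> simp
  have h1 : ∀ A B, inner ℂ (S.bil 1 A B v) v = inner ℂ v (S.bil 1 B A v) := by
    intro A B
    rw [S.bil_adj _ hone, Matrix.transpose_one]
  simp only [h1]
  rw [eq_neg_iff_add_eq_zero, ← Finset.sum_add_distrib]
  have h2 : ∀ A, (∑ B, ((e A * n B : ℝ) : ℂ) * inner ℂ v (S.bil 1 B A v)) +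
      (∑ B, ((e A * n B : ℝ) : ℂ) * inner ℂ v (S.bil 1 A B v)) =
      ((e A * n A : ℝ) : ℂ) * (16 * inner ℂ v v) := by
    intro A
    rw [← Finset.sum_add_distrib]
    have h3 : ∀ B, ((e A * n B : ℝ) : ℂ) * inner ℂ v (S.bil 1 B A v) +
        ((e A * n B : ℝ) : ℂ) * inner ℂ v (S.bil 1 A B v) =
        if A = B then ((e A * n A : ℝ) : ℂ) * (16 * inner ℂ v v) else 0 := by
      intro B
      have h4 := S.bil_swap 1 A B
      rw [Matrix.transpose_one] at h4
      rw [h4]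
      by_cases hAB : A = B
      · subst hAB
        simp only [if_true, _root_.sub_apply, inner_sub_right, _root_.smul_apply,
          inner_smul_right, Matrix.trace_one, Fintype.card_fin]
        simp
        ring
      · simp [hAB]
    rw [Finset.sum_congr rfl fun B _ => h3 B, Finset.sum_ite_eq, if_pos (Finset.mem_univ _)]
  rw [Finset.sum_congr rfl fun A _ => h2 A, ← Finset.sum_mul, ← Complex.ofReal_sum, he]
  simp

/-! ### the derivative of `‖ω‖²` along the cone vanishes -/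

lemma cone_add_smul_left (n : Fin 3 → ℝ) (y w : Fin 9 → ℝ) (t : ℝ) :
    cone n (w + t • y) = cone n w + t • cone n y := by
  have h := (coneY n).map_add w (t • y)
  rw [(coneY n).map_smul] at h
  exact h

lemma cone_add_smul_right (n e : Fin 3 → ℝ) (y : Fin 9 → ℝ) (t : ℝ) :
    cone (e + t • n) y = cone e y + t • cone n y := by
  have h := (coneN y).map_add e (t • n)
  rw [(coneN y).map_smul] at h
  exact h

lemma dY (hs : SmStmt S) (h2 : Om2Stmt S) {Ω : F} (hΩ : ∀ A α, S.am A α Ω = 0)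
    {n : Fin 3 → ℝ} (hn : ∑ A, n A ^ 2 = 1) {y : Fin 9 → ℝ} (hy : 0 < rho6sq (cone n y))
    (w' : Fin 9 → ℝ) :
    (inner ℂ (S.om Ω (cone n y)) (fderiv ℝ (S.om Ω) (cone n y) (cone n w'))).re = 0 := by
  have hy2 := (sum_y_pos hy).ne'
  obtain ⟨t, ht⟩ : ∃ t, t = (∑ i, w' i * y i) / ∑ i, y i ^ 2 := ⟨_, rfl⟩
  have hw : ∑ i, (w' - t • y) i * y i = 0 := by
    have : ∀ i, (w' - t • y) i * y i = w' i * y i - t * y i ^ 2 := by
      intro i
      simp only [Pi.sub_apply, Pi.smul_apply, smul_eq_mul]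
      ring
    rw [Finset.sum_congr rfl fun i _ => this i, Finset.sum_sub_distrib, ← Finset.mul_sum, ht,
      div_mul_cancel₀ _ hy2, sub_self]
  have e1 : w' = (w' - t • y) + t • y := by abel
  have h3 : fderiv ℝ (S.om Ω) (cone n y) (cone n w') =
      fderiv ℝ (S.om Ω) (cone n y) (cone n (w' - t • y)) := by
    conv_lhs => rw [e1, cone_add_smul_left, map_add, map_smul, radial hs hΩ hy, smul_zero,
      add_zero]
  rw [h3, (h2 Ω hΩ n y hn hy).1 _ hw]
  exact anti1 S n y _ hw _ _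

lemma dN1 (hs : SmStmt S) (h2 : Om2Stmt S) {Ω : F} (hΩ : ∀ A α, S.am A α Ω = 0)
    {n : Fin 3 → ℝ} (hn : ∑ A, n A ^ 2 = 1) {y : Fin 9 → ℝ} (hy : 0 < rho6sq (cone n y))
    (e : Fin 3 → ℝ) :
    (inner ℂ (S.om Ω (cone n y)) (fderiv ℝ (S.om Ω) (cone n y) (cone e y))).re = 0 := by
  obtain ⟨t, ht⟩ : ∃ t, t = ∑ A, e A * n A := ⟨_, rfl⟩
  have he : ∑ A, (e - t • n) A * n A = 0 := by
    have : ∀ A, (e - t • n) A * n A = e A * n A - t * n A ^ 2 := by
      intro A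
      simp only [Pi.sub_apply, Pi.smul_apply, smul_eq_mul]
      ring
    rw [Finset.sum_congr rfl fun i _ => this i, Finset.sum_sub_distrib, ← Finset.mul_sum, hn, ht,
      mul_one, sub_self]
  have e1 : e = (e - t • n) + t • n := by abel
  have h3 : fderiv ℝ (S.om Ω) (cone n y) (cone e y) =
      fderiv ℝ (S.om Ω) (cone n y) (cone (e - t • n) y) := by
    conv_lhs => rw [e1, cone_add_smul_right, map_add, map_smul, radial hs hΩ hy, smul_zero,
      add_zero]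
  rw [h3, (h2 Ω hΩ n y hn hy).2 _ he]
  exact anti2 S n _ he _

lemma dN (hs : SmStmt S) (h2 : Om2Stmt S) {Ω : F} (hΩ : ∀ A α, S.am A α Ω = 0)
    {n : Fin 3 → ℝ} {y : Fin 9 → ℝ} (hy : 0 < rho6sq (cone n y))
    (e : Fin 3 → ℝ) :
    (inner ℂ (S.om Ω (cone n y)) (fderiv ℝ (S.om Ω) (cone n y) (cone e y))).re = 0 := by
  have hn0 : 0 < ∑ A, n A ^ 2 := by
    have h0 : 0 ≤ ∑ A, n A ^ 2 := Finset.sum_nonneg fun _ _ => sq_nonneg _
    refine lt_of_le_of_ne h0 fun h => ?_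
    rw [rho6sq_cone, ← h, zero_mul] at hy
    exact lt_irrefl _ hy
  obtain ⟨r, hr⟩ : ∃ r, r = Real.sqrt (∑ A, n A ^ 2) := ⟨_, rfl⟩
  have hr0 : 0 < r := by rw [hr]; exact Real.sqrt_pos.2 hn0
  have hr2 : r ^ 2 = ∑ A, n A ^ 2 := by rw [hr]; exact Real.sq_sqrt hn0.le
  have e1 : cone n y = cone (r⁻¹ • n) (r • y) := by
    ext p
    simp only [cone, Pi.smul_apply, smul_eq_mul]
    field_simp
  have e2 : cone e y = cone (r⁻¹ • e) (r • y) := by
    ext p
    simp only [cone, Pi.smul_apply, smul_eq_mul]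
    field_simp
  rw [e1] at hy ⊢
  rw [e2]
  refine dN1 hs h2 hΩ ?_ hy _
  simp only [Pi.smul_apply, smul_eq_mul, mul_pow, ← Finset.mul_sum, ← hr2]
  field_simp

/-! ### connectedness -/

/-- the subspace `y6 = 0` -/
noncomputable def E6 : Submodule ℝ (Fin 9 → ℝ) :=
  LinearMap.ker (LinearMap.pi (fun i : {i : Fin 9 // 3 ≤ i.val} =>
    (LinearMap.proj i.1 : (Fin 9 → ℝ) →ₗ[ℝ] ℝ)))

lemma mem_E6 (y : Fin 9 → ℝ) : y ∈ E6 ↔ ∀ i : Fin 9, 3 ≤ i.val → y i = 0 := by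
  unfold E6
  rw [LinearMap.mem_ker]
  constructor
  · intro h i hi
    exact congrFun h ⟨i, hi⟩
  · intro h
    funext i
    exact h i.1 i.2

lemma notMem_E6 {y : Fin 9 → ℝ} (hy : y ∉ E6) :
    0 < ∑ i : Fin 9, if 3 ≤ i.val then y i ^ 2 else 0 := by
  rw [mem_E6] at hy
  push Not at hy
  obtain ⟨i, hi, hyi⟩ := hy
  refine Finset.sum_pos' (fun j _ => ?_) ⟨i, Finset.mem_univ _, ?_⟩
  · split_ifs
    · exact sq_nonneg _
    · exact le_rfl
  · rw [if_pos hi]; positivity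

lemma E6_conn : IsConnected ((E6 : Set (Fin 9 → ℝ))ᶜ) := by
  apply isConnected_compl_of_one_lt_codim
  have hsurj : Function.Surjective (LinearMap.pi (fun i : {i : Fin 9 // 3 ≤ i.val} =>
      (LinearMap.proj i.1 : (Fin 9 → ℝ) →ₗ[ℝ] ℝ))) := by
    intro z
    refine ⟨fun i => if h : 3 ≤ i.val then z ⟨i, h⟩ else 0, ?_⟩
    funext i
    simp [i.2]
  have e := LinearMap.quotKerEquivOfSurjective _ hsurj
  have h1 : Module.rank ℝ ((Fin 9 → ℝ) ⧸ E6) = Module.rank ℝ ({i : Fin 9 // 3 ≤ i.val} → ℝ) :=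
    e.rank_eq
  rw [h1, rank_fun']
  have : Fintype.card {i : Fin 9 // 3 ≤ i.val} = 6 := by decide
  rw [this]
  norm_num

lemma const_y (hs : SmStmt S) (h2 : Om2Stmt S) {Ω : F} (hΩ : ∀ A α, S.am A α Ω = 0)
    {n : Fin 3 → ℝ} (hn : ∑ A, n A ^ 2 = 1) {y y' : Fin 9 → ℝ} (hy : y ∉ E6) (hy' : y' ∉ E6) :
    ‖S.om Ω (cone n y)‖ ^ 2 = ‖S.om Ω (cone n y')‖ ^ 2 := by
  have hpos : ∀ z : Fin 9 → ℝ, z ∉ E6 → 0 < rho6sq (cone n z) := fun z hz => by
    rw [rho6sq_cone, hn, one_mul]; exact notMem_E6 hz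
  have hd : ∀ z : Fin 9 → ℝ, z ∉ E6 →
      HasFDerivAt (fun z => ‖S.om Ω (cone n z)‖ ^ 2) (0 : (Fin 9 → ℝ) →L[ℝ] ℝ) z := by
    intro z hz
    obtain ⟨L, hL, hLv⟩ := hasFDerivAt_nsq (diff_om hs hΩ (hpos z hz))
    have h3 : HasFDerivAt (fun z => ‖S.om Ω (cone n z)‖ ^ 2) (L.comp (coneY n)) z :=
      HasFDerivAt.comp (g := fun x => ‖S.om Ω x‖ ^ 2) z hL (coneY n).hasFDerivAt
    have h4 : L.comp (coneY n) = 0 := by
      ext v
      simp only [ContinuousLinearMap.comp_apply, _root_.zero_apply]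
      rw [hLv, coneY_apply, dY hs h2 hΩ hn (hpos z hz), mul_zero]
    rwa [h4] at h3
  have hop : IsOpen ((E6 : Set (Fin 9 → ℝ))ᶜ) :=
    (Submodule.closed_of_finiteDimensional E6).isOpen_compl
  exact hop.is_const_of_fderiv_eq_zero E6_conn.isPreconnected
    (fun z hz => (hd z hz).differentiableAt.differentiableWithinAt)
    (fun z hz => (hd z hz).fderiv) hy hy'

lemma const_n (hs : SmStmt S) (h2 : Om2Stmt S) {Ω : F} (hΩ : ∀ A α, S.am A α Ω = 0)
    {n n' : Fin 3 → ℝ} (hn : n ≠ 0) (hn' : n' ≠ 0) {y : Fin 9 → ℝ} (hy : y ∉ E6) :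
    ‖S.om Ω (cone n y)‖ ^ 2 = ‖S.om Ω (cone n' y)‖ ^ 2 := by
  have hpos : ∀ z : Fin 3 → ℝ, z ≠ 0 → 0 < rho6sq (cone z y) := fun z hz => by
    rw [rho6sq_cone]
    refine mul_pos ?_ (notMem_E6 hy)
    obtain ⟨A, hA⟩ := Function.ne_iff.1 hz
    have hA' : z A ≠ 0 := hA
    exact Finset.sum_pos' (fun _ _ => sq_nonneg _) ⟨A, Finset.mem_univ _, by positivity⟩
  have hd : ∀ z : Fin 3 → ℝ, z ≠ 0 →
      HasFDerivAt (fun z => ‖S.om Ω (cone z y)‖ ^ 2) (0 : (Fin 3 → ℝ) →L[ℝ] ℝ) z := by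
    intro z hz
    obtain ⟨L, hL, hLv⟩ := hasFDerivAt_nsq (diff_om hs hΩ (hpos z hz))
    have h3 : HasFDerivAt (fun z => ‖S.om Ω (cone z y)‖ ^ 2) (L.comp (coneN y)) z :=
      HasFDerivAt.comp (g := fun x => ‖S.om Ω x‖ ^ 2) z hL (coneN y).hasFDerivAt
    have h4 : L.comp (coneN y) = 0 := by
      ext v
      simp only [ContinuousLinearMap.comp_apply, _root_.zero_apply]
      rw [hLv, coneN_apply, dN hs h2 hΩ (hpos z hz), mul_zero]
    rwa [h4] at h3
  have hconn : IsConnected ({(0 : Fin 3 → ℝ)}ᶜ) :=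
    isConnected_compl_singleton_of_one_lt_rank (by rw [rank_fun']; norm_num) 0
  exact isOpen_compl_singleton.is_const_of_fderiv_eq_zero hconn.isPreconnected
    (fun z hz => (hd z hz).differentiableAt.differentiableWithinAt)
    (fun z hz => (hd z hz).fderiv) hn hn'

end ON

open ON in
/-- **D-norm** -/
theorem omNorm {F : Type*} [NormedAddCommGroup F] [InnerProductSpace ℂ F] {S : Setup F}
    (hs : SmStmt S) (h1 : Om1Stmt S) (h2 : Om2Stmt S) : OmNormStmt S := by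
  intro Ω hΩ0 hΩ
  obtain ⟨n0, hn0⟩ : ∃ n0 : Fin 3 → ℝ, n0 = Pi.single 0 1 := ⟨_, rfl⟩
  obtain ⟨y0, hy0⟩ : ∃ y0 : Fin 9 → ℝ, y0 = Pi.single 3 1 := ⟨_, rfl⟩
  have hn01 : ∑ A, n0 A ^ 2 = 1 := by
    rw [hn0]; simp [Fin.sum_univ_three]
  have hy0E : y0 ∉ E6 := by
    rw [mem_E6]
    push Not
    refine ⟨3, le_rfl, ?_⟩
    rw [hy0]; simp
  have hpos0 : 0 < rho6sq (cone n0 y0) := by
    rw [rho6sq_cone, hn01, one_mul]; exact notMem_E6 hy0E
  have hne : S.om Ω (cone n0 y0) ≠ 0 := by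
    intro h0
    have h3 := (h1 Ω hΩ n0 y0 hn01 hpos0).2.2
    rw [h0, inner_zero_right] at h3
    have h4 : 0 < (rho6sq (cone n0 y0) / ry y0 ^ 2) ^ 2 / 16 := by
      have h5 : ry y0 ^ 2 = ∑ i, y0 i ^ 2 :=
        Real.sq_sqrt (Finset.sum_nonneg fun _ _ => sq_nonneg _)
      have h6 := sum_y_pos hpos0
      rw [h5]
      positivity
    have h7 : 0 < ‖Ω‖ ^ 2 := by positivity
    rw [← Complex.ofReal_mul] at h3
    exact (mul_pos h4 h7).ne' (Complex.ofReal_eq_zero.1 h3.symm)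
  refine ⟨‖S.om Ω (cone n0 y0)‖, norm_pos_iff.2 hne, fun n y hn hy => ?_⟩
  have hyE : y ∉ E6 := by
    intro hE
    rw [mem_E6] at hE
    rw [rho6sq_cone, hn, one_mul] at hy
    refine absurd hy (not_lt.2 (le_of_eq (Finset.sum_eq_zero fun i _ => ?_)))
    split_ifs with h
    · rw [hE i h]; ring
    · rfl
  have hn0' : n0 ≠ 0 := by
    rintro h; rw [h] at hn01; simp at hn01
  have hn' : n ≠ 0 := by
    rintro h; rw [h] at hn; simp at hn
  have h3 := (const_n hs h2 hΩ hn' hn0' hyE).trans (const_y hs h2 hΩ hn01 hyE hy0E)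
  exact (sq_eq_sq₀ (norm_nonneg _) (norm_nonneg _)).1 h3

end U
end Vale.Agent.P353
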