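import Vale.Agent.P353.U.StmtD

/-! # P353, uniqueness for `N = 2`: the vacuum on the cone (D-1) -/

open MeasureTheory Filter Topology
open scoped ContDiff Matrix

namespace Vale.Agent.P353

variable {F : Type*} [NormedAddCommGroup F] [InnerProductSpace ℂ F]

/-! ### algebra of an involution -/

section Inv

variable {R : Type*} [Ring R] [Algebra ℂ R] {G : R}

lemma o1_pp (h : G * G = 1) :
    ((1 / 2 : ℂ) • (1 + G)) * ((1 / 2 : ℂ) • (1 + G)) = (1 / 2 : ℂ) • (1 + G) := by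
  have e : (1 + G) * (1 + G) = (2 : ℂ) • (1 + G) := by
    rw [two_smul, add_mul, mul_add, mul_add, h]; simp only [one_mul, mul_one]; abel
  rw [smul_mul_smul_comm, e, smul_smul]
  norm_num

lemma o1_mm (h : G * G = 1) :
    ((1 / 2 : ℂ) • (1 - G)) * ((1 / 2 : ℂ) • (1 - G)) = (1 / 2 : ℂ) • (1 - G) := by
  have e : (1 - G) * (1 - G) = (2 : ℂ) • (1 - G) := by
    rw [two_smul, sub_mul, mul_sub, mul_sub, h]; simp only [one_mul, mul_one]; abel
  rw [smul_mul_smul_comm, e, smul_smul]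
  norm_num

lemma o1_pm (h : G * G = 1) :
    ((1 / 2 : ℂ) • (1 + G)) * ((1 / 2 : ℂ) • (1 - G)) = 0 := by
  have e : (1 + G) * (1 - G) = 0 := by
    rw [add_mul, mul_sub, mul_sub, h]; simp only [one_mul, mul_one]; abel
  rw [smul_mul_smul_comm, e, smul_zero]

lemma o1_mp (h : G * G = 1) :
    ((1 / 2 : ℂ) • (1 - G)) * ((1 / 2 : ℂ) • (1 + G)) = 0 := by
  have e : (1 - G) * (1 + G) = 0 := by
    rw [sub_mul, mul_add, mul_add, h]; simp only [one_mul, mul_one]; abel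
  rw [smul_mul_smul_comm, e, smul_zero]

end Inv

lemma o1_sum {E : Type*} [AddCommMonoid E] (D : Fin 3) (x : Fin 3 → E) :
    ∑ A : Fin 3, ∑ B : Fin 3, ((if D = A then x B else 0) + (if D = B then x A else 0)) =
      ∑ B, x B + ∑ B, x B := by
  simp only [Finset.sum_add_distrib]
  congr 1
  · rw [Finset.sum_comm]
    simp
  · simp

lemma o1_abs {R : Type*} [Ring R] [Algebra ℂ R] (v : R) (b : Fin 3 → Fin 3 → R) (D : Fin 3)
    (x : Fin 3 → R)
    (h : ∀ A B, v * b A B - b A B * v = (if D = A then x B else 0) + (if D = B then x A else 0)) :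
    v * ((1 / 2 : ℂ) • ∑ A, ∑ B, b A B) - ((1 / 2 : ℂ) • ∑ A, ∑ B, b A B) * v = ∑ B, x B := by
  have hs : v * (∑ A, ∑ B, b A B) - (∑ A, ∑ B, b A B) * v = ∑ B, x B + ∑ B, x B := by
    rw [← o1_sum D x, Finset.mul_sum, Finset.sum_mul, ← Finset.sum_sub_distrib]
    refine Finset.sum_congr rfl fun A _ => ?_
    rw [Finset.mul_sum, Finset.sum_mul, ← Finset.sum_sub_distrib]
    exact Finset.sum_congr rfl fun B _ => h A B
  rw [mul_smul_comm, smul_mul_assoc, ← smul_sub, hs, ← two_smul ℂ, smul_smul]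
  norm_num

namespace CS

variable {R : Type*} [Ring R] [Algebra ℂ R] (S : CS R)

/-- `[(Mθ^D)_δ, θ^A N θ^B]` -/
lemma o1_comm (M N : Matrix (Fin 16) (Fin 16) ℂ) (D A B : Fin 3) (δ : Fin 16) :
    S.vec M D δ * S.bil N A B - S.bil N A B * S.vec M D δ =
      (if D = A then S.vec (M * N) B δ else 0) - (if D = B then S.vec (M * Nᵀ) A δ else 0) := by
  have hb : S.bil N A B = ∑ γ, S.vec 1 A γ * S.vec N B γ := by
    rw [S.sum_vec_mul_vec]; simp
  rw [hb, Finset.mul_sum, Finset.sum_mul, ← Finset.sum_sub_distrib]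
  have h1 : ∀ γ, S.vec M D δ * (S.vec 1 A γ * S.vec N B γ) -
      S.vec 1 A γ * S.vec N B γ * S.vec M D δ =
      (if D = A then (M δ γ) • S.vec N B γ else 0) -
        (if D = B then ((M * Nᵀ) δ γ) • S.vec 1 A γ else 0) := by
    intro γ
    have e1 := S.vec_anti M 1 D A δ γ
    have e2 := S.vec_anti M N D B δ γ
    have : S.vec M D δ * (S.vec 1 A γ * S.vec N B γ) -
      S.vec 1 A γ * S.vec N B γ * S.vec M D δ =
      (S.vec M D δ * S.vec 1 A γ + S.vec 1 A γ * S.vec M D δ) * S.vec N B γ -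
      S.vec 1 A γ * (S.vec M D δ * S.vec N B γ + S.vec N B γ * S.vec M D δ) := by
      noncomm_ring
    rw [this, e1, e2]
    congr 1
    · split_ifs <;> simp
    · split_ifs <;> simp
  rw [Finset.sum_congr rfl fun γ _ => h1 γ, Finset.sum_sub_distrib]
  congr 1
  · split_ifs
    · rw [S.vec_mul]
    · simp
  · split_ifs
    · simp only [vec_one]; rfl
    · simp

/-- `Z = ½ ∑ b^A K^{AB} b^B`, `b = P_+ θ` -/
noncomputable def o1Zc (Pm Pp : Matrix (Fin 16) (Fin 16) ℂ)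
    (K : Fin 3 → Fin 3 → Matrix (Fin 16) (Fin 16) ℂ) : R :=
  (1 / 2 : ℂ) • ∑ A, ∑ B, S.bil (Pm * (K A B * Pp)) A B

/-- `X = K b` -/
noncomputable def o1Xc (Pp : Matrix (Fin 16) (Fin 16) ℂ)
    (K : Fin 3 → Fin 3 → Matrix (Fin 16) (Fin 16) ℂ) (D : Fin 3) (δ : Fin 16) : R :=
  ∑ B, S.vec (K D B * Pp) B δ

variable {Pm Pp : Matrix (Fin 16) (Fin 16) ℂ} {K : Fin 3 → Fin 3 → Matrix (Fin 16) (Fin 16) ℂ}

lemma o1_aZc (h1 : Pm * Pm = Pm) (h2 : Pp * Pp = Pp) (h3 : Ppᵀ = Pm) (h4 : Pmᵀ = Pp)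
    (hK1 : ∀ A B, (K A B)ᵀ = -K B A) (hK2 : ∀ A B, Pm * K A B = K A B * Pp)
    (D : Fin 3) (δ : Fin 16) :
    S.vec Pm D δ * S.o1Zc Pm Pp K - S.o1Zc Pm Pp K * S.vec Pm D δ = S.o1Xc Pp K D δ := by
  have e1 : ∀ A B, Pm * (Pm * (K A B * Pp)) = K A B * Pp := by
    intro A B
    rw [← mul_assoc, h1, ← mul_assoc, hK2, mul_assoc, h2]
  have e2 : ∀ A B, Pm * (Pm * (K A B * Pp))ᵀ = -(K B A * Pp) := by
    intro A B
    rw [Matrix.transpose_mul, Matrix.transpose_mul, h3, h4, hK1, mul_neg, neg_mul,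
      mul_neg, hK2, mul_assoc (K B A), h2, ← mul_assoc, hK2, mul_assoc, h2]
  refine o1_abs _ (fun A B => S.bil (Pm * (K A B * Pp)) A B) D
    (fun B => S.vec (K D B * Pp) B δ) fun A B => ?_
  rw [S.o1_comm, e1, e2, S.vec_neg, sub_eq_add_neg]
  congr 1
  · split_ifs with h
    · rw [h]
    · rfl
  · split_ifs with h
    · rw [neg_neg, h]
    · rw [neg_zero]

lemma o1_XZc (h : Pp * Pm = 0) (h3 : Ppᵀ = Pm) (D : Fin 3) (δ : Fin 16) :
    S.o1Xc Pp K D δ * S.o1Zc Pm Pp K = S.o1Zc Pm Pp K * S.o1Xc Pp K D δ := by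
  have hc : ∀ (M N : Matrix (Fin 16) (Fin 16) ℂ) (E A B : Fin 3),
      Commute (S.vec (M * Pp) E δ) (S.bil (Pm * (N * Pp)) A B) := by
    intro M N E A B
    refine sub_eq_zero.mp ?_
    rw [S.o1_comm]
    have e1 : M * Pp * (Pm * (N * Pp)) = 0 := by
      rw [mul_assoc, ← mul_assoc Pp, h, zero_mul, mul_zero]
    have e2 : M * Pp * (Pm * (N * Pp))ᵀ = 0 := by
      rw [Matrix.transpose_mul, Matrix.transpose_mul, h3, mul_assoc, ← mul_assoc Pp,
        ← mul_assoc Pp, h, zero_mul, zero_mul, mul_zero]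
    rw [e1, e2]
    simp [S.vec_zero]
  rw [o1Xc, o1Zc]
  exact (Commute.sum_left _ _ _ fun E _ => Commute.sum_right _ _ _ fun A _ =>
    Commute.sum_right _ _ _ fun B _ => hc (K D E) (K A B) E A B).smul_right _

end CS

namespace Setup

variable (S : Setup F)

/-- `P_+` -/
noncomputable def o1Pp : Matrix (Fin 16) (Fin 16) ℂ := (1 / 2 : ℂ) • (1 + Complex.I • S.Gam)

/-- `P_-` -/
noncomputable def o1Pm : Matrix (Fin 16) (Fin 16) ℂ := (1 / 2 : ℂ) • (1 - Complex.I • S.Gam)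

lemma o1_IG : (Complex.I • S.Gam) * (Complex.I • S.Gam) = 1 := by
  rw [smul_mul_smul_comm, Complex.I_mul_I, Gam_sq, neg_smul, one_smul, neg_neg]

lemma o1_Pp_Pp : S.o1Pp * S.o1Pp = S.o1Pp := o1_pp S.o1_IG
lemma o1_Pm_Pm : S.o1Pm * S.o1Pm = S.o1Pm := o1_mm S.o1_IG
lemma o1_Pp_Pm : S.o1Pp * S.o1Pm = 0 := o1_pm S.o1_IG
lemma o1_Pm_Pp : S.o1Pm * S.o1Pp = 0 := o1_mp S.o1_IG

lemma o1_Pp_T : S.o1Ppᵀ = S.o1Pm := by
  simp only [o1Pp, o1Pm, Matrix.transpose_smul, Matrix.transpose_add, Matrix.transpose_one,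
    Gam_transpose, smul_neg, sub_eq_add_neg]

lemma o1_Pm_T : S.o1Pmᵀ = S.o1Pp := by
  rw [← o1_Pp_T, Matrix.transpose_transpose]

lemma o1_Pm_add_Pp : S.o1Pm + S.o1Pp = 1 := by
  rw [o1Pm, o1Pp, ← smul_add]
  have : (1 - Complex.I • S.Gam) + (1 + Complex.I • S.Gam) =
      (2 : ℂ) • (1 : Matrix (Fin 16) (Fin 16) ℂ) := by
    rw [two_smul]; abel
  rw [this, smul_smul]
  norm_num

lemma o1_am (A : Fin 3) (α : Fin 16) : S.am A α = S.vec S.o1Pm A α := by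
  rw [am, o1Pm, S.vec_smul, S.vec_sub, S.vec_smul, S.vec_one]

lemma o1_bm (A : Fin 3) (α : Fin 16) : S.bm A α = S.vec S.o1Pp A α := by
  rw [bm, o1Pp, S.vec_smul, S.vec_add, S.vec_smul, S.vec_one]

lemma o1_adj (A : Fin 3) (α : Fin 16) (v w : F) :
    inner ℂ (S.am A α v) w = inner ℂ v (S.bm A α w) := by
  have h1 : ∀ a b, (S.Gam a b).im = 0 := S.Gam_real
  simp only [am, bm, _root_.smul_apply, _root_.sub_apply, _root_.add_apply, inner_smul_left,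
    inner_smul_right, inner_sub_left, inner_add_right, S.th_sa, S.vec_symm _ h1, Complex.conj_I,
    map_div₀, map_one, map_ofNat]
  ring

lemma o1_bilb (N : Matrix (Fin 16) (Fin 16) ℂ) (A B : Fin 3) :
    S.bilb N A B = S.bil (S.o1Pm * (N * S.o1Pp)) A B := by
  rw [← o1_Pp_T, ← S.sum_vec_mul_vec, bilb]
  refine Finset.sum_congr rfl fun α _ => ?_
  rw [S.vec_mul, Finset.mul_sum]
  refine Finset.sum_congr rfl fun β _ => ?_
  rw [o1_bm, o1_bm, mul_smul_comm]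

/-! ### the general Bogoliubov state -/

variable {K : Fin 3 → Fin 3 → Matrix (Fin 16) (Fin 16) ℂ}

lemma o1_aZ (hK1 : ∀ A B, (K A B)ᵀ = -K B A) (hK2 : ∀ A B, S.o1Pm * K A B = K A B * S.o1Pp)
    (D : Fin 3) (δ : Fin 16) :
    S.vec S.o1Pm D δ * S.o1Zc S.o1Pm S.o1Pp K - S.o1Zc S.o1Pm S.o1Pp K * S.vec S.o1Pm D δ =
      S.o1Xc S.o1Pp K D δ := by
  have h := S.o1_aZc S.o1_Pm_Pm S.o1_Pp_Pp S.o1_Pp_T S.o1_Pm_T hK1 hK2 D δ
  generalize S.o1Zc S.o1Pm S.o1Pp K = Z at h ⊢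
  generalize S.vec S.o1Pm D δ = V at h ⊢
  generalize S.o1Xc S.o1Pp K D δ = X at h ⊢
  exact h

lemma o1_XZ (D : Fin 3) (δ : Fin 16) : S.o1Xc S.o1Pp K D δ * S.o1Zc S.o1Pm S.o1Pp K =
    S.o1Zc S.o1Pm S.o1Pp K * S.o1Xc S.o1Pp K D δ := by
  have h := S.o1_XZc (K := K) S.o1_Pp_Pm S.o1_Pp_T D δ
  generalize S.o1Zc S.o1Pm S.o1Pp K = Z at h ⊢
  generalize S.o1Xc S.o1Pp K D δ = X at h ⊢
  exact h

/-- exponential lemma -/
lemma o1_exp [CompleteSpace F] {a X Z : F →L[ℂ] F} (h1 : a * Z - Z * a = X) (h2 : X * Z = Z * X)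
    {Ω : F} (h3 : a Ω = 0) : a (NormedSpace.exp Z Ω) = X (NormedSpace.exp Z Ω) := by
  have ha : a * Z = Z * a + X := by rw [← h1]; abel
  have hn : ∀ n : ℕ, a ((Z ^ (n + 1)) Ω) = ((n + 1 : ℕ) : ℂ) • X ((Z ^ n) Ω) := by
    intro n
    induction n with
    | zero =>
      have : a (Z Ω) = Z (a Ω) + X Ω := congrArg (fun T : F →L[ℂ] F => T Ω) ha
      simp [this, h3]
    | succ n ih =>
      have e1 : a ((Z ^ (n + 1 + 1)) Ω) = Z (a ((Z ^ (n + 1)) Ω)) + X ((Z ^ (n + 1)) Ω) := by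
        have := congrArg (fun T : F →L[ℂ] F => T ((Z ^ (n + 1)) Ω)) ha
        rw [pow_succ' Z (n + 1)]
        exact this
      have e2 : Z (X ((Z ^ n) Ω)) = X ((Z ^ (n + 1)) Ω) := by
        have := congrArg (fun T : F →L[ℂ] F => T ((Z ^ n) Ω)) h2
        rw [pow_succ' Z n]
        exact this.symm
      rw [e1, ih, map_smul, e2]
      push_cast
      rw [add_smul ((n : ℂ) + 1), one_smul]
  have hs : HasSum (fun n : ℕ => ((n.factorial : ℂ)⁻¹) • Z ^ n) (NormedSpace.exp Z) :=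
    NormedSpace.exp_series_hasSum_exp' Z
  have hA := (a.comp (ContinuousLinearMap.apply ℂ F Ω)).hasSum hs
  have hX := (X.comp (ContinuousLinearMap.apply ℂ F Ω)).hasSum hs
  simp only [ContinuousLinearMap.comp_apply, ContinuousLinearMap.apply_apply] at hA hX
  have hA' := (hasSum_nat_add_iff' (f := fun n : ℕ => a (((n.factorial : ℂ)⁻¹ • Z ^ n) Ω)) 1).mpr hA
  simp only [Finset.range_one, Finset.sum_singleton] at hA'
  have e0 : a (((Nat.factorial 0 : ℂ)⁻¹ • Z ^ 0) Ω) = 0 := by simp [h3]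
  rw [e0, sub_zero] at hA'
  refine hA'.unique (hX.congr fun s => Finset.sum_congr rfl fun n _ => ?_)
  beta_reduce
  rw [_root_.smul_apply, _root_.smul_apply, map_smul, map_smul, hn, smul_smul]
  congr 1
  rw [Nat.factorial_succ]
  push_cast
  have h4 : ((n : ℂ) + 1) ≠ 0 := by exact_mod_cast Nat.succ_ne_zero n
  rw [mul_inv, mul_comm ((n : ℂ) + 1)⁻¹, mul_assoc, inv_mul_cancel₀ h4, mul_one]

/-- pairing lemma -/
lemma o1_inner [CompleteSpace F] {Z : F →L[ℂ] F} {Ω : F} (h : ∀ v, inner ℂ Ω (Z v) = 0) :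
    inner ℂ Ω (NormedSpace.exp Z Ω) = inner ℂ Ω Ω := by
  have hs : HasSum (fun n : ℕ => ((n.factorial : ℂ)⁻¹) • Z ^ n) (NormedSpace.exp Z) :=
    NormedSpace.exp_series_hasSum_exp' Z
  have hA := ((innerSL ℂ Ω).comp (ContinuousLinearMap.apply ℂ F Ω)).hasSum hs
  have h0 : HasSum (fun n : ℕ => ((innerSL ℂ Ω).comp (ContinuousLinearMap.apply ℂ F Ω))
      (((n.factorial : ℂ)⁻¹) • Z ^ n)) (((innerSL ℂ Ω).comp (ContinuousLinearMap.apply ℂ F Ω))
      (((Nat.factorial 0 : ℂ)⁻¹) • Z ^ 0)) := by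
    refine hasSum_single 0 fun n hn => ?_
    obtain ⟨k, rfl⟩ := Nat.exists_eq_succ_of_ne_zero hn
    rw [map_smul, pow_succ']
    have : ((innerSL ℂ Ω).comp (ContinuousLinearMap.apply ℂ F Ω)) (Z * Z ^ k) =
      inner ℂ Ω (Z ((Z ^ k) Ω)) := rfl
    rw [Nat.succ_eq_add_one] at *
    rw [this, h, smul_zero]
  have h1 := hA.unique h0
  have e1 : ((innerSL ℂ Ω).comp (ContinuousLinearMap.apply ℂ F Ω)) (NormedSpace.exp Z) =
    inner ℂ Ω (NormedSpace.exp Z Ω) := rfl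
  have e2 : ((innerSL ℂ Ω).comp (ContinuousLinearMap.apply ℂ F Ω))
      (((Nat.factorial 0 : ℂ)⁻¹) • Z ^ 0) = inner ℂ Ω Ω := by
    simp
  rw [← e1, h1, e2]

/-- the annihilation operators on the state -/
lemma o1_state [CompleteSpace F] (hK1 : ∀ A B, (K A B)ᵀ = -K B A)
    (hK2 : ∀ A B, S.o1Pm * K A B = K A B * S.o1Pp) {Ω : F} (hΩ : ∀ A α, S.am A α Ω = 0)
    (D : Fin 3) (δ : Fin 16) :
    S.vec S.o1Pm D δ (NormedSpace.exp (S.o1Zc S.o1Pm S.o1Pp K) Ω) =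
      S.o1Xc S.o1Pp K D δ (NormedSpace.exp (S.o1Zc S.o1Pm S.o1Pp K) Ω) := by
  refine o1_exp (S.o1_aZ hK1 hK2 D δ) (S.o1_XZ D δ) ?_
  rw [← o1_am]
  exact hΩ D δ

/-- `(Mθ^D)_δ` on the state -/
lemma o1_vec {w : F} (hw : ∀ D γ, S.vec S.o1Pm D γ w = S.o1Xc S.o1Pp K D γ w)
    (M : Matrix (Fin 16) (Fin 16) ℂ) (D : Fin 3) (δ : Fin 16) :
    S.vec M D δ w = ∑ B, S.vec (M * (K D B + if D = B then 1 else 0) * S.o1Pp) B δ w := by
  have h1 : ∀ γ, S.th γ D w = ∑ B, S.vec ((K D B + if D = B then 1 else 0) * S.o1Pp) B γ w := by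
    intro γ
    have e1 : S.th γ D w = S.vec S.o1Pm D γ w + S.vec S.o1Pp D γ w := by
      rw [← _root_.add_apply, ← S.vec_add, o1_Pm_add_Pp, S.vec_one]
    rw [e1, hw, CS.o1Xc, _root_.sum_apply]
    simp only [add_mul, S.vec_add, _root_.add_apply, Finset.sum_add_distrib]
    congr 1
    rw [Finset.sum_eq_single D]
    · rw [if_pos rfl, one_mul]
    · intro B _ hB
      rw [if_neg hB.symm, zero_mul, S.vec_zero]; rfl
    · intro h; exact absurd (Finset.mem_univ D) h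
  have h2 : S.vec M D δ w = ∑ γ, M δ γ • S.th γ D w := by
    rw [CS.vec, _root_.sum_apply]; rfl
  rw [h2]
  simp only [h1, Finset.smul_sum]
  rw [Finset.sum_comm]
  refine Finset.sum_congr rfl fun B _ => ?_
  rw [mul_assoc, S.vec_mul, _root_.sum_apply]
  rfl

lemma o1_vw_smul (c : ℂ) (N : Matrix (Fin 16) (Fin 16) ℂ) (B : Fin 3) (δ : Fin 16) (w : F) :
    S.vec (c • N) B δ w = c • S.vec N B δ w := by
  rw [S.vec_smul]; rfl

lemma o1_vw_sum {ι : Type*} (s : Finset ι) (N : ι → Matrix (Fin 16) (Fin 16) ℂ) (B : Fin 3)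
    (δ : Fin 16) (w : F) : S.vec (∑ i ∈ s, N i) B δ w = ∑ i ∈ s, S.vec (N i) B δ w := by
  rw [S.vec_sum, _root_.sum_apply]

lemma o1_collect {w : F} (hw : ∀ D γ, S.vec S.o1Pm D γ w = S.o1Xc S.o1Pp K D γ w)
    (M : Matrix (Fin 16) (Fin 16) ℂ) (r : ℂ) (c : Fin 3 → ℂ) (δ : Fin 16) :
    r • ∑ D, c D • S.vec M D δ w =
      ∑ B, S.vec ((r • ∑ D, c D • (M * (K D B + if D = B then 1 else 0))) * S.o1Pp) B δ w := by
  have e1 : ∀ D, c D • S.vec M D δ w =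
      ∑ B, S.vec ((c D • (M * (K D B + if D = B then 1 else 0))) * S.o1Pp) B δ w := by
    intro D
    rw [S.o1_vec hw M D δ, Finset.smul_sum]
    refine Finset.sum_congr rfl fun B _ => ?_
    rw [smul_mul_assoc, o1_vw_smul]
  rw [Finset.sum_congr rfl fun D _ => e1 D, Finset.sum_comm, Finset.smul_sum]
  refine Finset.sum_congr rfl fun B _ => ?_
  rw [smul_mul_assoc, o1_vw_smul, Finset.sum_mul, o1_vw_sum]

/-! ### bilinears of `b` -/

lemma o1_bilb_smul (c : ℂ) (N : Matrix (Fin 16) (Fin 16) ℂ) (A B : Fin 3) :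
    S.bilb (c • N) A B = c • S.bilb N A B := by
  simp only [bilb, Finset.smul_sum, Matrix.smul_apply, smul_eq_mul, mul_smul]

lemma o1_bilb_sub (N N' : Matrix (Fin 16) (Fin 16) ℂ) (A B : Fin 3) :
    S.bilb (N - N') A B = S.bilb N A B - S.bilb N' A B := by
  simp only [bilb, Matrix.sub_apply, sub_smul, Finset.sum_sub_distrib]

lemma o1_bilb_sum {ι : Type*} (s : Finset ι) (N : ι → Matrix (Fin 16) (Fin 16) ℂ) (A B : Fin 3) :
    S.bilb (∑ i ∈ s, N i) A B = ∑ i ∈ s, S.bilb (N i) A B := by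
  simp only [bilb, Matrix.sum_apply, Finset.sum_smul]
  calc _ = ∑ α, ∑ i ∈ s, ∑ β, N i α β • (S.bm A α * S.bm B β) :=
        Finset.sum_congr rfl fun α _ => Finset.sum_comm
    _ = _ := Finset.sum_comm

lemma o1_Zc_eq (K : Fin 3 → Fin 3 → Matrix (Fin 16) (Fin 16) ℂ) :
    S.o1Zc S.o1Pm S.o1Pp K = (1 / 2 : ℂ) • ∑ A, ∑ B, S.bilb (K A B) A B := by
  rw [CS.o1Zc]
  simp only [← o1_bilb]

lemma o1_inner_Z {Ω : F} (hΩ : ∀ A α, S.am A α Ω = 0)
    (K : Fin 3 → Fin 3 → Matrix (Fin 16) (Fin 16) ℂ) (v : F) :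
    inner ℂ Ω (S.o1Zc S.o1Pm S.o1Pp K v) = 0 := by
  have hb : ∀ (A B : Fin 3) (α β : Fin 16), inner ℂ Ω (S.bm A α (S.bm B β v)) = 0 := by
    intro A B α β
    rw [← o1_adj, hΩ, inner_zero_left]
  rw [o1_Zc_eq, _root_.smul_apply, inner_smul_right, _root_.sum_apply, inner_sum]
  rw [Finset.sum_eq_zero, mul_zero]
  intro A _
  rw [_root_.sum_apply, inner_sum]
  refine Finset.sum_eq_zero fun B _ => ?_
  rw [bilb, _root_.sum_apply, inner_sum]
  refine Finset.sum_eq_zero fun α _ => ?_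
  rw [_root_.sum_apply, inner_sum]
  refine Finset.sum_eq_zero fun β _ => ?_
  rw [_root_.smul_apply, inner_smul_right, mul_apply_eq_comp, hb, mul_zero]

end Setup

/-! ### the cone -/

/-- `E_{AB} = ∑_C ε_{ACB} n_C` -/
noncomputable def o1E (n : Fin 3 → ℝ) (A B : Fin 3) : ℝ := ∑ C, (eps A C B : ℝ) * n C

/-- the projection orthogonal to `n` -/
noncomputable def o1P (n : Fin 3 → ℝ) (A B : Fin 3) : ℝ := (if A = B then 1 else 0) - n A * n B

section EP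

variable {n : Fin 3 → ℝ}

lemma o1E_swap (A B : Fin 3) : o1E n A B = -o1E n B A := by
  fin_cases A <;> fin_cases B <;> simp [o1E, Fin.sum_univ_three, eps] <;> ring

lemma o1P_swap (A B : Fin 3) : o1P n A B = o1P n B A := by
  unfold o1P
  rw [mul_comm (n A)]
  congr 1
  by_cases h : A = B
  · rw [h]
  · rw [if_neg h, if_neg (Ne.symm h)]

lemma o1_nE (B : Fin 3) : ∑ A, n A * o1E n A B = 0 := by
  fin_cases B <;> simp [o1E, Fin.sum_univ_three, eps] <;> ring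

lemma o1_nP (hn : ∑ A, n A ^ 2 = 1) (B : Fin 3) : ∑ A, n A * o1P n A B = 0 := by
  have e : ∑ A, n A * o1P n A B = n B - n B * ∑ A, n A ^ 2 := by
    simp only [o1P, mul_sub, Finset.sum_sub_distrib, mul_ite, mul_one, mul_zero,
      Finset.sum_ite_eq', Finset.mem_univ, if_true, Finset.mul_sum]
    congr 1
    exact Finset.sum_congr rfl fun A _ => by ring
  rw [e, hn]; ring

lemma o1_PE (A B : Fin 3) : ∑ C, o1P n A C * o1E n C B = o1E n A B := by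
  have e : ∑ C, o1P n A C * o1E n C B = o1E n A B - n A * ∑ C, n C * o1E n C B := by
    simp only [o1P, sub_mul, Finset.sum_sub_distrib, ite_mul, one_mul, zero_mul,
      Finset.sum_ite_eq, Finset.mem_univ, if_true, Finset.mul_sum, mul_assoc]
  rw [e, o1_nE]; ring

lemma o1_PP (hn : ∑ A, n A ^ 2 = 1) (A B : Fin 3) : ∑ C, o1P n A C * o1P n C B = o1P n A B := by
  have e : ∑ C, o1P n A C * o1P n C B = o1P n A B - n A * ∑ C, n C * o1P n C B := by
    simp only [o1P, sub_mul, Finset.sum_sub_distrib, ite_mul, one_mul, zero_mul,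
      Finset.sum_ite_eq, Finset.mem_univ, if_true, Finset.mul_sum, mul_assoc]
  rw [e, o1_nP hn]; ring

lemma o1_EP (A B : Fin 3) : ∑ C, o1E n A C * o1P n C B = o1E n A B := by
  have h := o1_PE (n := n) B A
  rw [o1E_swap A B, ← h, ← Finset.sum_neg_distrib]
  refine Finset.sum_congr rfl fun C _ => ?_
  rw [o1E_swap A C, o1P_swap C B]; ring

lemma o1_EE (hn : ∑ A, n A ^ 2 = 1) (A B : Fin 3) : ∑ C, o1E n A C * o1E n C B = -o1P n A B := by
  rw [Fin.sum_univ_three] at hn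
  fin_cases A <;> fin_cases B <;> simp [o1E, o1P, Fin.sum_univ_three, eps] <;>
    first | linear_combination hn | linear_combination -hn | ring

end EP

/-- parts of `y` in `I3` and `I6` -/
noncomputable def o1y3 (y : Fin 9 → ℝ) (i : Fin 9) : ℝ := if i.val < 3 then y i else 0
noncomputable def o1y6 (y : Fin 9 → ℝ) (i : Fin 9) : ℝ := if 3 ≤ i.val then y i else 0

lemma o1_y_add (y : Fin 9 → ℝ) (i : Fin 9) : o1y3 y i + o1y6 y i = y i := by
  unfold o1y3 o1y6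
  split_ifs with h1 h2
  · omega
  · ring
  · ring
  · omega

lemma o1_y36 (y : Fin 9 → ℝ) : ∑ i, o1y3 y i * o1y6 y i = 0 := by
  refine Finset.sum_eq_zero fun i _ => ?_
  unfold o1y3 o1y6
  split_ifs with h1 h2
  · omega
  · ring
  · ring
  · ring

lemma o1_y_sq (y : Fin 9 → ℝ) : ∑ i, o1y3 y i * o1y3 y i + ∑ i, o1y6 y i * o1y6 y i =
    ∑ i, y i ^ 2 := by
  rw [← Finset.sum_add_distrib]
  refine Finset.sum_congr rfl fun i _ => ?_
  unfold o1y3 o1y6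
  split_ifs with h1 h2
  · omega
  · ring
  · ring
  · omega

lemma o1_rho6 {n : Fin 3 → ℝ} (hn : ∑ A, n A ^ 2 = 1) (y : Fin 9 → ℝ) :
    rho6sq (cone n y) = ∑ i, o1y6 y i * o1y6 y i := by
  unfold rho6sq
  refine Finset.sum_congr rfl fun i _ => ?_
  unfold o1y6
  split_ifs with h
  · have : ∀ A, (cone n y) (i, A) ^ 2 = y i * y i * n A ^ 2 := by
      intro A
      simp only [cone]
      ring
    simp only [this, ← Finset.mul_sum, hn, mul_one]
  · simp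

lemma o1_ry (y : Fin 9 → ℝ) : ry y ^ 2 = ∑ i, y i ^ 2 := by
  unfold ry
  exact Real.sq_sqrt (Finset.sum_nonneg fun i _ => sq_nonneg _)

lemma o1_norm {n : Fin 3 → ℝ} (hn : ∑ A, n A ^ 2 = 1) (y : Fin 9 → ℝ) : ‖cone n y‖ = ry y := by
  unfold ry
  rw [EuclideanSpace.norm_eq]
  congr 1
  rw [Fintype.sum_prod_type]
  refine Finset.sum_congr rfl fun i _ => ?_
  have : ∀ A, ‖(cone n y) (i, A)‖ ^ 2 = y i ^ 2 * n A ^ 2 := by
    intro A
    rw [Real.norm_eq_abs, sq_abs]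
    simp only [cone]
    ring
  simp only [this, ← Finset.mul_sum, hn, mul_one]

namespace CS

variable {R : Type*} [Ring R] [Algebra ℂ R] (S : CS R)

/-- `u̸` -/
noncomputable def o1G (u : Fin 9 → ℝ) : Matrix (Fin 16) (Fin 16) ℂ := ∑ i, ((u i : ℝ) : ℂ) • S.g i

lemma o1G_T (u : Fin 9 → ℝ) : (S.o1G u)ᵀ = S.o1G u := by
  simp only [o1G, Matrix.transpose_sum, Matrix.transpose_smul, S.g_symm]

lemma o1G_anti (u w : Fin 9 → ℝ) : S.o1G u * S.o1G w + S.o1G w * S.o1G u =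
    ((2 * ∑ i, u i * w i : ℝ) : ℂ) • (1 : Matrix (Fin 16) (Fin 16) ℂ) := by
  have h1 : S.o1G u * S.o1G w = ∑ i, ∑ j, ((u i : ℂ) * (w j : ℂ)) • (S.g i * S.g j) := by
    rw [o1G, o1G, Finset.sum_mul_sum]
    simp only [smul_mul_smul_comm]
  have h2 : S.o1G w * S.o1G u = ∑ i, ∑ j, ((u i : ℂ) * (w j : ℂ)) • (S.g j * S.g i) := by
    rw [o1G, o1G, Finset.sum_mul_sum, Finset.sum_comm]
    refine Finset.sum_congr rfl fun i _ => Finset.sum_congr rfl fun j _ => ?_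
    rw [smul_mul_smul_comm, mul_comm (w j : ℂ)]
  rw [h1, h2, ← Finset.sum_add_distrib]
  simp only [← Finset.sum_add_distrib, ← smul_add, S.g_anti]
  have h3 : ∀ i j : Fin 9, ((u i : ℂ) * (w j : ℂ)) •
      (if i = j then (2 : Matrix (Fin 16) (Fin 16) ℂ) else 0) =
      if i = j then (2 * ((u i : ℂ) * (w i : ℂ))) • (1 : Matrix (Fin 16) (Fin 16) ℂ) else 0 := by
    intro i j
    split_ifs with h
    · subst h
      have : (2 : Matrix (Fin 16) (Fin 16) ℂ) = (2 : ℂ) • 1 := by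
        rw [two_smul]; norm_num
      rw [this, smul_smul, mul_comm]
    · rw [smul_zero]
  simp only [h3, Finset.sum_ite_eq, Finset.mem_univ, if_true]
  rw [← Finset.sum_smul, ← Finset.mul_sum]
  push_cast
  rfl

end CS

/-- the final matrix identity in a general algebra -/
lemma o1_fin {R : Type*} [Ring R] [Algebra ℂ R] {Y3 Y6 : R} {r s3 s6 e p : ℂ}
    (h66 : Y6 * Y6 = s6 • 1) (h33 : Y3 * Y3 = s3 • 1) (h36 : Y3 * Y6 = -(Y6 * Y3))
    (hs : s3 + s6 = r ^ 2) (h6 : s6 ≠ 0) :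
    Complex.I • ((Y3 + Y6) * ((1 / s6) • ((-(Complex.I * r * p)) • Y6 - e • (Y6 * Y3)) + e • 1)) =
      r • ((1 / s6) • ((Complex.I * r * e) • Y6 - p • (Y6 * Y3)) + p • (1 : R)) := by
  have a1 : (Y3 + Y6) * Y6 = -(Y6 * Y3) + s6 • 1 := by rw [add_mul, h36, h66]
  have a2 : (Y3 + Y6) * (Y6 * Y3) = -(s3 • Y6) + s6 • Y3 := by
    rw [← mul_assoc, a1, add_mul, neg_mul, mul_assoc, h33, mul_smul_comm, mul_one, smul_mul_assoc,
      one_mul]
  have hs3 : s3 = r ^ 2 - s6 := by rw [← hs]; ring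
  rw [mul_add, mul_smul_comm, mul_smul_comm, mul_one, mul_sub, mul_smul_comm, mul_smul_comm, a1,
    a2, hs3]
  have hI : Complex.I ^ 2 = -1 := Complex.I_sq
  match_scalars
  · field_simp
    linear_combination (r * p) * hI
  · field_simp
    linear_combination (-(r * p)) * hI
  · field_simp
    ring
  · field_simp
    ring

section Mod

variable {E : Type*} [AddCommGroup E] [Module ℂ E]

lemma o1_t1 (n : Fin 3 → ℝ) (y : Fin 9 → ℝ) (β : Fin 9 → Fin 3 → Fin 3 → E) :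
    (∑ a : Fin 9, ∑ A, ∑ B, ∑ C,
      (if 3 ≤ a.val then (eps A C B : ℂ) * ((cone n y) (a, C) : ℂ) else 0) • β a A B) =
      ∑ A, ∑ B, (o1E n A B : ℂ) • ∑ a, (o1y6 y a : ℂ) • β a A B := by
  have e1 : ∀ (a : Fin 9) (A B : Fin 3), (∑ C,
    (if 3 ≤ a.val then (eps A C B : ℂ) * ((cone n y) (a, C) : ℂ) else 0) • β a A B) =
      (o1E n A B : ℂ) • ((o1y6 y a : ℂ) • β a A B) := by
    intro a A B
    rw [← Finset.sum_smul, smul_smul]
    congr 1
    unfold o1y6 o1E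
    split_ifs with h
    · push_cast
      rw [Finset.sum_mul]
      refine Finset.sum_congr rfl fun C _ => ?_
      simp only [cone]
      push_cast
      ring
    · simp
  simp only [e1]
  rw [Finset.sum_comm]
  refine Finset.sum_congr rfl fun A _ => ?_
  rw [Finset.sum_comm]
  refine Finset.sum_congr rfl fun B _ => ?_
  rw [← Finset.smul_sum]

lemma o1_t2 {n : Fin 3 → ℝ} (hn : ∑ A, n A ^ 2 = 1) (y : Fin 9 → ℝ)
    (β : Fin 9 → Fin 9 → Fin 3 → Fin 3 → E) :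
    (∑ a : Fin 9, ∑ i : Fin 9, ∑ A, ∑ B,
      (if 3 ≤ a.val ∧ i.val < 3 then
        (if A = B then ∑ D, ((cone n y) (a, D) : ℂ) * ((cone n y) (i, D) : ℂ) else 0) -
          ((cone n y) (a, A) : ℂ) * ((cone n y) (i, B) : ℂ) else 0) • β a i A B) =
      ∑ A, ∑ B, (o1P n A B : ℂ) • ∑ a, ∑ i, ((o1y6 y a : ℂ) * (o1y3 y i : ℂ)) • β a i A B := by
  have hn' : ∑ A, (n A : ℂ) ^ 2 = 1 := by
    have := congrArg (fun x : ℝ => (x : ℂ)) hn
    push_cast at this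
    exact this
  have e1 : ∀ (a i : Fin 9) (A B : Fin 3),
    (if 3 ≤ a.val ∧ i.val < 3 then
      (if A = B then ∑ D, ((cone n y) (a, D) : ℂ) * ((cone n y) (i, D) : ℂ) else 0) -
        ((cone n y) (a, A) : ℂ) * ((cone n y) (i, B) : ℂ) else 0) =
      (o1P n A B : ℂ) * ((o1y6 y a : ℂ) * (o1y3 y i : ℂ)) := by
    intro a i A B
    have e2 : ∑ D, ((cone n y) (a, D) : ℂ) * ((cone n y) (i, D) : ℂ) = (y a : ℂ) * (y i : ℂ) := by
      have : ∀ D, ((cone n y) (a, D) : ℂ) * ((cone n y) (i, D) : ℂ) =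
          (y a : ℂ) * (y i : ℂ) * (n D : ℂ) ^ 2 := by
        intro D
        simp only [cone]
        push_cast
        ring
      simp only [this, ← Finset.mul_sum, hn', mul_one]
    rw [e2]
    unfold o1y6 o1y3 o1P
    by_cases h3 : 3 ≤ a.val
    · by_cases h4 : i.val < 3
      · rw [if_pos ⟨h3, h4⟩, if_pos h3, if_pos h4]
        simp only [cone]
        push_cast
        split_ifs <;> push_cast <;> ring
      · rw [if_neg (fun h => h4 h.2), if_neg h4]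
        simp
    · rw [if_neg (fun h => h3 h.1), if_neg h3]
      simp
  simp only [e1, mul_smul]
  calc _ = ∑ a : Fin 9, ∑ A, ∑ B, ∑ i : Fin 9, (o1P n A B : ℂ) • (o1y6 y a : ℂ) •
        (o1y3 y i : ℂ) • β a i A B := by
        refine Finset.sum_congr rfl fun a _ => ?_
        rw [Finset.sum_comm]
        refine Finset.sum_congr rfl fun A _ => ?_
        rw [Finset.sum_comm]
    _ = ∑ A, ∑ B, ∑ a : Fin 9, ∑ i : Fin 9, (o1P n A B : ℂ) • (o1y6 y a : ℂ) •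
        (o1y3 y i : ℂ) • β a i A B := by
        rw [Finset.sum_comm]
        refine Finset.sum_congr rfl fun A _ => ?_
        rw [Finset.sum_comm]
    _ = _ := by
        refine Finset.sum_congr rfl fun A _ => Finset.sum_congr rfl fun B _ => ?_
        simp only [← Finset.smul_sum]

lemma o1_t3 (n : Fin 3 → ℝ) (y : Fin 9 → ℝ) {r s6 : ℝ} (hr : (r : ℂ) ≠ 0) (h6 : (s6 : ℂ) ≠ 0)
    (β : Fin 9 → Fin 3 → Fin 3 → E) (β' : Fin 9 → Fin 9 → Fin 3 → Fin 3 → E) :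
    (1 / 2 : ℂ) • ∑ A, ∑ B, (1 / (s6 : ℂ)) • (
        (Complex.I * (r : ℂ) * (o1E n A B : ℂ)) • (∑ a, (o1y6 y a : ℂ) • β a A B) -
        (o1P n A B : ℂ) • ∑ a, ∑ i, ((o1y6 y a : ℂ) * (o1y3 y i : ℂ)) • β' a i A B) =
      ((r ^ 2 / (2 * s6) : ℝ) : ℂ) • ((Complex.I * ((1 / r : ℝ) : ℂ)) •
        (∑ A, ∑ B, (o1E n A B : ℂ) • ∑ a, (o1y6 y a : ℂ) • β a A B) -
        ((1 / r ^ 2 : ℝ) : ℂ) • ∑ A, ∑ B, (o1P n A B : ℂ) •
          ∑ a, ∑ i, ((o1y6 y a : ℂ) * (o1y3 y i : ℂ)) • β' a i A B) := by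
  have e : ∑ A, ∑ B, (1 / (s6 : ℂ)) • (
        (Complex.I * (r : ℂ) * (o1E n A B : ℂ)) • (∑ a, (o1y6 y a : ℂ) • β a A B) -
        (o1P n A B : ℂ) • ∑ a, ∑ i, ((o1y6 y a : ℂ) * (o1y3 y i : ℂ)) • β' a i A B) =
      (1 / (s6 : ℂ)) • ((Complex.I * (r : ℂ)) •
        (∑ A, ∑ B, (o1E n A B : ℂ) • ∑ a, (o1y6 y a : ℂ) • β a A B) -
        ∑ A, ∑ B, (o1P n A B : ℂ) •
          ∑ a, ∑ i, ((o1y6 y a : ℂ) * (o1y3 y i : ℂ)) • β' a i A B) := by
    rw [Finset.smul_sum, ← Finset.sum_sub_distrib, Finset.smul_sum]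
    refine Finset.sum_congr rfl fun A _ => ?_
    rw [Finset.smul_sum, ← Finset.sum_sub_distrib, Finset.smul_sum]
    refine Finset.sum_congr rfl fun B _ => ?_
    rw [mul_smul (Complex.I * (r : ℂ))]
  rw [e]
  generalize ∑ A, ∑ B, (o1E n A B : ℂ) • ∑ a, (o1y6 y a : ℂ) • β a A B = T1
  generalize ∑ A, ∑ B, (o1P n A B : ℂ) •
          ∑ a, ∑ i, ((o1y6 y a : ℂ) * (o1y3 y i : ℂ)) • β' a i A B = T2
  rw [smul_sub, smul_sub, smul_sub, smul_smul, smul_smul, smul_smul, smul_smul, smul_smul]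
  congr 2
  · push_cast
    field_simp
  · push_cast
    field_simp

end Mod

namespace Setup

variable (S : Setup F)

lemma o1G3_Gam (y : Fin 9 → ℝ) : S.o1G (o1y3 y) * S.Gam = S.Gam * S.o1G (o1y3 y) := by
  rw [CS.o1G, Finset.sum_mul, Finset.mul_sum]
  refine Finset.sum_congr rfl fun i _ => ?_
  rw [smul_mul_assoc, mul_smul_comm]
  by_cases h : i.val < 3
  · rw [S.g_Gam_comm h]
  · have : o1y3 y i = 0 := by rw [o1y3, if_neg h]
    rw [this, Complex.ofReal_zero, zero_smul, zero_smul]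

lemma o1G6_Gam (y : Fin 9 → ℝ) : S.o1G (o1y6 y) * S.Gam = -(S.Gam * S.o1G (o1y6 y)) := by
  rw [CS.o1G, Finset.sum_mul, Finset.mul_sum, ← Finset.sum_neg_distrib]
  refine Finset.sum_congr rfl fun i _ => ?_
  rw [smul_mul_assoc, mul_smul_comm]
  by_cases h : 3 ≤ i.val
  · rw [S.g_Gam_anti h, smul_neg]
  · have : o1y6 y i = 0 := by rw [o1y6, if_neg h]
    rw [this, Complex.ofReal_zero, zero_smul, zero_smul, neg_zero]

lemma o1_Pp_Y3 (y : Fin 9 → ℝ) : S.o1Pp * S.o1G (o1y3 y) = S.o1G (o1y3 y) * S.o1Pp := by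
  rw [o1Pp, smul_mul_assoc, mul_smul_comm, add_mul, mul_add, smul_mul_assoc, mul_smul_comm,
    o1G3_Gam, one_mul, mul_one]

lemma o1_Pm_Y6 (y : Fin 9 → ℝ) : S.o1Pm * S.o1G (o1y6 y) = S.o1G (o1y6 y) * S.o1Pp := by
  rw [o1Pp, o1Pm, smul_mul_assoc, mul_smul_comm, sub_mul, mul_add, smul_mul_assoc, mul_smul_comm,
    o1G6_Gam, one_mul, mul_one, smul_neg, sub_eq_add_neg]

/-- the kernel `K` -/
noncomputable def o1K (n : Fin 3 → ℝ) (y : Fin 9 → ℝ) (A B : Fin 3) :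
    Matrix (Fin 16) (Fin 16) ℂ :=
  (1 / ((∑ i, o1y6 y i * o1y6 y i : ℝ) : ℂ)) • (
    (Complex.I * (ry y : ℂ) * (o1E n A B : ℂ)) • S.o1G (o1y6 y) -
      (o1P n A B : ℂ) • (S.o1G (o1y6 y) * S.o1G (o1y3 y)))

lemma o1_Y66 (y : Fin 9 → ℝ) : S.o1G (o1y6 y) * S.o1G (o1y6 y) =
    ((∑ i, o1y6 y i * o1y6 y i : ℝ) : ℂ) • 1 := by
  have h := S.o1G_anti (o1y6 y) (o1y6 y)
  rw [← two_smul ℂ] at h
  have h2 := congrArg (fun M => (1 / 2 : ℂ) • M) h
  simp only [smul_smul] at h2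
  rw [show (1 / 2 : ℂ) * 2 = 1 by norm_num, one_smul] at h2
  rw [h2]
  congr 1
  push_cast
  ring

lemma o1_Y33 (y : Fin 9 → ℝ) : S.o1G (o1y3 y) * S.o1G (o1y3 y) =
    ((∑ i, o1y3 y i * o1y3 y i : ℝ) : ℂ) • 1 := by
  have h := S.o1G_anti (o1y3 y) (o1y3 y)
  rw [← two_smul ℂ] at h
  have h2 := congrArg (fun M => (1 / 2 : ℂ) • M) h
  simp only [smul_smul] at h2
  rw [show (1 / 2 : ℂ) * 2 = 1 by norm_num, one_smul] at h2
  rw [h2]
  congr 1
  push_cast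
  ring

lemma o1_Y36 (y : Fin 9 → ℝ) : S.o1G (o1y3 y) * S.o1G (o1y6 y) =
    -(S.o1G (o1y6 y) * S.o1G (o1y3 y)) := by
  have h := S.o1G_anti (o1y3 y) (o1y6 y)
  rw [o1_y36, mul_zero, Complex.ofReal_zero, zero_smul] at h
  exact eq_neg_of_add_eq_zero_left h

lemma o1K_T (n : Fin 3 → ℝ) (y : Fin 9 → ℝ) (A B : Fin 3) : (S.o1K n y A B)ᵀ = -S.o1K n y B A := by
  rw [o1K, o1K, Matrix.transpose_smul, Matrix.transpose_sub, Matrix.transpose_smul,
    Matrix.transpose_smul, Matrix.transpose_mul, S.o1G_T, S.o1G_T, o1_Y36, o1E_swap A B,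
    o1P_swap A B, ← smul_neg]
  congr 1
  push_cast
  simp only [mul_neg, neg_smul, smul_neg]
  abel

lemma o1K_Pm (n : Fin 3 → ℝ) (y : Fin 9 → ℝ) (A B : Fin 3) :
    S.o1Pm * S.o1K n y A B = S.o1K n y A B * S.o1Pp := by
  have e1 : S.o1Pm * (S.o1G (o1y6 y) * S.o1G (o1y3 y)) =
      S.o1G (o1y6 y) * S.o1G (o1y3 y) * S.o1Pp := by
    rw [← mul_assoc, o1_Pm_Y6, mul_assoc, o1_Pp_Y3, ← mul_assoc]
  rw [o1K, mul_smul_comm, smul_mul_assoc, mul_sub, sub_mul, mul_smul_comm, smul_mul_assoc,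
    mul_smul_comm, smul_mul_assoc, e1, o1_Pm_Y6]

/-- `Y = Y3 + Y6` -/
lemma o1_Y (y : Fin 9 → ℝ) : S.o1G (o1y3 y) + S.o1G (o1y6 y) = S.o1G y := by
  rw [CS.o1G, CS.o1G, CS.o1G, ← Finset.sum_add_distrib]
  refine Finset.sum_congr rfl fun i _ => ?_
  rw [← add_smul, ← Complex.ofReal_add, o1_y_add]

lemma o1_mat {n : Fin 3 → ℝ} (hn : ∑ A, n A ^ 2 = 1) {y : Fin 9 → ℝ}
    (h6 : 0 < ∑ i, o1y6 y i * o1y6 y i) (A B : Fin 3) :
    (ry y : ℂ) • ∑ D, ((o1P n A D : ℝ) : ℂ) • ((1 : Matrix (Fin 16) (Fin 16) ℂ) *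
      (S.o1K n y D B + if D = B then 1 else 0)) =
    Complex.I • ∑ D, ((o1E n A D : ℝ) : ℂ) • (S.o1G y *
      (S.o1K n y D B + if D = B then 1 else 0)) := by
  have hs : ((∑ i, o1y3 y i * o1y3 y i : ℝ) : ℂ) + ((∑ i, o1y6 y i * o1y6 y i : ℝ) : ℂ) =
      (ry y : ℂ) ^ 2 := by
    rw [← Complex.ofReal_add, o1_y_sq, ← o1_ry]
    push_cast; rfl
  have h6' : ((∑ i, o1y6 y i * o1y6 y i : ℝ) : ℂ) ≠ 0 := by exact_mod_cast h6.ne'
  have hf := o1_fin (e := (o1E n A B : ℂ)) (p := (o1P n A B : ℂ)) (S.o1_Y66 y) (S.o1_Y33 y)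
    (S.o1_Y36 y) hs h6'
  have c1 : ∑ D, ((o1P n A D : ℝ) : ℂ) * ((o1E n D B : ℝ) : ℂ) = (o1E n A B : ℂ) := by
    rw [← o1_PE A B]; push_cast; rfl
  have c2 : ∑ D, ((o1P n A D : ℝ) : ℂ) * ((o1P n D B : ℝ) : ℂ) = (o1P n A B : ℂ) := by
    rw [← o1_PP hn A B]; push_cast; rfl
  have c3 : ∑ D, ((o1E n A D : ℝ) : ℂ) * ((o1E n D B : ℝ) : ℂ) = -(o1P n A B : ℂ) := by
    rw [← Complex.ofReal_neg, ← o1_EE hn A B]; push_cast; rfl
  have c4 : ∑ D, ((o1E n A D : ℝ) : ℂ) * ((o1P n D B : ℝ) : ℂ) = (o1E n A B : ℂ) := by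
    rw [← o1_EP A B]; push_cast; rfl
  -- general summation
  have hsum : ∀ c : Fin 3 → ℂ, ∑ D, c D • (S.o1K n y D B + if D = B then 1 else 0) =
      (1 / ((∑ i, o1y6 y i * o1y6 y i : ℝ) : ℂ)) • (
        (Complex.I * (ry y : ℂ) * ∑ D, c D * (o1E n D B : ℂ)) • S.o1G (o1y6 y) -
        (∑ D, c D * (o1P n D B : ℂ)) • (S.o1G (o1y6 y) * S.o1G (o1y3 y))) +
        c B • (1 : Matrix (Fin 16) (Fin 16) ℂ) := by
    intro c
    simp only [smul_add, Finset.sum_add_distrib, smul_ite, smul_zero, Finset.sum_ite_eq',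
      Finset.mem_univ, if_true]
    congr 1
    rw [Finset.mul_sum, Finset.sum_smul, Finset.sum_smul, ← Finset.sum_sub_distrib,
      Finset.smul_sum]
    refine Finset.sum_congr rfl fun D _ => ?_
    rw [o1K, smul_comm, smul_sub, smul_smul, smul_smul]
    congr 3
    ring
  have l1 : ∑ D, ((o1P n A D : ℝ) : ℂ) • ((1 : Matrix (Fin 16) (Fin 16) ℂ) *
      (S.o1K n y D B + if D = B then 1 else 0)) =
      ∑ D, ((o1P n A D : ℝ) : ℂ) • (S.o1K n y D B + if D = B then 1 else 0) := by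
    simp only [one_mul]
  have l2 : ∑ D, ((o1E n A D : ℝ) : ℂ) • (S.o1G y *
      (S.o1K n y D B + if D = B then 1 else 0)) =
      S.o1G y * ∑ D, ((o1E n A D : ℝ) : ℂ) • (S.o1K n y D B + if D = B then 1 else 0) := by
    rw [Finset.mul_sum]
    exact Finset.sum_congr rfl fun D _ => (mul_smul_comm _ _ _).symm
  rw [l1, l2, hsum, hsum, c1, c2, c3, c4, ← S.o1_Y y, ← hf, mul_neg]

lemma o1_bv_smul (c : ℂ) (N : Matrix (Fin 16) (Fin 16) ℂ) (A B : Fin 3) (v : F) :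
    S.bilb (c • N) A B v = c • S.bilb N A B v := by
  rw [o1_bilb_smul]; rfl

lemma o1_bv_sub (N N' : Matrix (Fin 16) (Fin 16) ℂ) (A B : Fin 3) (v : F) :
    S.bilb (N - N') A B v = S.bilb N A B v - S.bilb N' A B v := by
  rw [o1_bilb_sub]; rfl

lemma o1_bv_G (u : Fin 9 → ℝ) (A B : Fin 3) (v : F) :
    S.bilb (S.o1G u) A B v = ∑ a, (u a : ℂ) • S.bilb (S.g a) A B v := by
  rw [CS.o1G, o1_bilb_sum, _root_.sum_apply]
  refine Finset.sum_congr rfl fun a _ => ?_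
  rw [o1_bv_smul]

lemma o1_bv_GG (u w : Fin 9 → ℝ) (A B : Fin 3) (v : F) :
    S.bilb (S.o1G u * S.o1G w) A B v =
      ∑ a, ∑ i, ((u a : ℂ) * (w i : ℂ)) • S.bilb (S.g a * S.g i) A B v := by
  rw [CS.o1G, CS.o1G, Finset.sum_mul_sum, o1_bilb_sum, _root_.sum_apply]
  refine Finset.sum_congr rfl fun a _ => ?_
  rw [o1_bilb_sum, _root_.sum_apply]
  refine Finset.sum_congr rfl fun i _ => ?_
  rw [smul_mul_smul_comm, o1_bv_smul]

/-- `Z(n⊗y) = ½ bKb` -/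
lemma o1_ZZ {n : Fin 3 → ℝ} (hn : ∑ A, n A ^ 2 = 1) {y : Fin 9 → ℝ}
    (h6 : 0 < ∑ i, o1y6 y i * o1y6 y i) :
    S.ZZ (cone n y) = S.o1Zc S.o1Pm S.o1Pp (S.o1K n y) := by
  have hr2 : (∑ i, o1y6 y i * o1y6 y i) ≤ ry y ^ 2 := by
    rw [o1_ry, ← o1_y_sq]
    have : 0 ≤ ∑ i, o1y3 y i * o1y3 y i := Finset.sum_nonneg fun i _ => mul_self_nonneg _
    linarith
  have hr : ry y ≠ 0 := by
    intro h
    rw [h] at hr2
    norm_num at hr2
    linarith
  have h6' : ((∑ i, o1y6 y i * o1y6 y i : ℝ) : ℂ) ≠ 0 := by exact_mod_cast h6.ne'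
  have hr' : (ry y : ℂ) ≠ 0 := by exact_mod_cast hr
  refine ContinuousLinearMap.ext fun v => ?_
  have k1 : ∀ A B, S.bilb (S.o1K n y A B) A B v =
      (1 / ((∑ i, o1y6 y i * o1y6 y i : ℝ) : ℂ)) • (
        (Complex.I * (ry y : ℂ) * (o1E n A B : ℂ)) •
          (∑ a, (o1y6 y a : ℂ) • S.bilb (S.g a) A B v) -
        (o1P n A B : ℂ) • ∑ a, ∑ i, ((o1y6 y a : ℂ) * (o1y3 y i : ℂ)) •
          S.bilb (S.g a * S.g i) A B v) := by
    intro A B
    rw [o1K, o1_bv_smul, o1_bv_sub, o1_bv_smul, o1_bv_smul, o1_bv_G, o1_bv_GG]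
  have k2 : S.o1Zc S.o1Pm S.o1Pp (S.o1K n y) v =
      (1 / 2 : ℂ) • ∑ A, ∑ B, S.bilb (S.o1K n y A B) A B v := by
    rw [o1_Zc_eq, _root_.smul_apply, _root_.sum_apply]
    simp only [_root_.sum_apply]
  have k3 := o1_t3 n y hr' h6' (fun a A B => S.bilb (S.g a) A B v)
    (fun a i A B => S.bilb (S.g a * S.g i) A B v)
  rw [k2]
  simp only [k1]
  rw [k3, ← o1_t1, ← o1_t2 hn, ZZ, o1_rho6 hn, o1_norm hn, _root_.smul_apply, _root_.sub_apply,
    _root_.smul_apply, _root_.smul_apply]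
  simp only [_root_.sum_apply, _root_.smul_apply]

/-- the state at a cone point -/
lemma o1_om [CompleteSpace F] {n : Fin 3 → ℝ} (hn : ∑ A, n A ^ 2 = 1) {y : Fin 9 → ℝ}
    (h6 : 0 < ∑ i, o1y6 y i * o1y6 y i) {Ω : F} (hΩ : ∀ A α, S.am A α Ω = 0)
    (D : Fin 3) (δ : Fin 16) :
    S.vec S.o1Pm D δ (S.om Ω (cone n y)) = S.o1Xc S.o1Pp (S.o1K n y) D δ (S.om Ω (cone n y)) := by
  rw [om, S.o1_ZZ hn h6, map_smul, map_smul, S.o1_state (S.o1K_T n y) (S.o1K_Pm n y) hΩ]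

end Setup

namespace U

/-- **D-1** -/
theorem om1 (S : Setup F) [FiniteDimensional ℂ F] : Om1Stmt S := by
  intro Ω hΩ n y hn h6
  have : CompleteSpace F := FiniteDimensional.complete ℂ F
  rw [o1_rho6 hn] at h6
  have hw : ∀ D γ, S.vec S.o1Pm D γ (S.om Ω (cone n y)) =
      S.o1Xc S.o1Pp (S.o1K n y) D γ (S.om Ω (cone n y)) := fun D γ => S.o1_om hn h6 hΩ D γ
  refine ⟨?_, ?_, ?_⟩
  · intro A α
    generalize S.om Ω (cone n y) = w at hw ⊢
    have hl : S.th α A w - ((n A : ℝ) : ℂ) • S.thn n α w =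
        ∑ D, ((o1P n A D : ℝ) : ℂ) • S.vec 1 D α w := by
      rw [Setup.thn, _root_.sum_apply, Finset.smul_sum]
      simp only [o1P, Complex.ofReal_sub, sub_smul, Finset.sum_sub_distrib, S.vec_one]
      congr 1
      · rw [Finset.sum_eq_single A]
        · rw [if_pos rfl, Complex.ofReal_one, one_smul]
        · intro B _ hB
          rw [if_neg hB.symm, Complex.ofReal_zero, zero_smul]
        · intro h; exact absurd (Finset.mem_univ A) h
      · refine Finset.sum_congr rfl fun B _ => ?_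
        rw [_root_.smul_apply, smul_smul, Complex.ofReal_mul]
    have hr : ∑ B, ∑ C, ∑ i, ((eps A B C : ℂ) * (n B : ℂ) * (y i : ℂ)) • S.vec (S.g i) C α w =
        ∑ C, ((o1E n A C : ℝ) : ℂ) • S.vec (S.o1G y) C α w := by
      rw [Finset.sum_comm]
      refine Finset.sum_congr rfl fun C _ => ?_
      have : S.vec (S.o1G y) C α w = ∑ i, (y i : ℂ) • S.vec (S.g i) C α w := by
        rw [CS.o1G, S.o1_vw_sum]
        refine Finset.sum_congr rfl fun i _ => ?_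
        rw [S.o1_vw_smul]
      rw [this, o1E]
      push_cast
      rw [Finset.sum_smul]
      refine Finset.sum_congr rfl fun B _ => ?_
      rw [Finset.smul_sum]
      refine Finset.sum_congr rfl fun i _ => ?_
      rw [smul_smul]
    rw [hl, hr, S.o1_collect hw 1 _ (fun D => ((o1P n A D : ℝ) : ℂ)),
      S.o1_collect hw (S.o1G y) _ (fun D => ((o1E n A D : ℝ) : ℂ))]
    refine Finset.sum_congr rfl fun B _ => ?_
    rw [S.o1_mat hn h6]
  · intro α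
    generalize S.om Ω (cone n y) = w at hw ⊢
    have hz : ∑ A, ((n A : ℝ) : ℂ) • S.vec S.o1Pm A α w = 0 := by
      simp only [hw, CS.o1Xc, _root_.sum_apply, Finset.smul_sum]
      rw [Finset.sum_comm]
      refine Finset.sum_eq_zero fun B _ => ?_
      have hK : ∑ A, ((n A : ℝ) : ℂ) • (S.o1K n y A B * S.o1Pp) = 0 := by
        have e1 : ∑ A, ((n A : ℝ) : ℂ) * ((o1E n A B : ℝ) : ℂ) = 0 := by
          have := congrArg (fun x : ℝ => (x : ℂ)) (o1_nE (n := n) B)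
          push_cast at this
          exact this
        have e2 : ∑ A, ((n A : ℝ) : ℂ) * ((o1P n A B : ℝ) : ℂ) = 0 := by
          have := congrArg (fun x : ℝ => (x : ℂ)) (o1_nP hn B)
          push_cast at this
          exact this
        have e3 : ∑ A, ((n A : ℝ) : ℂ) • S.o1K n y A B =
            (1 / ((∑ i, o1y6 y i * o1y6 y i : ℝ) : ℂ)) • (
              (Complex.I * (ry y : ℂ) * ∑ A, (n A : ℂ) * (o1E n A B : ℂ)) • S.o1G (o1y6 y) -
              (∑ A, (n A : ℂ) * (o1P n A B : ℂ)) • (S.o1G (o1y6 y) * S.o1G (o1y3 y))) := by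
          rw [Finset.mul_sum, Finset.sum_smul, Finset.sum_smul, ← Finset.sum_sub_distrib,
            Finset.smul_sum]
          refine Finset.sum_congr rfl fun D _ => ?_
          rw [Setup.o1K, smul_comm, smul_sub, smul_smul, smul_smul]
          congr 3
          ring
        simp only [← smul_mul_assoc]
        rw [← Finset.sum_mul, e3, e1, e2, mul_zero, zero_smul, zero_smul, sub_zero, smul_zero,
          zero_mul]
      have hK2 := congrArg (fun M => S.vec M B α w) hK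
      simp only [S.o1_vw_sum, S.o1_vw_smul, S.vec_zero] at hK2
      exact hK2
    have h2 : ∀ A, (2 : ℂ) • S.vec S.o1Pm A α w = S.th α A w - Complex.I • S.vec S.Gam A α w := by
      intro A
      rw [← S.o1_am, Setup.am, _root_.smul_apply, smul_smul, _root_.sub_apply, _root_.smul_apply]
      norm_num
    have h3 : S.thn n α w - Complex.I • ∑ A, ((n A : ℝ) : ℂ) • S.vec S.Gam A α w =
        (2 : ℂ) • ∑ A, ((n A : ℝ) : ℂ) • S.vec S.o1Pm A α w := by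
      rw [Setup.thn, _root_.sum_apply, Finset.smul_sum, Finset.smul_sum,
        ← Finset.sum_sub_distrib]
      refine Finset.sum_congr rfl fun A _ => ?_
      rw [smul_comm (2 : ℂ), h2, smul_sub, _root_.smul_apply, smul_comm Complex.I]
    rw [hz, smul_zero] at h3
    exact sub_eq_zero.mp h3
  · rw [Setup.om, inner_smul_right, S.o1_ZZ hn h6, Setup.o1_inner (S.o1_inner_Z hΩ _),
      inner_self_eq_norm_sq_to_K, o1_norm hn]
    push_cast
    rfl

end U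

end Vale.Agent.P353
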