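import Vale.Agent.P353.U.OutD
import Vale.Agent.P353.U.Sym

/-! # P353, D-Out: the outer state -/

set_option linter.all false

open MeasureTheory Filter Topology
open scoped ContDiff

namespace Vale.Agent.P353.U

variable {F : Type*} [NormedAddCommGroup F] [InnerProductSpace ℂ F]

/-- the outer state -/
noncomputable def uu (S : Setup F) (Ω : F) (m a b δ ε : ℝ) (x : X3) : F :=
  ((ct S a b δ ε x : ℝ) : ℂ) • (((S.ph m x : ℝ) : ℂ) • S.vv Ω x)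

section

variable (S : Setup F)

lemma pd_ev0 {u : X3 → F} {x : X3} (h : u =ᶠ[𝓝 x] fun _ => 0) (i : Fin 9) (A : Fin 3) :
    pd i A u x = 0 := by
  unfold pd
  rw [h.fderiv_eq]
  simp

lemma G_ev0 {u : X3 → F} {x : X3} (h : u =ᶠ[𝓝 x] fun _ => 0) (C : Fin 3) : S.G C u x = 0 := by
  unfold Setup.G
  simp only [pd_ev0 h, h.eq_of_nhds, smul_zero, Finset.sum_const_zero, map_zero, add_zero]

lemma J_ev0 {u : X3 → F} {x : X3} (h : u =ᶠ[𝓝 x] fun _ => 0) (k l : Fin 9) :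
    S.J k l u x = 0 := by
  unfold Setup.J
  simp only [pd_ev0 h, h.eq_of_nhds, smul_zero, sub_zero, Finset.sum_const_zero, map_zero, add_zero]

lemma Qm_ev0 {u : X3 → F} {x : X3} (h : u =ᶠ[𝓝 x] fun _ => 0) (m : ℝ) (β : Fin 16) :
    S.Qm m β u x = 0 := by
  unfold Setup.Qm Setup.Q
  simp only [pd_ev0 h, h.eq_of_nhds, map_zero, Finset.sum_const_zero, smul_zero, add_zero]

variable {S} {Ω : F} {m a b δ ε : ℝ}

lemma uu_ev (ha : 0 < a) (hb : 0 < b) (hδ : 0 < δ) (hε : 0 < ε) {x : X3}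
    (hx : x ∉ Rg S a b δ ε) : uu S Ω m a b δ ε =ᶠ[𝓝 x] fun _ => 0 := by
  filter_upwards [ct_ev ha hb hδ hε hx] with y hy
  rw [uu, hy, Complex.ofReal_zero, zero_smul]

lemma ww_cd (hs : SmStmt S) (hΩ : ∀ A α, S.am A α Ω = 0) {x : X3} (hx : 0 < rho6sq x) :
    ContDiffAt ℝ ∞ (fun y => ((S.ph m y : ℝ) : ℂ) • S.vv Ω y) x := by
  have hx0 : x ≠ 0 := by
    rintro rfl
    have := out_rho6_le (0 : X3)
    rw [norm_zero] at this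
    norm_num at this
    linarith
  have h1 : ContDiffAt ℝ ∞ (S.vv Ω) x :=
    (hs Ω hΩ).2.1.contDiffAt ((isOpen_lt continuous_const out_rho6_cont).mem_nhds hx)
  exact (Complex.ofRealCLM.contDiff.contDiffAt.comp x (cd_ph S m hx0)).smul h1

lemma uu_Tst (hs : SmStmt S) (hΩ : ∀ A α, S.am A α Ω = 0) (ha : 0 < a) (hb : 0 < b) (hδ : 0 < δ)
    (hε : 0 < ε) : Setup.Tst (uu S Ω m a b δ ε) := by
  constructor
  · rw [contDiff_iff_contDiffAt]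
    intro x
    by_cases hx : x ∈ Rg S a b δ ε
    · have h1 : ContDiffAt ℝ ∞ (fun y => ((ct S a b δ ε y : ℝ) : ℂ)) x :=
        Complex.ofRealCLM.contDiff.contDiffAt.comp x (cd_ct (S := S) ha hb hδ hε).contDiffAt
      have h2 := ww_cd (m := m) hs hΩ (Rg_pos ha hδ hx)
      exact h1.smul h2
    · have h := uu_ev (S := S) (Ω := Ω) (m := m) ha hb hδ hε hx
      exact contDiffAt_const.congr_of_eventuallyEq h
  · refine (ct_hcs (S := S) ha hb hδ hε).mono ?_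
    intro x hx
    simp only [Function.mem_support] at hx ⊢
    intro h0
    exact hx (by rw [uu, h0, Complex.ofReal_zero, zero_smul])

lemma uu_Inv (hs : SmStmt S) (hΩ : ∀ A α, S.am A α Ω = 0) (ha : 0 < a) (hb : 0 < b) (hδ : 0 < δ)
    (hε : 0 < ε) : S.Inv (uu S Ω m a b δ ε) := by
  refine ⟨uu_Tst hs hΩ ha hb hδ hε, fun C x => ?_, fun k l hkl x => ?_⟩
  · by_cases hx : x ∈ Rg S a b δ ε
    · have hp := Rg_pos ha hδ hx
      have h0 := Rg_ne ha hx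
      have hv : DifferentiableAt ℝ (S.vv Ω) x :=
        ((hs Ω hΩ).2.1.contDiffAt ((isOpen_lt continuous_const out_rho6_cont).mem_nhds
          hp)).differentiableAt (by simp)
      have hw := (ww_cd (m := m) hs hΩ hp).differentiableAt (by simp)
      have e1 := G_HI S C (HI_ct (S := S) ha hb hδ hε x) hw
      have e2 := G_HI S C (HI_ph S m h0) hv
      have e3 := (((hs Ω hΩ).2.2.2.2.2 x hp).1 C).2
      show S.G C (fun y => ((ct S a b δ ε y : ℝ) : ℂ) • (((S.ph m y : ℝ) : ℂ) • S.vv Ω y)) x = 0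
      rw [e1, e2, e3, smul_zero, smul_zero]
    · exact G_ev0 S (uu_ev ha hb hδ hε hx) C
  · by_cases hx : x ∈ Rg S a b δ ε
    · have hp := Rg_pos ha hδ hx
      have h0 := Rg_ne ha hx
      have hv : DifferentiableAt ℝ (S.vv Ω) x :=
        ((hs Ω hΩ).2.1.contDiffAt ((isOpen_lt continuous_const out_rho6_cont).mem_nhds
          hp)).differentiableAt (by simp)
      have hw := (ww_cd (m := m) hs hΩ hp).differentiableAt (by simp)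
      have e1 := J_HI S hkl (HI_ct (S := S) ha hb hδ hε x) hw
      have e2 := J_HI S hkl (HI_ph S m h0) hv
      have e3 := (((hs Ω hΩ).2.2.2.2.2 x hp).2 k l hkl).2
      show S.J k l (fun y => ((ct S a b δ ε y : ℝ) : ℂ) • (((S.ph m y : ℝ) : ℂ) • S.vv Ω y)) x = 0
      rw [e1, e2, e3, smul_zero, smul_zero]
    · exact J_ev0 S (uu_ev ha hb hδ hε hx) k l

end

/-- `∑_{i,A} ‖(γ^iθ^A)_β‖` -/
noncomputable def Nb (S : Setup F) (β : Fin 16) : ℝ := ∑ i, ∑ A, ‖S.vec (S.g i) A β‖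

lemma Nb_nonneg (S : Setup F) (β : Fin 16) : 0 ≤ Nb S β :=
  Finset.sum_nonneg fun i _ => Finset.sum_nonneg fun A _ => norm_nonneg _

lemma gradOp_le (S : Setup F) {χ : X3 → ℝ} {x : X3} {D : ℝ}
    (h : ∀ i A, |pdr i A χ x| ≤ D) (β : Fin 16) : ‖S.gradOp χ β x‖ ≤ D * Nb S β := by
  rw [Setup.gradOp, norm_smul, norm_neg, Complex.norm_I, one_mul, Nb, Finset.mul_sum]
  refine (norm_sum_le _ _).trans (Finset.sum_le_sum fun i _ => ?_)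
  rw [Finset.mul_sum]
  refine (norm_sum_le _ _).trans (Finset.sum_le_sum fun A _ => ?_)
  rw [norm_smul, Complex.norm_real]
  exact mul_le_mul_of_nonneg_right (h i A) (norm_nonneg _)

lemma final_arith {L K₀ c N C2 ft gf P s1 s2 s3 s4 X1 X2 X3 X4 b mb : ℝ} (hN : 0 ≤ N)
    (hX4 : 0 ≤ X4) (hb : 0 ≤ b) (hmb : 0 ≤ mb) (hs4 : 0 ≤ s4)
    (hsum : L ≤ 32 * C2 * ft + (8 * K₀ ^ 2 * c ^ 2) * gf * N)
    (hA : 32 * C2 * ft ≤ 96 * C2 * P * (b + mb) * s4)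
    (hB : gf ≤ 4 * (X1 * s1 + X3 * s3 + X2 * s2 + X4 * b * s4)) :
    L ≤ (32 * K₀ ^ 2 * c ^ 2 * N) * (X1 * s1 + X3 * s3 + X2 * s2) +
      ((32 * K₀ ^ 2 * c ^ 2 * N) * X4 + 96 * C2 * P) * (b + mb) * s4 := by
  have h1 : (8 * K₀ ^ 2 * c ^ 2) * gf * N ≤
      (8 * K₀ ^ 2 * c ^ 2) * (4 * (X1 * s1 + X3 * s3 + X2 * s2 + X4 * b * s4)) * N := by
    gcongr
  have h2 : 0 ≤ (32 * K₀ ^ 2 * c ^ 2 * N) * X4 * mb * s4 := by positivity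
  have h3 : (8 * K₀ ^ 2 * c ^ 2) * (4 * (X1 * s1 + X3 * s3 + X2 * s2 + X4 * b * s4)) * N =
      (32 * K₀ ^ 2 * c ^ 2 * N) * (X1 * s1 + X3 * s3 + X2 * s2) +
      (32 * K₀ ^ 2 * c ^ 2 * N) * X4 * b * s4 := by ring
  have h4 : ((32 * K₀ ^ 2 * c ^ 2 * N) * X4 + 96 * C2 * P) * (b + mb) * s4 =
      (32 * K₀ ^ 2 * c ^ 2 * N) * X4 * b * s4 + (32 * K₀ ^ 2 * c ^ 2 * N) * X4 * mb * s4 +
      96 * C2 * P * (b + mb) * s4 := by ring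
  rw [h3] at h1
  rw [h4]
  linarith

lemma term_bd (S : Setup F) (hs : SmStmt S) {Ω : F} (hΩ : ∀ A α, S.am A α Ω = 0)
    {K₀ Cq c Ce m a b δ ε : ℝ} (hK0 : 0 ≤ K₀) (hCq : 0 ≤ Cq)
    (ha : 0 < a) (hb : 0 < b) (hδ : 0 < δ) (hε : 0 < ε)
    (hG : ∀ i A (x : X3), |pdr i A (ct S a b δ ε) x| ≤ K₀ * gB S Cq a b δ ε x) {x : X3}
    (hx : x ∈ Rg S a b δ ε) (hv2 : ‖S.vv Ω x‖ ≤ 2 * c) (β : Fin 16)
    (hQ : ‖S.Qm m β (fun y => ((S.ph m y : ℝ) : ℂ) • S.vv Ω y) x‖ ≤ Ce * S.ph m x * tt S m x) :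
    ‖S.Qm m β (uu S Ω m a b δ ε) x‖ ^ 2 ≤
        2 * Ce ^ 2 * (S.ph m x ^ 2 * tt S m x ^ 2) +
          (8 * K₀ ^ 2 * c ^ 2) * (gB S Cq a b δ ε x ^ 2 * S.ph m x ^ 2) * Nb S β ^ 2 := by
  have hp := Rg_pos ha hδ hx
  have hw := (ww_cd (m := m) hs hΩ hp).differentiableAt (by simp)
  have hφ := ph_nonneg S m x
  have hg0 : 0 ≤ gB S Cq a b δ ε x := gB_nonneg S hCq ha hb hδ hε x
  have e1 : S.Qm m β (uu S Ω m a b δ ε) x = ((ct S a b δ ε x : ℝ) : ℂ) •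
      S.Qm m β (fun y => ((S.ph m y : ℝ) : ℂ) • S.vv Ω y) x +
      S.gradOp (ct S a b δ ε) β x (((S.ph m x : ℝ) : ℂ) • S.vv Ω x) := by
    have h1 := S.Q_cut (ct S a b δ ε) β (fun y => ((S.ph m y : ℝ) : ℂ) • S.vv Ω y) x
      (HI_ct ha hb hδ hε x).1 hw
    have h2 : S.Q β (uu S Ω m a b δ ε) x = _ := h1
    have h3 : S.MM β x (uu S Ω m a b δ ε x) = ((ct S a b δ ε x : ℝ) : ℂ) •
        S.MM β x (((S.ph m x : ℝ) : ℂ) • S.vv Ω x) := by rw [uu, map_smul]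
    unfold Setup.Qm
    rw [h2, h3, smul_add, smul_comm (m : ℂ)]
    beta_reduce
    abel
  have n1 : ‖((ct S a b δ ε x : ℝ) : ℂ) •
      S.Qm m β (fun y => ((S.ph m y : ℝ) : ℂ) • S.vv Ω y) x‖ ≤ Ce * S.ph m x * tt S m x := by
    rw [norm_smul, Complex.norm_real, Real.norm_eq_abs]
    exact (mul_le_of_le_one_left (norm_nonneg _) (ct_abs x)).trans hQ
  have n2 : ‖S.gradOp (ct S a b δ ε) β x (((S.ph m x : ℝ) : ℂ) • S.vv Ω x)‖ ≤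
      (K₀ * gB S Cq a b δ ε x * Nb S β) * (S.ph m x * (2 * c)) := by
    refine (ContinuousLinearMap.le_opNorm _ _).trans ?_
    refine mul_le_mul (gradOp_le S (fun i A => hG i A x) β) ?_ (norm_nonneg _) ?_
    · rw [norm_smul, Complex.norm_real, Real.norm_of_nonneg hφ]
      exact mul_le_mul_of_nonneg_left hv2 hφ
    · exact mul_nonneg (mul_nonneg hK0 hg0) (Nb_nonneg S β)
  rw [e1]
  generalize S.ph m x = φ at *
  generalize gB S Cq a b δ ε x = g at *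
  generalize tt S m x = t at *
  have n4 := pow_le_pow_left₀ (norm_nonneg _) ((norm_add_le _ _).trans (add_le_add n1 n2)) 2
  refine n4.trans ?_
  nlinarith [sq_nonneg (Ce * φ * t - (K₀ * g * Nb S β) * (φ * (2 * c)))]

lemma gB_sq_bd (S : Setup F) {Cq m a b δ ε : ℝ} (hm : 0 ≤ m) (ha : 0 < a) (hb : 0 < b)
    (hδ : 0 < δ) (hε : 0 < ε) {x : X3} (hxa : a ≤ ‖x‖) (hxb : ‖x‖ ≤ 2 * b) :
    gB S Cq a b δ ε x ^ 2 * S.ph m x ^ 2 ≤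
      4 * (1024 * a ^ 4 * shl S (2 * (1 / (2 * S.κ))) a (2 * a) Set.univ x +
        1024 * b ^ 4 * Real.exp (-(m * b ^ 2)) *
          shl S (2 * (1 / (2 * S.κ))) b (2 * b) Set.univ x +
        16 * Cq ^ 2 * b ^ 4 / δ ^ 4 *
          shl S (2 * (1 / (2 * S.κ))) a (2 * b) {x | rho6sq x ≤ (2 * δ) ^ 2 * ‖x‖ ^ 2} x +
        128 * Cq ^ 2 * S.κ / ε ^ 6 * b *
          shl S (2 * (1 / (2 * S.κ))) a (2 * b) Set.univ x) := by
  have hs1 := shl_nonneg S (2 * (1 / (2 * S.κ))) a (2 * a) Set.univ x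
  have b1 := g1_bd S ha hm x
  have b3 := g1_bd S hb hm x
  have b2 := g2_bd S (Cq := Cq) ha hb hδ hm x hxa hxb
  have b4 := g4_bd S (Cq := Cq) ha hb hε hm x hxa hxb
  have b1' : (if a ≤ ‖x‖ ∧ ‖x‖ ≤ 2 * a then 4 / a else 0) ^ 2 * S.ph m x ^ 2 ≤
      1024 * a ^ 4 * shl S (2 * (1 / (2 * S.κ))) a (2 * a) Set.univ x := by
    refine b1.trans ?_
    refine mul_le_mul_of_nonneg_right ?_ hs1
    refine mul_le_of_le_one_right (by positivity) ?_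
    rw [Real.exp_le_one_iff, neg_nonpos]
    positivity
  have hsq : ∀ p q r s : ℝ, ((p + q) + (r + s)) ^ 2 ≤ 4 * (p ^ 2 + q ^ 2 + r ^ 2 + s ^ 2) := by
    intro p q r s
    nlinarith [sq_nonneg (p - q), sq_nonneg (r - s), sq_nonneg (p + q - r - s)]
  unfold gB
  refine (mul_le_mul_of_nonneg_right (hsq _ _ _ _) (sq_nonneg _)).trans ?_
  rw [mul_assoc]
  refine mul_le_mul_of_nonneg_left ?_ (by norm_num)
  rw [add_mul, add_mul, add_mul]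
  exact add_le_add (add_le_add (add_le_add b1' b3) b2) b4

lemma tt_bd (S : Setup F) {Ce m a b : ℝ} (hm : 0 ≤ m) (ha : 0 < a) (hb : 0 < b)
    {x : X3} (hxa : a ≤ ‖x‖) (hxb : ‖x‖ ≤ 2 * b) :
    32 * Ce ^ 2 * (S.ph m x ^ 2 * tt S m x ^ 2) ≤
      96 * Ce ^ 2 * (12 * S.κ ^ 3 + 34 * S.κ) * (b + m ^ 2 * b ^ 5) *
        shl S (2 * (1 / (2 * S.κ))) a (2 * b) Set.univ x := by
  have hκ := S.κ_pos
  have h0 : x ≠ 0 := norm_pos_iff.1 (ha.trans_le hxa)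
  have ht := ph_tt S hm h0
  have hE0 := oEE_pos S x
  rw [shl_EE S a (2 * b) Set.univ hxa hxb (Set.mem_univ x)]
  have hpoly : 6 * S.κ ^ 3 * ‖x‖ + S.κ * ‖x‖ + S.κ * m ^ 2 * ‖x‖ ^ 5 ≤
      (12 * S.κ ^ 3 + 34 * S.κ) * (b + m ^ 2 * b ^ 5) := by
    have p5 : ‖x‖ ^ 5 ≤ (2 * b) ^ 5 := pow_le_pow_left₀ (norm_nonneg _) hxb 5
    have q1 : 6 * S.κ ^ 3 * ‖x‖ ≤ 6 * S.κ ^ 3 * (2 * b) := by gcongr
    have q2 : S.κ * ‖x‖ ≤ S.κ * (2 * b) := by gcongr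
    have q3 : S.κ * m ^ 2 * ‖x‖ ^ 5 ≤ S.κ * m ^ 2 * (2 * b) ^ 5 := by gcongr
    have q4 : 0 ≤ S.κ ^ 3 * (m ^ 2 * b ^ 5) := by positivity
    have q5 : 0 ≤ S.κ * b := by positivity
    have q6 : 0 ≤ S.κ * (m ^ 2 * b ^ 5) := by positivity
    have e : (12 * S.κ ^ 3 + 34 * S.κ) * (b + m ^ 2 * b ^ 5) = 6 * S.κ ^ 3 * (2 * b) +
        S.κ * (2 * b) + S.κ * m ^ 2 * (2 * b) ^ 5 + (12 * (S.κ ^ 3 * (m ^ 2 * b ^ 5)) +
        32 * (S.κ * b) + 2 * (S.κ * (m ^ 2 * b ^ 5))) := by ring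
    rw [e]
    linarith
  calc 32 * Ce ^ 2 * (S.ph m x ^ 2 * tt S m x ^ 2)
      ≤ 32 * Ce ^ 2 * (3 * oEE S x * ((12 * S.κ ^ 3 + 34 * S.κ) * (b + m ^ 2 * b ^ 5))) := by
        refine mul_le_mul_of_nonneg_left (ht.trans ?_) (by positivity)
        exact mul_le_mul_of_nonneg_left hpoly (by positivity)
    _ = _ := by ring

/-- pointwise bound -/
theorem point_bd (S : Setup F) (hs : SmStmt S) {Ω : F} (hΩ : ∀ A α, S.am A α Ω = 0)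
    {K₀ Cq c Ce m a b δ ε : ℝ} (hK0 : 0 ≤ K₀) (hCq : 0 ≤ Cq)
    (hm : 0 ≤ m) (ha : 0 < a) (hb : 0 < b) (hδ : 0 < δ) (hε : 0 < ε)
    (hG : ∀ i A (x : X3), |pdr i A (ct S a b δ ε) x| ≤ K₀ * gB S Cq a b δ ε x)
    (hE : ∀ x : X3, x ≠ 0 → δ ^ 2 * ‖x‖ ^ 2 ≤ rho6sq x → S.V x ≤ ε ^ 2 * ‖x‖ ^ 4 →
      ‖S.vv Ω x‖ ≤ 2 * c ∧ ∀ β,
        ‖S.Qm m β (fun y => ((S.ph m y : ℝ) : ℂ) • S.vv Ω y) x‖ ≤ Ce * S.ph m x * tt S m x)
    (x : X3) :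
    ∑ β, ‖S.Qm m β (uu S Ω m a b δ ε) x‖ ^ 2 ≤
      (32 * K₀ ^ 2 * c ^ 2 * ∑ β, Nb S β ^ 2) *
        (1024 * a ^ 4 * shl S (2 * (1 / (2 * S.κ))) a (2 * a) Set.univ x +
        1024 * b ^ 4 * Real.exp (-(m * b ^ 2)) *
          shl S (2 * (1 / (2 * S.κ))) b (2 * b) Set.univ x +
        16 * Cq ^ 2 * b ^ 4 / δ ^ 4 *
          shl S (2 * (1 / (2 * S.κ))) a (2 * b) {x | rho6sq x ≤ (2 * δ) ^ 2 * ‖x‖ ^ 2} x) +
      ((32 * K₀ ^ 2 * c ^ 2 * ∑ β, Nb S β ^ 2) * (128 * Cq ^ 2 * S.κ / ε ^ 6) +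
        96 * Ce ^ 2 * (12 * S.κ ^ 3 + 34 * S.κ)) * (b + m ^ 2 * b ^ 5) *
        shl S (2 * (1 / (2 * S.κ))) a (2 * b) Set.univ x := by
  have hκ := S.κ_pos
  have hN : 0 ≤ ∑ β, Nb S β ^ 2 := Finset.sum_nonneg fun β _ => sq_nonneg _
  have hs1 := shl_nonneg S (2 * (1 / (2 * S.κ))) a (2 * a) Set.univ x
  have hs3 := shl_nonneg S (2 * (1 / (2 * S.κ))) b (2 * b) Set.univ x
  have hs2 := shl_nonneg S (2 * (1 / (2 * S.κ))) a (2 * b) {x | rho6sq x ≤ (2 * δ) ^ 2 * ‖x‖ ^ 2} x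
  have hs4 := shl_nonneg S (2 * (1 / (2 * S.κ))) a (2 * b) Set.univ x
  by_cases hx : x ∈ Rg S a b δ ε
  · have h0 := Rg_ne ha hx
    have hxa : a ≤ ‖x‖ := hx.1.1
    have hxb : ‖x‖ ≤ 2 * b := by
      refine le_of_sq_le_sq ?_ (by positivity)
      nlinarith [hx.1.2, sq_nonneg b]
    have hV := S.V_nonneg x
    have hV2 : S.V x ≤ ε ^ 2 * ‖x‖ ^ 4 := by
      have := hx.2.2
      linarith
    obtain ⟨hv2, hQ⟩ := hE x h0 hx.2.1 hV2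
    have hsum : ∑ β, ‖S.Qm m β (uu S Ω m a b δ ε) x‖ ^ 2 ≤
        32 * Ce ^ 2 * (S.ph m x ^ 2 * tt S m x ^ 2) +
          (8 * K₀ ^ 2 * c ^ 2) * (gB S Cq a b δ ε x ^ 2 * S.ph m x ^ 2) * ∑ β, Nb S β ^ 2 := by
      refine (Finset.sum_le_sum fun β _ =>
        term_bd S hs hΩ hK0 hCq ha hb hδ hε hG hx hv2 β (hQ β)).trans (le_of_eq ?_)
      rw [Finset.sum_add_distrib, Finset.sum_const, Finset.card_univ,
        Fintype.card_fin, nsmul_eq_mul, Finset.mul_sum]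
      push_cast
      ring
    exact final_arith hN (by positivity) hb.le (by positivity) hs4 hsum
      (tt_bd S hm ha hb hxa hxb) (gB_sq_bd S hm ha hb hδ hε hxa hxb)
  · have hz : ∑ β, ‖S.Qm m β (uu S Ω m a b δ ε) x‖ ^ 2 = 0 := by
      refine Finset.sum_eq_zero fun β _ => ?_
      rw [Qm_ev0 S (uu_ev ha hb hδ hε hx) m β]
      simp
    rw [hz]
    positivity

/-! ### integrated bounds -/

lemma hPs_univ : ∀ t : ℝ, 0 < t → ∀ x : X3, t • x ∈ (Set.univ : Set X3) ↔ x ∈ (Set.univ : Set X3) :=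
  fun _ _ _ => by simp

lemma hPs_rho (δ : ℝ) : ∀ t : ℝ, 0 < t → ∀ x : X3, t • x ∈ {x : X3 | rho6sq x ≤ δ ^ 2 * ‖x‖ ^ 2} ↔
    x ∈ {x : X3 | rho6sq x ≤ δ ^ 2 * ‖x‖ ^ 2} := by
  intro t ht x
  show rho6sq (t • x) ≤ δ ^ 2 * ‖t • x‖ ^ 2 ↔ rho6sq x ≤ δ ^ 2 * ‖x‖ ^ 2
  rw [out_rho6_smul, norm_smul, Real.norm_of_nonneg ht.le, mul_pow]
  have hp : 0 < t ^ 2 := by positivity
  constructor
  · intro h
    refine le_of_mul_le_mul_left (h.trans (le_of_eq ?_)) hp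
    ring
  · intro h
    refine (mul_le_mul_of_nonneg_left h hp.le).trans (le_of_eq ?_)
    ring

lemma hP_rho (δ : ℝ) : MeasurableSet {x : X3 | rho6sq x ≤ δ ^ 2 * ‖x‖ ^ 2} :=
  (isClosed_le out_rho6_cont (continuous_const.mul (continuous_norm.pow 2))).measurableSet

lemma int4 {s1 s2 s3 s4 : X3 → ℝ} (h1 : Integrable s1) (h2 : Integrable s2) (h3 : Integrable s3)
    (h4 : Integrable s4) (A x1 x2 x3 x4 : ℝ) :
    Integrable (fun x => A * (x1 * s1 x + x3 * s3 x + x2 * s2 x) + x4 * s4 x) ∧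
    ∫ x, (A * (x1 * s1 x + x3 * s3 x + x2 * s2 x) + x4 * s4 x) =
      A * (x1 * (∫ x, s1 x) + x3 * (∫ x, s3 x) + x2 * (∫ x, s2 x)) + x4 * ∫ x, s4 x := by
  have i1 := h1.const_mul x1
  have i2 := h2.const_mul x2
  have i3 := h3.const_mul x3
  have i4 := h4.const_mul x4
  have i13 := i1.add i3
  have i132 := i13.add i2
  refine ⟨(i132.const_mul A).add i4, ?_⟩
  have e1 : ∫ x, (A * (x1 * s1 x + x3 * s3 x + x2 * s2 x) + x4 * s4 x) =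
      (∫ x, A * (x1 * s1 x + x3 * s3 x + x2 * s2 x)) + ∫ x, x4 * s4 x :=
    integral_add (i132.const_mul A) i4
  have e2 : ∫ x, (x1 * s1 x + x3 * s3 x + x2 * s2 x) =
      (∫ x, (x1 * s1 x + x3 * s3 x)) + ∫ x, x2 * s2 x := integral_add i13 i2
  have e3 : ∫ x, (x1 * s1 x + x3 * s3 x) = (∫ x, x1 * s1 x) + ∫ x, x3 * s3 x := integral_add i1 i3
  rw [e1, integral_const_mul, integral_const_mul, e2, e3, integral_const_mul, integral_const_mul,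
    integral_const_mul]

/-- integrated upper bound -/
theorem upper_bd (S : Setup F) (hs : SmStmt S) {Ω : F} (hΩ : ∀ A α, S.am A α Ω = 0)
    {K₀ Cq c Ce m a δ ε D : ℝ} (J : ℕ) (hK0 : 0 ≤ K₀) (hCq : 0 ≤ Cq)
    (hm : 0 ≤ m) (ha : 1 ≤ a) (hδ : 0 < δ) (hδ' : 2 * δ ≤ 1 / 10) (hε : 0 < ε)
    (hG : ∀ i A (x : X3), |pdr i A (ct S a (2 ^ J * a) δ ε) x| ≤
      K₀ * gB S Cq a (2 ^ J * a) δ ε x)
    (hE : ∀ x : X3, x ≠ 0 → δ ^ 2 * ‖x‖ ^ 2 ≤ rho6sq x → S.V x ≤ ε ^ 2 * ‖x‖ ^ 4 →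
      ‖S.vv Ω x‖ ≤ 2 * c ∧ ∀ β,
        ‖S.Qm m β (fun y => ((S.ph m y : ℝ) : ℂ) • S.vv Ω y) x‖ ≤ Ce * S.ph m x * tt S m x)
    (hD1 : UShell S (1 / (2 * S.κ)) D Set.univ)
    (hD2 : ∀ δ : ℝ, 0 < δ → δ ≤ 1 / 10 →
      UShell S (1 / (2 * S.κ)) (D * δ ^ 6) {x | rho6sq x ≤ δ ^ 2 * ‖x‖ ^ 2}) :
    ∑ β, nsq (S.Qm m β (uu S Ω m a (2 ^ J * a) δ ε)) ≤
      (32 * K₀ ^ 2 * c ^ 2 * ∑ β, Nb S β ^ 2) *
        (1024 * a ^ 4 * (D * a ^ 3) +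
        1024 * (2 ^ J * a) ^ 4 * Real.exp (-(m * (2 ^ J * a) ^ 2)) * (D * (2 ^ J * a) ^ 3) +
        16 * Cq ^ 2 * (2 ^ J * a) ^ 4 / δ ^ 4 *
          (D * (2 * δ) ^ 6 * (J + 1) * (2 ^ J * a) ^ 3)) +
      ((32 * K₀ ^ 2 * c ^ 2 * ∑ β, Nb S β ^ 2) * (128 * Cq ^ 2 * S.κ / ε ^ 6) +
        96 * Ce ^ 2 * (12 * S.κ ^ 3 + 34 * S.κ)) * ((2 ^ J * a) + m ^ 2 * (2 ^ J * a) ^ 5) *
        (D * (J + 1) * (2 ^ J * a) ^ 3) := by
  have hκ := S.κ_pos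
  have hk : 0 < 1 / (2 * S.κ) := by positivity
  have hk2 : 0 ≤ 2 * (1 / (2 * S.κ)) := by positivity
  have ha0 : 0 < a := by linarith
  have hN : 0 ≤ ∑ β, Nb S β ^ 2 := Finset.sum_nonneg fun β _ => sq_nonneg _
  have h2J : (1 : ℝ) ≤ 2 ^ J := one_le_pow₀ (by norm_num)
  obtain ⟨b, hbdef⟩ : ∃ b, b = 2 ^ J * a := ⟨_, rfl⟩
  have h2b : 2 * b = 2 ^ (J + 1) * a := by rw [hbdef]; ring
  rw [← hbdef] at hG ⊢
  have hb1 : 1 ≤ b := by rw [hbdef]; nlinarith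
  have hb0 : 0 < b := by linarith
  have hT : Setup.Tst (uu S Ω m a b δ ε) := uu_Tst hs hΩ ha0 hb0 hδ hε
  -- sum of integrals
  have hsum : ∑ β, nsq (S.Qm m β (uu S Ω m a b δ ε)) =
      ∫ x, ∑ β, ‖S.Qm m β (uu S Ω m a b δ ε) x‖ ^ 2 := by
    rw [integral_finsetSum]
    · rfl
    · intro β _
      exact memLp_norm_sq_int (Setup.Tst.Qm S hT m β).memLp
  rw [hsum]
  have j1 := shl_int S (a := a) (b := 2 * a) hk2 MeasurableSet.univ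
  have j3 := shl_int S (a := b) (b := 2 * b) hk2 MeasurableSet.univ
  have j2 := shl_int S (a := a) (b := 2 * b) hk2 (hP_rho (2 * δ))
  have j4 := shl_int S (a := a) (b := 2 * b) hk2 MeasurableSet.univ
  obtain ⟨hi, he⟩ := int4 j1 j2 j3 j4 (32 * K₀ ^ 2 * c ^ 2 * ∑ β, Nb S β ^ 2) (1024 * a ^ 4)
    (16 * Cq ^ 2 * b ^ 4 / δ ^ 4) (1024 * b ^ 4 * Real.exp (-(m * b ^ 2)))
    (((32 * K₀ ^ 2 * c ^ 2 * ∑ β, Nb S β ^ 2) * (128 * Cq ^ 2 * S.κ / ε ^ 6) +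
        96 * Ce ^ 2 * (12 * S.κ ^ 3 + 34 * S.κ)) * (b + m ^ 2 * b ^ 5))
  have hle := integral_mono_of_nonneg (μ := (volume : Measure X3))
    (Eventually.of_forall fun x => Finset.sum_nonneg fun β _ => sq_nonneg
      ‖S.Qm m β (uu S Ω m a b δ ε) x‖) hi
    (Eventually.of_forall fun x => point_bd S hs hΩ hK0 hCq hm ha0 hb0 hδ hε hG hE x)
  refine hle.trans ?_
  rw [he]
  have I1 := shl_shell S hk MeasurableSet.univ hPs_univ hD1 ha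
  have I3 := shl_shell S hk MeasurableSet.univ hPs_univ hD1 hb1
  have I2 := shl_multi S hk (hP_rho (2 * δ)) (hPs_rho (2 * δ)) (hD2 (2 * δ) (by positivity) hδ')
    ha J
  have I4 := shl_multi S hk MeasurableSet.univ hPs_univ hD1 ha J
  rw [← h2b, ← hbdef] at I2 I4
  gcongr

/-- integrated lower bound -/
theorem lower_bd (S : Setup F) (hs : SmStmt S) {Ω : F} (hΩ : ∀ A α, S.am A α Ω = 0)
    {c m r a b δ ε D : ℝ} (hc : 0 < c) (hr : 1 ≤ r) (hm : m = 1 / r ^ 2) (ha : 0 < a)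
    (ha2 : 2 * a ^ 2 ≤ r ^ 2) (hb : 0 < b) (hb2 : 2 * r ≤ b) (hδ : 0 < δ) (hδ' : 8 * δ ^ 2 ≤ 1)
    (hε : 0 < ε) (hr3 : 4 ≤ ε ^ 2 * r ^ 3) (hD : 0 < D)
    (hE : ∀ x : X3, x ≠ 0 → δ ^ 2 * ‖x‖ ^ 2 ≤ rho6sq x → S.V x ≤ ε ^ 2 * ‖x‖ ^ 4 →
      c / 2 ≤ ‖S.vv Ω x‖)
    (hD3 : r ^ 3 ≤ D * ∫ x : X3, Set.indicator ({x : X3 | r ≤ ‖x‖ ∧ ‖x‖ ≤ 2 * r} ∩
      {x | ‖x‖ ^ 2 / 4 ≤ rho6sq x ∧ S.V x ≤ r}) (fun _ => (1 : ℝ)) x) :
    c ^ 2 / (4 * D) * Real.exp (-(2 / S.κ + 8)) * r ^ 9 ≤ nsq (uu S Ω m a b δ ε) := by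
  have hκ := S.κ_pos
  have hr0 : 0 < r := by linarith
  have hm0 : 0 ≤ m := by rw [hm]; positivity
  have hT : Setup.Tst (uu S Ω m a b δ ε) := uu_Tst hs hΩ ha hb hδ hε
  set T : Set X3 := {x : X3 | r ≤ ‖x‖ ∧ ‖x‖ ≤ 2 * r} ∩
      {x | ‖x‖ ^ 2 / 4 ≤ rho6sq x ∧ S.V x ≤ r} with hTdef
  set q : ℝ := c ^ 2 / 4 * (r ^ 6 * Real.exp (-(2 / S.κ + 8))) with hq
  have hq0 : 0 ≤ q := by positivity
  have hpt : ∀ x : X3, q * Set.indicator T (fun _ => (1 : ℝ)) x ≤ ‖uu S Ω m a b δ ε x‖ ^ 2 := by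
    intro x
    by_cases hx : x ∈ T
    · rw [Set.indicator_of_mem hx, mul_one]
      obtain ⟨⟨h1, h2⟩, h3, h4⟩ := hx
      have hn : 0 < ‖x‖ := by linarith
      have hx0 : x ≠ 0 := norm_pos_iff.1 hn
      have hsq : r ^ 2 ≤ ‖x‖ ^ 2 := pow_le_pow_left₀ hr0.le h1 2
      have hV := S.V_nonneg x
      have h5 : 4 * S.V x ≤ ε ^ 2 * ‖x‖ ^ 4 := by
        have e1 : r ^ 4 ≤ ‖x‖ ^ 4 := pow_le_pow_left₀ hr0.le h1 4
        have e2 : 4 * r ≤ ε ^ 2 * r ^ 4 := by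
          have := mul_le_mul_of_nonneg_right hr3 hr0.le
          refine this.trans (le_of_eq ?_)
          ring
        have e3 : ε ^ 2 * r ^ 4 ≤ ε ^ 2 * ‖x‖ ^ 4 := by gcongr
        linarith
      have h6 : 2 * δ ^ 2 * ‖x‖ ^ 2 ≤ rho6sq x := by
        have : 0 ≤ ‖x‖ ^ 2 := by positivity
        nlinarith
      have h7 : ct S a b δ ε x = 1 := by
        refine ct_one ha hb hδ hε (ha2.trans hsq) ?_ h6 h5
        exact pow_le_pow_left₀ hn.le (h2.trans hb2) 2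
      have h8 : c / 2 ≤ ‖S.vv Ω x‖ := by
        refine hE x hx0 ?_ ?_
        · have : 0 ≤ δ ^ 2 * ‖x‖ ^ 2 := by positivity
          linarith
        · have : 0 ≤ ε ^ 2 * ‖x‖ ^ 4 := by positivity
          linarith
      have h9 : Real.exp (-(1 / S.κ)) ≤ oEE S x := by
        rw [oEE_eq, Real.exp_le_exp, neg_le_neg_iff, div_le_div_iff₀ (by positivity) hκ, one_mul]
        have : S.V x ≤ ‖x‖ := h4.trans h1
        nlinarith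
      have h10 : Real.exp (-8) ≤ Real.exp (-(2 * m * ‖x‖ ^ 2)) := by
        rw [Real.exp_le_exp, neg_le_neg_iff, hm]
        have e1 : ‖x‖ ^ 2 ≤ (2 * r) ^ 2 := pow_le_pow_left₀ hn.le h2 2
        have e2 : 2 * (1 / r ^ 2) * ‖x‖ ^ 2 ≤ 2 * (1 / r ^ 2) * (2 * r) ^ 2 := by gcongr
        refine e2.trans (le_of_eq ?_)
        field_simp
        norm_num
      have h11 : r ^ 6 * Real.exp (-(2 / S.κ + 8)) ≤ S.ph m x ^ 2 := by
        refine le_trans ?_ (ph_sq_ge S hm0 x)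
        have e1 : Real.exp (-(2 / S.κ + 8)) = Real.exp (-(1 / S.κ)) ^ 2 * Real.exp (-8) := by
          rw [← Real.exp_nat_mul, ← Real.exp_add]
          congr 1
          push_cast
          ring
        rw [e1, ← mul_assoc]
        have e2 : r ^ 6 ≤ ‖x‖ ^ 6 := pow_le_pow_left₀ hr0.le h1 6
        gcongr
      rw [uu, h7, Complex.ofReal_one, one_smul, norm_smul, Complex.norm_real,
        Real.norm_of_nonneg (ph_nonneg S m x), mul_pow, hq]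
      calc c ^ 2 / 4 * (r ^ 6 * Real.exp (-(2 / S.κ + 8)))
          ≤ c ^ 2 / 4 * S.ph m x ^ 2 := by gcongr
        _ = S.ph m x ^ 2 * (c / 2) ^ 2 := by ring
        _ ≤ S.ph m x ^ 2 * ‖S.vv Ω x‖ ^ 2 := by gcongr
    · rw [Set.indicator_of_notMem hx, mul_zero]
      positivity
  have hint : q * ∫ x : X3, Set.indicator T (fun _ => (1 : ℝ)) x ≤ nsq (uu S Ω m a b δ ε) := by
    rw [← integral_const_mul]
    refine integral_mono_of_nonneg (Eventually.of_forall fun x => ?_) hT.norm_sq_int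
      (Eventually.of_forall hpt)
    exact mul_nonneg hq0 (Set.indicator_nonneg (fun _ _ => zero_le_one) _)
  refine le_trans ?_ hint
  have h12 : r ^ 3 / D ≤ ∫ x : X3, Set.indicator T (fun _ => (1 : ℝ)) x := by
    rw [div_le_iff₀ hD]
    linarith
  calc c ^ 2 / (4 * D) * Real.exp (-(2 / S.κ + 8)) * r ^ 9 = q * (r ^ 3 / D) := by
        rw [hq]
        field_simp
    _ ≤ _ := mul_le_mul_of_nonneg_left h12 hq0

lemma ch_small {A q s : ℝ} (hA : 0 ≤ A) (hq : 0 < q) (hs : 0 < s) (hs1 : s ≤ 1) {n : ℕ}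
    (hn : n ≠ 0) : ∃ t : ℝ, 0 < t ∧ t ≤ s ∧ A * t ^ n ≤ q := by
  refine ⟨min s (q / (A + 1)), lt_min hs (by positivity), min_le_left _ _, ?_⟩
  have t0 : 0 ≤ min s (q / (A + 1)) := le_min hs.le (by positivity)
  have t1 : min s (q / (A + 1)) ≤ 1 := (min_le_left _ _).trans hs1
  have t2 : min s (q / (A + 1)) ≤ q / (A + 1) := min_le_right _ _
  have t3 : min s (q / (A + 1)) ^ n ≤ min s (q / (A + 1)) := pow_le_of_le_one t0 t1 hn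
  rw [le_div_iff₀ (by positivity)] at t2
  calc A * min s (q / (A + 1)) ^ n ≤ A * min s (q / (A + 1)) := by gcongr
    _ ≤ q := by linarith

lemma ch_J {A q c0 : ℝ} (hA : 0 ≤ A) (hq : 0 < q) (hc0 : 0 < c0) : ∃ J : ℕ, 2 ≤ (2 : ℝ) ^ J * c0 ∧
    A * ((2 ^ J * c0) ^ 7 * Real.exp (-(2 ^ J * c0) ^ 2)) ≤ q := by
  have h1 : Tendsto (fun J : ℕ => (2 : ℝ) ^ J * c0) atTop atTop :=
    (tendsto_pow_atTop_atTop_of_one_lt (by norm_num)).atTop_mul_const hc0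
  have h2 : Tendsto (fun x : ℝ => A * (x ^ 7 * Real.exp (-x))) atTop (𝓝 0) := by
    have := (Real.tendsto_pow_mul_exp_neg_atTop_nhds_zero 7).const_mul A
    simpa using this
  have h3 := (h2.comp h1).eventually (gt_mem_nhds hq)
  have h4 := h1.eventually (eventually_ge_atTop 2)
  obtain ⟨J, hJ, hJ'⟩ := (h3.and h4).exists
  refine ⟨J, hJ', ?_⟩
  have hJ0 : A * (((2 : ℝ) ^ J * c0) ^ 7 * Real.exp (-((2 : ℝ) ^ J * c0))) < q := hJ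
  refine le_trans ?_ hJ0.le
  have h5 : Real.exp (-(2 ^ J * c0) ^ 2) ≤ Real.exp (-((2 : ℝ) ^ J * c0)) := by
    rw [Real.exp_le_exp, neg_le_neg_iff]
    nlinarith
  gcongr

lemma fin_calc {A0 D c0 K Cq Jr δ A1 m r q η L ns : ℝ} (hδ : 0 < δ) (hr : 0 < r)
    (hmr : m = 1 / r ^ 2) (hc02 : A0 * 1024 * D * c0 ^ 7 ≤ q)
    (hJ2 : A0 * 1024 * D * (K ^ 7 * Real.exp (-K ^ 2)) ≤ q)
    (hδ2 : A0 * 1024 * D * Cq ^ 2 * (Jr + 1) * K ^ 7 * δ ^ 2 ≤ q)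
    (hrq : A1 * D * (Jr + 1) * (K + K ^ 5) * K ^ 3 ≤ q * r ^ 3) (hq : q = η * L / 4)
    (hη : 0 < η) (hlow : L * r ^ 9 ≤ ns) :
    A0 * (1024 * (c0 * r) ^ 4 * (D * (c0 * r) ^ 3) +
        1024 * (K * r) ^ 4 * Real.exp (-(m * (K * r) ^ 2)) * (D * (K * r) ^ 3) +
        16 * Cq ^ 2 * (K * r) ^ 4 / δ ^ 4 *
          (D * (2 * δ) ^ 6 * (Jr + 1) * (K * r) ^ 3)) +
      A1 * (K * r + m ^ 2 * (K * r) ^ 5) * (D * (Jr + 1) * (K * r) ^ 3) ≤ η * m * ns := by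
  have hexp : m * (K * r) ^ 2 = K ^ 2 := by
    rw [hmr]; field_simp
  have hb5 : K * r + m ^ 2 * (K * r) ^ 5 = (K + K ^ 5) * r := by
    rw [hmr]; field_simp
  rw [hexp, hb5]
  have e1 : 16 * Cq ^ 2 * (K * r) ^ 4 / δ ^ 4 * (D * (2 * δ) ^ 6 * (Jr + 1) * (K * r) ^ 3) =
      1024 * D * Cq ^ 2 * (Jr + 1) * K ^ 7 * δ ^ 2 * r ^ 7 := by
    field_simp
    ring
  rw [e1]
  have hr7 : 0 < r ^ 7 := by positivity
  have f1 := mul_le_mul_of_nonneg_right hc02 hr7.le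
  have f2 := mul_le_mul_of_nonneg_right hJ2 hr7.le
  have f3 := mul_le_mul_of_nonneg_right hδ2 hr7.le
  have f4 := mul_le_mul_of_nonneg_right hrq (show 0 ≤ r ^ 4 by positivity)
  have f5 : 4 * q * r ^ 7 ≤ η * m * ns := by
    have g1 : 4 * q * r ^ 7 = η * m * (L * r ^ 9) := by
      rw [hq, hmr]; field_simp
    rw [g1]
    refine mul_le_mul_of_nonneg_left hlow ?_
    rw [hmr]
    positivity
  refine le_trans (le_of_eq ?_) ((add_le_add (add_le_add (add_le_add f1 f2) f3) f4).trans ?_)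
  · ring
  · refine le_trans (le_of_eq ?_) f5
    ring

/-- properties of `r = m^{-1/2}` -/
lemma r_props {c0 ε Z q r0 m : ℝ} (hc0 : 0 < c0) (hε : 0 < ε) (hZ : 0 ≤ Z) (hq : 0 < q)
    (hr0 : r0 = 1 / c0 + 4 / ε ^ 2 + Z / q + 1) (hm : 0 < m) (hm0 : m < 1 / r0 ^ 2) :
    0 < 1 / Real.sqrt m ∧ m = 1 / (1 / Real.sqrt m) ^ 2 ∧ 1 ≤ 1 / Real.sqrt m ∧
      1 ≤ c0 * (1 / Real.sqrt m) ∧ 4 ≤ ε ^ 2 * (1 / Real.sqrt m) ^ 3 ∧
      Z ≤ q * (1 / Real.sqrt m) ^ 3 := by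
  obtain ⟨r, hr⟩ : ∃ r, r = 1 / Real.sqrt m := ⟨_, rfl⟩
  rw [← hr]
  have hsm : 0 < Real.sqrt m := Real.sqrt_pos.2 hm
  have hrpos : 0 < r := by rw [hr]; positivity
  have hr0' : 0 < r0 := by rw [hr0]; positivity
  have hmr : m = 1 / r ^ 2 := by
    rw [hr, div_pow, one_pow, Real.sq_sqrt hm.le]
    field_simp
  have hrr : r0 < r := by
    have h1 : 1 / r ^ 2 < 1 / r0 ^ 2 := by rw [← hmr]; exact hm0
    rw [div_lt_div_iff₀ (by positivity) (by positivity), one_mul, one_mul] at h1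
    exact lt_of_pow_lt_pow_left₀ 2 hrpos.le h1
  have p1 : 0 < 1 / c0 := by positivity
  have p2 : 0 < 4 / ε ^ 2 := by positivity
  have p3 : 0 ≤ Z / q := by positivity
  have hr1 : 1 ≤ r := by linarith
  have hr3 : r ≤ r ^ 3 := le_self_pow₀ hr1 (by norm_num)
  refine ⟨hrpos, hmr, hr1, ?_, ?_, ?_⟩
  · have : 1 / c0 ≤ r := by linarith
    rw [div_le_iff₀ hc0] at this
    linarith
  · have : 4 / ε ^ 2 ≤ r ^ 3 := by linarith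
    rw [div_le_iff₀ (by positivity)] at this
    linarith
  · have : Z / q ≤ r ^ 3 := by linarith
    rw [div_le_iff₀ hq] at this
    linarith

/-- **D-Out** -/
theorem out (S : Setup F) (hs : SmStmt S) (hE : EstStmt S) (hI : IntStmt S) : OutStmt S := by
  intro Ω hΩ0 hΩ η hη
  have hκ := S.κ_pos
  obtain ⟨K₀, Cq, hK0, hCq, hG⟩ := exists_gB S
  obtain ⟨c, hc, hEst⟩ := hE Ω hΩ0 hΩ
  obtain ⟨D, hD, hD1, hD2, hD3⟩ := out_ints S hI (k := 1 / (2 * S.κ)) (by positivity)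
  have hN : 0 ≤ ∑ β, Nb S β ^ 2 := Finset.sum_nonneg fun β _ => sq_nonneg _
  obtain ⟨A0, hA0⟩ : ∃ A0, A0 = 32 * K₀ ^ 2 * c ^ 2 * ∑ β, Nb S β ^ 2 := ⟨_, rfl⟩
  have hA0' : 0 ≤ A0 := by rw [hA0]; positivity
  obtain ⟨L, hL⟩ : ∃ L, L = c ^ 2 / (4 * D) * Real.exp (-(2 / S.κ + 8)) := ⟨_, rfl⟩
  have hL' : 0 < L := by rw [hL]; positivity
  obtain ⟨q, hq⟩ : ∃ q, q = η * L / 4 := ⟨_, rfl⟩
  have hq' : 0 < q := by rw [hq]; positivity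
  have hAD : 0 ≤ A0 * 1024 * D := by positivity
  obtain ⟨c0, hc0, hc01, hc02⟩ := ch_small hAD hq' (s := 1 / 2) (by norm_num) (by norm_num)
    (n := 7) (by norm_num)
  obtain ⟨J, hJ1, hJ2⟩ := ch_J hAD hq' hc0
  obtain ⟨K, hK⟩ : ∃ K, K = (2 : ℝ) ^ J * c0 := ⟨_, rfl⟩
  rw [← hK] at hJ1 hJ2
  have hK' : 0 < K := by linarith
  obtain ⟨δ, hδ, hδ1, hδ2⟩ := ch_small (A := A0 * 1024 * D * Cq ^ 2 * (J + 1) * K ^ 7)
    (by positivity) hq' (s := 1 / 20) (by norm_num) (by norm_num) (n := 2) (by norm_num)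
  obtain ⟨ε, Ce, hε, hCe, hEs⟩ := hEst δ hδ
  obtain ⟨A1, hA1⟩ : ∃ A1, A1 = A0 * (128 * Cq ^ 2 * S.κ / ε ^ 6) +
      96 * Ce ^ 2 * (12 * S.κ ^ 3 + 34 * S.κ) := ⟨_, rfl⟩
  have hA1' : 0 ≤ A1 := by rw [hA1]; positivity
  obtain ⟨r0, hr0⟩ : ∃ r0, r0 = 1 / c0 + 4 / ε ^ 2 +
      (A1 * D * (J + 1) * (K + K ^ 5) * K ^ 3) / q + 1 := ⟨_, rfl⟩
  have hr0' : 0 < r0 := by rw [hr0]; positivity
  refine ⟨c0, 1 / r0 ^ 2, hc0, by positivity, fun m hm hm0 => ?_⟩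
  obtain ⟨hrpos, hmr, hr1, hrc, hre, hrq⟩ := r_props hc0 hε (by positivity) hq' hr0 hm hm0
  obtain ⟨r, hr⟩ : ∃ r, r = 1 / Real.sqrt m := ⟨_, rfl⟩
  rw [← hr] at hrpos hmr hr1 hrc hre hrq
  have hKr : (2 : ℝ) ^ J * (c0 * r) = K * r := by rw [hK]; ring
  have hcr : 0 < c0 * r := by positivity
  have hKr0 : 0 < K * r := by positivity
  have hc2 : 2 * (c0 * r) ^ 2 ≤ r ^ 2 := by
    rw [mul_pow]
    have h1 : c0 ^ 2 ≤ (1 / 2) ^ 2 := pow_le_pow_left₀ hc0.le hc01 2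
    have h2 := mul_le_mul_of_nonneg_right h1 (sq_nonneg r)
    linarith [sq_nonneg r]
  have hδ8 : 8 * δ ^ 2 ≤ 1 := by
    have : δ ^ 2 ≤ (1 / 20) ^ 2 := pow_le_pow_left₀ hδ.le hδ1 2
    linarith
  have hlow : L * r ^ 9 ≤ nsq (uu S Ω m (c0 * r) (K * r) δ ε) := by
    rw [hL]
    exact lower_bd S hs hΩ hc hr1 hmr hcr hc2 hKr0 (mul_le_mul_of_nonneg_right hJ1 hrpos.le)
      hδ hδ8 hε hre hD (fun x hx h1 h2 => (hEs x hx h1 h2).1.1) (hD3 r hr1)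
  have hup := upper_bd S hs hΩ (c := c) (Ce := Ce) (m := m) (a := c0 * r) (δ := δ) (ε := ε) (D := D)
    J hK0 hCq hm.le hrc hδ (by linarith) hε
    (hG (c0 * r) (2 ^ J * (c0 * r)) δ ε hcr (by positivity) hδ hε)
    (fun x hx h1 h2 => ⟨(hEs x hx h1 h2).1.2, fun β => (hEs x hx h1 h2).2 m hm.le β⟩) hD1 hD2
  rw [hKr, ← hA0, ← hA1] at hup
  refine ⟨uu S Ω m (c0 * r) (K * r) δ ε, uu_Inv hs hΩ hcr hKr0 hδ hε, fun x hx => ?_,
    lt_of_lt_of_le (by positivity) hlow,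
    hup.trans (fin_calc hδ hrpos hmr hc02 hJ2 hδ2 hrq hq hη hlow)⟩
  rw [uu, ct_zero hcr, Complex.ofReal_zero, zero_smul]
  refine hx.trans (le_of_eq ?_)
  rw [hr]
  ring

end Vale.Agent.P353.U
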