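import Vale.Agent.P353.U.StmtB

/-! # P353, uniqueness for `N = 2`: B3, the resolvent is compact -/

open MeasureTheory Filter Topology
open scoped ContDiff

namespace Vale.Agent.P353.U

variable {F : Type*} [NormedAddCommGroup F] [InnerProductSpace ℂ F]

/-- The distance in `L²` of the class of a test function to an element of `L²`. -/
lemma rcomp_dist {u : X3 → F} (hu : MemLp u 2 (volume : Measure X3))
    (g : Lp F 2 (volume : Measure X3)) :
    dist (hu.toLp u) g = Real.sqrt (nsq (fun x => u x - g x)) := by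
  have h1 : hu.toLp u - g = (hu.sub (Lp.memLp g)).toLp (u - (g : X3 → F)) := by
    rw [MemLp.toLp_sub hu (Lp.memLp g), Lp.toLp_coeFn]
  rw [dist_eq_norm, h1, norm_toLp]
  rfl

theorem rComp (S : Setup F) [CompleteSpace F] (hG : GRStmt F) (h0 : CoerStmt S) :
    RCompStmt S := by
  intro m hm R hR
  obtain ⟨c, C, hc, hC, hco⟩ := h0 m m hm
  rw [isCompactOperator_iff_exists_mem_nhds_isCompact_closure_image]
  refine ⟨Metric.closedBall 0 1, Metric.closedBall_mem_nhds _ one_pos, ?_⟩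
  rw [isCompact_iff_isSeqCompact]
  intro y hy
  -- a bound for the approximants
  set B : ℝ := ‖R‖ + 1 with hB
  have hB0 : 0 ≤ B := by positivity
  have hex : ∀ n : ℕ, ∃ u : X3 → F, ∃ hu : Setup.Tst u,
      dist (hu.memLp.toLp u) (y n) ≤ 2 / ((n : ℝ) + 1) ∧
      nsq u + (∫ x, ‖x‖ ^ 2 * ‖u x‖ ^ 2) + ∑ i, ∑ A, nsq (pd i A u) ≤ B + (C * B + B) / c := by
    intro n
    have hn : (0 : ℝ) < 1 / ((n : ℝ) + 1) := by positivity
    obtain ⟨z, ⟨f, hf, rfl⟩, hz⟩ := Metric.mem_closure_iff.1 (hy n) _ hn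
    rw [mem_closedBall_zero_iff] at hf
    obtain ⟨Φ, ⟨v, hv, hvl, hvQ⟩, -, hen⟩ := hR.2 f
    have hbd : nsq (R f) + ∑ β, nsq (Φ β) ≤ ‖R‖ := by
      rw [hen]
      refine (Complex.re_le_norm _).trans ((norm_inner_le_norm _ _).trans ?_)
      calc ‖R f‖ * ‖f‖ ≤ (‖R‖ * ‖f‖) * ‖f‖ :=
            mul_le_mul_of_nonneg_right (R.le_opNorm f) (norm_nonneg _)
        _ ≤ (‖R‖ * 1) * 1 := by gcongr
        _ = ‖R‖ := by ring
    have hlim : Tendsto (fun k => nsq (v k) + ∑ β, nsq (S.Qm m β (v k))) atTop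
        (𝓝 (nsq (R f) + ∑ β, nsq (Φ β))) :=
      hvl.lim_nsq.add (tendsto_finsetSum _ fun β _ => (hvQ β).lim_nsq)
    have h1 : ∀ᶠ k in atTop, nsq (v k) + ∑ β, nsq (S.Qm m β (v k)) < B :=
      hlim.eventually_lt_const (by rw [hB]; linarith)
    have h2 : ∀ᶠ k in atTop, nsq (fun x => v k x - (R f) x) < (1 / ((n : ℝ) + 1)) ^ 2 :=
      hvl.lim.eventually_lt_const (by positivity)
    obtain ⟨k, hk1, hk2⟩ := (h1.and h2).exists
    refine ⟨v k, hv k, ?_, ?_⟩
    · have h3 : dist ((hv k).memLp.toLp (v k)) (R f) ≤ 1 / ((n : ℝ) + 1) := by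
        rw [rcomp_dist]
        calc Real.sqrt (nsq (fun x => v k x - (R f) x))
            ≤ Real.sqrt ((1 / ((n : ℝ) + 1)) ^ 2) := Real.sqrt_le_sqrt hk2.le
          _ = 1 / ((n : ℝ) + 1) := Real.sqrt_sq hn.le
      have h4 := dist_triangle ((hv k).memLp.toLp (v k)) (R f) (y n)
      rw [dist_comm (R f) (y n)] at h4
      have h5 : (2 : ℝ) / ((n : ℝ) + 1) = 1 / ((n : ℝ) + 1) + 1 / ((n : ℝ) + 1) := by ring
      rw [h5]
      linarith [hz.le]
    · have hQ0 : 0 ≤ ∑ β, nsq (S.Qm m β (v k)) := Finset.sum_nonneg fun β _ => nsq_nonneg _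
      have hu0 := nsq_nonneg (v k)
      have hu1 : nsq (v k) ≤ B := by linarith
      have hu2 : ∑ β, nsq (S.Qm m β (v k)) ≤ B := by linarith
      have h3 := hco m le_rfl le_rfl (v k) (hv k)
      have h4 : (∫ x, ‖x‖ ^ 2 * ‖v k x‖ ^ 2) + ∑ i, ∑ A, nsq (pd i A (v k)) ≤ (C * B + B) / c := by
        rw [le_div_iff₀ hc, mul_comm]
        exact h3.trans (add_le_add (mul_le_mul_of_nonneg_left hu1 hC) hu2)
      linarith
  choose u hu hd hbd using hex
  obtain ⟨φ, hφ, Ψ, hΨ⟩ := hG u _ hu hbd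
  have hlim := hΨ.lim_toLp
  have key : Tendsto (y ∘ φ) atTop (𝓝 (hΨ.mem'.toLp Ψ)) := by
    rw [tendsto_iff_dist_tendsto_zero] at hlim ⊢
    have h1 : Tendsto (fun n : ℕ => 2 / ((n : ℝ) + 1)) atTop (𝓝 0) := by
      have := (tendsto_one_div_add_atTop_nhds_zero_nat (𝕜 := ℝ)).const_mul 2
      rw [mul_zero] at this
      refine this.congr fun n => ?_
      ring
    have h2 : Tendsto (fun n : ℕ => 2 / ((φ n : ℝ) + 1)
        + dist ((hΨ.mem n).toLp (u (φ n))) (hΨ.mem'.toLp Ψ)) atTop (𝓝 0) := by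
      have := (h1.comp hφ.tendsto_atTop).add hlim
      simpa using this
    refine squeeze_zero (fun n => dist_nonneg) (fun n => ?_) h2
    have h3 := dist_triangle (y (φ n)) ((hu (φ n)).memLp.toLp (u (φ n))) (hΨ.mem'.toLp Ψ)
    have h4 := hd (φ n)
    rw [dist_comm] at h4
    exact h3.trans (add_le_add h4 le_rfl)
  exact ⟨hΨ.mem'.toLp Ψ, isClosed_closure.mem_of_tendsto key
    (Eventually.of_forall fun n => hy (φ n)), φ, hφ, key⟩

end Vale.Agent.P353.U
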