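import Vale.Agent.P353.U.RInvB

/-! # P353, uniqueness, B4: the resolvent preserves weak invariance (final statement) -/

open MeasureTheory Filter Topology
open scoped ContDiff

namespace Vale.Agent.P353.U

open Setup

variable {F : Type*} [NormedAddCommGroup F] [InnerProductSpace ℂ F] (S : Setup F)

/-- index of the terms `x_p ∂_q` -/
abbrev KK : Type := (Fin 9 × Fin 3) × (Fin 9 × Fin 3)

/-- first order operators `∑ a_{pq} x_p ∂_q + s`, formally self-adjoint -/
structure XF (X : (X3 → F) → X3 → F) (a : KK → ℂ) (s : F →L[ℂ] F) : Prop where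
  form : ∀ u x, X u x = (∑ k : KK, a k • cm k.1 (pd k.2.1 k.2.2 u) x) + s (u x)
  im : ∀ k, (starRingEnd ℂ) (a k) = -a k
  diag : ∀ p, a (p, p) = 0
  sa : ∀ v w, inner ℂ (s v) w = inner ℂ v (s w)

namespace XF

variable {S} {X : (X3 → F) → X3 → F} {a : KK → ℂ} {s : F →L[ℂ] F}

lemma tst (h : XF X a s) {u : X3 → F} (hu : Tst u) : Tst (X u) := by
  have h1 : Tst (fun x => (∑ k : KK, a k • cm k.1 (pd k.2.1 k.2.2 u) x) + s (u x)) :=
    (rinv_Tst_sum _ fun k _ => rinv_Tst_csmul _ (rinv_Tst_cm _ (hu.pd _ _))).add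
      (Tst.clm (T := fun _ : X3 => s) contDiff_const hu)
  have h2 : X u = _ := funext fun x => h.form u x
  rw [h2]
  exact h1

lemma add (h : XF X a s) {u v : X3 → F} (hu : Tst u) (hv : Tst v) (x : X3) :
    X (fun y => u y + v y) x = X u x + X v x := by
  rw [h.form, h.form, h.form, map_add]
  have h1 : ∀ k : KK, cm k.1 (pd k.2.1 k.2.2 (fun y => u y + v y)) x =
      cm k.1 (pd k.2.1 k.2.2 u) x + cm k.1 (pd k.2.1 k.2.2 v) x := by
    intro k
    simp only [cm]
    rw [pd_add (hu.diff x) (hv.diff x), smul_add]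
  simp only [h1, smul_add, Finset.sum_add_distrib]
  abel

lemma smul (h : XF X a s) (c : ℂ) {u : X3 → F} (hu : Tst u) (x : X3) :
    X (fun y => c • u y) x = c • X u x := by
  rw [h.form, h.form, map_smul, smul_add, Finset.smul_sum]
  congr 1
  refine Finset.sum_congr rfl fun k _ => ?_
  have h1 : pd k.2.1 k.2.2 (fun y => c • u y) x = c • pd k.2.1 k.2.2 u x := by
    have := pd_clm (i := k.2.1) (A := k.2.2) (x := x) (c • (1 : F →L[ℂ] F)) (hu.diff x)
    simpa using this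
  simp only [cm, h1]
  rw [smul_comm c, smul_comm c]

lemma sub (h : XF X a s) {u v : X3 → F} (hu : Tst u) (hv : Tst v) (x : X3) :
    X (fun y => u y - v y) x = X u x - X v x := by
  have h1 : (fun y => u y - v y) = fun y => u y + (-1 : ℂ) • v y := by
    funext y; rw [neg_smul, one_smul, sub_eq_add_neg]
  rw [h1, h.add hu (rinv_Tst_csmul _ hv), h.smul _ hv, neg_smul, one_smul, sub_eq_add_neg]

lemma sum (h : XF X a s) {ι : Type*} (t : Finset ι) {f : ι → X3 → F} (hf : ∀ i ∈ t, Tst (f i))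
    (x : X3) : X (fun y => ∑ i ∈ t, f i y) x = ∑ i ∈ t, X (f i) x := by
  classical
  induction t using Finset.induction_on with
  | empty =>
    simp only [Finset.sum_empty]
    have h0 : Tst (fun _ : X3 => (0 : F)) :=
      ⟨contDiff_const, (HasCompactSupport.zero : HasCompactSupport (0 : X3 → F))⟩
    have := h.smul 0 h0 x
    simpa using this
  | insert b t hb ih =>
    simp only [Finset.sum_insert hb]
    rw [h.add (hf b (Finset.mem_insert_self b t))
      (rinv_Tst_sum t fun i hi => hf i (Finset.mem_insert_of_mem hi)),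
      ih fun i hi => hf i (Finset.mem_insert_of_mem hi)]

lemma term (k : KK) (hk : k.1 ≠ k.2) {u v : X3 → F} (hu : Tst u) (hv : Tst v) :
    ∫ x, inner ℂ (cm k.1 (pd k.2.1 k.2.2 u) x) (v x) =
      -∫ x, inner ℂ (u x) (cm k.1 (pd k.2.1 k.2.2 v) x) := by
  have h1 : ∀ x, inner ℂ (cm k.1 (pd k.2.1 k.2.2 u) x) (v x) =
      inner ℂ (pd k.2.1 k.2.2 u x) (cm k.1 v x) := by
    intro x
    simp only [cm, inner_smul_left, inner_smul_right, Complex.conj_ofReal]
  have hcv := rinv_Tst_cm k.1 hv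
  simp only [h1]
  rw [integral_inner_pd u (cm k.1 v) (hu.1.of_le (by simp)) (hcv.1.of_le (by simp)) hu.2]
  congr 1
  refine integral_congr_ae (Filter.Eventually.of_forall fun x => ?_)
  simp only
  rw [rinv_pd_cm k.1 k.2.1 k.2.2 hv x, if_neg hk]
  simp

lemma symm (h : XF X a s) {u v : X3 → F} (hu : Tst u) (hv : Tst v) :
    ∫ x, inner ℂ (X u x) (v x) = ∫ x, inner ℂ (u x) (X v x) := by
  have hterm : ∀ {w : X3 → F} (k : KK), Tst w → Tst (cm k.1 (pd k.2.1 k.2.2 w)) :=
    fun k hw => rinv_Tst_cm _ (hw.pd _ _)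
  have hsT : ∀ {w : X3 → F}, Tst w → Tst (fun x => s (w x)) :=
    fun hw => Tst.clm (T := fun _ : X3 => s) contDiff_const hw
  simp only [h.form, inner_add_left, inner_add_right, sum_inner, inner_sum, inner_smul_left,
    inner_smul_right]
  rw [integral_add (integrable_finsetSum _ fun k _ =>
      ((hterm k hu).inner_int hv.1.continuous).const_mul _) ((hsT hu).inner_int hv.1.continuous),
    integral_add (integrable_finsetSum _ fun k _ =>
      (hu.inner_int (hterm k hv).1.continuous).const_mul _) (hu.inner_int (hsT hv).1.continuous),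
    integral_finsetSum _ fun k _ => ((hterm k hu).inner_int hv.1.continuous).const_mul _,
    integral_finsetSum _ fun k _ => (hu.inner_int (hterm k hv).1.continuous).const_mul _]
  congr 1
  · refine Finset.sum_congr rfl fun k _ => ?_
    rw [integral_const_mul, integral_const_mul, h.im]
    by_cases hk : k.1 = k.2
    · have : k = (k.1, k.1) := Prod.ext rfl hk.symm
      rw [this, h.diag]
      simp
    · rw [term k hk hu hv]
      ring
  · simp only [h.sa]

lemma bd {S : Setup F} {m : ℝ} (h : XF X a s) (h0 : CoerStmt S) (hm : 0 < m) :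
    ∃ K : ℝ, 0 ≤ K ∧ ∀ u, Tst u → nsq (X u) ≤ K * nsq (LQ S m u) := by
  obtain ⟨K, hK0, hK⟩ := rinv_weighted S m h0 hm
  refine ⟨2 * (((Finset.univ : Finset KK).card : ℝ) * ∑ k : KK, ‖a k‖ ^ 2 * K) +
    2 * ‖s‖ ^ 2, by positivity, ?_⟩
  intro u hu
  have hterm : ∀ k : KK, Tst (fun x => a k • cm k.1 (pd k.2.1 k.2.2 u) x) :=
    fun k => rinv_Tst_csmul _ (rinv_Tst_cm _ (hu.pd _ _))
  have hsum : Tst (fun x => ∑ k : KK, a k • cm k.1 (pd k.2.1 k.2.2 u) x) :=
    rinv_Tst_sum _ fun k _ => hterm k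
  have hs : Tst (fun x => s (u x)) := Tst.clm (T := fun _ : X3 => s) contDiff_const hu
  have h1 : X u = fun x => (∑ k : KK, a k • cm k.1 (pd k.2.1 k.2.2 u) x) + s (u x) :=
    funext fun x => h.form u x
  have hL := rinv_LQ_ge S m hu
  have hT0 := nsq_nonneg (TT S m u)
  rw [h1]
  refine (nsq_add_le hsum.memLp hs.memLp).trans ?_
  have h2 := nsq_sum_le (Finset.univ : Finset KK)
    (fun k x => a k • cm k.1 (pd k.2.1 k.2.2 u) x) (fun k _ => (hterm k).memLp)
  have h3 : ∀ k : KK, nsq (fun x => a k • cm k.1 (pd k.2.1 k.2.2 u) x) ≤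
      ‖a k‖ ^ 2 * K * nsq (LQ S m u) := by
    intro k
    have h4 : nsq (fun x => a k • cm k.1 (pd k.2.1 k.2.2 u) x) ≤
        ‖a k‖ ^ 2 * nsq (cm k.1 (pd k.2.1 k.2.2 u)) :=
      nsq_le_of (rinv_Tst_cm _ (hu.pd _ _)).memLp fun x => (norm_smul _ _).le
    refine h4.trans ?_
    rw [mul_assoc]
    exact mul_le_mul_of_nonneg_left (hK u hu _ _ _) (by positivity)
  have h5 : ∑ k : KK, nsq (fun x => a k • cm k.1 (pd k.2.1 k.2.2 u) x) ≤
      (∑ k : KK, ‖a k‖ ^ 2 * K) * nsq (LQ S m u) := by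
    rw [Finset.sum_mul]
    exact Finset.sum_le_sum fun k _ => h3 k
  have h6 : nsq (fun x => s (u x)) ≤ ‖s‖ ^ 2 * nsq (LQ S m u) := by
    have h7 : nsq (fun x => s (u x)) ≤ ‖s‖ ^ 2 * nsq u :=
      nsq_le_of hu.memLp fun x => s.le_opNorm _
    refine h7.trans (mul_le_mul_of_nonneg_left ?_ (by positivity))
    linarith
  have h8 : ((Finset.univ : Finset KK).card : ℝ) *
      ∑ k : KK, nsq (fun x => a k • cm k.1 (pd k.2.1 k.2.2 u) x) ≤
      ((Finset.univ : Finset KK).card : ℝ) * ((∑ k : KK, ‖a k‖ ^ 2 * K) * nsq (LQ S m u)) :=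
    mul_le_mul_of_nonneg_left h5 (by positivity)
  calc _ ≤ 2 * (((Finset.univ : Finset KK).card : ℝ) *
          ((∑ k : KK, ‖a k‖ ^ 2 * K) * nsq (LQ S m u))) + 2 * (‖s‖ ^ 2 * nsq (LQ S m u)) := by
        linarith
    _ = _ := by ring

end XF

/-! ### the two generators -/

lemma rinv_sumKK {M : Type*} [AddCommMonoid M] (f : KK → M) :
    ∑ k, f k = ∑ i, ∑ A, ∑ j, ∑ B, f ((i, A), (j, B)) := by
  rw [Fintype.sum_prod_type, Fintype.sum_prod_type]
  refine Finset.sum_congr rfl fun i _ => Finset.sum_congr rfl fun A _ => ?_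
  rw [Fintype.sum_prod_type]

/-- coefficients of `G_C` -/
noncomputable def aG (C : Fin 3) (k : KK) : ℂ :=
  -Complex.I * (if k.1.1 = k.2.1 then (eps C k.1.2 k.2.2 : ℂ) else 0)

lemma rinv_XF_G (C : Fin 3) : XF (S.G C) (aG C) (S.cS C) where
  form := by
    intro u x
    rw [Setup.G]
    congr 1
    rw [rinv_sumKK]
    simp only [Finset.smul_sum]
    refine Finset.sum_congr rfl fun i _ => Finset.sum_congr rfl fun A _ => ?_
    rw [Finset.sum_eq_single i]
    · refine Finset.sum_congr rfl fun B _ => ?_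
      simp only [aG, if_true, cm, smul_smul]
      congr 1
      ring
    · intro j _ hj
      refine Finset.sum_eq_zero fun B _ => ?_
      simp [aG, Ne.symm hj]
    · intro h; exact absurd (Finset.mem_univ _) h
  im := by
    intro k
    simp only [aG]
    split_ifs <;> simp
  diag := by
    intro p
    have h : ∀ A : Fin 3, eps C A A = 0 := by revert C; decide
    simp [aG, h]
  sa := S.cS_symm C

/-- coefficients of `J_kl` -/
noncomputable def aJ (k l : Fin 9) (κ : KK) : ℂ :=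
  -Complex.I * ((if κ.1.1 = k ∧ κ.2.1 = l ∧ κ.1.2 = κ.2.2 then 1 else 0) -
    (if κ.1.1 = l ∧ κ.2.1 = k ∧ κ.1.2 = κ.2.2 then 1 else 0))

lemma rinv_sum_ind {M : Type*} [AddCommGroup M] [Module ℂ M] (k l : Fin 9) (f : KK → M) :
    ∑ κ : KK, (if κ.1.1 = k ∧ κ.2.1 = l ∧ κ.1.2 = κ.2.2 then (1 : ℂ) else 0) • f κ =
      ∑ A, f ((k, A), (l, A)) := by
  rw [rinv_sumKK, Finset.sum_eq_single k]
  · refine Finset.sum_congr rfl fun A _ => ?_
    rw [Finset.sum_eq_single l, Finset.sum_eq_single A]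
    · simp
    · intro B _ hB
      simp [Ne.symm hB]
    · intro h; exact absurd (Finset.mem_univ _) h
    · intro j _ hj
      refine Finset.sum_eq_zero fun B _ => ?_
      simp [hj]
    · intro h; exact absurd (Finset.mem_univ _) h
  · intro i _ hi
    refine Finset.sum_eq_zero fun A _ => Finset.sum_eq_zero fun j _ =>
      Finset.sum_eq_zero fun B _ => ?_
    simp [hi]
  · intro h; exact absurd (Finset.mem_univ _) h

lemma rinv_XF_J {k l : Fin 9} (hkl : k ≠ l) : XF (S.J k l) (aJ k l) (S.Skl k l) where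
  form := by
    intro u x
    rw [Setup.J]
    congr 1
    have h1 : ∑ κ : KK, aJ k l κ • cm κ.1 (pd κ.2.1 κ.2.2 u) x = (-Complex.I) •
        ((∑ κ : KK, (if κ.1.1 = k ∧ κ.2.1 = l ∧ κ.1.2 = κ.2.2 then (1 : ℂ) else 0) •
            cm κ.1 (pd κ.2.1 κ.2.2 u) x) -
          ∑ κ : KK, (if κ.1.1 = l ∧ κ.2.1 = k ∧ κ.1.2 = κ.2.2 then (1 : ℂ) else 0) •
            cm κ.1 (pd κ.2.1 κ.2.2 u) x) := by
      rw [← Finset.sum_sub_distrib, Finset.smul_sum]
      refine Finset.sum_congr rfl fun κ _ => ?_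
      rw [aJ, ← sub_smul, smul_smul]
    rw [h1, rinv_sum_ind k l (fun κ : KK => cm κ.1 (pd κ.2.1 κ.2.2 u) x),
      rinv_sum_ind l k (fun κ : KK => cm κ.1 (pd κ.2.1 κ.2.2 u) x), ← Finset.sum_sub_distrib]
    rfl
  im := by
    intro κ
    simp only [aJ]
    split_ifs <;> simp
  diag := by
    intro p
    have h1 : ¬ (p.1 = k ∧ p.1 = l ∧ p.2 = p.2) := fun h => hkl (h.1.symm.trans h.2.1)
    have h2 : ¬ (p.1 = l ∧ p.1 = k ∧ p.2 = p.2) := fun h => hkl (h.2.1.symm.trans h.1)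
    have h3 : aJ k l (p, p) = -Complex.I * ((if p.1 = k ∧ p.1 = l ∧ p.2 = p.2 then 1 else 0) -
        (if p.1 = l ∧ p.1 = k ∧ p.2 = p.2 then 1 else 0)) := rfl
    rw [h3, if_neg h1, if_neg h2, sub_zero, mul_zero]
  sa := S.Skl_symm k l

section comm

variable (m : ℝ)

lemma rinv_Qm_sum (β : Fin 16) {ι : Type*} (t : Finset ι) {f : ι → X3 → F}
    (hf : ∀ i ∈ t, Tst (f i)) (x : X3) :
    S.Qm m β (fun y => ∑ i ∈ t, f i y) x = ∑ i ∈ t, S.Qm m β (f i) x := by
  classical
  induction t using Finset.induction_on with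
  | empty =>
    simp only [Finset.sum_empty]
    have h0 : Tst (fun _ : X3 => (0 : F)) :=
      ⟨contDiff_const, (HasCompactSupport.zero : HasCompactSupport (0 : X3 → F))⟩
    have := rinv_Qm_smul S m β 0 (h0.diff x)
    simpa using this
  | insert b t hb ih =>
    simp only [Finset.sum_insert hb]
    rw [rinv_Qm_add S m β ((hf b (Finset.mem_insert_self b t)).diff x)
      ((rinv_Tst_sum t fun i hi => hf i (Finset.mem_insert_of_mem hi)).diff x),
      ih fun i hi => hf i (Finset.mem_insert_of_mem hi)]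

lemma rinv_comm_G (h3 : A3Stmt S) (C : Fin 3) {u : X3 → F} (hu : Tst u) :
    S.G C (LQ S m u) = LQ S m (S.G C u) := by
  have hX := rinv_XF_G S C
  funext x
  have hQ := fun β => rinv_Tst_Qm S m β hu
  have hQQ := fun β => rinv_Tst_Qm S m β (hQ β)
  have h1 : S.G C (LQ S m u) x = S.G C u x + ∑ β, S.G C (S.Qm m β (S.Qm m β u)) x := by
    rw [← hX.sum Finset.univ (fun β _ => hQQ β) x,
      ← hX.add hu (rinv_Tst_sum Finset.univ fun β _ => hQQ β)]
    rfl
  rw [h1]
  simp only [LQ]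
  congr 1
  refine Finset.sum_congr rfl fun β _ => ?_
  rw [h3 m C β _ (hQ β).1 x]
  congr 1
  funext y
  exact h3 m C β u hu.1 y

lemma rinv_comm_J (h2 : A2Stmt S) {k l : Fin 9} (hkl : Same k l) {u : X3 → F} (hu : Tst u) :
    S.J k l (LQ S m u) = LQ S m (S.J k l u) := by
  have hX := rinv_XF_J S hkl.1
  funext x
  have hQ := fun β => rinv_Tst_Qm S m β hu
  have hQQ := fun α β => rinv_Tst_Qm S m α (hQ β)
  have hJu := hX.tst hu
  have h1 : S.J k l (LQ S m u) x = S.J k l u x +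
      ∑ β, S.J k l (S.Qm m β (S.Qm m β u)) x := by
    rw [← hX.sum Finset.univ (fun β _ => hQQ β β) x,
      ← hX.add hu (rinv_Tst_sum Finset.univ fun β _ => hQQ β β)]
    rfl
  have h3 : ∀ β, S.J k l (S.Qm m β u) = fun y => S.Qm m β (S.J k l u) y +
      (Complex.I / 2) • ∑ γ, S.g2 k l β γ • S.Qm m γ u y := by
    intro β
    funext y
    rw [← h2 m k l hkl β u hu.1 y]
    abel
  have h4 : ∀ β, S.J k l (S.Qm m β (S.Qm m β u)) x = S.Qm m β (S.Qm m β (S.J k l u)) x +
      (Complex.I / 2) • (∑ γ, S.g2 k l β γ • S.Qm m β (S.Qm m γ u) x +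
        ∑ γ, S.g2 k l β γ • S.Qm m γ (S.Qm m β u) x) := by
    intro β
    have h5 := h2 m k l hkl β _ (hQ β).1 x
    rw [sub_eq_iff_eq_add] at h5
    have hs : ∀ γ ∈ (Finset.univ : Finset (Fin 16)), Tst (fun y => S.g2 k l β γ • S.Qm m γ u y) :=
      fun γ _ => rinv_Tst_csmul _ (hQ γ)
    rw [h5, h3 β, rinv_Qm_add S m β ((rinv_Tst_Qm S m β hJu).diff x)
      ((rinv_Tst_csmul _ (rinv_Tst_sum _ hs)).diff x),
      rinv_Qm_smul S m β _ ((rinv_Tst_sum _ hs).diff x), rinv_Qm_sum S m β _ hs, smul_add]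
    have h6 : ∀ γ, S.Qm m β (fun y => S.g2 k l β γ • S.Qm m γ u y) x =
        S.g2 k l β γ • S.Qm m β (S.Qm m γ u) x := fun γ =>
      rinv_Qm_smul S m β _ ((hQ γ).diff x)
    simp only [h6]
    abel
  have h7 : ∑ β, ((Complex.I / 2) • (∑ γ, S.g2 k l β γ • S.Qm m β (S.Qm m γ u) x +
        ∑ γ, S.g2 k l β γ • S.Qm m γ (S.Qm m β u) x)) = 0 := by
    rw [← Finset.smul_sum, Finset.sum_add_distrib]
    have h8 : ∑ β, ∑ γ, S.g2 k l β γ • S.Qm m γ (S.Qm m β u) x =
        -∑ β, ∑ γ, S.g2 k l β γ • S.Qm m β (S.Qm m γ u) x := by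
      rw [Finset.sum_comm, ← Finset.sum_neg_distrib]
      refine Finset.sum_congr rfl fun β _ => ?_
      rw [← Finset.sum_neg_distrib]
      refine Finset.sum_congr rfl fun γ _ => ?_
      have h9 : S.g2 k l γ β = -S.g2 k l β γ := by
        have := congrFun (congrFun (S.g2_transpose k l) β) γ
        simpa [Matrix.transpose_apply] using this
      rw [h9, neg_smul]
    rw [h8, add_neg_cancel, smul_zero]
  rw [h1]
  simp only [h4, Finset.sum_add_distrib, h7, add_zero, LQ]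

end comm

variable {S}

/-- the weak equation satisfied by the resolvent -/
lemma rinv_weak {m : ℝ} {R : Lp F 2 (volume : Measure X3) →L[ℂ] Lp F 2 (volume : Measure X3)}
    (hR : S.IsRes m R) (f : Lp F 2 (volume : Measure X3)) (ζ : X3 → F) (hζ : Tst ζ) :
    ∫ x, inner ℂ (LQ S m ζ x) ((R f) x) = ∫ x, inner ℂ (ζ x) (f x) := by
  obtain ⟨Φ, ⟨u, hu, hL, hΦ⟩, h1, -⟩ := hR.2 f
  have hQ := fun β => rinv_Tst_Qm S m β hζ
  have hQQ := fun β => rinv_Tst_Qm S m β (hQ β)
  have h2 : ∀ β, ∫ x, inner ℂ (S.Qm m β ζ x) (Φ β x) =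
      ∫ x, inner ℂ (S.Qm m β (S.Qm m β ζ) x) ((R f) x) := by
    intro β
    have a1 := (hQ β).L2t_const.lim_inner (hΦ β)
    have a2 := (hQQ β).L2t_const.lim_inner hL
    exact tendsto_nhds_unique a1 (a2.congr fun n => rinv_Qm_symm S m β (hQ β) (hu n).1)
  rw [← h1 ζ hζ]
  simp only [h2, LQ, inner_add_left, sum_inner]
  have hi : ∀ {v : X3 → F}, Tst v → Integrable (fun x => inner ℂ (v x) ((R f) x)) :=
    fun hv => integrable_inner_memLp hv.memLp (Lp.memLp (R f))
  rw [integral_add (hi hζ) (integrable_finsetSum _ fun β _ => hi (hQQ β)),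
    integral_finsetSum _ fun β _ => hi (hQQ β)]

/-- **B4** the resolvent preserves weak invariance -/
theorem rInv [CompleteSpace F] (h0 : CoerStmt S) (h2 : ESAStmt S) (hA2 : A2Stmt S)
    (hA3 : A3Stmt S) : RInvStmt S := by
  intro m hm R hR f hG hJ
  refine ⟨fun C => ?_, fun k l hkl => ?_⟩
  · have hX := rinv_XF_G S C
    refine rinv_main h2 hm (X := S.G C) ⟨hX.tst, hX.symm, hX.sub, rinv_comm_G S m hA3 C,
      hX.bd h0 hm⟩ (rinv_weak hR f) (hG C)
  · have hX := rinv_XF_J S hkl.1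
    refine rinv_main h2 hm (X := S.J k l) ⟨hX.tst, hX.symm, hX.sub, rinv_comm_J S m hA2 hkl,
      hX.bd h0 hm⟩ (rinv_weak hR f) (hJ k l hkl)

end Vale.Agent.P353.U
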