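import Vale.Agent.P353.U.StmtB

/-! # P353, uniqueness for `N = 2`: existence of the resolvent (task B1) -/

open MeasureTheory Filter Topology
open scoped ContDiff

namespace Vale.Agent.P353

variable {F : Type*} [NormedAddCommGroup F] [InnerProductSpace ℂ F]

lemma res_norm_sq {f : X3 → F} (hf : MemLp f 2 (volume : Measure X3)) :
    ‖hf.toLp f‖ ^ 2 = nsq f := by
  rw [norm_toLp, Real.sq_sqrt (nsq_nonneg f)]

lemma res_nsq_coe (f : Lp F 2 (volume : Measure X3)) : nsq f = ‖f‖ ^ 2 := by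
  rw [← res_norm_sq (Lp.memLp f), Lp.toLp_coeFn]

lemma res_nsq_sub {f : X3 → F} (hf : MemLp f 2 (volume : Measure X3))
    (g : Lp F 2 (volume : Measure X3)) : nsq (fun x => f x - g x) = ‖hf.toLp f - g‖ ^ 2 := by
  have h : hf.toLp f - g = (hf.sub (Lp.memLp g)).toLp (f - (g : X3 → F)) := by
    rw [MemLp.toLp_sub hf (Lp.memLp g), Lp.toLp_coeFn]
  rw [h, res_norm_sq]
  rfl

lemma res_inner {a : X3 → F} (ha : MemLp a 2 (volume : Measure X3))
    (g : Lp F 2 (volume : Measure X3)) :
    inner ℂ (ha.toLp a) g = ∫ x, inner ℂ (a x) (g x) := by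
  rw [MeasureTheory.L2.inner_def]
  refine integral_congr_ae ?_
  filter_upwards [ha.coeFn_toLp] with x hx
  rw [hx]

lemma res_inner' {a b : X3 → F} (ha : MemLp a 2 (volume : Measure X3))
    (hb : MemLp b 2 (volume : Measure X3)) :
    inner ℂ (ha.toLp a) (hb.toLp b) = ∫ x, inner ℂ (a x) (b x) := by
  rw [res_inner]
  refine integral_congr_ae ?_
  filter_upwards [hb.coeFn_toLp] with x hx
  rw [hx]

omit [InnerProductSpace ℂ F] in
lemma res_toLp_congr {f g : X3 → F} (hf : MemLp f 2 (volume : Measure X3))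
    (hg : MemLp g 2 (volume : Measure X3)) (h : f = g) : hf.toLp f = hg.toLp g := by
  subst h
  rfl

namespace Setup

variable (S : Setup F)

lemma res_contDiff_MM (β : Fin 16) : ContDiff ℝ ∞ (S.MM β) := by
  unfold MM
  refine ContDiff.sum fun i _ => ContDiff.sum fun A _ => ?_
  exact (contDiff_ofReal (contDiff_const.mul (contDiff_coord _))).smul contDiff_const

variable {S} in
lemma Tst.res_Qm {u : X3 → F} (hu : Tst u) (m : ℝ) (β : Fin 16) : Tst (S.Qm m β u) := by
  have h1 : Tst (S.Q β u) := Tst.Q S hu β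
  have h2 : Tst (fun x => ((m : ℝ) : ℂ) • S.MM β x (u x)) :=
    Tst.rsmul (φ := fun _ => m) contDiff_const (Tst.clm (S.res_contDiff_MM β) hu)
  exact h1.add h2

lemma Tst.res_csmul {u : X3 → F} (c : ℂ) (hu : Tst u) : Tst (fun x => c • u x) :=
  Tst.clm (T := fun _ => c • (1 : F →L[ℂ] F)) contDiff_const hu

lemma Tst.res_zero : Tst (fun _ : X3 => (0 : F)) :=
  ⟨contDiff_const, HasCompactSupport.zero⟩

lemma res_Qm_add {u v : X3 → F} (hu : Tst u) (hv : Tst v) (m : ℝ) (β : Fin 16) :
    S.Qm m β (fun y => u y + v y) = fun x => S.Qm m β u x + S.Qm m β v x := by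
  funext x
  unfold Qm Q
  simp only [pd_add (hu.diff x) (hv.diff x), map_add, Finset.sum_add_distrib, smul_add]
  abel

lemma res_Qm_smul {u : X3 → F} (c : ℂ) (hu : Tst u) (m : ℝ) (β : Fin 16) :
    S.Qm m β (fun y => c • u y) = fun x => c • S.Qm m β u x := by
  funext x
  have h : ∀ i A, pd i A (fun y => c • u y) x = c • pd i A u x := by
    intro i A
    have := pd_csmul (i := i) (A := A) (c := fun _ => c) (differentiableAt_const c) (hu.diff x)
    rw [this]
    simp
  unfold Qm Q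
  simp only [h, map_smul, smul_add, Finset.smul_sum]
  congr 1
  · congr 1
    refine Finset.sum_congr rfl fun i _ => Finset.sum_congr rfl fun A _ => ?_
    rw [smul_comm]
  · rw [smul_comm]

lemma res_Qm_zero (m : ℝ) (β : Fin 16) :
    S.Qm m β (fun _ => (0 : F)) = fun _ => 0 := by
  have h := S.res_Qm_smul (u := fun _ => (0 : F)) 0 Tst.res_zero m β
  simpa using h

end Setup

/-- The Hilbert space of the graph. -/
abbrev ResH (F : Type*) [NormedAddCommGroup F] : Type _ :=
  PiLp 2 (fun _ : Option (Fin 16) => Lp F 2 (volume : Measure X3))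

namespace Setup

variable (S : Setup F)

/-- The point of the graph over a test function. -/
noncomputable def resPair (m : ℝ) {u : X3 → F} (hu : Tst u) : ResH F :=
  WithLp.toLp 2 fun o => o.elim (hu.memLp.toLp u)
    (fun β => (hu.res_Qm (S := S) m β).memLp.toLp (S.Qm m β u))

/-- The graph over the test functions. -/
noncomputable def resG (m : ℝ) : Submodule ℂ (ResH F) where
  carrier := {w | ∃ u, ∃ hu : Tst u, w = S.resPair m hu}
  zero_mem' := by
    refine ⟨fun _ => 0, Tst.res_zero, ?_⟩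
    ext1 o
    rcases o with _ | β
    · exact (MemLp.toLp_zero (Tst.res_zero (F := F)).memLp).symm
    · have h : (Tst.res_zero.res_Qm (S := S) m β).memLp.toLp (S.Qm m β fun _ => (0 : F)) =
          (Tst.res_zero (F := F)).memLp.toLp (fun _ => (0 : F)) :=
        res_toLp_congr _ _ (S.res_Qm_zero m β)
      refine (h.trans ?_).symm
      exact MemLp.toLp_zero _
  add_mem' := by
    rintro _ _ ⟨u, hu, rfl⟩ ⟨v, hv, rfl⟩
    refine ⟨_, hu.add hv, ?_⟩
    ext1 o
    rcases o with _ | β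
    · exact (MemLp.toLp_add hu.memLp hv.memLp).symm
    · have h : ((hu.add hv).res_Qm (S := S) m β).memLp.toLp (S.Qm m β fun y => u y + v y) =
          ((hu.res_Qm (S := S) m β).memLp.add (hv.res_Qm (S := S) m β).memLp).toLp
            (S.Qm m β u + S.Qm m β v) :=
        res_toLp_congr _ _ (S.res_Qm_add hu hv m β)
      exact ((h.trans (MemLp.toLp_add (hu.res_Qm (S := S) m β).memLp
        (hv.res_Qm (S := S) m β).memLp))).symm
  smul_mem' := by
    rintro c _ ⟨u, hu, rfl⟩
    refine ⟨_, hu.res_csmul c, ?_⟩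
    ext1 o
    rcases o with _ | β
    · exact (MemLp.toLp_const_smul c hu.memLp).symm
    · have h : ((hu.res_csmul c).res_Qm (S := S) m β).memLp.toLp (S.Qm m β fun y => c • u y) =
          ((hu.res_Qm (S := S) m β).memLp.const_smul c).toLp (c • S.Qm m β u) :=
        res_toLp_congr _ _ (S.res_Qm_smul c hu m β)
      exact ((h.trans (MemLp.toLp_const_smul c (hu.res_Qm (S := S) m β).memLp))).symm

lemma resPair_mem (m : ℝ) {u : X3 → F} (hu : Tst u) : S.resPair m hu ∈ S.resG m :=
  ⟨u, hu, rfl⟩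

lemma resPair_norm (m : ℝ) {u : X3 → F} (hu : Tst u) :
    ‖S.resPair m hu‖ ^ 2 = nsq u + ∑ β, nsq (S.Qm m β u) := by
  rw [PiLp.norm_sq_eq_of_L2, Fintype.sum_option]
  congr 1
  · exact res_norm_sq hu.memLp
  · exact Finset.sum_congr rfl fun β _ => res_norm_sq (hu.res_Qm (S := S) m β).memLp

lemma resPair_inner (m : ℝ) {u : X3 → F} (hu : Tst u) (w : ResH F) :
    inner ℂ (S.resPair m hu) w = (∫ x, inner ℂ (u x) (w none x)) +
      ∑ β, ∫ x, inner ℂ (S.Qm m β u x) (w (some β) x) := by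
  rw [PiLp.inner_apply, Fintype.sum_option]
  exact congrArg₂ (· + ·) (res_inner hu.memLp (w none))
    (Finset.sum_congr rfl fun β _ => res_inner (hu.res_Qm (S := S) m β).memLp (w (some β)))

end Setup

namespace U

/-- **B1** existence of the resolvent. -/
theorem res [FiniteDimensional ℂ F] [CompleteSpace F] (S : Setup F) : ResStmt S := by
  intro m
  obtain ⟨K, hK⟩ : ∃ K : Submodule ℂ (ResH F), K = (S.resG m).topologicalClosure := ⟨_, rfl⟩
  have hKc : IsClosed (K : Set (ResH F)) := by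
    rw [hK]; exact Submodule.isClosed_topologicalClosure _
  have hKcs : CompleteSpace K := hKc.completeSpace_coe
  let pr : ResH F →L[ℂ] Lp F 2 (volume : Measure X3) :=
    PiLp.proj 2 (fun _ : Option (Fin 16) => Lp F 2 (volume : Measure X3)) none
  let P : ResH F →L[ℂ] ResH F := K.starProjection
  have hP : ∀ v w, inner ℂ (P v) w = inner ℂ v (P w) := K.inner_starProjection_left_eq_right
  have hPm : ∀ v, P v ∈ K := fun v => K.starProjection_apply_mem v
  have hPs : ∀ v ∈ K, P v = v := fun v hv => K.starProjection_eq_self_iff.2 hv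
  have hpr : ∀ w, pr w = w none := fun w => rfl
  obtain ⟨pr', hpr'⟩ : ∃ T : Lp F 2 (volume : Measure X3) →L[ℂ] ResH F,
      ∀ f w, (inner ℂ (T f) w : ℂ) = inner ℂ f (w none) ∧
        (inner ℂ w (T f) : ℂ) = inner ℂ (w none) f :=
    ⟨ContinuousLinearMap.adjoint pr, fun f w => ⟨by
      rw [ContinuousLinearMap.adjoint_inner_left, hpr], by
      rw [ContinuousLinearMap.adjoint_inner_right, hpr]⟩⟩
  obtain ⟨R, hR⟩ : ∃ R : Lp F 2 (volume : Measure X3) →L[ℂ] Lp F 2 (volume : Measure X3),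
      ∀ f, R f = (P (pr' f)) none := ⟨pr ∘L P ∘L pr', fun f => rfl⟩
  clear_value pr P
  refine ⟨R, ?_, ?_⟩
  · intro f g
    rw [hR, hR, ← (hpr' g _).2, hP, (hpr' f _).1]
  · intro f
    obtain ⟨w, hw⟩ : ∃ w, w = P (pr' f) := ⟨_, rfl⟩
    have hRf : R f = w none := by rw [hR, hw]
    rw [hRf]
    have hwK : w ∈ K := by rw [hw]; exact hPm _
    refine ⟨fun β => w (some β), ?_, ?_, ?_⟩
    · -- strong approximation
      have h1 : w ∈ closure ((S.resG m : Submodule ℂ (ResH F)) : Set (ResH F)) := by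
        have : w ∈ (S.resG m).topologicalClosure := by rw [← hK]; exact hwK
        exact this
      obtain ⟨z, hz, hzw⟩ := mem_closure_iff_seq_limit.1 h1
      choose u hu huz using hz
      have hzw' : Tendsto (fun n => ‖z n - w‖) atTop (𝓝 0) :=
        tendsto_iff_norm_sub_tendsto_zero.1 hzw
      have key : ∀ o, Tendsto (fun n => ‖z n o - w o‖ ^ 2) atTop (𝓝 0) := by
        intro o
        have h2 : Tendsto (fun n => ‖z n - w‖ ^ 2) atTop (𝓝 0) := by
          have := hzw'.pow 2
          simpa using this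
        refine squeeze_zero (fun n => by positivity) (fun n => ?_) h2
        have h3 : ‖(z n - w) o‖ ≤ ‖z n - w‖ := PiLp.norm_apply_le _ _
        exact pow_le_pow_left₀ (norm_nonneg _) h3 2
      refine ⟨u, hu, ⟨fun n => (hu n).memLp, Lp.memLp _, ?_⟩, fun β =>
        ⟨fun n => ((hu n).res_Qm (S := S) m β).memLp, Lp.memLp _, ?_⟩⟩
      · refine (key none).congr fun n => ?_
        rw [res_nsq_sub (hu n).memLp, huz n]
        rfl
      · refine (key (some β)).congr fun n => ?_
        rw [res_nsq_sub ((hu n).res_Qm (S := S) m β).memLp, huz n]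
        rfl
    · intro ζ hζ
      rw [← S.resPair_inner m hζ w, ← res_inner hζ.memLp f]
      have hmem : S.resPair m hζ ∈ K := by
        rw [hK]; exact Submodule.le_topologicalClosure _ (S.resPair_mem m hζ)
      rw [hw, ← hP, hPs _ hmem, (hpr' f _).2]
      rfl
    · have h1 : nsq (w none) + ∑ β, nsq (w (some β)) = ‖w‖ ^ 2 := by
        rw [PiLp.norm_sq_eq_of_L2, Fintype.sum_option, res_nsq_coe]
        congr 1
        exact Finset.sum_congr rfl fun β _ => res_nsq_coe _
      have h2 : (inner ℂ (w none) f : ℂ) = inner ℂ w w := by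
        have h4 : (inner ℂ w (pr' f) : ℂ) = inner ℂ (P w) (pr' f) := by rw [hPs w hwK]
        rw [← (hpr' f w).2, h4, hP, ← hw]
      rw [h1, h2, inner_self_eq_norm_sq_to_K]
      norm_cast

/-- Cauchy-Schwarz in the graph space. -/
theorem res_cs (S : Setup F) {m : ℝ}
    {R : Lp F 2 (volume : Measure X3) →L[ℂ] Lp F 2 (volume : Measure X3)} (hR : S.IsRes m R)
    {u : X3 → F} (hu : Setup.Tst u) :
    (inner ℂ (hu.memLp.toLp u) (hu.memLp.toLp u)).re ^ 2 ≤
      (inner ℂ (R (hu.memLp.toLp u)) (hu.memLp.toLp u)).re *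
        (nsq u + ∑ β, nsq (S.Qm m β u)) := by
  obtain ⟨Φ, hstr, hweak, hen⟩ := hR.2 (hu.memLp.toLp u)
  obtain ⟨un, _, _, hΦ⟩ := hstr
  obtain ⟨w, hw⟩ : ∃ w : ResH F, w = WithLp.toLp 2 fun o => o.elim (R (hu.memLp.toLp u))
    (fun β => (hΦ β).mem'.toLp (Φ β)) := ⟨_, rfl⟩
  have hw0 : w none = R (hu.memLp.toLp u) := by rw [hw]; rfl
  have hwβ : ∀ β, w (some β) = (hΦ β).mem'.toLp (Φ β) := fun β => by rw [hw]; rfl
  have h1 : inner ℂ (S.resPair m hu) w = inner ℂ (hu.memLp.toLp u) (hu.memLp.toLp u) := by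
    rw [S.resPair_inner, res_inner hu.memLp, ← hweak u hu, hw0]
    have h5 : ∀ β, ∫ x, inner ℂ (S.Qm m β u x) (w (some β) x) =
        ∫ x, inner ℂ (S.Qm m β u x) (Φ β x) := by
      intro β
      rw [hwβ]
      refine integral_congr_ae ?_
      filter_upwards [(hΦ β).mem'.coeFn_toLp] with x hx
      rw [hx]
    simp only [h5]
  have h2 : ‖w‖ ^ 2 = (inner ℂ (R (hu.memLp.toLp u)) (hu.memLp.toLp u)).re := by
    rw [← hen, PiLp.norm_sq_eq_of_L2, Fintype.sum_option, hw0, res_nsq_coe]
    congr 1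
    refine Finset.sum_congr rfl fun β _ => ?_
    rw [hwβ, res_norm_sq]
  rw [← h1, ← h2, ← S.resPair_norm m hu, ← mul_pow]
  have h3 : |(inner ℂ (S.resPair m hu) w).re| ≤ ‖w‖ * ‖S.resPair m hu‖ := by
    rw [mul_comm]
    exact (Complex.abs_re_le_norm _).trans (norm_inner_le_norm _ _)
  rw [← sq_abs]
  exact pow_le_pow_left₀ (abs_nonneg _) h3 2

end U
end Vale.Agent.P353
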