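import Vale.Agent.P353.U.StmtB
import Vale.Agent.P353.Loc

/-! # P353, uniqueness for `N = 2`: B10 and Theorem B -/

open MeasureTheory Filter Topology
open scoped ContDiff

namespace Vale.Agent.P353.U

variable {F : Type*} [NormedAddCommGroup F] [InnerProductSpace ℂ F]

/-! ### the supercharge is linear and preserves test functions -/

section Lin

variable (S : Setup F)

theorem thb_Qm_add (m : ℝ) (β : Fin 16) {u v : X3 → F} (hu : Setup.Tst u) (hv : Setup.Tst v)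
    (x : X3) : S.Qm m β (fun y => u y + v y) x = S.Qm m β u x + S.Qm m β v x := by
  have h1 : ∀ i A, pd i A (fun y => u y + v y) x = pd i A u x + pd i A v x := fun i A =>
    pd_add (hu.diff x) (hv.diff x)
  simp only [Setup.Qm, Setup.Q, h1, map_add, Finset.sum_add_distrib, smul_add]
  abel

theorem thb_Qm_smul (m : ℝ) (β : Fin 16) (a : ℂ) {u : X3 → F} (hu : Setup.Tst u)
    (x : X3) : S.Qm m β (fun y => a • u y) x = a • S.Qm m β u x := by
  have h1 : ∀ i A, pd i A (fun y => a • u y) x = a • pd i A u x := fun i A => by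
    have := pd_clm (i := i) (A := A) (a • (1 : F →L[ℂ] F)) (hu.diff x)
    simpa using this
  simp only [Setup.Qm, Setup.Q, h1, map_smul, smul_add, Finset.smul_sum, smul_comm _ a]

theorem thb_smul_tst (a : ℂ) {u : X3 → F} (hu : Setup.Tst u) : Setup.Tst (fun y => a • u y) := by
  have := Setup.Tst.clm (T := fun _ : X3 => a • (1 : F →L[ℂ] F)) contDiff_const hu
  simpa using this

theorem thb_comb_tst (a : Fin 3 → ℂ) {u : Fin 3 → X3 → F} (hu : ∀ j, Setup.Tst (u j)) :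
    Setup.Tst (fun y => ∑ j, a j • u j y) := by
  simp only [Fin.sum_univ_three]
  exact ((thb_smul_tst _ (hu 0)).add (thb_smul_tst _ (hu 1))).add (thb_smul_tst _ (hu 2))

theorem thb_Qm_comb (m : ℝ) (β : Fin 16) (a : Fin 3 → ℂ) {u : Fin 3 → X3 → F}
    (hu : ∀ j, Setup.Tst (u j)) (x : X3) :
    S.Qm m β (fun y => ∑ j, a j • u j y) x = ∑ j, a j • S.Qm m β (u j) x := by
  have h0 := thb_smul_tst (a 0) (hu 0)
  have h1 := thb_smul_tst (a 1) (hu 1)
  have h2 := thb_smul_tst (a 2) (hu 2)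
  have e1 := thb_Qm_add S m β (h0.add h1) h2 x
  have e2 := thb_Qm_add S m β h0 h1 x
  simp only [Fin.sum_univ_three]
  rw [e1, e2, thb_Qm_smul S m β _ (hu 0), thb_Qm_smul S m β _ (hu 1), thb_Qm_smul S m β _ (hu 2)]

theorem thb_contDiff_MM (β : Fin 16) : ContDiff ℝ ∞ (S.MM β) := by
  unfold Setup.MM
  refine ContDiff.sum fun i _ => ContDiff.sum fun A _ => ?_
  exact (Setup.contDiff_ofReal (contDiff_const.mul (Setup.contDiff_coord _))).smul contDiff_const

theorem thb_Qm_tst (m : ℝ) (β : Fin 16) {u : X3 → F} (hu : Setup.Tst u) :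
    Setup.Tst (S.Qm m β u) := by
  have h1 : Setup.Tst (fun x => ((m : ℂ) • S.MM β x) (u x)) :=
    Setup.Tst.clm ((thb_contDiff_MM S β).const_smul (m : ℂ)) hu
  have h2 := (hu.Q S β).add h1
  exact h2

theorem thb_MM_bound (β : Fin 16) : ∃ C : ℝ, 0 ≤ C ∧ ∀ x v, ‖S.MM β x v‖ ≤ C * (‖x‖ * ‖v‖) := by
  refine ⟨∑ i, ∑ A, 2 * ‖S.vec (S.g i * S.Gam) A β‖, by positivity, fun x v => ?_⟩
  have haw : ∀ i, |aw i| ≤ 2 := by
    intro i
    unfold aw
    split <;> norm_num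
  have h1 : ∀ i A, ‖((aw i * x (i, A) : ℝ) : ℂ) • (S.vec (S.g i * S.Gam) A β v)‖ ≤
      2 * ‖S.vec (S.g i * S.Gam) A β‖ * (‖x‖ * ‖v‖) := by
    intro i A
    rw [norm_smul, Complex.norm_real, Real.norm_eq_abs, abs_mul]
    have h2 : |x (i, A)| ≤ ‖x‖ := by
      have := PiLp.norm_apply_le x (i, A)
      rwa [Real.norm_eq_abs] at this
    calc |aw i| * |x (i, A)| * ‖S.vec (S.g i * S.Gam) A β v‖ ≤
        2 * ‖x‖ * (‖S.vec (S.g i * S.Gam) A β‖ * ‖v‖) := by
          gcongr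
          · exact haw i
          · exact ContinuousLinearMap.le_opNorm _ _
      _ = _ := by ring
  unfold Setup.MM
  simp only [_root_.sum_apply, _root_.smul_apply]
  refine (norm_sum_le _ _).trans ?_
  rw [Finset.sum_mul]
  refine Finset.sum_le_sum fun i _ => ?_
  refine (norm_sum_le _ _).trans ?_
  rw [Finset.sum_mul]
  exact Finset.sum_le_sum fun A _ => h1 i A

theorem thb_MM_nsq : ∃ C : ℝ, 0 ≤ C ∧ ∀ u : X3 → F, Setup.Tst u →
    ∑ β, nsq (fun x => S.MM β x (u x)) ≤ C * ∫ x, ‖x‖ ^ 2 * ‖u x‖ ^ 2 := by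
  choose C hC hC' using fun β => thb_MM_bound S β
  refine ⟨∑ β, C β ^ 2, by positivity, fun u hu => ?_⟩
  rw [Finset.sum_mul]
  refine Finset.sum_le_sum fun β _ => ?_
  rw [nsq, ← integral_const_mul]
  refine integral_mono_of_nonneg (Filter.Eventually.of_forall fun x => by positivity)
    ((hu.mul_norm_sq_int (continuous_norm.pow 2)).const_mul _)
    (Filter.Eventually.of_forall fun x => ?_)
  have := pow_le_pow_left₀ (norm_nonneg _) (hC' β x (u x)) 2
  simp only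
  calc ‖S.MM β x (u x)‖ ^ 2 ≤ (C β * (‖x‖ * ‖u x‖)) ^ 2 := this
    _ = _ := by ring

theorem thb_Qm_shift (μ ν : ℝ) (β : Fin 16) (u : X3 → F) (x : X3) :
    S.Qm ν β u x = S.Qm μ β u x + ((ν - μ : ℝ) : ℂ) • S.MM β x (u x) := by
  unfold Setup.Qm
  push_cast
  module

theorem thb_nsq_smul (a : ℂ) (f : X3 → F) : nsq (fun x => a • f x) = ‖a‖ ^ 2 * nsq f := by
  rw [nsq, nsq, ← integral_const_mul]
  refine integral_congr_ae (Filter.Eventually.of_forall fun x => ?_)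
  simp only [norm_smul, mul_pow]

theorem thb_Qm_nsq_shift {C : ℝ} (hC : ∀ u : X3 → F, Setup.Tst u →
    ∑ β, nsq (fun x => S.MM β x (u x)) ≤ C * ∫ x, ‖x‖ ^ 2 * ‖u x‖ ^ 2) (μ ν : ℝ) {u : X3 → F}
    (hu : Setup.Tst u) : ∑ β, nsq (S.Qm ν β u) ≤ 2 * ∑ β, nsq (S.Qm μ β u) +
      2 * (ν - μ) ^ 2 * (C * ∫ x, ‖x‖ ^ 2 * ‖u x‖ ^ 2) := by
  have h1 : ∀ β, nsq (S.Qm ν β u) ≤ 2 * nsq (S.Qm μ β u) +
      2 * ((ν - μ) ^ 2 * nsq (fun x => S.MM β x (u x))) := by
    intro β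
    have hM : Setup.Tst (fun x => S.MM β x (u x)) := hu.clm (thb_contDiff_MM S β)
    have h2 := nsq_add_le (thb_Qm_tst S μ β hu).memLp
      (thb_smul_tst ((ν - μ : ℝ) : ℂ) hM).memLp
    rw [thb_nsq_smul, Complex.norm_real, Real.norm_eq_abs, sq_abs] at h2
    have h3 : S.Qm ν β u = fun x => S.Qm μ β u x + ((ν - μ : ℝ) : ℂ) • S.MM β x (u x) :=
      funext fun x => thb_Qm_shift S μ ν β u x
    rw [h3]
    exact h2
  calc ∑ β, nsq (S.Qm ν β u) ≤ ∑ β, (2 * nsq (S.Qm μ β u) +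
      2 * ((ν - μ) ^ 2 * nsq (fun x => S.MM β x (u x)))) := Finset.sum_le_sum fun β _ => h1 β
    _ = 2 * ∑ β, nsq (S.Qm μ β u) +
      2 * (ν - μ) ^ 2 * ∑ β, nsq (fun x => S.MM β x (u x)) := by
        rw [Finset.sum_add_distrib, ← Finset.mul_sum, ← Finset.mul_sum, ← Finset.mul_sum]
        ring
    _ ≤ _ := by
        gcongr
        exact hC u hu

end Lin

/-! ### `L²` norms of linear combinations -/

theorem thb_nsq_comb (f : Fin 3 → X3 → F) (hf : ∀ j, MemLp (f j) 2 (volume : Measure X3))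
    (a : Fin 3 → ℂ) : nsq (fun x => ∑ j, a j • f j x) = ‖∑ j, a j • (hf j).toLp (f j)‖ ^ 2 := by
  have hm : MemLp (fun x => ∑ j, a j • f j x) 2 (volume : Measure X3) := by
    simp only [Fin.sum_univ_three]
    exact (((hf 0).const_smul (a 0)).add ((hf 1).const_smul (a 1))).add ((hf 2).const_smul (a 2))
  have h1 : ‖hm.toLp _‖ ^ 2 = nsq (fun x => ∑ j, a j • f j x) := by
    rw [norm_toLp, Real.sq_sqrt (nsq_nonneg _)]
  have h2 : hm.toLp _ = ∑ j, a j • (hf j).toLp (f j) := by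
    rw [Fin.sum_univ_three, ← MemLp.toLp_const_smul, ← MemLp.toLp_const_smul,
      ← MemLp.toLp_const_smul, ← MemLp.toLp_add, ← MemLp.toLp_add]
    apply MemLp.toLp_congr
    refine Filter.Eventually.of_forall fun x => ?_
    simp [Fin.sum_univ_three]
  rw [← h1, h2]

theorem thb_norm_comb_le {H : Type*} [NormedAddCommGroup H] [NormedSpace ℂ H] (a : Fin 3 → ℂ)
    (g : Fin 3 → H) {η : ℝ} (hg : ∀ j, ‖g j‖ ≤ η) : ‖∑ j, a j • g j‖ ≤ 3 * (‖a‖ * η) := by
  have h1 : ∀ j, ‖a j • g j‖ ≤ ‖a‖ * η := by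
    intro j
    rw [norm_smul]
    exact mul_le_mul (norm_le_pi_norm a j) (hg j) (norm_nonneg _) (norm_nonneg _)
  refine (norm_sum_le _ _).trans ?_
  calc ∑ j, ‖a j • g j‖ ≤ ∑ _j : Fin 3, ‖a‖ * η := Finset.sum_le_sum fun j _ => h1 j
    _ = 3 * (‖a‖ * η) := by simp

/-- a linearly independent family is bounded below -/
theorem thb_lower {H : Type*} [NormedAddCommGroup H] [NormedSpace ℂ H] (g : Fin 3 → H)
    (hg : ∀ a : Fin 3 → ℂ, a ≠ 0 → ∑ j, a j • g j ≠ 0) :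
    ∃ K : ℝ, 0 < K ∧ ∀ a : Fin 3 → ℂ, ‖a‖ ≤ K * ‖∑ j, a j • g j‖ := by
  set T : (Fin 3 → ℂ) →ₗ[ℂ] H := Fintype.linearCombination ℂ g with hT
  have hTa : ∀ a, T a = ∑ j, a j • g j := fun a => Fintype.linearCombination_apply ℂ g a
  have hker : LinearMap.ker T = ⊥ := by
    rw [LinearMap.ker_eq_bot']
    intro a ha
    by_contra h0
    exact hg a h0 (by rw [← hTa, ha])
  obtain ⟨K, hK, hK'⟩ := T.exists_antilipschitzWith hker
  refine ⟨K, by exact_mod_cast hK, fun a => ?_⟩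
  have h1 := hK'.le_mul_dist a 0
  rw [map_zero, dist_zero_right, dist_zero_right, hTa] at h1
  exact h1

/-! ### second moments -/

theorem thb_second {u : ℕ → X3 → F} {Ψ : X3 → F} (h : L2t u Ψ) (hu : ∀ n, Setup.Tst (u n)) {K : ℝ}
    (hK : ∀ n, ∫ x, ‖x‖ ^ 2 * ‖u n x‖ ^ 2 ≤ K) : Integrable (fun x => ‖x‖ ^ 2 * ‖Ψ x‖ ^ 2) := by
  have hmeas : AEStronglyMeasurable (fun x => ‖x‖ ^ 2 * ‖Ψ x‖ ^ 2) (volume : Measure X3) :=
    (continuous_norm.pow 2).aestronglyMeasurable.mul (h.mem'.1.norm.pow 2)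
  have key : ∀ R : ℝ, 0 ≤ R → nsq (fun x => ((min ‖x‖ R : ℝ) : ℂ) • Ψ x) ≤ K := by
    intro R hR
    have hA : Continuous (fun x : X3 => ((min ‖x‖ R : ℝ) : ℂ) • (1 : F →L[ℂ] F)) :=
      (Complex.continuous_ofReal.comp (continuous_norm.min continuous_const)).smul
        continuous_const
    have hAb : ∀ x : X3, ‖((min ‖x‖ R : ℝ) : ℂ) • (1 : F →L[ℂ] F)‖ ≤ R := by
      intro x
      rw [norm_smul, Complex.norm_real, Real.norm_eq_abs,
        abs_of_nonneg (le_min (norm_nonneg _) hR)]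
      calc min ‖x‖ R * ‖(1 : F →L[ℂ] F)‖ ≤ R * 1 := by
            gcongr
            · exact min_le_right _ _
            · exact ContinuousLinearMap.norm_id_le
        _ = R := mul_one R
    have h1 := (h.op hA hAb).lim_nsq
    have h2 : Tendsto (fun n => nsq (fun x => ((min ‖x‖ R : ℝ) : ℂ) • u n x)) atTop
        (𝓝 (nsq (fun x => ((min ‖x‖ R : ℝ) : ℂ) • Ψ x))) := by
      simpa using h1
    refine le_of_tendsto' h2 ?_
    · intro n
      refine le_trans ?_ (hK n)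
      rw [nsq]
      refine integral_mono_of_nonneg (Filter.Eventually.of_forall fun x => by positivity)
        ((hu n).mul_norm_sq_int (continuous_norm.pow 2))
        (Filter.Eventually.of_forall fun x => ?_)
      simp only [norm_smul, Complex.norm_real, Real.norm_eq_abs, mul_pow, sq_abs]
      gcongr
      exact min_le_left _ _
  refine ⟨hmeas, ?_⟩
  have hlim : Tendsto (fun n : ℕ => ∫⁻ x : X3, ENNReal.ofReal ((min ‖x‖ n) ^ 2 * ‖Ψ x‖ ^ 2)) atTop
      (𝓝 (∫⁻ x : X3, ENNReal.ofReal (‖x‖ ^ 2 * ‖Ψ x‖ ^ 2))) := by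
    refine lintegral_tendsto_of_tendsto_of_monotone ?_ ?_ ?_
    · intro n
      have : AEStronglyMeasurable (fun x : X3 => (min ‖x‖ (n : ℝ)) ^ 2 * ‖Ψ x‖ ^ 2)
          (volume : Measure X3) :=
        ((continuous_norm.min continuous_const).pow 2).aestronglyMeasurable.mul
          (h.mem'.1.norm.pow 2)
      exact this.aemeasurable.ennreal_ofReal
    · refine Filter.Eventually.of_forall fun x => ?_
      intro a b hab
      simp only
      gcongr
    · refine Filter.Eventually.of_forall fun x => ?_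
      refine tendsto_const_nhds.congr' ?_
      obtain ⟨N, hN⟩ := exists_nat_ge ‖x‖
      filter_upwards [eventually_ge_atTop N] with n hn
      have : ‖x‖ ≤ n := hN.trans (by exact_mod_cast hn)
      rw [min_eq_left this]
  have hle : ∀ n : ℕ, ∫⁻ x : X3, ENNReal.ofReal ((min ‖x‖ n) ^ 2 * ‖Ψ x‖ ^ 2) ≤
      ENNReal.ofReal K := by
    intro n
    have h1 := key n (Nat.cast_nonneg n)
    have hAm : MemLp (fun x => ((min ‖x‖ (n : ℝ) : ℝ) : ℂ) • Ψ x) 2 (volume : Measure X3) := by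
      have hA : Continuous (fun x : X3 => ((min ‖x‖ (n : ℝ) : ℝ) : ℂ) • (1 : F →L[ℂ] F)) :=
        (Complex.continuous_ofReal.comp (continuous_norm.min continuous_const)).smul
          continuous_const
      have hAb : ∀ x : X3, ‖((min ‖x‖ (n : ℝ) : ℝ) : ℂ) • (1 : F →L[ℂ] F)‖ ≤ n := by
        intro x
        rw [norm_smul, Complex.norm_real, Real.norm_eq_abs,
          abs_of_nonneg (le_min (norm_nonneg _) (Nat.cast_nonneg n))]
        calc min ‖x‖ (n : ℝ) * ‖(1 : F →L[ℂ] F)‖ ≤ n * 1 := by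
              gcongr
              · exact min_le_right _ _
              · exact ContinuousLinearMap.norm_id_le
          _ = n := mul_one _
      have := memLp_op hA hAb h.mem'
      simpa using this
    have h2 := memLp_norm_sq_int hAm
    have h3 : ∀ x : X3, ‖((min ‖x‖ (n : ℝ) : ℝ) : ℂ) • Ψ x‖ ^ 2 =
        (min ‖x‖ n) ^ 2 * ‖Ψ x‖ ^ 2 := by
      intro x
      rw [norm_smul, Complex.norm_real, Real.norm_eq_abs, mul_pow, sq_abs]
    simp only [h3] at h2
    rw [← ofReal_integral_eq_lintegral_ofReal h2 (Filter.Eventually.of_forall fun x => by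
      positivity)]
    apply ENNReal.ofReal_le_ofReal
    refine le_trans (le_of_eq ?_) h1
    rw [nsq]
    exact integral_congr_ae (Filter.Eventually.of_forall fun x => (h3 x).symm)
  have hfin : ∫⁻ x : X3, ENNReal.ofReal (‖x‖ ^ 2 * ‖Ψ x‖ ^ 2) ≤ ENNReal.ofReal K :=
    le_of_tendsto' hlim hle
  rw [hasFiniteIntegral_iff_ofReal (Filter.Eventually.of_forall fun x => by positivity)]
  exact hfin.trans_lt ENNReal.ofReal_lt_top

/-! ### B10 -/

section B10

variable (S : Setup F)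

/-- zero modes are approximated by invariant test functions -/
theorem thb_approx (h0 : CoerStmt S) (h6 : WEStmt S) (h8 : InvLemStmt S) {m : ℝ} (hm : 0 < m)
    {Ψ : X3 → F} (hΨ : S.Em m Ψ) {ε : ℝ} (hε : 0 < ε) :
    ∃ u, S.Inv u ∧ nsq (fun x => u x - Ψ x) ≤ ε ∧ ∀ β, nsq (S.Qm m β u) ≤ ε := by
  obtain ⟨hmem, hG, hJ, hQ⟩ := hΨ
  -- weak eigenfunction with eigenvalue `0`
  have hE : S.wE m 0 Ψ := by
    intro ζ hζ
    have h1 : ∀ β, ∫ x, inner ℂ (S.Qm m β (S.Qm m β ζ) x) (Ψ x) = 0 := by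
      intro β
      rw [hQ β _ (thb_Qm_tst S m β hζ)]
      simp
    simp only [sum_inner]
    rw [integral_finsetSum]
    · simp [h1]
    · intro β _
      exact integrable_inner_memLp (thb_Qm_tst S m β (thb_Qm_tst S m β hζ)).memLp hmem
  obtain ⟨Φ, hStr, -, hΦ⟩ := h6 m 0 hm Ψ hmem hE
  rw [zero_mul] at hΦ
  obtain ⟨u, hu, huΨ, huQ⟩ := hStr
  -- second moments
  obtain ⟨c, C, hc, hC, hco⟩ := h0 m m hm
  have hbd : ∃ B, ∀ n, C * nsq (u n) + ∑ β, nsq (S.Qm m β (u n)) ≤ B := by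
    have h1 : Tendsto (fun n => C * nsq (u n) + ∑ β, nsq (S.Qm m β (u n))) atTop
        (𝓝 (C * nsq Ψ + ∑ β, nsq (Φ β))) :=
      (huΨ.lim_nsq.const_mul C).add (tendsto_finsetSum _ fun β _ => (huQ β).lim_nsq)
    obtain ⟨B, hB⟩ := h1.bddAbove_range
    exact ⟨B, fun n => hB ⟨n, rfl⟩⟩
  obtain ⟨B, hB⟩ := hbd
  have hsec : Integrable (fun x => ‖x‖ ^ 2 * ‖Ψ x‖ ^ 2) := by
    refine thb_second huΨ hu (K := B / c) fun n => ?_
    have h1 := hco m le_rfl le_rfl (u n) (hu n)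
    have h2 : 0 ≤ ∑ i, ∑ A, nsq (pd i A (u n)) :=
      Finset.sum_nonneg fun i _ => Finset.sum_nonneg fun A _ => nsq_nonneg _
    rw [le_div_iff₀ hc]
    have h3 := hB n
    have h4 : 0 ≤ c * ∑ i, ∑ A, nsq (pd i A (u n)) := mul_nonneg hc.le h2
    rw [mul_add] at h1
    linarith
  set M2 : ℝ := ∫ x, ‖x‖ ^ 2 * ‖Ψ x‖ ^ 2 with hM2
  have hM20 : 0 ≤ M2 := integral_nonneg fun x => by positivity
  obtain ⟨C', hC'⟩ := h8 m Ψ (fun _ _ => 0) hmem (fun _ => MemLp.zero) hQ hsec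
  set R : ℝ := max 1 (32 * |C'| * M2 / ε) with hR
  have hR1 : 1 ≤ R := le_max_left _ _
  have hR2 : 32 * |C'| * M2 ≤ ε * R := by
    have := le_max_right 1 (32 * |C'| * M2 / ε)
    rw [← hR, div_le_iff₀ hε] at this
    linarith
  have hR0 : 0 < R := by linarith
  have hR3 : R ≤ R ^ 2 := by nlinarith
  -- the tail
  have htail0 : 0 ≤ ∫ x, (if R / 4 ≤ ‖x‖ then ‖Ψ x‖ ^ 2 else 0) := integral_nonneg fun x => by
    simp only [Pi.zero_apply]; split <;> positivity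
  have htail : (∫ x, (if R / 4 ≤ ‖x‖ then ‖Ψ x‖ ^ 2 else 0)) ≤ 16 / R ^ 2 * M2 := by
    rw [hM2, ← integral_const_mul]
    refine integral_mono_of_nonneg (Filter.Eventually.of_forall fun x => by
      simp only [Pi.zero_apply]; split <;> positivity) (hsec.const_mul _)
      (Filter.Eventually.of_forall fun x => ?_)
    simp only
    split
    · rename_i hx
      have h1 : R ^ 2 ≤ 16 * ‖x‖ ^ 2 := by nlinarith
      calc ‖Ψ x‖ ^ 2 = 1 * ‖Ψ x‖ ^ 2 := (one_mul _).symm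
        _ ≤ (16 / R ^ 2 * ‖x‖ ^ 2) * ‖Ψ x‖ ^ 2 := by
            gcongr
            rw [div_mul_eq_mul_div, le_div_iff₀ (by positivity), one_mul]
            exact h1
        _ = _ := by ring
    · positivity
  have htail2 : |C'| * (∫ x, (if R / 4 ≤ ‖x‖ then ‖Ψ x‖ ^ 2 else 0)) ≤ ε / 2 := by
    calc |C'| * (∫ x, (if R / 4 ≤ ‖x‖ then ‖Ψ x‖ ^ 2 else 0)) ≤
        |C'| * (16 / R ^ 2 * M2) := by gcongr
      _ = (16 * |C'| * M2) / R ^ 2 := by ring
      _ ≤ ε / 2 := by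
          rw [div_le_iff₀ (by positivity)]
          nlinarith [mul_le_mul_of_nonneg_left hR3 hε.le]
  obtain ⟨v, hv, -, hvG, hvJ, hv1, hv2⟩ := hC' R hR1 (ε / 2) (by linarith)
  refine ⟨v, ⟨hv, hvG hG, hvJ hJ⟩, ?_, fun β => ?_⟩
  · have h1 := mul_le_mul_of_nonneg_right (le_abs_self C') htail0
    linarith
  · have h1 := hv2 β
    have h2 : (∫ x : X3, (if R / 4 ≤ ‖x‖ then ‖((0 : F))‖ ^ 2 else 0)) = 0 := by
      simp
    rw [h2, mul_zero, add_zero] at h1
    simp only [sub_zero] at h1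
    have h3 : C' / R ^ 2 * (∫ x, (if R / 4 ≤ ‖x‖ then ‖Ψ x‖ ^ 2 else 0)) ≤
        |C'| * (∫ x, (if R / 4 ≤ ‖x‖ then ‖Ψ x‖ ^ 2 else 0)) := by
      refine mul_le_mul_of_nonneg_right ?_ htail0
      refine (div_le_div_of_nonneg_right (le_abs_self C') (by positivity)).trans ?_
      exact div_le_self (abs_nonneg _) (one_le_pow₀ hR1)
    linarith

theorem dimLow (h0 : CoerStmt S) (h6 : WEStmt S) (h8 : InvLemStmt S) : DimLowStmt S := by
  intro m hm hD c hc
  obtain ⟨Ψ, hΨ, hind⟩ := hD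
  obtain ⟨K, hK, hlow⟩ := thb_lower (fun j => (hΨ j).1.toLp (Ψ j)) (by
    intro a ha h
    have h1 := hind a ha
    rw [thb_nsq_comb Ψ (fun j => (hΨ j).1) a, h] at h1
    simp at h1)
  -- choice of the accuracy
  obtain ⟨η, hη, hη1, hη2⟩ : ∃ η : ℝ, 0 < η ∧ 3 * η ≤ 1 / (2 * K) ∧
      144 * η ^ 2 < c * (1 / (2 * K)) ^ 2 := by
    have hk : 0 < 1 / (2 * K) := by positivity
    refine ⟨min 1 c * (1 / (2 * K)) / 13, by positivity, ?_, ?_⟩
    · have : min 1 c ≤ 1 := min_le_left _ _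
      have h2 := mul_le_mul_of_nonneg_right this hk.le
      linarith
    · have h1 : min 1 c ≤ 1 := min_le_left _ _
      have h2 : min 1 c ≤ c := min_le_right _ _
      have h3 : 0 < min 1 c := lt_min one_pos hc
      have h4 : (min 1 c) ^ 2 ≤ c := by nlinarith
      have h5 : 0 < (1 / (2 * K)) ^ 2 := by positivity
      have h6 := mul_le_mul_of_nonneg_right h4 h5.le
      have h7 : 0 < c * (1 / (2 * K)) ^ 2 := by positivity
      calc 144 * (min 1 c * (1 / (2 * K)) / 13) ^ 2 =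
          144 / 169 * ((min 1 c) ^ 2 * (1 / (2 * K)) ^ 2) := by ring
        _ < _ := by linarith
  choose u hu hu1 hu2 using fun j => thb_approx S h0 h6 h8 hm (hΨ j) (ε := η ^ 2) (by positivity)
  have hut : ∀ j, Setup.Tst (u j) := fun j => (hu j).1
  refine ⟨u, hu, fun a ha => ?_⟩
  have ha0 : 0 < ‖a‖ := norm_pos_iff.2 ha
  -- lower bound
  have hdiff : ∀ j, ‖(hut j).memLp.toLp (u j) - (hΨ j).1.toLp (Ψ j)‖ ≤ η := by
    intro j
    rw [← MemLp.toLp_sub, norm_toLp]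
    refine Real.sqrt_le_iff.2 ⟨hη.le, ?_⟩
    exact hu1 j
  have hL : ‖a‖ * (1 / (2 * K)) ≤ ‖∑ j, a j • (hut j).memLp.toLp (u j)‖ := by
    have h1 := thb_norm_comb_le a
      (fun j => (hut j).memLp.toLp (u j) - (hΨ j).1.toLp (Ψ j)) hdiff
    have h2 : ∑ j, a j • (hΨ j).1.toLp (Ψ j) = ∑ j, a j • (hut j).memLp.toLp (u j) -
        ∑ j, a j • ((hut j).memLp.toLp (u j) - (hΨ j).1.toLp (Ψ j)) := by
      rw [← Finset.sum_sub_distrib]
      refine Finset.sum_congr rfl fun j _ => ?_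
      rw [smul_sub]
      abel
    have h3 := hlow a
    have h4 : ‖∑ j, a j • (hΨ j).1.toLp (Ψ j)‖ ≤ ‖∑ j, a j • (hut j).memLp.toLp (u j)‖ +
        3 * (‖a‖ * η) := by
      rw [h2]
      exact (norm_sub_le _ _).trans (by linarith)
    have h5 : ‖a‖ / K ≤ ‖∑ j, a j • (hΨ j).1.toLp (Ψ j)‖ := by
      rw [div_le_iff₀ hK]
      linarith
    have h6 : ‖a‖ / K = ‖a‖ * (1 / (2 * K)) + ‖a‖ * (1 / (2 * K)) := by
      field_simp
      norm_num
    have h7 := mul_le_mul_of_nonneg_left hη1 ha0.le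
    linarith
  -- upper bound
  have hU : ∀ β, nsq (S.Qm m β (fun x => ∑ j, a j • u j x)) ≤ (3 * (‖a‖ * η)) ^ 2 := by
    intro β
    have h1 : S.Qm m β (fun x => ∑ j, a j • u j x) = fun x => ∑ j, a j • S.Qm m β (u j) x :=
      funext fun x => thb_Qm_comb S m β a hut x
    have hq : ∀ j, MemLp (S.Qm m β (u j)) 2 (volume : Measure X3) := fun j =>
      (thb_Qm_tst S m β (hut j)).memLp
    rw [h1, thb_nsq_comb _ hq a]
    refine pow_le_pow_left₀ (norm_nonneg _) ?_ 2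
    refine thb_norm_comb_le a _ fun j => ?_
    rw [norm_toLp]
    exact Real.sqrt_le_iff.2 ⟨hη.le, hu2 j β⟩
  calc ∑ β, nsq (S.Qm m β (fun x => ∑ j, a j • u j x)) ≤
      ∑ _β : Fin 16, (3 * (‖a‖ * η)) ^ 2 := Finset.sum_le_sum fun β _ => hU β
    _ = ‖a‖ ^ 2 * (144 * η ^ 2) := by
        simp only [Finset.sum_const, Finset.card_univ, Fintype.card_fin, nsmul_eq_mul]
        push_cast
        ring
    _ < ‖a‖ ^ 2 * (c * (1 / (2 * K)) ^ 2) := by gcongr
    _ = c * (‖a‖ * (1 / (2 * K))) ^ 2 := by ring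
    _ ≤ c * nsq (fun x => ∑ j, a j • u j x) := by
        rw [thb_nsq_comb u (fun j => (hut j).memLp) a]
        gcongr

end B10

/-! ### Theorem B -/

section TB

variable (S : Setup F)

theorem thb_step (h0 : CoerStmt S) {a b : ℝ} (ha : 0 < a) : ∃ δ : ℝ, 0 < δ ∧ ∀ μ ν : ℝ,
    a ≤ μ → μ ≤ b → a ≤ ν → ν ≤ b → |ν - μ| ≤ δ → S.Low μ a → S.Low ν (8 * ν) := by
  obtain ⟨c, C, hc, hC, hco⟩ := h0 a b ha
  obtain ⟨C1, hC1, hC1'⟩ := thb_MM_nsq S
  set D : ℝ := C1 / c * (C + a) with hD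
  have hD0 : 0 ≤ D := by positivity
  refine ⟨√(3 * a / (D + 1)), Real.sqrt_pos.2 (by positivity), ?_⟩
  intro μ ν hμa hμb hνa hνb hδ hlow
  obtain ⟨u, hu, hlow⟩ := hlow
  refine ⟨u, hu, fun x hx => ?_⟩
  have h1 := hlow x hx
  set v : X3 → F := fun y => ∑ j, x j • u j y with hv
  have hvt : Setup.Tst v := thb_comb_tst x fun j => (hu j).1
  set A : ℝ := ∑ β, nsq (S.Qm μ β v) with hA
  have hA0 : 0 ≤ A := Finset.sum_nonneg fun β _ => nsq_nonneg _
  set s : ℝ := ∫ y, ‖y‖ ^ 2 * ‖v y‖ ^ 2 with hs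
  have hs0 : 0 ≤ s := integral_nonneg fun y => by positivity
  have hN : 0 < nsq v := by
    by_contra h
    have h2 : nsq v = 0 := le_antisymm (not_lt.1 h) (nsq_nonneg _)
    rw [h2, mul_zero] at h1
    linarith
  have h2 := hco μ hμa hμb v hvt
  have h3 : 0 ≤ ∑ i, ∑ A, nsq (pd i A v) :=
    Finset.sum_nonneg fun i _ => Finset.sum_nonneg fun A _ => nsq_nonneg _
  have h4 : c * s ≤ (C + a) * nsq v := by
    rw [mul_add] at h2
    have := mul_nonneg hc.le h3
    linarith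
  have h5 := thb_Qm_nsq_shift S hC1' μ ν hvt
  have h6 : C1 * s ≤ D * nsq v := by
    have h7 : s ≤ (C + a) * nsq v / c := by
      rw [le_div_iff₀ hc]
      linarith
    calc C1 * s ≤ C1 * ((C + a) * nsq v / c) := by gcongr
      _ = D * nsq v := by rw [hD]; ring
  have h7 : (ν - μ) ^ 2 ≤ 3 * a / (D + 1) := by
    rw [← sq_abs]
    calc |ν - μ| ^ 2 ≤ (√(3 * a / (D + 1))) ^ 2 := by gcongr
      _ = _ := Real.sq_sqrt (by positivity)
  have h8 : 2 * (ν - μ) ^ 2 * (C1 * s) ≤ 6 * a * nsq v := by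
    calc 2 * (ν - μ) ^ 2 * (C1 * s) ≤ 2 * (3 * a / (D + 1)) * (D * nsq v) := by gcongr
      _ = 6 * a * nsq v * (D / (D + 1)) := by ring
      _ ≤ 6 * a * nsq v * 1 := by
          gcongr
          rw [div_le_one (by positivity)]
          linarith
      _ = _ := mul_one _
  have h9 : 8 * a * nsq v ≤ 8 * ν * nsq v := by gcongr
  linarith

theorem thmB (h9 : LowDimStmt S) (h10 : DimLowStmt S) (h0 : CoerStmt S) : ThmBStmt S := by
  intro m hm hlow m' hm' c hc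
  set a : ℝ := min m m' with ha
  set b : ℝ := max m m' with hb
  have ha0 : 0 < a := lt_min hm hm'
  obtain ⟨δ, hδ, hstep⟩ := thb_step S h0 (b := b) ha0
  have hD0 : S.Dim3 m := h9 m hm hlow
  obtain ⟨N, hN⟩ := exists_nat_gt (|m' - m| / δ)
  have hN0 : 0 < (N : ℝ) := lt_of_le_of_lt (by positivity) hN
  have hstepN : |(m' - m) / N| ≤ δ := by
    rw [abs_div, abs_of_pos hN0, div_le_iff₀ hN0]
    rw [div_lt_iff₀ hδ] at hN
    linarith
  have hpos : ∀ k : ℕ, k ≤ N → a ≤ m + k * ((m' - m) / N) ∧ m + k * ((m' - m) / N) ≤ b := by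
    intro k hk
    have hkN : (k : ℝ) / N ≤ 1 := (div_le_one hN0).2 (by exact_mod_cast hk)
    have hk0 : 0 ≤ (k : ℝ) / N := by positivity
    have e : m + k * ((m' - m) / N) = (1 - (k : ℝ) / N) * m + (k : ℝ) / N * m' := by
      field_simp
      ring
    rw [e]
    have h1 : a ≤ m := min_le_left _ _
    have h2 : a ≤ m' := min_le_right _ _
    have h3 : m ≤ b := le_max_left _ _
    have h4 : m' ≤ b := le_max_right _ _
    have h5 : 0 ≤ 1 - (k : ℝ) / N := by linarith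
    constructor
    · nlinarith [mul_le_mul_of_nonneg_left h1 h5, mul_le_mul_of_nonneg_left h2 hk0]
    · nlinarith [mul_le_mul_of_nonneg_left h3 h5, mul_le_mul_of_nonneg_left h4 hk0]
  have hmain : ∀ k : ℕ, k ≤ N → S.Dim3 (m + k * ((m' - m) / N)) := by
    intro k
    induction k with
    | zero => intro _; simpa using hD0
    | succ k ih =>
      intro hk
      have hk' : k ≤ N := by omega
      obtain ⟨p1, p2⟩ := hpos k hk'
      obtain ⟨q1, q2⟩ := hpos (k + 1) hk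
      have hL := h10 _ (lt_of_lt_of_le ha0 p1) (ih hk') a ha0
      refine h9 _ (lt_of_lt_of_le ha0 q1) (hstep _ _ p1 p2 q1 q2 ?_ hL)
      have e : m + ((k + 1 : ℕ) : ℝ) * ((m' - m) / N) - (m + k * ((m' - m) / N)) =
          (m' - m) / N := by
        push_cast
        ring
      rw [e]
      exact hstepN
  have hfin := hmain N le_rfl
  have e : m + (N : ℝ) * ((m' - m) / N) = m' := by
    field_simp
    ring
  rw [e] at hfin
  exact h10 m' hm' hfin c hc

end TB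

end Vale.Agent.P353.U
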