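import Vale.Agent.P353.U.ThmB
import Vale.Agent.P353.U.StmtC
import Vale.Agent.P353.U.StmtD

/-! # P353, uniqueness for `N = 2`: Theorem D (`m → 0`)

Two independent zero modes at `m = 0`, cut off at `‖x‖ = c₀ m^{-1/2}`, together with the outer state of
`OutStmt` span a three dimensional space on which the energy is `< 8m`. -/

open MeasureTheory Filter Topology
open scoped ContDiff

namespace Vale.Agent.P353.U

variable {F : Type*} [NormedAddCommGroup F] [InnerProductSpace ℂ F]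

/-! ### locality and disjoint supports -/

theorem thd_Qm_zero (S : Setup F) (m : ℝ) (β : Fin 16) {u : X3 → F} {x : X3}
    (h : u =ᶠ[𝓝 x] fun _ => 0) : S.Qm m β u x = 0 := by
  have h0 : u x = 0 := h.self_of_nhds
  have h1 : ∀ i A, pd i A u x = 0 := by
    intro i A
    unfold pd
    rw [h.fderiv_eq]
    simp
  simp [Setup.Qm, Setup.Q, h0, h1]

theorem thd_Qm_in (S : Setup F) (m : ℝ) (β : Fin 16) {u : X3 → F} {R : ℝ}
    (h : ∀ x, ‖x‖ ≤ R → u x = 0) {x : X3} (hx : ‖x‖ < R) : S.Qm m β u x = 0 := by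
  refine thd_Qm_zero S m β ?_
  filter_upwards [(isOpen_lt continuous_norm continuous_const).mem_nhds hx] with y hy
  exact h y (le_of_lt hy)

theorem thd_Qm_out (S : Setup F) (m : ℝ) (β : Fin 16) {u : X3 → F} {R : ℝ}
    (h : ∀ x, R ≤ ‖x‖ → u x = 0) {x : X3} (hx : R < ‖x‖) : S.Qm m β u x = 0 := by
  refine thd_Qm_zero S m β ?_
  filter_upwards [(isOpen_lt continuous_const continuous_norm).mem_nhds hx] with y hy
  exact h y (le_of_lt hy)

theorem thd_ae_sphere {R : ℝ} (hR : 0 < R) : ∀ᵐ x : X3, ‖x‖ ≠ R := by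
  have h1 : (volume : Measure X3) (Metric.sphere (0 : X3) R) = 0 :=
    Measure.addHaar_sphere_of_ne_zero _ _ hR.ne'
  rw [ae_iff]
  convert h1 using 2
  ext x
  simp

omit [InnerProductSpace ℂ F] in
theorem thd_nsq_split {f g : X3 → F} (hf : Integrable (fun x : X3 => ‖f x‖ ^ 2))
    (hg : Integrable (fun x : X3 => ‖g x‖ ^ 2)) (h : ∀ᵐ x : X3, f x = 0 ∨ g x = 0) :
    nsq (fun x => f x + g x) = nsq f + nsq g := by
  rw [nsq, nsq, nsq, ← integral_add hf hg]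
  refine integral_congr_ae ?_
  filter_upwards [h] with x hx
  rcases hx with hx | hx <;> simp [hx]

theorem thd_nsq_pair {f g : X3 → F} (hf : Setup.Tst f) (hg : Setup.Tst g) (a b : ℂ) :
    nsq (fun x => a • f x + b • g x) ≤ 2 * (‖a‖ ^ 2 * nsq f) + 2 * (‖b‖ ^ 2 * nsq g) := by
  have h := nsq_add_le (thb_smul_tst a hf).memLp (thb_smul_tst b hg).memLp
  rwa [thb_nsq_smul, thb_nsq_smul] at h

/-- assembly of the three dimensional space -/
theorem thd_low (S : Setup F) {m R c e : ℝ} (hR : 0 < R) (hm : 0 < m) {u1 u2 u3 : X3 → F}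
    (h1 : S.Inv u1) (h2 : S.Inv u2) (h3 : S.Inv u3)
    (z1 : ∀ x, R ≤ ‖x‖ → u1 x = 0) (z2 : ∀ x, R ≤ ‖x‖ → u2 x = 0)
    (z3 : ∀ x, ‖x‖ ≤ R → u3 x = 0)
    (hlow : ∀ a b : ℂ, c * (‖a‖ ^ 2 + ‖b‖ ^ 2) ≤ nsq (fun x => a • u1 x + b • u2 x))
    (e1 : ∑ β, nsq (S.Qm m β u1) ≤ e) (e2 : ∑ β, nsq (S.Qm m β u2) ≤ e)
    (he : e < 4 * m * c) (hp : 0 < nsq u3)
    (e3 : ∑ β, nsq (S.Qm m β u3) ≤ 4 * m * nsq u3) : S.Low m (8 * m) := by
  refine ⟨![u1, u2, u3], ?_, ?_⟩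
  · intro j
    fin_cases j
    · exact h1
    · exact h2
    · exact h3
  intro a ha
  have hT : ∀ j, Setup.Tst ((![u1, u2, u3] : Fin 3 → X3 → F) j) := by
    intro j
    fin_cases j
    · exact h1.1
    · exact h2.1
    · exact h3.1
  have hcomb : (fun x => ∑ j, a j • (![u1, u2, u3] : Fin 3 → X3 → F) j x) =
      fun x => (a 0 • u1 x + a 1 • u2 x) + a 2 • u3 x := by
    funext x
    simp [Fin.sum_univ_three]
  have hQ : ∀ β, S.Qm m β (fun x => ∑ j, a j • (![u1, u2, u3] : Fin 3 → X3 → F) j x) =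
      fun x => (a 0 • S.Qm m β u1 x + a 1 • S.Qm m β u2 x) + a 2 • S.Qm m β u3 x := by
    intro β
    funext x
    rw [thb_Qm_comb S m β a hT]
    simp [Fin.sum_univ_three]
  have hw : Setup.Tst (fun x => a 0 • u1 x + a 1 • u2 x) :=
    (thb_smul_tst _ h1.1).add (thb_smul_tst _ h2.1)
  have hz : Setup.Tst (fun x => a 2 • u3 x) := thb_smul_tst _ h3.1
  have hn : nsq (fun x => ∑ j, a j • (![u1, u2, u3] : Fin 3 → X3 → F) j x) =
      nsq (fun x => a 0 • u1 x + a 1 • u2 x) + ‖a 2‖ ^ 2 * nsq u3 := by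
    rw [hcomb, thd_nsq_split hw.norm_sq_int hz.norm_sq_int, thb_nsq_smul]
    refine Filter.Eventually.of_forall fun x => ?_
    rcases le_total R ‖x‖ with hx | hx
    · left
      simp [z1 x hx, z2 x hx]
    · right
      simp [z3 x hx]
  have hqw : ∀ β, Setup.Tst (fun x => a 0 • S.Qm m β u1 x + a 1 • S.Qm m β u2 x) := fun β =>
    (thb_smul_tst _ (thb_Qm_tst S m β h1.1)).add (thb_smul_tst _ (thb_Qm_tst S m β h2.1))
  have hqz : ∀ β, Setup.Tst (fun x => a 2 • S.Qm m β u3 x) := fun β =>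
    thb_smul_tst _ (thb_Qm_tst S m β h3.1)
  have hq : ∀ β, nsq (S.Qm m β (fun x => ∑ j, a j • (![u1, u2, u3] : Fin 3 → X3 → F) j x)) ≤
      2 * (‖a 0‖ ^ 2 * nsq (S.Qm m β u1)) + 2 * (‖a 1‖ ^ 2 * nsq (S.Qm m β u2)) +
        ‖a 2‖ ^ 2 * nsq (S.Qm m β u3) := by
    intro β
    rw [hQ β, thd_nsq_split (hqw β).norm_sq_int (hqz β).norm_sq_int, thb_nsq_smul]
    · have := thd_nsq_pair (thb_Qm_tst S m β h1.1) (thb_Qm_tst S m β h2.1) (a 0) (a 1)
      linarith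
    · filter_upwards [thd_ae_sphere hR] with x hx
      rcases lt_or_gt_of_ne hx with hx | hx
      · right
        rw [thd_Qm_in S m β z3 hx, smul_zero]
      · left
        rw [thd_Qm_out S m β z1 hx, thd_Qm_out S m β z2 hx, smul_zero, smul_zero, add_zero]
  have hsum : ∑ β, nsq (S.Qm m β (fun x => ∑ j, a j • (![u1, u2, u3] : Fin 3 → X3 → F) j x)) ≤
      2 * (‖a 0‖ ^ 2 * e) + 2 * (‖a 1‖ ^ 2 * e) + ‖a 2‖ ^ 2 * (4 * m * nsq u3) := by
    calc _ ≤ ∑ β, (2 * (‖a 0‖ ^ 2 * nsq (S.Qm m β u1)) + 2 * (‖a 1‖ ^ 2 * nsq (S.Qm m β u2)) +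
          ‖a 2‖ ^ 2 * nsq (S.Qm m β u3)) := Finset.sum_le_sum fun β _ => hq β
      _ = 2 * (‖a 0‖ ^ 2 * ∑ β, nsq (S.Qm m β u1)) + 2 * (‖a 1‖ ^ 2 * ∑ β, nsq (S.Qm m β u2)) +
          ‖a 2‖ ^ 2 * ∑ β, nsq (S.Qm m β u3) := by
          simp only [Finset.sum_add_distrib, Finset.mul_sum]
      _ ≤ _ := by gcongr
  have hl := hlow (a 0) (a 1)
  rw [hn]
  refine lt_of_le_of_lt hsum ?_
  have ha0 := sq_nonneg ‖a 0‖
  have ha1 := sq_nonneg ‖a 1‖
  have ha2 := sq_nonneg ‖a 2‖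
  have hm8 : 8 * m * (c * (‖a 0‖ ^ 2 + ‖a 1‖ ^ 2)) ≤
      8 * m * nsq (fun x => a 0 • u1 x + a 1 • u2 x) :=
    mul_le_mul_of_nonneg_left hl (by linarith)
  have key : 0 < (8 * m * c - 2 * e) * (‖a 0‖ ^ 2 + ‖a 1‖ ^ 2) +
      4 * m * nsq u3 * ‖a 2‖ ^ 2 := by
    have hd : 0 < 8 * m * c - 2 * e := by linarith
    have hd3 : 0 < 4 * m * nsq u3 := by positivity
    by_cases h2' : a 2 = 0
    · by_cases h0' : a 0 = 0
      · have h1' : a 1 ≠ 0 := by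
          intro h1'
          apply ha
          funext j
          fin_cases j
          · exact h0'
          · exact h1'
          · exact h2'
        have : 0 < ‖a 1‖ ^ 2 := by positivity
        have h5 : 0 < (8 * m * c - 2 * e) * (‖a 0‖ ^ 2 + ‖a 1‖ ^ 2) :=
          mul_pos hd (by linarith)
        nlinarith
      · have : 0 < ‖a 0‖ ^ 2 := by positivity
        have h5 : 0 < (8 * m * c - 2 * e) * (‖a 0‖ ^ 2 + ‖a 1‖ ^ 2) :=
          mul_pos hd (by linarith)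
        nlinarith
    · have : 0 < ‖a 2‖ ^ 2 := by positivity
      have h5 : 0 < 4 * m * nsq u3 * ‖a 2‖ ^ 2 := mul_pos hd3 this
      have h6 : 0 ≤ (8 * m * c - 2 * e) * (‖a 0‖ ^ 2 + ‖a 1‖ ^ 2) :=
        mul_nonneg hd.le (by linarith)
      linarith
  nlinarith

/-! ### linear independence is stable -/

theorem thd_gram {H : Type*} [NormedAddCommGroup H] [NormedSpace ℂ H] {g1 g2 : H}
    (h : LinearIndependent ℂ ![g1, g2]) : ∃ c η : ℝ, 0 < c ∧ 0 < η ∧ ∀ f1 f2 : H,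
      ‖f1 - g1‖ ≤ η → ‖f2 - g2‖ ≤ η → ∀ a b : ℂ,
        c * (‖a‖ ^ 2 + ‖b‖ ^ 2) ≤ ‖a • f1 + b • f2‖ ^ 2 := by
  set T : (Fin 2 → ℂ) →ₗ[ℂ] H := Fintype.linearCombination ℂ ![g1, g2] with hT
  have hTa : ∀ a b : ℂ, T ![a, b] = a • g1 + b • g2 := fun a b => by
    rw [hT, Fintype.linearCombination_apply]
    simp [Fin.sum_univ_two]
  have hker : LinearMap.ker T = ⊥ := by
    rw [LinearMap.ker_eq_bot']
    intro a ha
    rw [hT, Fintype.linearCombination_apply] at ha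
    funext j
    exact (Fintype.linearIndependent_iff.1 h) a ha j
  obtain ⟨K, hK, hK'⟩ := T.exists_antilipschitzWith hker
  have hKr : (0 : ℝ) < K := by exact_mod_cast hK
  refine ⟨1 / (8 * K ^ 2), 1 / (4 * K), by positivity, by positivity, ?_⟩
  intro f1 f2 hf1 hf2 a b
  have h1 := hK'.le_mul_dist ![a, b] 0
  rw [map_zero, dist_zero_right, dist_zero_right, hTa] at h1
  set N := ‖(![a, b] : Fin 2 → ℂ)‖ with hN
  have hN0 : 0 ≤ N := norm_nonneg _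
  have haN : ‖a‖ ≤ N := by
    have := norm_le_pi_norm (![a, b] : Fin 2 → ℂ) 0
    simpa using this
  have hbN : ‖b‖ ≤ N := by
    have := norm_le_pi_norm (![a, b] : Fin 2 → ℂ) 1
    simpa using this
  have h2 : ‖a • g1 + b • g2‖ ≤ ‖a • f1 + b • f2‖ + (‖a • (f1 - g1)‖ + ‖b • (f2 - g2)‖) := by
    have e1 : a • g1 + b • g2 = (a • f1 + b • f2) - (a • (f1 - g1) + b • (f2 - g2)) := by
      module
    rw [e1]
    refine (norm_sub_le _ _).trans ?_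
    gcongr
    exact norm_add_le _ _
  have h3 : ‖a • (f1 - g1)‖ ≤ N * (1 / (4 * K)) := by
    rw [norm_smul]
    exact mul_le_mul haN hf1 (norm_nonneg _) hN0
  have h4 : ‖b • (f2 - g2)‖ ≤ N * (1 / (4 * K)) := by
    rw [norm_smul]
    exact mul_le_mul hbN hf2 (norm_nonneg _) hN0
  have h5 : N / (2 * K) ≤ ‖a • f1 + b • f2‖ := by
    have h6 : N / K ≤ ‖a • g1 + b • g2‖ := by
      rw [div_le_iff₀ hKr]
      linarith
    have h7 : N / K = N / (2 * K) + N * (1 / (4 * K)) + N * (1 / (4 * K)) := by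
      field_simp
      ring
    linarith
  have h8 : (N / (2 * K)) ^ 2 ≤ ‖a • f1 + b • f2‖ ^ 2 :=
    pow_le_pow_left₀ (by positivity) h5 2
  refine le_trans ?_ h8
  have h9 : ‖a‖ ^ 2 + ‖b‖ ^ 2 ≤ 2 * N ^ 2 := by
    have := pow_le_pow_left₀ (norm_nonneg _) haN 2
    have := pow_le_pow_left₀ (norm_nonneg _) hbN 2
    linarith
  calc 1 / (8 * (K : ℝ) ^ 2) * (‖a‖ ^ 2 + ‖b‖ ^ 2) ≤ 1 / (8 * (K : ℝ) ^ 2) * (2 * N ^ 2) := by
        gcongr
    _ = (N / (2 * K)) ^ 2 := by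
        field_simp
        ring

/-! ### the inner states -/

omit [InnerProductSpace ℂ F] in
theorem thd_tail {Ψ : X3 → F} (hΨ : MemLp Ψ 2 (volume : Measure X3)) :
    Tendsto (fun R : ℝ => ∫ x : X3, (if R / 4 ≤ ‖x‖ then ‖Ψ x‖ ^ 2 else 0)) atTop (𝓝 0) := by
  have hint := memLp_norm_sq_int hΨ
  have h0 : ∫ _x : X3, (0 : ℝ) = 0 := by simp
  have key : Tendsto (fun R : ℝ => ∫ x : X3, (if R / 4 ≤ ‖x‖ then ‖Ψ x‖ ^ 2 else 0)) atTop
      (𝓝 (∫ _x : X3, (0 : ℝ))) := by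
    refine tendsto_integral_filter_of_dominated_convergence (fun x => ‖Ψ x‖ ^ 2) ?_ ?_ hint ?_
    · refine Filter.Eventually.of_forall fun R => ?_
      have : (fun x : X3 => if R / 4 ≤ ‖x‖ then ‖Ψ x‖ ^ 2 else 0) =
          Set.indicator {x : X3 | R / 4 ≤ ‖x‖} (fun x => ‖Ψ x‖ ^ 2) := by
        ext x
        simp [Set.indicator]
      rw [this]
      exact hint.1.indicator (measurableSet_le measurable_const measurable_norm)
    · refine Filter.Eventually.of_forall fun R => Filter.Eventually.of_forall fun x => ?_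
      split_ifs <;> simp
    · refine Filter.Eventually.of_forall fun x => ?_
      refine tendsto_const_nhds.congr' ?_
      filter_upwards [eventually_gt_atTop (4 * ‖x‖)] with R hR
      rw [if_neg (by linarith)]
  rwa [h0] at key

/-- for small `m` a zero mode is close to an invariant test function supported in `‖x‖ < c₀m^{-1/2}` of energy
`o(m)` -/
theorem thd_inner (S : Setup F) (hz : ZmStmt S) (hI : InvMomStmt S)
    {Ψ : Lp F 2 (volume : Measure X3)} (hΨ : S.IsZM Ψ) {c0 η : ℝ} (hc0 : 0 < c0) (hη : 0 < η) :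
    ∀ᶠ m in 𝓝[>] (0 : ℝ), ∃ u : X3 → F, S.Inv u ∧ (∀ x, c0 / Real.sqrt m ≤ ‖x‖ → u x = 0) ∧
      nsq (fun x => u x - Ψ x) ≤ η ∧ ∑ β, nsq (S.Qm m β u) ≤ η * m := by
  obtain ⟨⟨hmem, hG, hJ, hQ⟩, hmom⟩ := hz Ψ hΨ
  obtain ⟨C, hC⟩ := hI Ψ hmem hG hJ hQ hmom
  obtain ⟨CM, hCM0, hCM⟩ := thb_MM_nsq S
  set T : ℝ → ℝ := fun R => ∫ x : X3, (if R / 4 ≤ ‖x‖ then ‖Ψ x‖ ^ 2 else 0) with hTdef
  have hR : Tendsto (fun m : ℝ => c0 / Real.sqrt m) (𝓝[>] 0) atTop := by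
    have h1 : Tendsto (fun m : ℝ => Real.sqrt m) (𝓝[>] 0) (𝓝[>] 0) := by
      refine tendsto_nhdsWithin_iff.2 ⟨?_, ?_⟩
      · have := Real.continuous_sqrt.tendsto 0
        rw [Real.sqrt_zero] at this
        exact this.mono_left nhdsWithin_le_nhds
      · filter_upwards [self_mem_nhdsWithin] with m hm
        exact Real.sqrt_pos.2 hm
    have h2 := (tendsto_inv_nhdsGT_zero.comp h1).const_mul_atTop hc0
    refine h2.congr fun m => ?_
    simp [div_eq_mul_inv]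
  have hT : Tendsto (fun m : ℝ => T (c0 / Real.sqrt m)) (𝓝[>] 0) (𝓝 0) := (thd_tail hmem).comp hR
  have hid : Tendsto (fun m : ℝ => m) (𝓝[>] 0) (𝓝 0) := tendsto_id.mono_left nhdsWithin_le_nhds
  have hl1 : Tendsto (fun m : ℝ => m ^ 2 + C * T (c0 / Real.sqrt m)) (𝓝[>] 0) (𝓝 0) := by
    have := (hid.pow 2).add (hT.const_mul C)
    simpa using this
  have hl2 : Tendsto (fun m : ℝ => 2 * m + 2 * (C / c0 ^ 2 * T (c0 / Real.sqrt m)) +
      2 * (m * (CM * C))) (𝓝[>] 0) (𝓝 0) := by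
    have := ((hid.const_mul 2).add ((hT.const_mul (C / c0 ^ 2)).const_mul 2)).add
      ((hid.mul_const (CM * C)).const_mul 2)
    simpa using this
  filter_upwards [hl1.eventually_lt_const hη, hl2.eventually_lt_const hη,
    hR.eventually_ge_atTop 1, self_mem_nhdsWithin] with m hm1 hm2 hm3 hm4
  have hm : 0 < m := hm4
  obtain ⟨u, hu, hu0, hu1, hu2, hu3⟩ := hC (c0 / Real.sqrt m) hm3 (m ^ 2) (by positivity)
  refine ⟨u, hu, hu0, hu1.trans hm1.le, ?_⟩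
  have h1 := thb_Qm_nsq_shift S hCM 0 m hu.1
  have hsq : (c0 / Real.sqrt m) ^ 2 = c0 ^ 2 / m := by
    rw [div_pow, Real.sq_sqrt hm.le]
  rw [hsq] at hu2
  have h2 : C / (c0 ^ 2 / m) * T (c0 / Real.sqrt m) = m * (C / c0 ^ 2 * T (c0 / Real.sqrt m)) := by
    field_simp
  have h3 : CM * ∫ x, ‖x‖ ^ 2 * ‖u x‖ ^ 2 ≤ CM * C := mul_le_mul_of_nonneg_left hu3 hCM0
  have h4 : 2 * (m - 0) ^ 2 * (CM * ∫ x, ‖x‖ ^ 2 * ‖u x‖ ^ 2) ≤ 2 * (m - 0) ^ 2 * (CM * C) :=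
    mul_le_mul_of_nonneg_left h3 (by positivity)
  have h5 : (2 * m + 2 * (C / c0 ^ 2 * T (c0 / Real.sqrt m)) + 2 * (m * (CM * C))) * m ≤ η * m :=
    mul_le_mul_of_nonneg_right hm2.le hm.le
  have h6 : ∑ β, nsq (S.Qm 0 β u) ≤ m ^ 2 + m * (C / c0 ^ 2 * T (c0 / Real.sqrt m)) := by
    rw [← h2]
    exact hu2
  calc ∑ β, nsq (S.Qm m β u) ≤ _ := h1
    _ ≤ 2 * (m ^ 2 + m * (C / c0 ^ 2 * T (c0 / Real.sqrt m))) + 2 * (m - 0) ^ 2 * (CM * C) := by
        linarith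
    _ = (2 * m + 2 * (C / c0 ^ 2 * T (c0 / Real.sqrt m)) + 2 * (m * (CM * C))) * m := by ring
    _ ≤ η * m := h5

/-! ### Theorem D -/

theorem thd_toLp_sub {u : X3 → F} (hu : Setup.Tst u) (Ψ : Lp F 2 (volume : Measure X3)) :
    ‖hu.memLp.toLp u - Ψ‖ = Real.sqrt (nsq (fun x => u x - Ψ x)) := by
  have h1 := norm_toLp (hu.memLp.sub (Lp.memLp Ψ))
  rw [MemLp.toLp_sub hu.memLp (Lp.memLp Ψ), Lp.toLp_coeFn] at h1
  rw [h1]
  rfl

theorem thmD {S : Setup F} (hN : N0Stmt S) (hz : ZmStmt S) (hI : InvMomStmt S) (hO : OutStmt S) :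
    ThmDStmt S := by
  intro hirr hne Ψ₁ Ψ₂ hΨ₁ hΨ₂ hli
  obtain ⟨-, Ω, hΩ, ham, -⟩ := hN hirr hne
  have hΩ0 : Ω ≠ 0 := by
    rintro rfl
    simp at hΩ
  obtain ⟨c0, m0, hc0, hm0, hout⟩ := hO Ω hΩ0 ham 4 (by norm_num)
  obtain ⟨c, η, hc, hη, hgram⟩ := thd_gram hli
  have hη2 : 0 < min (η ^ 2) c := lt_min (by positivity) hc
  have E1 := thd_inner S hz hI hΨ₁ hc0 hη2
  have E2 := thd_inner S hz hI hΨ₂ hc0 hη2
  have E3 : ∀ᶠ m in 𝓝[>] (0 : ℝ), m ∈ Set.Ioo 0 m0 := Ioo_mem_nhdsGT hm0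
  obtain ⟨m, ⟨⟨u1, h1, z1, n1, e1⟩, ⟨u2, h2, z2, n2, e2⟩⟩, hm⟩ := ((E1.and E2).and E3).exists
  obtain ⟨u3, h3, z3, n3, e3⟩ := hout m hm.1 hm.2
  refine ⟨m, hm.1, ?_⟩
  have hmp := hm.1
  have hR : 0 < c0 / Real.sqrt m := div_pos hc0 (Real.sqrt_pos.2 hm.1)
  refine thd_low S (c := c) (e := c * m) hR hm.1 h1 h2 h3 z1 z2 z3 ?_ ?_ ?_ ?_ n3 e3
  · intro a b
    have hd1 : ‖h1.1.memLp.toLp u1 - Ψ₁‖ ≤ η := by
      rw [thd_toLp_sub h1.1 Ψ₁]
      refine (Real.sqrt_le_sqrt (n1.trans (min_le_left _ _))).trans ?_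
      rw [Real.sqrt_sq hη.le]
    have hd2 : ‖h2.1.memLp.toLp u2 - Ψ₂‖ ≤ η := by
      rw [thd_toLp_sub h2.1 Ψ₂]
      refine (Real.sqrt_le_sqrt (n2.trans (min_le_left _ _))).trans ?_
      rw [Real.sqrt_sq hη.le]
    have hg := hgram _ _ hd1 hd2 a b
    refine hg.trans (le_of_eq ?_)
    have hw : Setup.Tst (fun x => a • u1 x + b • u2 x) :=
      (thb_smul_tst _ h1.1).add (thb_smul_tst _ h2.1)
    have e : a • h1.1.memLp.toLp u1 + b • h2.1.memLp.toLp u2 = hw.memLp.toLp _ := by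
      rw [← MemLp.toLp_const_smul, ← MemLp.toLp_const_smul, ← MemLp.toLp_add]
      rfl
    rw [e, norm_toLp, Real.sq_sqrt (nsq_nonneg _)]
  · refine e1.trans ?_
    exact mul_le_mul_of_nonneg_right (min_le_right _ _) hmp.le
  · refine e2.trans ?_
    exact mul_le_mul_of_nonneg_right (min_le_right _ _) hmp.le
  · nlinarith [mul_pos hc hmp]

end Vale.Agent.P353.U
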