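import Mathlib

/-! # P353: the matrix inequality `‖cof Y - Y‖² ≥ c min(‖Y‖², dist(Y, SO(3))²)` -/

namespace Vale.Agent.P353.Wells

open Matrix

/-- squared Frobenius norm -/
def fr (M : Matrix (Fin 3) (Fin 3) ℝ) : ℝ := ∑ i, ∑ j, (M i j) ^ 2

lemma fr_eq (M : Matrix (Fin 3) (Fin 3) ℝ) : fr M = (Mᵀ * M).trace := by
  unfold fr
  rw [Finset.sum_comm]
  simp only [Matrix.trace, Matrix.diag, Matrix.mul_apply, Matrix.transpose_apply]
  refine Finset.sum_congr rfl fun i _ => Finset.sum_congr rfl fun j _ => ?_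
  ring

lemma fr_nonneg (M : Matrix (Fin 3) (Fin 3) ℝ) : 0 ≤ fr M :=
  Finset.sum_nonneg fun _ _ => Finset.sum_nonneg fun _ _ => sq_nonneg _

lemma fr_orth {O : Matrix (Fin 3) (Fin 3) ℝ} (hO : Oᵀ * O = 1) (M : Matrix (Fin 3) (Fin 3) ℝ) :
    fr (O * M) = fr M := by
  rw [fr_eq, fr_eq, Matrix.transpose_mul, Matrix.mul_assoc, ← Matrix.mul_assoc Oᵀ O M, hO,
    Matrix.one_mul]

open scoped MatrixOrder in
/-- polar decomposition -/
lemma polar (Y : Matrix (Fin 3) (Fin 3) ℝ) (hd : 0 < Y.det) :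
    ∃ O : Matrix (Fin 3) (Fin 3) ℝ, Oᵀ * O = 1 ∧ O.det = 1 ∧ fr (Y - O) ≤ fr (Yᵀ * Y - 1) := by
  have hA : (Yᵀ * Y).PosSemidef := by
    have := Matrix.posSemidef_conjTranspose_mul_self Y
    rwa [Matrix.conjTranspose_eq_transpose_of_trivial] at this
  set T := CFC.sqrt (Yᵀ * Y) with hT
  have hTp : T.PosSemidef := (CFC.sqrt_nonneg (Yᵀ * Y)).posSemidef
  have hTT : T * T = Yᵀ * Y := CFC.sqrt_mul_sqrt_self _ hA.nonneg
  have hTs : Tᵀ = T := by
    have := hTp.1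
    rwa [Matrix.IsHermitian, Matrix.conjTranspose_eq_transpose_of_trivial] at this
  have hdet : T.det * T.det = Y.det * Y.det := by
    rw [← Matrix.det_mul, hTT, Matrix.det_mul, Matrix.det_transpose]
  have hT0 : 0 ≤ T.det := hTp.det_nonneg
  have hTd : T.det = Y.det := by nlinarith
  have hu : IsUnit T.det := by rw [hTd]; exact hd.ne'.isUnit
  have hOO : (Y * T⁻¹)ᵀ * (Y * T⁻¹) = 1 := by
    rw [Matrix.transpose_mul, Matrix.transpose_nonsing_inv, hTs, Matrix.mul_assoc,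
      ← Matrix.mul_assoc Yᵀ, ← hTT, Matrix.mul_assoc T T, Matrix.mul_nonsing_inv _ hu,
      Matrix.mul_one, Matrix.nonsing_inv_mul _ hu]
  refine ⟨Y * T⁻¹, hOO, ?_, ?_⟩
  · rw [Matrix.det_mul, Matrix.det_nonsing_inv, hTd, Ring.mul_inverse_cancel _ hd.ne'.isUnit]
  · have h1 : Y - Y * T⁻¹ = (Y * T⁻¹) * (T - 1) := by
      rw [Matrix.mul_sub, Matrix.mul_one, Matrix.mul_assoc, Matrix.nonsing_inv_mul _ hu,
        Matrix.mul_one]
    rw [h1, fr_orth hOO]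
    set M := T - 1 with hM
    have h2 : Yᵀ * Y - 1 = T * M + M := by
      rw [hM, Matrix.mul_sub, hTT, Matrix.mul_one]; abel
    have hMs : Mᵀ = M := by rw [hM, Matrix.transpose_sub, hTs, Matrix.transpose_one]
    have h3 : fr (T * M + M) = fr (T * M) + fr M + 2 * (Mᵀ * T * M).trace := by
      rw [fr_eq, fr_eq, fr_eq, Matrix.transpose_add, Matrix.transpose_mul, Matrix.add_mul,
        Matrix.mul_add, Matrix.mul_add, Matrix.trace_add, Matrix.trace_add, Matrix.trace_add, hTs,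
        ← Matrix.mul_assoc Mᵀ T M]
      ring
    have h4 : 0 ≤ (Mᵀ * T * M).trace := by
      have := hTp.conjTranspose_mul_mul_same M
      rw [Matrix.conjTranspose_eq_transpose_of_trivial] at this
      exact this.trace_nonneg
    rw [h2, h3]
    have := fr_nonneg (T * M)
    linarith

/-- final step of the real inequality -/
lemma aux2 {n d p q D : ℝ} (hn4 : n ≤ 4) (hD : 0 ≤ D) (hq0 : 0 ≤ q) (hq : q ≤ n * D)
    (hp : p ^ 2 ≤ n * D) (h3 : 400 * D ≤ n)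
    (e : 3 * d * (d - 1) = p * (1 + 2 * d) + D - (p ^ 2 - q) / 2)
    (hb1 : -(n * D / 2) ≤ (p ^ 2 - q) / 2) (hb2 : (p ^ 2 - q) / 2 ≤ n * D / 2)
    (g1 : d ≤ 6 / 5) (g2 : 21 / 25 ≤ d) :
    3 * (d - 1) ^ 2 - 2 * (d - 1) * p + q ≤ 400 * D := by
  have hnD : n * D ≤ 4 * D := mul_le_mul_of_nonneg_right hn4 hD
  have hp4 : p ^ 2 ≤ 4 * D := hp.trans hnD
  have k5 : q ≤ 4 * D := hq.trans hnD
  have hDD : D ^ 2 ≤ 1 / 100 * D := by
    have : D ≤ 1 / 100 := by linarith only [h3, hn4]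
    have := mul_le_mul_of_nonneg_right this hD
    rw [sq]; exact this
  -- `(3 d (d - 1))² ≤ C D`
  set r := D - (p ^ 2 - q) / 2 with hr
  have hr1 : r ≤ 3 * D := by linarith only [hr, hb1, hnD]
  have hr2 : -(3 * D) ≤ r := by linarith only [hr, hb2, hnD, hD]
  have hr3 : r ^ 2 ≤ (3 * D) ^ 2 := sq_le_sq' hr2 hr1
  have e' : 3 * d * (d - 1) = p * (1 + 2 * d) + r := by rw [e, hr]; ring
  have k2 : (3 * d * (d - 1)) ^ 2 ≤ 2 * (p ^ 2 * (1 + 2 * d) ^ 2) + 2 * r ^ 2 := by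
    rw [e']
    have := sq_nonneg (p * (1 + 2 * d) - r)
    linarith only [this, (by ring : (p * (1 + 2 * d) + r) ^ 2
      = 2 * (p ^ 2 * (1 + 2 * d) ^ 2) + 2 * r ^ 2 - (p * (1 + 2 * d) - r) ^ 2)]
  have k21 : (1 + 2 * d) ^ 2 ≤ 12 := by
    have h0 : (0:ℝ) ≤ 1 + 2 * d := by linarith only [g2]
    have h1 : 1 + 2 * d ≤ 17 / 5 := by linarith only [g1]
    have := pow_le_pow_left₀ h0 h1 2
    linarith only [this, (by norm_num : ((17:ℝ) / 5) ^ 2 ≤ 12)]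
  have k22 : p ^ 2 * (1 + 2 * d) ^ 2 ≤ (4 * D) * 12 :=
    mul_le_mul hp4 k21 (sq_nonneg _) (by linarith only [hD])
  have k3 : (3 * d * (d - 1)) ^ 2 ≤ 99 * D := by
    have : (3 * D) ^ 2 = 9 * D ^ 2 := by ring
    linarith only [k2, k22, hr3, this, hDD, hD]
  have k4 : 6 * (d - 1) ^ 2 ≤ 99 * D := by
    have h9 : (6:ℝ) ≤ (3 * d) ^ 2 := by
      have := pow_le_pow_left₀ (by norm_num : (0:ℝ) ≤ 63 / 25) (by linarith only [g2] :
        (63:ℝ) / 25 ≤ 3 * d) 2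
      linarith only [this, (by norm_num : (6:ℝ) ≤ (63 / 25) ^ 2)]
    have := mul_le_mul_of_nonneg_right h9 (sq_nonneg (d - 1))
    have h8 : (3 * d) ^ 2 * (d - 1) ^ 2 = (3 * d * (d - 1)) ^ 2 := by ring
    linarith only [this, h8, k3]
  have := sq_nonneg (d - 1 + p)
  have h7 : (d - 1 + p) ^ 2 = (d - 1) ^ 2 + 2 * (d - 1) * p + p ^ 2 := by ring
  linarith only [this, h7, k4, hp4, k5, hD]

/-- the real inequality -/
lemma aux {n d p q D : ℝ} (hn : 0 ≤ n) (hD : 0 ≤ D) (hq0 : 0 ≤ q) (hq : q ≤ n * D)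
    (hp : p ^ 2 ≤ n * D) (h1 : n = 3 * d - p)
    (h2 : 3 * d ^ 2 - 3 * d = p + D + 2 * d * p - (p ^ 2 - q) / 2) (h3 : 400 * D < n) :
    0 < d ∧ 3 * (d - 1) ^ 2 - 2 * (d - 1) * p + q ≤ 400 * D := by
  have hn' : 0 < n := by linarith only [h3, hD]
  have hnD0 : n * D ≤ n * (n / 400) := mul_le_mul_of_nonneg_left (by linarith only [h3]) hn
  have hp1 : p ^ 2 ≤ (n / 20) ^ 2 := by
    have : (n / 20) ^ 2 = n * (n / 400) := by ring
    linarith only [this, hnD0, hp]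
  obtain ⟨hp2, hp3⟩ := abs_le_of_sq_le_sq' hp1 (by linarith only [hn])
  have hd0 : 19 / 60 * n ≤ d := by linarith only [h1, hp2]
  have hd : 0 < d := by linarith only [hd0, hn']
  have hnd : n ≤ 60 / 19 * d := by linarith only [hd0]
  have ha1 : -(3 / 19 * d) ≤ p := by linarith only [hp2, hnd]
  have ha2 : p ≤ 3 / 19 * d := by linarith only [hp3, hnd]
  have hDd : D ≤ 3 / 380 * d := by linarith only [h3, hnd]
  have hnD : n * D ≤ 1 / 40 * d ^ 2 := by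
    have h := mul_le_mul hnd hDd hD (by linarith only [hd] : (0:ℝ) ≤ 60 / 19 * d)
    have h' : 60 / 19 * d * (3 / 380 * d) = 180 / 7220 * d ^ 2 := by ring
    have hd2 : 0 ≤ d ^ 2 := sq_nonneg d
    linarith only [h, h', hd2]
  have hb1 : -(n * D / 2) ≤ (p ^ 2 - q) / 2 := by
    have := sq_nonneg p
    linarith only [this, hq]
  have hb2 : (p ^ 2 - q) / 2 ≤ n * D / 2 := by linarith only [hp, hq0]
  -- bounds for `d`
  have e : 3 * d * (d - 1) = p * (1 + 2 * d) + D - (p ^ 2 - q) / 2 := by linarith only [h2]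
  have m1 : p * (1 + 2 * d) ≤ 3 / 19 * d * (1 + 2 * d) :=
    mul_le_mul_of_nonneg_right ha2 (by linarith only [hd])
  have m2 : -(3 / 19 * d) * (1 + 2 * d) ≤ p * (1 + 2 * d) :=
    mul_le_mul_of_nonneg_right ha1 (by linarith only [hd])
  have hd2 : 0 ≤ d ^ 2 := sq_nonneg d
  have e1 : d * (d - 1) ≤ d * (1 / 18 + 3 / 25 * d) := by
    linarith only [e, m1, hDd, hb1, hnD, hd2, hd]
  have e2 : d * (-(1 / 18 + 3 / 25 * d)) ≤ d * (d - 1) := by
    linarith only [e, m2, hD, hb2, hnD, hd2, hd]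
  have f1 : d - 1 ≤ 1 / 18 + 3 / 25 * d := le_of_mul_le_mul_left e1 hd
  have f2 : -(1 / 18 + 3 / 25 * d) ≤ d - 1 := le_of_mul_le_mul_left e2 hd
  have g1 : d ≤ 6 / 5 := by linarith only [f1]
  have g2 : 21 / 25 ≤ d := by linarith only [f2]
  have hn4 : n ≤ 4 := by linarith only [hnd, g1]
  refine ⟨hd, ?_⟩
  exact aux2 hn4 hD hq0 hq hp (by linarith only [h3]) e hb1 hb2 g1 g2

/-- the two alternatives -/
theorem wells (Y : Matrix (Fin 3) (Fin 3) ℝ) :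
    fr Y ≤ 400 * fr (Y.adjugateᵀ - Y) ∨ ∃ O : Matrix (Fin 3) (Fin 3) ℝ, Oᵀ * O = 1 ∧ O.det = 1 ∧
      fr (Y - O) ≤ 400 * fr (Y.adjugateᵀ - Y) := by
  set E := Y.adjugateᵀ - Y with hE
  rcases le_or_gt (fr Y) (400 * fr E) with h | h
  · exact Or.inl h
  right
  set d := Y.det with hd
  set P := Yᵀ * E with hP
  have hPe : P = d • (1 : Matrix (Fin 3) (Fin 3) ℝ) - Yᵀ * Y := by
    rw [hP, hE, Matrix.mul_sub, ← Matrix.transpose_mul, Matrix.adjugate_mul, Matrix.transpose_smul,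
      Matrix.transpose_one]
  have hn : fr Y = (Yᵀ * Y).trace := fr_eq Y
  have hp : P.trace = 3 * d - fr Y := by
    rw [hPe, Matrix.trace_sub, Matrix.trace_smul, Matrix.trace_one, hn]
    simp only [Fintype.card_fin, smul_eq_mul]
    push_cast; ring
  have hq : fr P ≤ fr Y * fr E := by
    have h1 : ∀ i j, (P i j) ^ 2 ≤ (∑ k, (Y k i) ^ 2) * ∑ k, (E k j) ^ 2 := by
      intro i j
      rw [hP, Matrix.mul_apply]
      exact Finset.sum_mul_sq_le_sq_mul_sq _ _ _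
    calc fr P ≤ ∑ i, ∑ j, (∑ k, (Y k i) ^ 2) * ∑ k, (E k j) ^ 2 :=
          Finset.sum_le_sum fun i _ => Finset.sum_le_sum fun j _ => h1 i j
      _ = fr Y * fr E := by
          rw [← Finset.sum_mul_sum, Finset.sum_comm (f := fun i k => (Y k i) ^ 2),
            Finset.sum_comm (f := fun i k => (E k i) ^ 2)]
          rfl
  have hp2 : P.trace ^ 2 ≤ fr Y * fr E := by
    have h1 : P.trace = ∑ x : Fin 3 × Fin 3, Y x.2 x.1 * E x.2 x.1 := by
      rw [Fintype.sum_prod_type]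
      rfl
    have h2 : fr Y = ∑ x : Fin 3 × Fin 3, (Y x.2 x.1) ^ 2 := by
      rw [Fintype.sum_prod_type, Finset.sum_comm]; rfl
    have h3 : fr E = ∑ x : Fin 3 × Fin 3, (E x.2 x.1) ^ 2 := by
      rw [Fintype.sum_prod_type, Finset.sum_comm]; rfl
    rw [h1, h2, h3]
    exact Finset.sum_mul_sq_le_sq_mul_sq _ _ _
  have hqe : fr P = 3 * d ^ 2 - 2 * d * fr Y + fr (Yᵀ * Y) := by
    rw [hPe, hn]
    generalize Yᵀ * Y = G
    simp only [fr, Fin.sum_univ_three, Matrix.trace, Matrix.diag, Matrix.sub_apply,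
      Matrix.smul_apply, Matrix.one_apply, smul_eq_mul]
    simp
    ring
  have hDe : fr E = (fr Y ^ 2 - fr (Yᵀ * Y)) / 2 - 6 * d + fr Y := by
    rw [hE, hd, Matrix.det_fin_three, Matrix.adjugate_fin_three]
    simp only [fr, Fin.sum_univ_three, Matrix.sub_apply, Matrix.transpose_apply, Matrix.mul_apply,
      Matrix.of_apply, Matrix.cons_val', Matrix.cons_val_zero, Matrix.cons_val_one,
      Matrix.cons_val]
    ring
  obtain ⟨hdp, hfin⟩ := aux (n := fr Y) (d := d) (p := P.trace) (q := fr P) (D := fr E)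
    (fr_nonneg _) (fr_nonneg _) (fr_nonneg _) hq hp2 (by linarith)
    (by rw [hqe, hDe, hp]; ring) h
  obtain ⟨O, hO1, hO2, hO3⟩ := polar Y hdp
  refine ⟨O, hO1, hO2, hO3.trans (le_trans (le_of_eq ?_) hfin)⟩
  rw [hqe, hp, hn]
  generalize Yᵀ * Y = G
  simp only [fr, Fin.sum_univ_three, Matrix.trace, Matrix.diag, Matrix.sub_apply, Matrix.one_apply]
  simp
  ring

end Vale.Agent.P353.Wells
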