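import Vale.Agent.P353.U.StmtB
import Vale.Agent.P353.U.Wells

/-! # P353, B-V: lower bound of the BMN potential -/

open MeasureTheory Filter Topology
open scoped ContDiff

namespace Vale.Agent.P353.U

variable {F : Type*} [NormedAddCommGroup F] [InnerProductSpace ℂ F]

open Wells

lemma FF_0 (S : Setup F) (i j : Fin 9) (x : X3) :
    S.FF 0 i j x = S.κ * (x (i, 1) * x (j, 2) - x (i, 2) * x (j, 1)) := by
  have h : ∀ B C : Fin 3, ((eps 0 B C : ℤ) : ℝ) =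
      (![![0, 0, 0], ![0, 0, 1], ![0, -1, 0]] : Fin 3 → Fin 3 → ℝ) B C := by
    intro B C; fin_cases B <;> fin_cases C <;> norm_num [eps]
  unfold Setup.FF
  congr 1
  simp only [h, Fin.sum_univ_three]
  simp
  ring

lemma FF_1 (S : Setup F) (i j : Fin 9) (x : X3) :
    S.FF 1 i j x = S.κ * (x (i, 2) * x (j, 0) - x (i, 0) * x (j, 2)) := by
  have h : ∀ B C : Fin 3, ((eps 1 B C : ℤ) : ℝ) =
      (![![0, 0, -1], ![0, 0, 0], ![1, 0, 0]] : Fin 3 → Fin 3 → ℝ) B C := by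
    intro B C; fin_cases B <;> fin_cases C <;> norm_num [eps]
  unfold Setup.FF
  congr 1
  simp only [h, Fin.sum_univ_three]
  simp
  ring

lemma FF_2 (S : Setup F) (i j : Fin 9) (x : X3) :
    S.FF 2 i j x = S.κ * (x (i, 0) * x (j, 1) - x (i, 1) * x (j, 0)) := by
  have h : ∀ B C : Fin 3, ((eps 2 B C : ℤ) : ℝ) =
      (![![0, 1, 0], ![-1, 0, 0], ![0, 0, 0]] : Fin 3 → Fin 3 → ℝ) B C := by
    intro B C; fin_cases B <;> fin_cases C <;> norm_num [eps]
  unfold Setup.FF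
  congr 1
  simp only [h, Fin.sum_univ_three]
  simp
  ring

lemma det3_eq (x : X3) : det3 x =
    x (0, 0) * (x (1, 1) * x (2, 2) - x (1, 2) * x (2, 1))
    + x (0, 1) * (x (1, 2) * x (2, 0) - x (1, 0) * x (2, 2))
    + x (0, 2) * (x (1, 0) * x (2, 1) - x (1, 1) * x (2, 0)) := by
  have h : ∀ A B C : Fin 3, ((eps A B C : ℤ) : ℝ) =
      (![![![0, 0, 0], ![0, 0, 1], ![0, -1, 0]], ![![0, 0, -1], ![0, 0, 0], ![1, 0, 0]],
        ![![0, 1, 0], ![-1, 0, 0], ![0, 0, 0]]] : Fin 3 → Fin 3 → Fin 3 → ℝ) A B C := by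
    intro A B C; fin_cases A <;> fin_cases B <;> fin_cases C <;> norm_num [eps]
  simp only [det3, h, Fin.sum_univ_three]
  simp
  ring

/-- six terms of a double sum -/
lemma six_le (f : Fin 9 → Fin 9 → ℝ) (hf : ∀ i j, 0 ≤ f i j) :
    f 0 1 + f 1 0 + f 1 2 + f 2 1 + f 2 0 + f 0 2 ≤ ∑ i, ∑ j, f i j := by
  rw [← Fintype.sum_prod_type' f]
  have h : ∑ p ∈ ({(0, 1), (1, 0), (1, 2), (2, 1), (2, 0), (0, 2)} : Finset (Fin 9 × Fin 9)),
      f p.1 p.2 ≤ ∑ p : Fin 9 × Fin 9, f p.1 p.2 :=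
    Finset.sum_le_sum_of_subset_of_nonneg (Finset.subset_univ _) fun p _ _ => hf _ _
  refine le_trans (le_of_eq ?_) h
  rw [Finset.sum_insert (by decide), Finset.sum_insert (by decide), Finset.sum_insert (by decide),
    Finset.sum_insert (by decide), Finset.sum_insert (by decide), Finset.sum_singleton]
  ring

/-- the `I6` part of the squared norm -/
def z6 (x : X3) : ℝ := ∑ i : Fin 6, ∑ A, x (⟨i.val + 3, by omega⟩, A) ^ 2

lemma z6_nonneg (x : X3) : 0 ≤ z6 x :=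
  Finset.sum_nonneg fun _ _ => Finset.sum_nonneg fun _ _ => sq_nonneg _

/-- splitting of a sum over `Fin 9` -/
lemma split9 (f : Fin 9 → ℝ) : ∑ i, f i = (f 0 + f 1 + f 2) + ∑ i : Fin 6, f ⟨i.val + 3, by omega⟩ := by
  simp only [Fin.sum_univ_succ, Fin.sum_univ_zero]
  simp
  ring

/-- the matrix `Y` -/
noncomputable def YY (t : ℝ) (x : X3) : Matrix (Fin 3) (Fin 3) ℝ :=
  Matrix.of fun A k => -t * x (ci k, A)

lemma vm_ge (S : Setup F) {m : ℝ} (hm : 0 < m) (x : X3) :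
    m ^ 2 / 2 * z6 x + 8 * m ^ 4 / S.κ ^ 2 *
      fr ((YY (S.κ / (2 * m)) x).adjugate.transpose - YY (S.κ / (2 * m)) x) ≤ S.Vm m x := by
  have hκ := S.κ_pos
  have h1 : (1 / 4) * ∑ A, ((S.FF A 0 1 x) ^ 2 + (S.FF A 1 0 x) ^ 2 + (S.FF A 1 2 x) ^ 2
      + (S.FF A 2 1 x) ^ 2 + (S.FF A 2 0 x) ^ 2 + (S.FF A 0 2 x) ^ 2) ≤ S.V x := by
    unfold Setup.V
    refine mul_le_mul_of_nonneg_left (Finset.sum_le_sum fun A _ => ?_) (by norm_num)
    exact six_le (fun i j => (S.FF A i j x) ^ 2) fun i j => sq_nonneg _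
  have h2 : ∑ i, ∑ A, (aw i * x (i, A)) ^ 2 =
      4 * (∑ A, (x (0, A) ^ 2 + x (1, A) ^ 2 + x (2, A) ^ 2)) + z6 x := by
    rw [split9]
    have e0 : aw 0 = 2 := by simp [aw]
    have e1 : aw 1 = 2 := by simp [aw]
    have e2 : aw 2 = 2 := by simp [aw]
    have e3 : ∀ i : Fin 6, aw ⟨i.val + 3, by omega⟩ = 1 := by intro i; simp [aw]
    simp only [e0, e1, e2, e3, one_mul, Fin.sum_univ_three]
    unfold z6
    simp only [Fin.sum_univ_three]
    ring
  have h3 : S.Vm m x = S.V x + 6 * m * S.κ * det3 x + m ^ 2 / 2 *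
      (4 * (∑ A, (x (0, A) ^ 2 + x (1, A) ^ 2 + x (2, A) ^ 2)) + z6 x) := by
    rw [← h2]; rfl
  have h4 : (1 / 4) * ∑ A, ((S.FF A 0 1 x) ^ 2 + (S.FF A 1 0 x) ^ 2 + (S.FF A 1 2 x) ^ 2
      + (S.FF A 2 1 x) ^ 2 + (S.FF A 2 0 x) ^ 2 + (S.FF A 0 2 x) ^ 2)
      + 6 * m * S.κ * det3 x + m ^ 2 / 2 *
      (4 * (∑ A, (x (0, A) ^ 2 + x (1, A) ^ 2 + x (2, A) ^ 2))) =
      8 * m ^ 4 / S.κ ^ 2 *
      fr ((YY (S.κ / (2 * m)) x).adjugate.transpose - YY (S.κ / (2 * m)) x) := by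
    have c0 : ci 0 = 0 := rfl
    have c1 : ci 1 = 1 := rfl
    have c2 : ci 2 = 2 := rfl
    rw [Matrix.adjugate_fin_three, det3_eq]
    simp only [Fin.sum_univ_three, FF_0, FF_1, FF_2, fr, YY, Matrix.sub_apply,
      Matrix.transpose_apply, Matrix.of_apply, Matrix.cons_val', Matrix.cons_val_zero,
      Matrix.cons_val_one, Matrix.cons_val, c0, c1, c2]
    field_simp
    ring
  rw [h3, ← h4]
  nlinarith

lemma norm_split (x : X3) : ‖x‖ ^ 2 =
    (∑ A, (x (0, A) ^ 2 + x (1, A) ^ 2 + x (2, A) ^ 2)) + z6 x := by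
  rw [EuclideanSpace.real_norm_sq_eq, Fintype.sum_prod_type, split9]
  unfold z6
  simp only [Fin.sum_univ_three]
  ring

lemma norm_YY {t : ℝ} (ht : 0 < t) (x : X3) : ‖x‖ ^ 2 = 1 / t ^ 2 * fr (YY t x) + z6 x := by
  rw [norm_split]
  have c0 : ci 0 = 0 := rfl
  have c1 : ci 1 = 1 := rfl
  have c2 : ci 2 = 2 := rfl
  congr 1
  simp only [Fin.sum_univ_three, fr, YY, Matrix.of_apply, c0, c1, c2]
  field_simp

lemma z6_sub_ro (S : Setup F) (m : ℝ) (O : Matrix (Fin 3) (Fin 3) ℝ) (x : X3) :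
    z6 (x - ro O (m • S.xi0)) = z6 x := by
  unfold z6
  refine Finset.sum_congr rfl fun i _ => Finset.sum_congr rfl fun A _ => ?_
  have h : ∀ B : Fin 3, (⟨i.val + 3, by omega⟩ : Fin 9) ≠ ci B := by
    intro B hB
    have := congrArg Fin.val hB
    simp only [ci] at this
    omega
  have h2 : (ro O (m • S.xi0)) (⟨i.val + 3, by omega⟩, A) = 0 := by
    simp only [ro, Setup.xi0, PiLp.smul_apply, h, if_false, smul_zero, mul_zero,
      Finset.sum_const_zero]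
  rw [PiLp.sub_apply, h2, sub_zero]

lemma YY_sub_ro (S : Setup F) {m : ℝ} (hm : 0 < m) (O : Matrix (Fin 3) (Fin 3) ℝ) (x : X3) :
    YY (S.κ / (2 * m)) (x - ro O (m • S.xi0)) = YY (S.κ / (2 * m)) x - O := by
  have hκ := S.κ_pos
  ext A k
  have h2 : (ro O (m • S.xi0)) (ci k, A) = -(2 * m / S.κ) * O A k := by
    have h3 : ∀ B : Fin 3, ci k = ci B ↔ k = B := by
      intro B
      constructor
      · intro h
        have := congrArg Fin.val h
        simp only [ci] at this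
        exact Fin.ext this
      · rintro rfl; rfl
    simp only [ro, Setup.xi0, PiLp.smul_apply, h3, smul_eq_mul, mul_ite, mul_zero]
    rw [Finset.sum_ite_eq Finset.univ k]
    simp only [Finset.mem_univ, if_true]
    ring
  simp only [YY, Matrix.of_apply, Matrix.sub_apply, PiLp.sub_apply, h2]
  field_simp
  ring

/-- **B-V** -/
theorem vBound (S : Setup F) : VBoundStmt S := by
  refine ⟨1 / 200, by norm_num, fun m hm x => ?_⟩
  have hκ := S.κ_pos
  set t := S.κ / (2 * m) with ht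
  have ht0 : 0 < t := by positivity
  set f := fr ((YY t x).adjugate.transpose - YY t x) with hf
  have hf0 : 0 ≤ f := fr_nonneg _
  have hV := vm_ge S hm x
  rw [← ht, ← hf] at hV
  have hdm0 : 0 ≤ S.dm m x := le_min (norm_nonneg _) Metric.infDist_nonneg
  -- bound of the distance
  have hd : S.dm m x ^ 2 ≤ 1 / t ^ 2 * (400 * f) + z6 x := by
    rcases wells (YY t x) with h | ⟨O, hO1, hO2, h⟩
    · have h1 : S.dm m x ^ 2 ≤ ‖x‖ ^ 2 := pow_le_pow_left₀ hdm0 (min_le_left _ _) 2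
      rw [norm_YY ht0] at h1
      have := mul_le_mul_of_nonneg_left h (by positivity : 0 ≤ 1 / t ^ 2)
      rw [← hf] at this
      linarith
    · have hmem : ro O (m • S.xi0) ∈ S.Orb m := ⟨O, hO1, hO2, rfl⟩
      have h1 : S.dm m x ^ 2 ≤ ‖x - ro O (m • S.xi0)‖ ^ 2 := by
        refine pow_le_pow_left₀ hdm0 ((min_le_right _ _).trans ?_) 2
        rw [← dist_eq_norm]
        exact Metric.infDist_le_dist_of_mem hmem
      rw [norm_YY ht0, z6_sub_ro, ht, YY_sub_ro S hm, ← ht] at h1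
      have := mul_le_mul_of_nonneg_left h (by positivity : 0 ≤ 1 / t ^ 2)
      rw [← hf] at this
      linarith
  have hz := z6_nonneg x
  have e : 1 / 200 * m ^ 2 * (1 / t ^ 2 * (400 * f)) = 8 * m ^ 4 / S.κ ^ 2 * f := by
    rw [ht]
    field_simp
    ring
  calc 1 / 200 * m ^ 2 * S.dm m x ^ 2
      ≤ 1 / 200 * m ^ 2 * (1 / t ^ 2 * (400 * f) + z6 x) :=
        mul_le_mul_of_nonneg_left hd (by positivity)
    _ = 8 * m ^ 4 / S.κ ^ 2 * f + 1 / 200 * (m ^ 2 * z6 x) := by rw [mul_add, e]; ring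
    _ ≤ m ^ 2 / 2 * z6 x + 8 * m ^ 4 / S.κ ^ 2 * f := by
        have : 0 ≤ m ^ 2 * z6 x := by positivity
        linarith
    _ ≤ S.Vm m x := hV

end Vale.Agent.P353.U
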