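import Vale.Agent.P353.U.StmtD

/-! # P353, uniqueness for `N = 2`: derivatives of `v` at a cone point (task D-3) -/

open MeasureTheory Filter Topology
open scoped ContDiff

namespace Vale.Agent.P353
namespace U

variable {F : Type*} [NormedAddCommGroup F] [InnerProductSpace ℂ F]

lemma v3_Fx_add (S : Setup F) (x z : X3) : S.Fx (x + z) = S.Fx x + S.Fx z := by
  unfold Setup.Fx
  rw [← smul_add]
  congr 1
  simp only [← Finset.sum_add_distrib]
  refine Finset.sum_congr rfl fun q _ => Finset.sum_congr rfl fun A _ =>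
    Finset.sum_congr rfl fun B _ => Finset.sum_congr rfl fun C _ => ?_
  rw [← add_smul]
  congr 1
  rw [PiLp.add_apply]
  push_cast
  ring

lemma v3_Fx_smul (S : Setup F) (c : ℝ) (x : X3) : S.Fx (c • x) = (c : ℂ) • S.Fx x := by
  unfold Setup.Fx
  rw [smul_comm (c : ℂ)]
  congr 1
  simp only [Finset.smul_sum]
  refine Finset.sum_congr rfl fun q _ => Finset.sum_congr rfl fun A _ =>
    Finset.sum_congr rfl fun B _ => Finset.sum_congr rfl fun C _ => ?_
  rw [smul_smul]
  congr 1
  rw [PiLp.smul_apply, smul_eq_mul]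
  push_cast
  ring

lemma v3_Fx_zero (S : Setup F) : S.Fx 0 = 0 := by
  have h := v3_Fx_smul S 0 0
  simpa using h

/-- `Fx` is linear, so it is its own derivative -/
lemma v3_Fx_fderiv (S : Setup F) (x h : X3) : fderiv ℝ S.Fx x h = S.Fx h := by
  let L : X3 →ₗ[ℝ] (F →L[ℂ] F) :=
    { toFun := S.Fx
      map_add' := v3_Fx_add S
      map_smul' := fun c x => by
        rw [v3_Fx_smul, RingHom.id_apply]
        ext v
        simp }
  have h1 : S.Fx = (LinearMap.toContinuousLinearMap L : X3 → (F →L[ℂ] F)) := rfl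
  have h2 : fderiv ℝ S.Fx x = LinearMap.toContinuousLinearMap L := by
    rw [h1]
    exact ContinuousLinearMap.fderiv _
  rw [h2]
  rfl

lemma v3_norm (n : Fin 3 → ℝ) (y : Fin 9 → ℝ) (hn : ∑ A, n A ^ 2 = 1) :
    ‖cone n y‖ ^ 2 = ry y ^ 2 := by
  rw [EuclideanSpace.norm_sq_eq, ry, Real.sq_sqrt (Finset.sum_nonneg fun i _ => sq_nonneg _),
    Fintype.sum_prod_type]
  refine Finset.sum_congr rfl fun i _ => ?_
  have h : ∀ A, ‖(cone n y) (i, A)‖ ^ 2 = y i ^ 2 * n A ^ 2 := fun A => by
    rw [Real.norm_eq_abs, sq_abs, ← mul_pow]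
    rfl
  rw [Finset.sum_congr rfl fun A _ => h A, ← Finset.mul_sum, hn, mul_one]

lemma v3_ry_sq (y : Fin 9 → ℝ) : ry y ^ 2 = ∑ i, y i ^ 2 := by
  rw [ry, Real.sq_sqrt (Finset.sum_nonneg fun i _ => sq_nonneg _)]

lemma v3_coord (x h : X3) (p : Fin 9 × Fin 3) :
    HasDerivAt (fun t : ℝ => (x + t • h) p) (h p) 0 := by
  have h1 : HasDerivAt (fun t : ℝ => x p + t * h p) (1 * h p) 0 :=
    ((hasDerivAt_id 0).mul_const (h p)).const_add (x p)
  rw [one_mul] at h1
  exact h1

lemma v3_Gr (x h : X3) (A B : Fin 3) :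
    HasDerivAt (fun t : ℝ => Gr (x + t • h) A B)
      (∑ i, (h (i, A) * x (i, B) + x (i, A) * h (i, B))) 0 := by
  have h1 : HasDerivAt (fun t : ℝ => ∑ i, (x + t • h) (i, A) * (x + t • h) (i, B))
      (∑ i, (h (i, A) * (x + (0 : ℝ) • h) (i, B) + (x + (0 : ℝ) • h) (i, A) * h (i, B))) 0 :=
    HasDerivAt.fun_sum fun i _ => (v3_coord x h (i, A)).mul (v3_coord x h (i, B))
  rw [zero_smul, add_zero] at h1
  exact h1

lemma v3_num (x h : X3) (i : Fin 9) (A : Fin 3) :
    HasDerivAt (fun t : ℝ => ∑ B, Gr (x + t • h) A B * (x + t • h) (i, B))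
      (∑ B, ((∑ j, (h (j, A) * x (j, B) + x (j, A) * h (j, B))) * x (i, B) +
        Gr x A B * h (i, B))) 0 := by
  have h1 := HasDerivAt.fun_sum (u := Finset.univ) fun (B : Fin 3) _ =>
    (v3_Gr x h A B).mul (v3_coord x h (i, B))
  simp only [zero_smul, add_zero] at h1
  exact h1

lemma v3_den (x h : X3) :
    HasDerivAt (fun t : ℝ => ‖x + t • h‖ ^ 2) (∑ p, 2 * (x p * h p)) 0 := by
  have h1 : HasDerivAt (fun t : ℝ => ∑ p, (x + t • h) p ^ 2) (∑ p, 2 * (x p * h p)) 0 := by
    refine HasDerivAt.fun_sum fun p _ => ?_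
    have h2 := (v3_coord x h p).pow 2
    simp only [zero_smul, add_zero] at h2
    refine h2.congr_deriv ?_
    push_cast
    ring
  have h3 : (fun t : ℝ => ‖x + t • h‖ ^ 2) = fun t : ℝ => ∑ p, (x + t • h) p ^ 2 := by
    funext t
    rw [EuclideanSpace.norm_sq_eq]
    exact Finset.sum_congr rfl fun p _ => by rw [Real.norm_eq_abs, sq_abs]
  rw [h3]
  exact h1

lemma v3_xh_diff (x : X3) (hx : x ≠ 0) : DifferentiableAt ℝ xh x := by
  rw [differentiableAt_euclidean]
  intro p
  have hc : ∀ q : Fin 9 × Fin 3, DifferentiableAt ℝ (fun z : X3 => z q) x := fun q =>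
    (differentiableAt_euclidean.1 differentiableAt_id) q
  have h1 : DifferentiableAt ℝ (fun z : X3 => ∑ B, Gr z p.2 B * z (p.1, B)) x := by
    refine DifferentiableAt.fun_sum fun B _ => DifferentiableAt.mul ?_ (hc _)
    exact DifferentiableAt.fun_sum fun i _ => (hc _).mul (hc _)
  have h2 : DifferentiableAt ℝ (fun z : X3 => (‖z‖ ^ 2)⁻¹) x := by
    have hx2 : ‖x‖ ^ 2 ≠ 0 := pow_ne_zero 2 (norm_ne_zero_iff.2 hx)
    exact (differentiableAt_inv hx2).comp x (differentiableAt_id.norm_sq ℝ)
  exact (h1.mul h2).congr_of_eventuallyEq (Eventually.of_forall fun z => div_eq_mul_inv _ _)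

/-- the derivative of `x̂` at a cone point -/
lemma v3_xh_single (n : Fin 3 → ℝ) (y : Fin 9 → ℝ) (hn : ∑ A, n A ^ 2 = 1) (hr : 0 < ry y)
    (i : Fin 9) (A : Fin 3) :
    fderiv ℝ xh (cone n y) (EuclideanSpace.single (i, A) 1) =
      n A • cone n (fun k => (if k = i then 1 else 0) - y k * y i / ry y ^ 2) +
      (y i / ry y ^ 2) • cone (fun B => (if B = A then 1 else 0) - n B * n A) y +
      (y i * n A / ry y ^ 2) • cone n y := by
  have hnorm := v3_norm n y hn
  have hne : cone n y ≠ 0 := by
    intro h0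
    rw [h0, norm_zero] at hnorm
    have : 0 < ry y ^ 2 := by positivity
    linarith only [this, hnorm]
  set h : X3 := EuclideanSpace.single (i, A) 1 with hh
  have hval : ∀ (k : Fin 9) (B : Fin 3), h (k, B) = (if k = i then 1 else 0) * (if B = A then 1 else 0) := by
    intro k B
    rw [hh]
    by_cases h1 : k = i <;> by_cases h2 : B = A <;> simp [h1, h2, Prod.ext_iff]
  have hL := (v3_xh_diff (cone n y) hne).hasFDerivAt
  have hγ : HasDerivAt (fun t : ℝ => cone n y + t • h) h 0 := by
    have h1 : HasDerivAt (fun t : ℝ => cone n y + t • h) ((1 : ℝ) • h) 0 :=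
      ((hasDerivAt_id (0 : ℝ)).smul_const h).const_add (cone n y)
    rwa [one_smul] at h1
  have h0 : cone n y + (0 : ℝ) • h = cone n y := by rw [zero_smul, add_zero]
  have hcomp : HasDerivAt (fun t : ℝ => xh (cone n y + t • h)) (fderiv ℝ xh (cone n y) h) 0 := by
    have hL' : HasFDerivAt xh (fderiv ℝ xh (cone n y)) (cone n y + (0 : ℝ) • h) := by
      rw [h0]; exact hL
    exact hL'.comp_hasDerivAt 0 hγ
  ext p
  obtain ⟨k, B⟩ := p
  have hc1 : HasDerivAt (fun t : ℝ => xh (cone n y + t • h) (k, B))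
      (fderiv ℝ xh (cone n y) h (k, B)) 0 := by
    have h1 := (EuclideanSpace.proj (𝕜 := ℝ) (k, B)).hasFDerivAt (x := xh (cone n y + (0 : ℝ) • h))
    exact h1.comp_hasDerivAt 0 hcomp
  have hc2 := (v3_num (cone n y) h k B).div (v3_den (cone n y) h)
    (by rw [h0, hnorm]; positivity)
  have hu := hc1.unique hc2
  rw [hu]
  simp only [zero_smul, add_zero, hnorm]
  have hcn : ∀ (k : Fin 9) (B : Fin 3), (cone n y) (k, B) = y k * n B := fun k B => rfl
  have hG : ∀ B C, Gr (cone n y) B C = ry y ^ 2 * (n B * n C) := by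
    intro B C
    rw [v3_ry_sq, Finset.sum_mul]
    exact Finset.sum_congr rfl fun j _ => by rw [hcn, hcn]; ring
  have e1 : (∑ C, Gr (cone n y) B C * (cone n y) (k, C)) = ry y ^ 2 * n B * y k := by
    have : ∀ C ∈ Finset.univ, Gr (cone n y) B C * (cone n y) (k, C) =
        (ry y ^ 2 * n B * y k) * n C ^ 2 := fun C _ => by rw [hG, hcn]; ring
    rw [Finset.sum_congr rfl this, ← Finset.mul_sum, hn, mul_one]
  have e2 : (∑ p, 2 * ((cone n y) p * h p)) = 2 * (y i * n A) := by
    rw [Fintype.sum_prod_type]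
    simp [hval, hcn]
  have e3 : ∀ C, (∑ j, (h (j, B) * (cone n y) (j, C) + (cone n y) (j, B) * h (j, C))) =
      y i * ((if B = A then 1 else 0) * n C + n B * (if C = A then 1 else 0)) := by
    intro C
    have : ∀ j ∈ Finset.univ, (h (j, B) * (cone n y) (j, C) + (cone n y) (j, B) * h (j, C)) =
        (if j = i then y j * ((if B = A then 1 else 0) * n C + n B * (if C = A then 1 else 0))
          else 0) := by
      intro j _
      rw [hval, hval, hcn, hcn]
      by_cases hj : j = i
      · simp only [hj, if_true]; ring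
      · simp only [hj, if_false]; ring
    rw [Finset.sum_congr rfl this, Finset.sum_ite_eq' Finset.univ i]
    simp
  have e4 : (∑ C, ((∑ j, (h (j, B) * (cone n y) (j, C) + (cone n y) (j, B) * h (j, C))) *
      (cone n y) (k, C) + Gr (cone n y) B C * h (k, C))) =
      y i * y k * ((if B = A then 1 else 0) + n B * n A) +
        ry y ^ 2 * (n B * n A) * (if k = i then 1 else 0) := by
    have : ∀ C ∈ Finset.univ, ((∑ j, (h (j, B) * (cone n y) (j, C) +
        (cone n y) (j, B) * h (j, C))) * (cone n y) (k, C) + Gr (cone n y) B C * h (k, C)) =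
        (y i * y k * (if B = A then 1 else 0)) * n C ^ 2 +
        (if C = A then y i * y k * (n B * n C) +
          ry y ^ 2 * (n B * n C) * (if k = i then 1 else 0) else 0) := by
      intro C _
      rw [e3, hval, hcn, hG]
      by_cases hC : C = A
      · simp only [hC, if_true]; ring
      · simp only [hC, if_false]; ring
    rw [Finset.sum_congr rfl this, Finset.sum_add_distrib, ← Finset.mul_sum, hn,
      Finset.sum_ite_eq' Finset.univ A]
    simp only [Finset.mem_univ, if_true]
    ring
  rw [e4, e1, e2]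
  have hr2 : ry y ^ 2 ≠ 0 := by positivity
  simp only [PiLp.add_apply, PiLp.smul_apply, smul_eq_mul]
  show _ = n A * (((if k = i then 1 else 0) - y k * y i / ry y ^ 2) * n B) +
    y i / ry y ^ 2 * (y k * ((if B = A then 1 else 0) - n B * n A)) +
    y i * n A / ry y ^ 2 * (y k * n B)
  field_simp
  ring

lemma v3_single_sub (n : Fin 3 → ℝ) (y : Fin 9 → ℝ) (hr : 0 < ry y) (i : Fin 9) (A : Fin 3) :
    EuclideanSpace.single (i, A) 1 -
      (n A • cone n (fun k => (if k = i then 1 else 0) - y k * y i / ry y ^ 2) +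
      (y i / ry y ^ 2) • cone (fun B => (if B = A then 1 else 0) - n B * n A) y +
      (y i * n A / ry y ^ 2) • cone n y) =
    cone (fun B => (if B = A then 1 else 0) - n B * n A)
      (fun k => (if k = i then 1 else 0) - y k * y i / ry y ^ 2) := by
  ext p
  obtain ⟨k, B⟩ := p
  have hval : (EuclideanSpace.single (i, A) 1 : X3) (k, B) =
      (if k = i then 1 else 0) * (if B = A then 1 else 0) := by
    by_cases h1 : k = i <;> by_cases h2 : B = A <;> simp [h1, h2, Prod.ext_iff]
  simp only [PiLp.sub_apply, PiLp.add_apply, PiLp.smul_apply, smul_eq_mul, hval]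
  show _ - (n A * (((if k = i then 1 else 0) - y k * y i / ry y ^ 2) * n B) +
    y i / ry y ^ 2 * (y k * ((if B = A then 1 else 0) - n B * n A)) +
    y i * n A / ry y ^ 2 * (y k * n B)) = ((if k = i then 1 else 0) - y k * y i / ry y ^ 2) *
      ((if B = A then 1 else 0) - n B * n A)
  have hr2 : ry y ^ 2 ≠ 0 := by positivity
  field_simp
  ring

lemma v3_clm_diff {T : X3 → F →L[ℂ] F} {u : X3 → F} {x : X3}
    (hT : DifferentiableAt ℝ T x) (hu : DifferentiableAt ℝ u x) :
    DifferentiableAt ℝ (fun y => T y (u y)) x := by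
  have hB : IsBoundedBilinearMap ℝ (fun p : (F →L[ℂ] F) × F => p.1 p.2) := by
    have h := (isBoundedBilinearMap_apply (𝕜 := ℂ) (E := F) (F := F))
    refine ⟨fun a b c => by simp, fun c a b => ?_, fun a b c => by simp, fun c a b => ?_, ?_⟩
    · simp
    · simp
    · obtain ⟨C, hC, hb⟩ := h.bound
      exact ⟨C, hC, hb⟩
  have h1 := hB.hasFDerivAt (T x, u x)
  have h2 := hT.hasFDerivAt.prodMk hu.hasFDerivAt
  exact (h1.comp x h2).differentiableAt

theorem v3 (S : Setup F) (hs : SmStmt S) (h2 : Om2Stmt S) : V3Stmt S := by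
  intro Ω hΩ n y hn hρ
  obtain ⟨h1, -, -, h4, h5, -⟩ := hs Ω hΩ
  obtain ⟨h6, h7⟩ := h2 Ω hΩ n y hn hρ
  have hne : cone n y ≠ 0 := by
    intro h0
    rw [h0] at hρ
    simp [rho6sq] at hρ
  have hnorm := v3_norm n y hn
  have hr0 : 0 ≤ ry y := Real.sqrt_nonneg _
  have hnorm' : ‖cone n y‖ = ry y := by
    rwa [sq_eq_sq₀ (norm_nonneg _) hr0] at hnorm
  have hr : 0 < ry y := by rw [← hnorm']; exact norm_pos_iff.2 hne
  have hxh : xh (cone n y) = cone n y := h5 n y hn hne
  have hcont : Continuous (rho6sq) := by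
    unfold rho6sq
    refine continuous_finsetSum _ fun i _ => continuous_finsetSum _ fun A _ => ?_
    split_ifs
    · exact (continuous_apply (i, A)).comp (PiLp.continuous_ofLp 2 _) |>.pow 2
    · exact continuous_const
  have hopen : IsOpen {x : X3 | 0 < rho6sq x} := isOpen_lt continuous_const hcont
  have dom : DifferentiableAt ℝ (S.om Ω) (cone n y) :=
    (h1.contDiffAt (hopen.mem_nhds hρ)).differentiableAt (by simp)
  have dxh : DifferentiableAt ℝ xh (cone n y) := v3_xh_diff _ hne
  have hzero : S.Fx (cone n y - xh (cone n y)) = 0 := by rw [hxh, sub_self, v3_Fx_zero]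
  have hrad : fderiv ℝ (S.om Ω) (cone n y) (cone n y) = 0 := by
    have hγ : HasDerivAt (fun t : ℝ => cone n y + t • cone n y) (cone n y) 0 := by
      have h1 : HasDerivAt (fun t : ℝ => cone n y + t • cone n y) ((1 : ℝ) • cone n y) 0 :=
        ((hasDerivAt_id (0 : ℝ)).smul_const (cone n y)).const_add (cone n y)
      rwa [one_smul] at h1
    have hL' : HasFDerivAt (S.om Ω) (fderiv ℝ (S.om Ω) (cone n y))
        (cone n y + (0 : ℝ) • cone n y) := by
      rw [zero_smul, add_zero]; exact dom.hasFDerivAt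
    have ha := hL'.comp_hasDerivAt 0 hγ
    have hb : HasDerivAt (S.om Ω ∘ fun t : ℝ => cone n y + t • cone n y) 0 0 := by
      refine (hasDerivAt_const (0 : ℝ) (S.om Ω (cone n y))).congr_of_eventuallyEq ?_
      filter_upwards [isOpen_lt continuous_const (continuous_const.add continuous_id)
        |>.mem_nhds (show (0 : ℝ) < 1 + 0 by norm_num)] with t ht
      have ht' : (0 : ℝ) < 1 + t := ht
      have e : cone n y + t • cone n y = (1 + t) • cone n y := by rw [add_smul, one_smul]
      show S.om Ω (cone n y + t • cone n y) = S.om Ω (cone n y)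
      rw [e, (h4 (cone n y) (1 + t) ht').1]
    exact ha.unique hb
  refine ⟨?_, fun i A => ?_⟩
  · unfold Setup.vv
    rw [hzero, hxh]
    simp
  · have domxh : DifferentiableAt ℝ (fun x => S.om Ω (xh x)) (cone n y) := by
      have hd' : DifferentiableAt ℝ (S.om Ω) (xh (cone n y)) := by rw [hxh]; exact dom
      exact hd'.comp (cone n y) dxh
    have dT1 : DifferentiableAt ℝ (fun x : X3 => x - xh x) (cone n y) :=
      differentiableAt_id.sub dxh
    have dFx : Differentiable ℝ S.Fx := (contDiff_Fx S).differentiable (by simp)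
    have dT : DifferentiableAt ℝ (fun x : X3 => S.Fx (x - xh x)) (cone n y) :=
      (dFx _).comp (cone n y) dT1
    have dφ : DifferentiableAt ℝ (fun x : X3 => 1 / (2 * S.κ * ‖x‖)) (cone n y) := by
      have hd : DifferentiableAt ℝ (fun x : X3 => ‖x‖) (cone n y) :=
        differentiableAt_id.norm ℝ hne
      have hx2 : 2 * S.κ * ‖cone n y‖ ≠ 0 :=
        mul_ne_zero (mul_ne_zero two_ne_zero S.κ_pos.ne') (norm_ne_zero_iff.2 hne)
      have h8 : DifferentiableAt ℝ (fun x : X3 => (2 * S.κ * ‖x‖)⁻¹) (cone n y) :=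
        (differentiableAt_inv hx2).comp (cone n y) (hd.const_mul (2 * S.κ))
      exact h8.congr_of_eventuallyEq (Eventually.of_forall fun z => one_div _)
    have dv : DifferentiableAt ℝ (fun x : X3 => S.Fx (x - xh x) (S.om Ω (xh x))) (cone n y) :=
      v3_clm_diff dT domxh
    have e1 : pd i A (S.vv Ω) (cone n y) = pd i A (fun x => S.om Ω (xh x)) (cone n y) -
        ((1 / (2 * S.κ * ‖cone n y‖) : ℝ) : ℂ) •
          (fderiv ℝ (fun x : X3 => S.Fx (x - xh x)) (cone n y)
            (EuclideanSpace.single (i, A) 1)) (S.om Ω (cone n y)) := by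
      have hv : S.vv Ω = fun x => S.om Ω (xh x) - ((1 / (2 * S.κ * ‖x‖) : ℝ) : ℂ) •
        S.Fx (x - xh x) (S.om Ω (xh x)) := rfl
      rw [hv, pd_sub domxh ?_, pd_rsmul dφ dv, pd_clm_apply dT domxh]
      · rw [hzero, zero_apply, zero_apply, smul_zero, zero_add, add_zero, hxh]
      · exact (Complex.ofRealCLM.differentiableAt.comp _ dφ).smul dv
    rw [e1]
    have e2 : fderiv ℝ (fun x : X3 => S.Fx (x - xh x)) (cone n y)
        (EuclideanSpace.single (i, A) 1) = S.Fx (cone
          (fun B => (if B = A then 1 else 0) - n B * n A)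
          (fun k => (if k = i then 1 else 0) - y k * y i / ry y ^ 2)) := by
      have ha : fderiv ℝ (fun x : X3 => S.Fx (x - xh x)) (cone n y) =
          (fderiv ℝ S.Fx (cone n y - xh (cone n y))).comp
            (fderiv ℝ (fun x : X3 => x - xh x) (cone n y)) :=
        fderiv_comp (cone n y) (dFx _) dT1
      have hb : fderiv ℝ (fun x : X3 => x - xh x) (cone n y) (EuclideanSpace.single (i, A) 1) =
          EuclideanSpace.single (i, A) 1 -
            fderiv ℝ xh (cone n y) (EuclideanSpace.single (i, A) 1) := by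
        have hc := (hasFDerivAt_id (𝕜 := ℝ) (cone n y)).sub dxh.hasFDerivAt
        have hd : fderiv ℝ (fun x : X3 => x - xh x) (cone n y) = _ := hc.fderiv
        rw [hd]
        rfl
      rw [ha, ContinuousLinearMap.comp_apply, v3_Fx_fderiv, hb, v3_xh_single n y hn hr,
        v3_single_sub n y hr]
    have e3 : pd i A (fun x => S.om Ω (xh x)) (cone n y) =
        n A • fderiv ℝ (S.om Ω) (cone n y)
          (cone n (fun k => (if k = i then 1 else 0) - y k * y i / ry y ^ 2)) +
        (y i / ry y ^ 2) • fderiv ℝ (S.om Ω) (cone n y)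
          (cone (fun B => (if B = A then 1 else 0) - n B * n A) y) := by
      have hd' : DifferentiableAt ℝ (S.om Ω) (xh (cone n y)) := by rw [hxh]; exact dom
      have ha : fderiv ℝ (fun x => S.om Ω (xh x)) (cone n y) =
          (fderiv ℝ (S.om Ω) (xh (cone n y))).comp (fderiv ℝ xh (cone n y)) :=
        fderiv_comp (cone n y) hd' dxh
      rw [pd, ha, ContinuousLinearMap.comp_apply, hxh, v3_xh_single n y hn hr, map_add, map_add,
        map_smul, map_smul, map_smul, hrad, smul_zero, add_zero]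
    have hw : ∑ k, ((if k = i then 1 else 0) - y k * y i / ry y ^ 2) * y k = 0 := by
      have : ∀ k ∈ Finset.univ, ((if k = i then 1 else 0) - y k * y i / ry y ^ 2) * y k =
          (if k = i then y k else 0) - y i / ry y ^ 2 * y k ^ 2 := by
        intro k _
        by_cases hk : k = i
        · simp only [hk, if_true]; ring
        · simp only [hk, if_false]; ring
      rw [Finset.sum_congr rfl this, Finset.sum_sub_distrib, ← Finset.mul_sum, ← v3_ry_sq,
        Finset.sum_ite_eq' Finset.univ i]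
      have hr2 : ry y ^ 2 ≠ 0 := by positivity
      simp only [Finset.mem_univ, if_true]
      field_simp
      ring
    have he : ∑ B, ((if B = A then 1 else 0) - n B * n A) * n B = 0 := by
      have : ∀ B ∈ Finset.univ, ((if B = A then 1 else 0) - n B * n A) * n B =
          (if B = A then n B else 0) - n A * n B ^ 2 := by
        intro B _
        by_cases hk : B = A
        · simp only [hk, if_true]; ring
        · simp only [hk, if_false]; ring
      rw [Finset.sum_congr rfl this, Finset.sum_sub_distrib, ← Finset.mul_sum, hn,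
        Finset.sum_ite_eq' Finset.univ A]
      simp
    rw [e2, e3, h6 _ hw, h7 _ he, hnorm']
    unfold Setup.XX
    simp only [sub_apply, add_apply, smul_apply, sum_apply]
    congr 1
    congr 1
    rw [← Complex.coe_smul, smul_smul, ← Complex.ofReal_mul]
    congr 2
    ring

end U
end Vale.Agent.P353
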