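import Vale.Agent.P353.U.StmtD
import Vale.Agent.P353.U.Vac

/-! # P353, uniqueness for `N = 2`: uniqueness of the vacuum at a cone point (D-uniq)

The conditions `VT`, `VN` say that `v` is killed by `θ(a)` for `a` in the span `𝒜` of the vectors
`tv A α = |y| P_A ⊗ e_α - i R_A ⊗ Y_α` (`P = 1 - n nᵀ`, `R = n ×`, `Y = y̸`) and
`uv α = n ⊗ (1 - iΓ)_α`.  `𝒜` is isotropic and `𝒜 + 𝒜̄` is everything, so C-Vac applies. -/

open scoped Matrix

namespace Vale.Agent.P353.U

variable {F : Type*} [NormedAddCommGroup F] [InnerProductSpace ℂ F]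

namespace VUn

/-- `P = 1 - n nᵀ` -/
noncomputable def P (n : Fin 3 → ℝ) (A D : Fin 3) : ℂ := (if A = D then 1 else 0) - (n A : ℂ) * (n D : ℂ)

/-- `R = n ×` -/
noncomputable def R (n : Fin 3 → ℝ) (A D : Fin 3) : ℂ := ∑ B, (eps A B D : ℂ) * (n B : ℂ)

/-- `Y = y̸` -/
noncomputable def Y (S : Setup F) (y : Fin 9 → ℝ) : Matrix (Fin 16) (Fin 16) ℂ :=
  ∑ i, (y i : ℂ) • S.g i

/-- annihilators of the transverse vacuum -/
noncomputable def tv (S : Setup F) (n : Fin 3 → ℝ) (y : Fin 9 → ℝ) (A : Fin 3) (α : Fin 16) :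
    Fin 16 × Fin 3 → ℂ := fun p =>
  (ry y : ℂ) * P n A p.2 * (if α = p.1 then 1 else 0) - Complex.I * R n A p.2 * Y S y α p.1

/-- annihilators of the vacuum along `n` -/
noncomputable def uv (S : Setup F) (n : Fin 3 → ℝ) (α : Fin 16) : Fin 16 × Fin 3 → ℂ := fun p =>
  (n p.2 : ℂ) * ((if α = p.1 then 1 else 0) - Complex.I * S.Gam α p.1)

lemma hnC {n : Fin 3 → ℝ} (hn : ∑ A, n A ^ 2 = 1) :
    (n 0 : ℂ) ^ 2 + (n 1 : ℂ) ^ 2 + (n 2 : ℂ) ^ 2 = 1 := by
  have h := congrArg (fun t : ℝ => (t : ℂ)) hn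
  simp only [Fin.sum_univ_three] at h
  push_cast at h
  exact h

lemma PP {n : Fin 3 → ℝ} (hn : ∑ A, n A ^ 2 = 1) (A B : Fin 3) :
    ∑ D, P n A D * P n B D = P n A B := by
  have h := hnC hn
  have e : ∑ D, P n A D * P n B D = P n A B + (n A : ℂ) * (n B : ℂ) *
      (((n 0 : ℂ) ^ 2 + (n 1 : ℂ) ^ 2 + (n 2 : ℂ) ^ 2) - 1) := by
    fin_cases A <;> fin_cases B <;> simp [P, Fin.sum_univ_three] <;> ring
  rw [e, h, sub_self, mul_zero, add_zero]

lemma RR {n : Fin 3 → ℝ} (hn : ∑ A, n A ^ 2 = 1) (A B : Fin 3) :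
    ∑ D, R n A D * R n B D = P n A B := by
  have h := hnC hn
  have e : ∑ D, R n A D * R n B D = P n A B + (if A = B then 1 else 0) *
      (((n 0 : ℂ) ^ 2 + (n 1 : ℂ) ^ 2 + (n 2 : ℂ) ^ 2) - 1) := by
    fin_cases A <;> fin_cases B <;> simp [P, R, eps, Fin.sum_univ_three] <;> ring
  rw [e, h, sub_self, mul_zero, add_zero]

lemma PR (n : Fin 3 → ℝ) (A B : Fin 3) :
    ∑ D, P n A D * R n B D = R n B A := by
  fin_cases A <;> fin_cases B <;> simp [P, R, eps, Fin.sum_univ_three] <;> ring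

lemma R_swap (n : Fin 3 → ℝ) (A B : Fin 3) : R n A B = - R n B A := by
  fin_cases A <;> fin_cases B <;> simp [R, eps, Fin.sum_univ_three] <;> ring

lemma Pn {n : Fin 3 → ℝ} (hn : ∑ A, n A ^ 2 = 1) (A : Fin 3) :
    ∑ D, P n A D * (n D : ℂ) = 0 := by
  have h := hnC hn
  have e : ∑ D, P n A D * (n D : ℂ) = - (n A : ℂ) *
      (((n 0 : ℂ) ^ 2 + (n 1 : ℂ) ^ 2 + (n 2 : ℂ) ^ 2) - 1) := by
    fin_cases A <;> simp [P, Fin.sum_univ_three] <;> ring
  rw [e, h, sub_self, mul_zero]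

lemma Rn (n : Fin 3 → ℝ) (A : Fin 3) : ∑ D, R n A D * (n D : ℂ) = 0 := by
  fin_cases A <;> simp [R, eps, Fin.sum_univ_three] <;> ring

lemma P_symm (n : Fin 3 → ℝ) (A B : Fin 3) : P n A B = P n B A := by
  unfold P
  rw [mul_comm (n A : ℂ), if_congr (eq_comm (a := A) (b := B)) rfl rfl]

section

variable (S : Setup F)

lemma Y_mul (y : Fin 9 → ℝ) : Y S y * Y S y = ((ry y : ℂ) ^ 2) • (1 : Matrix (Fin 16) (Fin 16) ℂ) := by
  have h1 : Y S y * Y S y = ∑ i, ∑ j, ((y i : ℂ) * (y j : ℂ)) • (S.g i * S.g j) := by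
    unfold Y
    rw [Finset.sum_mul_sum]
    refine Finset.sum_congr rfl fun i _ => Finset.sum_congr rfl fun j _ => ?_
    rw [smul_mul_smul_comm]
  have h2 : Y S y * Y S y = ∑ i, ∑ j, ((y i : ℂ) * (y j : ℂ)) • (S.g j * S.g i) := by
    rw [h1, Finset.sum_comm]
    refine Finset.sum_congr rfl fun i _ => Finset.sum_congr rfl fun j _ => ?_
    rw [mul_comm (y j : ℂ)]
  have h3 : Y S y * Y S y + Y S y * Y S y =
      ∑ i, ((y i : ℂ) ^ 2) • ((2 : ℂ) • (1 : Matrix (Fin 16) (Fin 16) ℂ)) := by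
    conv_lhs =>
      congr
      · rw [h1]
      · rw [h2]
    rw [← Finset.sum_add_distrib]
    refine Finset.sum_congr rfl fun i _ => ?_
    rw [← Finset.sum_add_distrib]
    simp only [← smul_add, S.g_anti]
    rw [Finset.sum_eq_single i (fun j _ hj => by rw [if_neg (Ne.symm hj), smul_zero])
      (fun h => absurd (Finset.mem_univ i) h), if_pos rfl, sq]
    congr 1
    rw [two_smul, one_add_one_eq_two]
  have h4 : ((ry y : ℂ)) ^ 2 = ∑ i, (y i : ℂ) ^ 2 := by
    have h5 : ry y ^ 2 = ∑ i, y i ^ 2 := Real.sq_sqrt (Finset.sum_nonneg fun i _ => sq_nonneg _)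
    have h6 := congrArg (fun t : ℝ => (t : ℂ)) h5
    push_cast at h6
    exact h6
  rw [h4, Finset.sum_smul]
  have h7 : (2 : ℂ) • (Y S y * Y S y) =
      (2 : ℂ) • ∑ i, ((y i : ℂ) ^ 2) • (1 : Matrix (Fin 16) (Fin 16) ℂ) := by
    rw [two_smul, h3, Finset.smul_sum]
    refine Finset.sum_congr rfl fun i _ => ?_
    rw [smul_comm]
  have h8 := congrArg (fun M => (1 / 2 : ℂ) • M) h7
  simp only [smul_smul] at h8
  norm_num at h8
  exact h8

lemma Y_symm (y : Fin 9 → ℝ) (α β : Fin 16) : Y S y α β = Y S y β α := by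
  unfold Y
  rw [Matrix.sum_apply, Matrix.sum_apply]
  refine Finset.sum_congr rfl fun i _ => ?_
  rw [Matrix.smul_apply, Matrix.smul_apply]
  have h := congrFun (congrFun (S.g_symm i) α) β
  rw [Matrix.transpose_apply] at h
  rw [h]

lemma YY (y : Fin 9 → ℝ) (α β : Fin 16) :
    ∑ γ, Y S y α γ * Y S y β γ = (ry y : ℂ) ^ 2 * (if α = β then 1 else 0) := by
  have h := congrFun (congrFun (Y_mul S y) α) β
  rw [Matrix.mul_apply, Matrix.smul_apply, Matrix.one_apply, smul_eq_mul] at h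
  rw [← h]
  refine Finset.sum_congr rfl fun γ _ => ?_
  rw [Y_symm S y β γ]

lemma conj_of_im {z : ℂ} (h : z.im = 0) : (starRingEnd ℂ) z = z := Complex.conj_eq_iff_im.2 h

lemma Y_conj (y : Fin 9 → ℝ) (α β : Fin 16) : (starRingEnd ℂ) (Y S y α β) = Y S y α β := by
  unfold Y
  rw [Matrix.sum_apply, map_sum]
  refine Finset.sum_congr rfl fun i _ => ?_
  rw [Matrix.smul_apply, smul_eq_mul, map_mul, Complex.conj_ofReal, conj_of_im (S.g_real i α β)]

lemma P_conj (n : Fin 3 → ℝ) (A B : Fin 3) : (starRingEnd ℂ) (P n A B) = P n A B := by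
  unfold P
  rw [map_sub, map_mul, Complex.conj_ofReal, Complex.conj_ofReal]
  split_ifs <;> simp

lemma R_conj (n : Fin 3 → ℝ) (A B : Fin 3) : (starRingEnd ℂ) (R n A B) = R n A B := by
  unfold R
  rw [map_sum]
  refine Finset.sum_congr rfl fun C _ => ?_
  rw [map_mul, Complex.conj_ofReal]
  congr 1
  exact Complex.conj_ofReal _ |> fun h => by
    have e : ((eps A C B : ℤ) : ℂ) = (((eps A C B : ℤ) : ℝ) : ℂ) := by push_cast; rfl
    rw [e]
    exact h

lemma GG (α β : Fin 16) : ∑ γ, S.Gam α γ * S.Gam β γ = if α = β then 1 else 0 := by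
  have h1 : S.Gam * S.Gamᵀ = 1 := by rw [S.Gam_transpose, mul_neg, S.Gam_sq, neg_neg]
  have h := congrFun (congrFun h1 α) β
  rw [Matrix.mul_apply, Matrix.one_apply] at h
  rw [← h]
  rfl

lemma G_swap (α β : Fin 16) : S.Gam α β = - S.Gam β α := by
  have h := congrFun (congrFun S.Gam_transpose β) α
  rw [Matrix.transpose_apply, Matrix.neg_apply] at h
  exact h

/-- `∑ tv tv = 0` -/
lemma tv_tv {n : Fin 3 → ℝ} (hn : ∑ A, n A ^ 2 = 1) (y : Fin 9 → ℝ) (A B : Fin 3) (α β : Fin 16) :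
    ∑ p, tv S n y A α p * tv S n y B β p = 0 := by
  have e : ∀ γ : Fin 16, ∀ D : Fin 3, tv S n y A α (γ, D) * tv S n y B β (γ, D) =
      ((ry y : ℂ) ^ 2 * (P n A D * P n B D)) * ((if α = γ then 1 else 0) * (if β = γ then 1 else 0))
      - (Complex.I * (ry y : ℂ) * (P n A D * R n B D)) * ((if α = γ then 1 else 0) * Y S y β γ)
      - (Complex.I * (ry y : ℂ) * (P n B D * R n A D)) * ((if β = γ then 1 else 0) * Y S y α γ)
      - (R n A D * R n B D) * (Y S y α γ * Y S y β γ) := by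
    intro γ D
    unfold tv
    linear_combination (R n A D * R n B D * (Y S y α γ * Y S y β γ)) * Complex.I_sq
  rw [Fintype.sum_prod_type]
  simp only [e, Finset.sum_sub_distrib]
  simp only [← Finset.sum_mul, ← Finset.mul_sum]
  rw [PP hn, PR, PR, RR hn, YY]
  have d1 : ∑ γ : Fin 16, (if α = γ then (1 : ℂ) else 0) * (if β = γ then 1 else 0) =
      if α = β then 1 else 0 := by
    simp
  have d2 : ∑ γ : Fin 16, (if α = γ then (1 : ℂ) else 0) * Y S y β γ = Y S y β α := by simp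
  have d3 : ∑ γ : Fin 16, (if β = γ then (1 : ℂ) else 0) * Y S y α γ = Y S y α β := by simp
  rw [d1, d2, d3, Y_symm S y α β, R_swap n A B]
  ring

end

section

variable (S : Setup F)

lemma tv_uv {n : Fin 3 → ℝ} (hn : ∑ A, n A ^ 2 = 1) (y : Fin 9 → ℝ) (A : Fin 3) (α β : Fin 16) :
    ∑ p, tv S n y A α p * uv S n β p = 0 := by
  have e : ∀ γ : Fin 16, ∀ D : Fin 3, tv S n y A α (γ, D) * uv S n β (γ, D) =
      (P n A D * (n D : ℂ)) * ((ry y : ℂ) * (if α = γ then 1 else 0) *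
        ((if β = γ then 1 else 0) - Complex.I * S.Gam β γ)) -
      (R n A D * (n D : ℂ)) * (Complex.I * Y S y α γ *
        ((if β = γ then 1 else 0) - Complex.I * S.Gam β γ)) := by
    intro γ D
    unfold tv uv
    ring
  rw [Fintype.sum_prod_type]
  refine Finset.sum_eq_zero fun γ _ => ?_
  simp only [e, Finset.sum_sub_distrib, ← Finset.sum_mul]
  rw [Pn hn, Rn, zero_mul, zero_mul, sub_zero]

lemma uv_uv {n : Fin 3 → ℝ} (hn : ∑ A, n A ^ 2 = 1) (α β : Fin 16) :
    ∑ p, uv S n α p * uv S n β p = 0 := by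
  have e : ∀ γ : Fin 16, ∀ D : Fin 3, uv S n α (γ, D) * uv S n β (γ, D) =
      (n D : ℂ) ^ 2 * ((if α = γ then 1 else 0) * (if β = γ then 1 else 0)
        - Complex.I * ((if α = γ then 1 else 0) * S.Gam β γ)
        - Complex.I * ((if β = γ then 1 else 0) * S.Gam α γ)
        - S.Gam α γ * S.Gam β γ) := by
    intro γ D
    unfold uv
    linear_combination ((n D : ℂ) ^ 2 * (S.Gam α γ * S.Gam β γ)) * Complex.I_sq
  rw [Fintype.sum_prod_type]
  simp only [e, ← Finset.sum_mul, ← Finset.mul_sum]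
  have hn' : ∑ D, (n D : ℂ) ^ 2 = 1 := by
    rw [Fin.sum_univ_three]; exact hnC hn
  rw [hn', one_mul]
  simp only [Finset.sum_sub_distrib, ← Finset.mul_sum]
  have d1 : ∑ γ : Fin 16, (if α = γ then (1 : ℂ) else 0) * (if β = γ then 1 else 0) =
      if α = β then 1 else 0 := by
    simp
  have d2 : ∑ γ : Fin 16, (if α = γ then (1 : ℂ) else 0) * S.Gam β γ = S.Gam β α := by simp
  have d3 : ∑ γ : Fin 16, (if β = γ then (1 : ℂ) else 0) * S.Gam α γ = S.Gam α β := by simp
  rw [d1, d2, d3, GG, G_swap S α β]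
  ring

lemma VacT_tv (n : Fin 3 → ℝ) (y : Fin 9 → ℝ) (A : Fin 3) (α : Fin 16) (v : F) :
    VacT S (tv S n y A α) v =
      ((ry y : ℝ) : ℂ) • (S.th α A v - ((n A : ℝ) : ℂ) • S.thn n α v) -
      Complex.I • ∑ B, ∑ C, ∑ i, ((eps A B C : ℂ) * (n B : ℂ) * (y i : ℂ)) • S.vec (S.g i) C α v := by
  have h1 : VacT S (tv S n y A α) v = ∑ D, ∑ γ, (((ry y : ℂ) * P n A D * (if α = γ then 1 else 0)) •
      S.th γ D v) - ∑ D, ∑ γ, ((Complex.I * R n A D * Y S y α γ) • S.th γ D v) := by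
    unfold VacT tv
    rw [Fintype.sum_prod_type, Finset.sum_comm, ← Finset.sum_sub_distrib]
    refine Finset.sum_congr rfl fun D _ => ?_
    rw [← Finset.sum_sub_distrib]
    refine Finset.sum_congr rfl fun γ _ => ?_
    rw [sub_smul]
  rw [h1]
  congr 1
  · have h2 : ∀ D : Fin 3, ∑ γ, (((ry y : ℂ) * P n A D * (if α = γ then 1 else 0)) •
        S.th γ D v) = (ry y : ℂ) • (P n A D • S.th α D v) := by
      intro D
      rw [Finset.sum_eq_single α (fun γ _ hγ => by rw [if_neg (Ne.symm hγ), mul_zero, zero_smul])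
        (fun h => absurd (Finset.mem_univ α) h), if_pos rfl, mul_one, mul_smul]
    rw [Finset.sum_congr rfl fun D _ => h2 D, ← Finset.smul_sum]
    congr 1
    unfold P Setup.thn
    simp only [sub_smul, Finset.sum_sub_distrib, ContinuousLinearMap.sum_apply,
      ContinuousLinearMap.smul_apply, Finset.smul_sum, mul_smul]
    congr 1
    rw [Finset.sum_eq_single A (fun γ _ hγ => by rw [if_neg (Ne.symm hγ), zero_smul])
        (fun h => absurd (Finset.mem_univ A) h), if_pos rfl, one_smul]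
  · rw [Finset.sum_comm (s := Finset.univ (α := Fin 3)) (t := Finset.univ (α := Fin 3))
      (f := fun B C => ∑ i, ((eps A B C : ℂ) * (n B : ℂ) * (y i : ℂ)) • S.vec (S.g i) C α v),
      Finset.smul_sum]
    refine Finset.sum_congr rfl fun D _ => ?_
    have h3 : ∀ B : Fin 3, ∑ i, ((eps A B D : ℂ) * (n B : ℂ) * (y i : ℂ)) •
        S.vec (S.g i) D α v = ((eps A B D : ℂ) * (n B : ℂ)) • S.vec (Y S y) D α v := by
      intro B
      unfold Y
      rw [S.vec_sum, ContinuousLinearMap.sum_apply, Finset.smul_sum]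
      refine Finset.sum_congr rfl fun i _ => ?_
      rw [S.vec_smul, ContinuousLinearMap.smul_apply, mul_smul]
    rw [Finset.sum_congr rfl fun B _ => h3 B, ← Finset.sum_smul]
    have h4 : S.vec (Y S y) D α v = ∑ γ, Y S y α γ • S.th γ D v := by
      unfold CS.vec
      rw [ContinuousLinearMap.sum_apply]
      rfl
    rw [h4, Finset.smul_sum, Finset.smul_sum]
    refine Finset.sum_congr rfl fun γ _ => ?_
    rw [smul_smul, smul_smul]
    congr 1

lemma VacT_uv (n : Fin 3 → ℝ) (α : Fin 16) (v : F) :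
    VacT S (uv S n α) v = S.thn n α v - Complex.I • ∑ A, ((n A : ℝ) : ℂ) • S.vec S.Gam A α v := by
  unfold VacT uv
  rw [Fintype.sum_prod_type, Finset.sum_comm]
  unfold Setup.thn
  rw [ContinuousLinearMap.sum_apply, Finset.smul_sum, ← Finset.sum_sub_distrib]
  refine Finset.sum_congr rfl fun D _ => ?_
  rw [ContinuousLinearMap.smul_apply]
  have h4 : S.vec S.Gam D α v = ∑ γ, S.Gam α γ • S.th γ D v := by
    unfold CS.vec
    rw [ContinuousLinearMap.sum_apply]
    rfl
  rw [h4]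
  simp only [mul_smul, sub_smul, Finset.smul_sum, Finset.sum_sub_distrib, smul_sub]
  congr 1
  · rw [Finset.sum_eq_single α (fun γ _ hγ => by rw [if_neg (Ne.symm hγ), zero_smul, smul_zero])
        (fun h => absurd (Finset.mem_univ α) h), if_pos rfl, one_smul]
  · refine Finset.sum_congr rfl fun γ _ => ?_
    rw [smul_smul, smul_smul, smul_smul, smul_smul]
    congr 1
    ring

/-- the family of annihilators -/
noncomputable def fam (n : Fin 3 → ℝ) (y : Fin 9 → ℝ) : (Fin 3 × Fin 16) ⊕ Fin 16 →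
    (Fin 16 × Fin 3 → ℂ)
  | Sum.inl q => tv S n y q.1 q.2
  | Sum.inr α => uv S n α

lemma fam_iso {n : Fin 3 → ℝ} (hn : ∑ A, n A ^ 2 = 1) (y : Fin 9 → ℝ) (j k) :
    ∑ p, fam S n y j p * fam S n y k p = 0 := by
  rcases j with ⟨A, α⟩ | α <;> rcases k with ⟨B, β⟩ | β
  · exact tv_tv S hn y A B α β
  · exact tv_uv S hn y A α β
  · have h := tv_uv S hn y B β α
    rw [← h]
    exact Finset.sum_congr rfl fun p _ => mul_comm _ _
  · exact uv_uv S hn α β

lemma span_iso {n : Fin 3 → ℝ} (hn : ∑ A, n A ^ 2 = 1) (y : Fin 9 → ℝ) :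
    ∀ a ∈ Submodule.span ℂ (Set.range (fam S n y)), ∀ b ∈ Submodule.span ℂ (Set.range (fam S n y)),
      ∑ p, a p * b p = 0 := by
  intro a ha b hb
  refine Submodule.span_induction (p := fun a _ => ∑ p, a p * b p = 0) ?_ ?_ ?_ ?_ ha
  · rintro _ ⟨j, rfl⟩
    refine Submodule.span_induction (p := fun b _ => ∑ p, fam S n y j p * b p = 0) ?_ ?_ ?_ ?_ hb
    · rintro _ ⟨k, rfl⟩
      exact fam_iso S hn y j k
    · simp
    · intro b c _ _ h1 h2
      simp only [Pi.add_apply, mul_add, Finset.sum_add_distrib]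
      rw [h1, h2, add_zero]
    · intro c b _ h1
      simp only [Pi.smul_apply, smul_eq_mul]
      have e : ∀ p, fam S n y j p * (c * b p) = c * (fam S n y j p * b p) := fun p => by ring
      simp only [e, ← Finset.mul_sum]
      rw [h1, mul_zero]
  · simp
  · intro a c _ _ h1 h2
    simp only [Pi.add_apply, add_mul, Finset.sum_add_distrib]
    rw [h1, h2, add_zero]
  · intro c a _ h1
    simp only [Pi.smul_apply, smul_eq_mul, mul_assoc, ← Finset.mul_sum]
    rw [h1, mul_zero]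

lemma span_kill {n : Fin 3 → ℝ} {y : Fin 9 → ℝ} {v : F} (hT : S.VT n y v) (hN : S.VN n v) :
    ∀ a ∈ Submodule.span ℂ (Set.range (fam S n y)), VacT S a v = 0 := by
  intro a ha
  refine Submodule.span_induction (p := fun a _ => VacT S a v = 0) ?_ (VacT_zero_left S v)
    (fun a b _ _ ha hb => ?_) (fun c a _ ha => ?_) ha
  · rintro _ ⟨j, rfl⟩
    rcases j with ⟨A, α⟩ | α
    · change VacT S (tv S n y A α) v = 0
      rw [VacT_tv, hT A α, sub_self]
    · change VacT S (uv S n α) v = 0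
      rw [VacT_uv, hN α, sub_self]
  · rw [VacT_add_left, ha, hb, add_zero]
  · rw [VacT_smul_left, ha, smul_zero]

lemma span_max {n : Fin 3 → ℝ} {y : Fin 9 → ℝ} (hy : 0 < ry y)
    (z : Fin 16 × Fin 3 → ℂ) : ∃ a ∈ Submodule.span ℂ (Set.range (fam S n y)),
      ∃ b ∈ Submodule.span ℂ (Set.range (fam S n y)), z = a + fun p => (starRingEnd ℂ) (b p) := by
  have hr : (ry y : ℂ) ≠ 0 := by exact_mod_cast hy.ne'
  have hmem : ∀ (c : Fin 3 → Fin 16 → ℂ) (d : Fin 16 → ℂ),
      (∑ A, ∑ α, c A α • tv S n y A α) + ∑ α, d α • uv S n α ∈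
        Submodule.span ℂ (Set.range (fam S n y)) := by
    intro c d
    refine Submodule.add_mem _ (Submodule.sum_mem _ fun A _ => Submodule.sum_mem _ fun α _ =>
      Submodule.smul_mem _ _ (Submodule.subset_span ⟨Sum.inl (A, α), rfl⟩))
      (Submodule.sum_mem _ fun α _ => Submodule.smul_mem _ _
        (Submodule.subset_span ⟨Sum.inr α, rfl⟩))
  refine ⟨_, hmem (fun A α => z (α, A) / (2 * ry y)) (fun α => (∑ A, z (α, A) * (n A : ℂ)) / 2),
    _, hmem (fun A α => (starRingEnd ℂ) (z (α, A) / (2 * ry y)))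
      (fun α => (starRingEnd ℂ) ((∑ A, z (α, A) * (n A : ℂ)) / 2)), ?_⟩
  funext p
  obtain ⟨γ, D⟩ := p
  have ctv : ∀ A α, (starRingEnd ℂ) (tv S n y A α (γ, D)) =
      (ry y : ℂ) * P n A D * (if α = γ then 1 else 0) + Complex.I * R n A D * Y S y α γ := by
    intro A α
    unfold tv
    rw [map_sub, map_mul, map_mul, map_mul, map_mul, P_conj, R_conj, Y_conj, Complex.conj_I,
      Complex.conj_ofReal]
    have : (starRingEnd ℂ) (if α = γ then 1 else 0) = if α = γ then 1 else 0 := by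
      split_ifs <;> simp
    simp only [this]
    ring
  have cuv : ∀ α, (starRingEnd ℂ) (uv S n α (γ, D)) =
      (n D : ℂ) * ((if α = γ then 1 else 0) + Complex.I * S.Gam α γ) := by
    intro α
    unfold uv
    rw [map_mul, map_sub, map_mul, Complex.conj_I, Complex.conj_ofReal,
      conj_of_im (S.Gam_real α γ)]
    have : (starRingEnd ℂ) (if α = γ then 1 else 0) = if α = γ then 1 else 0 := by
      split_ifs <;> simp
    simp only [this]
    ring
  simp only [Pi.add_apply, Finset.sum_apply, Pi.smul_apply, smul_eq_mul, map_add, map_sum, map_mul,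
    Complex.conj_conj, ctv, cuv]
  have e1 : (∑ A, ∑ α, z (α, A) / (2 * (ry y : ℂ)) * tv S n y A α (γ, D)) +
      (∑ A, ∑ α, z (α, A) / (2 * (ry y : ℂ)) *
        ((ry y : ℂ) * P n A D * (if α = γ then 1 else 0) + Complex.I * R n A D * Y S y α γ)) =
      z (γ, D) - (n D : ℂ) * ∑ A, z (γ, A) * (n A : ℂ) := by
    rw [← Finset.sum_add_distrib]
    have e2 : ∀ A, ((∑ α, z (α, A) / (2 * (ry y : ℂ)) * tv S n y A α (γ, D)) +
        ∑ α, z (α, A) / (2 * (ry y : ℂ)) *
          ((ry y : ℂ) * P n A D * (if α = γ then 1 else 0) + Complex.I * R n A D * Y S y α γ)) =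
        z (γ, A) * P n A D := by
      intro A
      rw [← Finset.sum_add_distrib]
      have e3 : ∀ α, z (α, A) / (2 * (ry y : ℂ)) * tv S n y A α (γ, D) +
          z (α, A) / (2 * (ry y : ℂ)) *
          ((ry y : ℂ) * P n A D * (if α = γ then 1 else 0) + Complex.I * R n A D * Y S y α γ) =
          if α = γ then z (α, A) * P n A D else 0 := by
        intro α
        unfold tv
        split_ifs with h <;> field_simp <;> ring
      rw [Finset.sum_congr rfl fun α _ => e3 α, Finset.sum_ite_eq' Finset.univ γ,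
        if_pos (Finset.mem_univ γ)]
    rw [Finset.sum_congr rfl fun A _ => e2 A]
    unfold P
    simp only [mul_sub, Finset.sum_sub_distrib, mul_ite, mul_one, mul_zero]
    rw [Finset.sum_ite_eq' Finset.univ D, if_pos (Finset.mem_univ D), Finset.mul_sum]
    congr 1
    exact Finset.sum_congr rfl fun A _ => by ring
  have e4 : (∑ α, (∑ A, z (α, A) * (n A : ℂ)) / 2 * uv S n α (γ, D)) +
      (∑ α, (∑ A, z (α, A) * (n A : ℂ)) / 2 *
        ((n D : ℂ) * ((if α = γ then 1 else 0) + Complex.I * S.Gam α γ))) =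
      (n D : ℂ) * ∑ A, z (γ, A) * (n A : ℂ) := by
    rw [← Finset.sum_add_distrib]
    have e3 : ∀ α, (∑ A, z (α, A) * (n A : ℂ)) / 2 * uv S n α (γ, D) +
        (∑ A, z (α, A) * (n A : ℂ)) / 2 *
        ((n D : ℂ) * ((if α = γ then 1 else 0) + Complex.I * S.Gam α γ)) =
        if α = γ then (n D : ℂ) * ∑ A, z (α, A) * (n A : ℂ) else 0 := by
      intro α
      unfold uv
      split_ifs with h <;> ring
    rw [Finset.sum_congr rfl fun α _ => e3 α, Finset.sum_ite_eq' Finset.univ γ,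
      if_pos (Finset.mem_univ γ)]
  linear_combination -e1 - e4

end

end VUn

/-- **D-uniq** -/
theorem vUniq (S : Setup F) (hi : S.Irr) (hv : VacStmt S) (h1 : Om1Stmt S) : VUniqStmt S := by
  intro Ω hΩ hΩa n y hn hy v hT hN
  obtain ⟨hT', hN', hin⟩ := h1 Ω hΩa n y hn hy
  -- `y ≠ 0`
  have hry : 0 < ry y := by
    rcases (Real.sqrt_nonneg (∑ i, y i ^ 2)).lt_or_eq with h | h
    · exact h
    · exfalso
      have h0 : ∑ i, y i ^ 2 = 0 := by
        have h2 := Real.sq_sqrt (Finset.sum_nonneg fun i (_ : i ∈ Finset.univ) => sq_nonneg (y i))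
        rw [← h2, ← h]
        norm_num
      have h2 : ∀ i, y i = 0 := by
        intro i
        have h3 := (Finset.sum_eq_zero_iff_of_nonneg fun i _ => sq_nonneg (y i)).1 h0 i
          (Finset.mem_univ i)
        exact pow_eq_zero_iff (two_ne_zero) |>.1 h3
      have h3 : rho6sq (cone n y) = 0 := by
        unfold rho6sq cone
        refine Finset.sum_eq_zero fun i _ => Finset.sum_eq_zero fun A _ => ?_
        split_ifs
        · simp [h2 i]
        · rfl
      rw [h3] at hy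
      exact lt_irrefl _ hy
  have hom : S.om Ω (cone n y) ≠ 0 := by
    intro h
    rw [h, inner_zero_right] at hin
    have h2 : ((rho6sq (cone n y) / ry y ^ 2) ^ 2 / 16 : ℝ) ≠ 0 := by positivity
    have h3 : (‖Ω‖ ^ 2 : ℝ) ≠ 0 := by
      have := norm_ne_zero_iff.2 hΩ
      positivity
    have h4 := mul_ne_zero (Complex.ofReal_ne_zero.2 h2) (Complex.ofReal_ne_zero.2 h3)
    exact h4 hin.symm
  obtain ⟨Ω₀, _, _, hu⟩ := hv hi ⟨Ω, hΩ⟩ (Submodule.span ℂ (Set.range (VUn.fam S n y)))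
    (VUn.span_iso S hn y) (VUn.span_max S hry)
  obtain ⟨c, hc⟩ := hu v (VUn.span_kill S hT hN)
  obtain ⟨d, hd⟩ := hu _ (VUn.span_kill S hT' hN')
  have hd0 : d ≠ 0 := by
    intro h
    rw [h, zero_smul] at hd
    exact hom hd
  refine ⟨c / d, ?_⟩
  rw [hd, smul_smul, div_mul_cancel₀ _ hd0]
  exact hc

end Vale.Agent.P353.U
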