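import Vale.Agent.P353.U.StmtD
import Vale.Agent.P353.U.Sym
import Vale.Agent.P353.RotF
import Vale.Agent.P353.Weighted2
import Vale.Agent.P353.Decay3

/-! # P353, uniqueness for `N = 2`: zero modes are invariant and have second moments -/

open MeasureTheory Filter Topology
open scoped ContDiff

namespace Vale.Agent.P353

variable {F : Type*} [NormedAddCommGroup F] [InnerProductSpace ℂ F]

namespace U

theorem zmStmt [FiniteDimensional ℂ F] (S : Setup F) : ZmStmt S := by
  have : CompleteSpace F := FiniteDimensional.complete ℂ F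
  intro Ψ hΨ
  obtain ⟨u, hu⟩ := hΨ
  have hT := hu.1
  have hL : L2t u Ψ := Lp_L2t hT hu.2.2.1
  have hc : ∀ {f : X3 → F}, Setup.Tst f → L2t (fun _ : ℕ => f) f := fun {f} hf =>
    ⟨fun _ => hf.memLp, hf.memLp, by simp [nsq]⟩
  refine ⟨⟨Lp.memLp Ψ, ?_, ?_, ?_⟩, ?_⟩
  · intro C ζ hζ
    have l1 := (hc (hζ.G S C)).lim_inner hL
    refine tendsto_nhds_unique l1 (tendsto_const_nhds.congr fun n => ?_)
    rw [G_symm S C ζ (u n) hζ (hT n).1]
    simp only [hu.2.1 n C, inner_zero_right, integral_zero]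
  · intro k l hkl ζ hζ
    exact weak_J S Ψ u hu k l hkl.1 ζ hζ
  · have hS : S.Str 0 Ψ (fun _ _ => 0) := by
      have h0 : ∀ β n, S.Qm 0 β (u n) = S.Q β (u n) := by
        intro β n
        funext x
        simp [Setup.Qm]
      refine ⟨u, hT, hL, fun β => ?_⟩
      simp only [h0]
      exact zero_L2t (fun n => (hT n).Q S β) (hu.2.2.2 β)
    exact fun β => hS.wQ β
  · have h := Dec.decay S (s := 2) (by norm_num) (S.wineq (by norm_num)) Ψ ⟨u, hu⟩
    simpa only [Real.rpow_two] using h

end U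
end Vale.Agent.P353
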