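import Vale.Agent.P353.U.A1
import Vale.Agent.P353.U.A1a
import Vale.Agent.P353.U.A1b
import Vale.Agent.P353.U.A2
import Vale.Agent.P353.U.A4
import Vale.Agent.P353.U.A5
import Vale.Agent.P353.U.FBmn
import Vale.Agent.P353.U.FFten
import Vale.Agent.P353.U.VBound
import Vale.Agent.P353.U.Coer
import Vale.Agent.P353.U.Rellich
import Vale.Agent.P353.U.Res
import Vale.Agent.P353.U.ESA
import Vale.Agent.P353.U.RComp
import Vale.Agent.P353.U.RInv
import Vale.Agent.P353.U.Eig
import Vale.Agent.P353.U.WE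
import Vale.Agent.P353.U.InvLem
import Vale.Agent.P353.U.Gap
import Vale.Agent.P353.U.LowDim
import Vale.Agent.P353.U.ThmB
import Vale.Agent.P353.U.Vac
import Vale.Agent.P353.U.NZero
import Vale.Agent.P353.U.NOne
import Vale.Agent.P353.U.EnLin
import Vale.Agent.P353.U.LZero
import Vale.Agent.P353.U.LOne
import Vale.Agent.P353.U.Grp
import Vale.Agent.P353.U.Pack
import Vale.Agent.P353.U.Lim
import Vale.Agent.P353.U.ThmC
import Vale.Agent.P353.U.Dec
import Vale.Agent.P353.U.VUniq
import Vale.Agent.P353.U.OmTwo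
import Vale.Agent.P353.U.OmNorm
import Vale.Agent.P353.U.VThree
import Vale.Agent.P353.U.MOneTwo
import Vale.Agent.P353.U.MThree
import Vale.Agent.P353.U.Int
import Vale.Agent.P353.U.Zm
import Vale.Agent.P353.U.InvMom
import Vale.Agent.P353.U.OmOne
import Vale.Agent.P353.U.Est
import Vale.Agent.P353.U.Out
import Vale.Agent.P353.U.ThmD
import Vale.Agent.P353.U.Final

/-! # P353, uniqueness for `N = 2`: instantiation of all statements -/

open MeasureTheory Filter Topology
open scoped ContDiff

universe u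

namespace Vale.Agent.P353.U.All

variable {F : Type u} [NormedAddCommGroup F] [InnerProductSpace ℂ F]

section A

variable (S : Setup F)

theorem A1 : A1Stmt S := a1 S (S.a1a (f10 S)) (a1b S (fbmn S (f10 S)))
theorem A7 : A7Stmt S := a7 S (A1 S)
theorem A8 : A8Stmt S := a8 S
theorem A6 : A6Stmt S := a6 S (A7 S)
theorem A2' : A2Stmt S := a2 S
theorem A3' : A3Stmt S := a3 S
theorem A4 : A4Stmt S := a4 S (A1 S) (A2' S) (A3' S) (A7 S)
theorem A5 : A5Stmt S := a5 S
theorem Coer : CoerStmt S := coer S (A6 S) (vBound S)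
theorem Ap : APStmt S := ap S (A6 S) (vBound S)

end A

section B

variable [FiniteDimensional ℂ F] (S : Setup F)

theorem thmB_all : ThmBStmt S := by
  have : CompleteSpace F := FiniteDimensional.complete ℂ F
  have h1 : ResStmt S := res S
  have h2 : ESAStmt S := esa' S (A7 S)
  have h6 : WEStmt S := we S h1 h2
  have h8 : InvLemStmt S := invLem S
  have h3 : RCompStmt S := rComp S (gr lr) (Coer S)
  have h4 : RInvStmt S := rInv (Coer S) h2 (A2' S) (A3' S)
  have h7 : GapStmt S := gap_core S (A1 S) (A2' S) (A3' S) (A4 S) (A5 S) (A7 S) h6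
  have h9 : LowDimStmt S := lowDim S h1 h3 h4 eig h6 h7
  exact thmB S h9 (dimLow S (Coer S) h6 h8) (Coer S)

theorem thmC_all : ThmCStmt S := by
  have : CompleteSpace F := FiniteDimensional.complete ℂ F
  exact thmC S (Ap S) (grp S) (pack S) (lim (A8 S) lr) (crit S) (l0 S (en0 S) (n0 (vac S)))
    (l1 S (en1 S) (n1 S (vac S)))

theorem thmD_all (hi : S.Irr) (hs : SmStmt S) : ThmDStmt S := by
  have h1 : Om1Stmt S := om1 S
  have hu : VUniqStmt S := vUniq S hi (vac S) h1
  have h2 : Om2Stmt S := om2 S hs h1 hu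
  have hE : EstStmt S := est (dec S) hs h1 (omNorm hs h1 h2) (v3 S hs h2) (m12 S) (m3 S (f10 S))
  exact thmD (n0 (vac S)) (zmStmt S) (invMom S) (out S hs hE (int S))

theorem uniq_all (hs : SmStmt S) : UniqStmt S := fun hi =>
  uniq_of (thmB_all S) (thmC_all S) (thmD_all S hi hs) hi

end B

end Vale.Agent.P353.U.All
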