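import Vale.Agent.P353.LimL2
import Vale.Agent.P353.Energy

/-! # P353, uniqueness for `N = 2`: definitions (BMN deformation)

Notation in the comments: `I3 = {0,1,2}`, `I6 = {3,…,8}`, `Γ = γ^0 γ^1 γ^2`. -/

open MeasureTheory Filter Topology
open scoped ContDiff

namespace Vale.Agent.P353

variable {F : Type*} [NormedAddCommGroup F] [InnerProductSpace ℂ F]

/-- block weights: `2` on `I3`, `1` on `I6` -/
noncomputable def aw (i : Fin 9) : ℝ := if i.val < 3 then 2 else 1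

/-- `k ≠ l` lie in the same block -/
def Same (k l : Fin 9) : Prop := k ≠ l ∧ (k.val < 3 ↔ l.val < 3)

/-- coefficients of the rotation generators in the anticommutator of the supercharges -/
noncomputable def rc (i j : Fin 9) : ℝ :=
  if i.val < 3 ∧ j.val < 3 then 2 else if 3 ≤ i.val ∧ 3 ≤ j.val then -1 else 0

/-- `det (x_0, x_1, x_2)` -/
noncomputable def det3 (x : X3) : ℝ :=
  ∑ A, ∑ B, ∑ C, (eps A B C : ℝ) * x (0, A) * x (1, B) * x (2, C)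

/-- the inclusion of `Fin 3` (colour) into `Fin 9` (block `I3`) -/
def ci (A : Fin 3) : Fin 9 := ⟨A.val, by omega⟩

/-- rotation of the colour index by a `3 × 3` matrix -/
noncomputable def ro (O : Matrix (Fin 3) (Fin 3) ℝ) (x : X3) : X3 :=
  WithLp.toLp 2 fun p => ∑ B, O p.2 B * x (p.1, B)

/-- the linear map `A_0 = diag(aw)` -/
noncomputable def A0 (x : X3) (i : Fin 9) (A : Fin 3) : ℝ := aw i * x (i, A)

/-- the linear map `A_1`: `2(x + xᵀ) - (2/3) tr x` on the `3 × 3` block, `3` on `I6` -/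
noncomputable def A1 (x : X3) (i : Fin 9) (A : Fin 3) : ℝ :=
  if h : i.val < 3 then
    2 * (x (i, A) + x (ci A, ⟨i.val, h⟩)) - (if i = ci A then 2 / 3 * ∑ k, x (ci k, k) else 0)
  else 3 * x (i, A)

namespace Setup

variable (S : Setup F)

/-- irreducibility of the Clifford module -/
def Irr : Prop := ∀ W : Submodule ℂ F, (∀ α A, ∀ v ∈ W, S.th α A v ∈ W) → W = ⊥ ∨ W = ⊤

/-- `Γ = γ^0 γ^1 γ^2` -/
noncomputable def Gam : Matrix (Fin 16) (Fin 16) ℂ := S.g 0 * S.g 1 * S.g 2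

/-- `FG = i θ Γ θ` -/
noncomputable def FG : F →L[ℂ] F := Complex.I • S.tot S.Gam

/-- `M_β(x) = ∑ a_i x_i^A (γ^i Γ θ^A)_β` -/
noncomputable def MM (β : Fin 16) (x : X3) : F →L[ℂ] F :=
  ∑ i, ∑ A, ((aw i * x (i, A) : ℝ) : ℂ) • S.vec (S.g i * S.Gam) A β

/-- free supercharge `-i (γ^i θ^A)_β ∂_i^A` -/
noncomputable def Q0 (β : Fin 16) (u : X3 → F) (x : X3) : F :=
  (-Complex.I) • ∑ i, ∑ A, S.vec (S.g i) A β (pd i A u x)

/-- BMN supercharge `Q_β + m M_β` -/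
noncomputable def Qm (m : ℝ) (β : Fin 16) (u : X3 → F) (x : X3) : F :=
  S.Q β u x + (m : ℂ) • S.MM β x (u x)

/-- BMN potential -/
noncomputable def Vm (m : ℝ) (x : X3) : ℝ :=
  S.V x + 6 * m * S.κ * det3 x + m ^ 2 / 2 * ∑ i, ∑ A, (aw i * x (i, A)) ^ 2

/-- BMN Hamiltonian `H_m = (1/16) ∑ Q_β²` in explicit form -/
noncomputable def Hm (m : ℝ) (u : X3 → F) (x : X3) : F :=
  (-(1 / 2) : ℂ) • (∑ i, ∑ A, pd i A (pd i A u) x) + ((S.Vm m x : ℝ) : ℂ) • u x + S.Fx x (u x)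
    - ((3 / 4 * m : ℝ) : ℂ) • S.FG (u x)

/-- gauge and `Spin(3) × Spin(6)` invariant test functions -/
def Inv (u : X3 → F) : Prop :=
  Tst u ∧ (∀ C x, S.G C u x = 0) ∧ ∀ k l, Same k l → ∀ x, S.J k l u x = 0

/-- weak gauge invariance -/
def wG (Ψ : X3 → F) : Prop := ∀ C, ∀ ζ, Tst ζ → ∫ x, inner ℂ (S.G C ζ x) (Ψ x) = 0

/-- weak `Spin(3) × Spin(6)` invariance -/
def wJ (Ψ : X3 → F) : Prop :=
  ∀ k l, Same k l → ∀ ζ, Tst ζ → ∫ x, inner ℂ (S.J k l ζ x) (Ψ x) = 0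

/-- `Q_β Ψ = Φ` weakly -/
def wQ (m : ℝ) (β : Fin 16) (Ψ Φ : X3 → F) : Prop :=
  ∀ ζ, Tst ζ → ∫ x, inner ℂ (S.Qm m β ζ x) (Ψ x) = ∫ x, inner ℂ (ζ x) (Φ x)

/-- invariant zero modes of the BMN model -/
def Em (m : ℝ) (Ψ : X3 → F) : Prop :=
  MemLp Ψ 2 (volume : Measure X3) ∧ S.wG Ψ ∧ S.wJ Ψ ∧ ∀ β, S.wQ m β Ψ (fun _ => 0)

/-- strong limits in the graph norm: `u_n → Ψ`, `Q_β u_n → Φ_β` -/
def Str (m : ℝ) (Ψ : X3 → F) (Φ : Fin 16 → X3 → F) : Prop :=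
  ∃ u : ℕ → X3 → F, (∀ n, Tst (u n)) ∧ L2t u Ψ ∧ ∀ β, L2t (fun n => S.Qm m β (u n)) (Φ β)

/-- weak eigenfunctions of `∑ Q_β²` with eigenvalue `e` -/
def wE (m e : ℝ) (Ψ : X3 → F) : Prop :=
  ∀ ζ, Tst ζ → ∫ x, inner ℂ (∑ β, S.Qm m β (S.Qm m β ζ) x) (Ψ x) =
    (e : ℂ) * ∫ x, inner ℂ (ζ x) (Ψ x)

/-- there is a three dimensional space of invariant test functions with
`∑ ‖Q_β u‖² < c ‖u‖²` -/
def Low (m c : ℝ) : Prop :=
  ∃ u : Fin 3 → X3 → F, (∀ j, S.Inv (u j)) ∧ ∀ a : Fin 3 → ℂ, a ≠ 0 →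
    ∑ β, nsq (S.Qm m β (fun x => ∑ j, a j • u j x)) < c * nsq (fun x => ∑ j, a j • u j x)

/-- there are three linearly independent invariant zero modes -/
def Dim3 (m : ℝ) : Prop :=
  ∃ Ψ : Fin 3 → X3 → F, (∀ j, S.Em m (Ψ j)) ∧ ∀ a : Fin 3 → ℂ, a ≠ 0 →
    0 < nsq (fun x => ∑ j, a j • Ψ j x)

/-- the resolvent `(1 + ∑ Q_β²)⁻¹` on `L²` -/
def IsRes (m : ℝ) (R : Lp F 2 (volume : Measure X3) →L[ℂ] Lp F 2 (volume : Measure X3)) : Prop :=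
  (∀ f g, inner ℂ (R f) g = inner ℂ f (R g)) ∧
  ∀ f : Lp F 2 (volume : Measure X3), ∃ Φ : Fin 16 → X3 → F, S.Str m (R f) Φ ∧
    (∀ ζ, Tst ζ → (∫ x, inner ℂ (ζ x) ((R f) x)) + ∑ β, ∫ x, inner ℂ (S.Qm m β ζ x) (Φ β x) =
      ∫ x, inner ℂ (ζ x) (f x)) ∧
    nsq (R f) + ∑ β, nsq (Φ β) = (inner ℂ (R f) f).re

/-- the critical point `ξ₀(k, A) = -(2/κ) δ_{kA}` of the potential `V_1` -/
noncomputable def xi0 : X3 :=
  WithLp.toLp 2 fun p => if p.1 = ci p.2 then -(2 / S.κ) else 0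

/-- the gauge orbit of `m ξ₀` -/
def Orb (m : ℝ) : Set X3 :=
  {x | ∃ O : Matrix (Fin 3) (Fin 3) ℝ, O.transpose * O = 1 ∧ O.det = 1 ∧ x = ro O (m • S.xi0)}

/-- distance to the wells -/
noncomputable def dm (m : ℝ) (x : X3) : ℝ := min ‖x‖ (Metric.infDist x (S.Orb m))

/-- derivative of `W_β` at `ξ` in direction `x` -/
noncomputable def DW (ξ : X3) (β : Fin 16) (x : X3) : F →L[ℂ] F :=
  (S.κ : ℂ) • ∑ A, ∑ B, ∑ C, ∑ i, ∑ j,
    ((eps A B C : ℂ) * (ξ (i, B) : ℂ) * (x (j, C) : ℂ)) • S.vec (S.g2 i j) A β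

/-- linearised supercharge at `ξ` (for `m = 1`) -/
noncomputable def Qlin (ξ : X3) (β : Fin 16) (u : X3 → F) (x : X3) : F :=
  S.Q0 β u x + S.MM β x (u x) + S.DW ξ β x (u x)

/-- `χ_α = ∑_A (γ^A θ^A)_α`, `A` running over `I3` and over the colours simultaneously -/
noncomputable def chi (α : Fin 16) : F →L[ℂ] F := ∑ A, S.vec (S.g (ci A)) A α

/-- fermionic mass term at `0` -/
noncomputable def N0 : F →L[ℂ] F := (18 : ℂ) • 1 - (3 / 4 : ℂ) • S.FG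

/-- fermionic mass term at `ξ₀` -/
noncomputable def N1 : F →L[ℂ] F :=
  (38 : ℂ) • 1 - (7 / 4 : ℂ) • S.FG + Complex.I • ∑ α, ∑ β, S.Gam α β • (S.chi α * S.chi β)

/-- `a_α^A = ½((1 - iΓ)θ^A)_α` -/
noncomputable def am (A : Fin 3) (α : Fin 16) : F →L[ℂ] F :=
  (1 / 2 : ℂ) • (S.th α A - Complex.I • S.vec S.Gam A α)

/-- `b_α^A = ½((1 + iΓ)θ^A)_α` -/
noncomputable def bm (A : Fin 3) (α : Fin 16) : F →L[ℂ] F :=
  (1 / 2 : ℂ) • (S.th α A + Complex.I • S.vec S.Gam A α)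

end Setup
end Vale.Agent.P353
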