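import Vale.Agent.P353.U.StmtC

/-! # Energy identities for supercharges with a multiplier that is linear in `x` -/

open MeasureTheory Filter Topology
open scoped ContDiff Matrix

namespace Vale.Agent.P353.U.En

variable {F : Type*} [NormedAddCommGroup F] [InnerProductSpace ℂ F]

/-- multiplier linear in `x`, with coefficient matrices `N j B A` -/
noncomputable def TT (S : Setup F) (N : Fin 9 → Fin 3 → Fin 3 → Matrix (Fin 16) (Fin 16) ℂ)
    (β : Fin 16) (x : X3) : F →L[ℂ] F :=
  ∑ j, ∑ B, ((x (j, B) : ℝ) : ℂ) • ∑ A, S.vec (N j B A) A β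

/-- the matrix in front of `θ^A` -/
noncomputable def NX (N : Fin 9 → Fin 3 → Fin 3 → Matrix (Fin 16) (Fin 16) ℂ) (x : X3)
    (A : Fin 3) : Matrix (Fin 16) (Fin 16) ℂ :=
  ∑ j, ∑ B, ((x (j, B) : ℝ) : ℂ) • N j B A

/-- the supercharge with a linear multiplier -/
noncomputable def QT (S : Setup F) (N : Fin 9 → Fin 3 → Fin 3 → Matrix (Fin 16) (Fin 16) ℂ)
    (β : Fin 16) (u : X3 → F) (x : X3) : F := S.Q0 β u x + TT S N β x (u x)

variable (S : Setup F) (N : Fin 9 → Fin 3 → Fin 3 → Matrix (Fin 16) (Fin 16) ℂ)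

lemma TT_eq (β : Fin 16) (x : X3) : TT S N β x = ∑ A, S.vec (NX N x A) A β := by
  have key : ∀ f : Fin 9 → Fin 3 → Fin 3 → (F →L[ℂ] F),
      ∑ j, ∑ B, ∑ A, f j B A = ∑ A, ∑ j, ∑ B, f j B A := by
    intro f
    calc ∑ j, ∑ B, ∑ A, f j B A = ∑ j, ∑ A, ∑ B, f j B A :=
          Finset.sum_congr rfl fun j _ => Finset.sum_comm
      _ = _ := Finset.sum_comm
  simp only [TT, NX, S.vec_sum, S.vec_smul, Finset.smul_sum]
  exact key fun j B A => ((x (j, B) : ℝ) : ℂ) • S.vec (N j B A) A β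

lemma contDiff_TT (β : Fin 16) : ContDiff ℝ ∞ (TT S N β) := by
  unfold TT
  refine ContDiff.sum fun i _ => ContDiff.sum fun A _ => ?_
  exact (Setup.contDiff_ofReal (Setup.contDiff_coord _)).smul contDiff_const

lemma fderiv_TT (β : Fin 16) (x : X3) (j : Fin 9) (B : Fin 3) :
    fderiv ℝ (TT S N β) x (EuclideanSpace.single (j, B) (1 : ℝ)) = ∑ A, S.vec (N j B A) A β := by
  have hd : HasFDerivAt (TT S N β) (∑ i, ∑ C,
      ((Complex.ofRealCLM.comp (EuclideanSpace.proj (𝕜 := ℝ) (i, C) : X3 →L[ℝ] ℝ)).smulRight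
        (∑ A, S.vec (N i C A) A β))) x := by
    unfold TT
    refine HasFDerivAt.fun_sum fun i _ => HasFDerivAt.fun_sum fun C _ => ?_
    have h1 := (Complex.ofRealCLM.hasFDerivAt (x := x (i, C))).comp x
      (Setup.hasFDerivAt_coord (i, C) x)
    exact h1.smul_const (∑ A, S.vec (N i C A) A β)
  rw [hd.fderiv]
  simp only [_root_.sum_apply, ContinuousLinearMap.smulRight_apply,
    ContinuousLinearMap.comp_apply, Complex.ofRealCLM_apply, PiLp.proj_apply,
    PiLp.single_apply, Prod.mk.injEq]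
  rw [Finset.sum_eq_single j, Finset.sum_eq_single B]
  · simp
  · intro C _ hC
    simp [hC]
  · intro h; exact absurd (Finset.mem_univ _) h
  · intro i _ hi
    refine Finset.sum_eq_zero fun C _ => ?_
    simp [hi]
  · intro h; exact absurd (Finset.mem_univ _) h

lemma NX_im (hN : ∀ j B A α β, (N j B A α β).im = 0) (x : X3) (A : Fin 3) (α β : Fin 16) :
    (NX N x A α β).im = 0 := by
  simp only [NX, Matrix.sum_apply, Matrix.smul_apply, smul_eq_mul, Complex.im_sum]
  refine Finset.sum_eq_zero fun j _ => Finset.sum_eq_zero fun B _ => ?_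
  rw [Complex.mul_im, hN, Complex.ofReal_im]
  ring

lemma TT_symm (hN : ∀ j B A α β, (N j B A α β).im = 0) (β : Fin 16) (x : X3) (v w : F) :
    inner ℂ (TT S N β x v) w = inner ℂ v (TT S N β x w) := by
  rw [TT_eq]
  simp only [_root_.sum_apply, sum_inner, inner_sum, S.vec_symm _ (NX_im N hN x _)]

lemma contDiff_QT (β : Fin 16) {u : X3 → F} (hu : ContDiff ℝ ∞ u) :
    ContDiff ℝ ∞ (QT S N β u) := by
  unfold QT Setup.Q0
  refine ContDiff.add (contDiff_const.smul (ContDiff.sum fun i _ => ContDiff.sum fun A _ => ?_))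
    (Setup.contDiff_clm_apply' (contDiff_TT S N β) hu)
  exact Setup.contDiff_clm_apply' contDiff_const (contDiff_pd hu)

lemma hasCompactSupport_QT (β : Fin 16) {u : X3 → F} (hu : HasCompactSupport u) :
    HasCompactSupport (QT S N β u) := by
  refine HasCompactSupport.intro' (K := tsupport u) hu (isClosed_tsupport u) ?_
  intro x hx
  have h0 : u x = 0 := image_eq_zero_of_notMem_tsupport hx
  have h1 : ∀ i A, pd i A u x = 0 := by
    intro i A
    have : fderiv ℝ u x = 0 := by
      have h := (tsupport_fderiv_subset ℝ (f := u))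
      by_contra hne
      exact hx (h (subset_tsupport _ hne))
    simp [pd, this]
  simp [QT, Setup.Q0, h0, h1]

lemma tst_QT {u : X3 → F} (hu : Setup.Tst u) (β : Fin 16) : Setup.Tst (QT S N β u) :=
  ⟨contDiff_QT S N β hu.1, hasCompactSupport_QT S N β hu.2⟩

theorem QT_symm (hN : ∀ j B A α β, (N j B A α β).im = 0) (β : Fin 16) (u v : X3 → F)
    (hu : Setup.Tst u) (hv : ContDiff ℝ ∞ v) :
    ∫ x, inner ℂ (QT S N β u x) (v x) = ∫ x, inner ℂ (u x) (QT S N β v x) := by
  have hv1 : ContDiff ℝ 1 v := hv.of_le (by simp)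
  have hu1 : ContDiff ℝ 1 u := hu.1.of_le (by simp)
  have hpt : ∀ x, inner ℂ (QT S N β u x) (v x) - inner ℂ (u x) (QT S N β v x) =
      ∑ i, ∑ A, Complex.I * (fderiv ℝ (fun y => inner ℂ (u y) (S.vec (S.g i) A β (v y))) x
        (EuclideanSpace.single (i, A) (1 : ℝ))) := by
    intro x
    have hd : ∀ i A, fderiv ℝ (fun y => inner ℂ (u y) (S.vec (S.g i) A β (v y))) x
        (EuclideanSpace.single (i, A) (1 : ℝ)) =
        inner ℂ (u x) (S.vec (S.g i) A β (pd i A v x)) +
          inner ℂ (pd i A u x) (S.vec (S.g i) A β (v x)) := by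
      intro i A
      have hdv : DifferentiableAt ℝ v x := (hv1.differentiable (by simp)) x
      have hdT : DifferentiableAt ℝ (fun y => S.vec (S.g i) A β (v y)) x :=
        ((S.vec (S.g i) A β).restrictScalars ℝ).differentiableAt.comp x hdv
      rw [fderiv_inner_apply ℂ ((hu1.differentiable (by simp)) x) hdT]
      have := pd_clm (i := i) (A := A) (S.vec (S.g i) A β) hdv
      unfold pd at this ⊢
      rw [this]
    simp only [hd, QT, Setup.Q0, inner_add_left, inner_add_right, inner_smul_left, inner_smul_right,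
      sum_inner, inner_sum, TT_symm S N hN, S.vec_symm _ (S.g_im _)]
    simp only [map_neg, Complex.conj_I, neg_neg]
    simp only [mul_add, Finset.sum_add_distrib, Finset.mul_sum]
    simp only [neg_mul, Finset.sum_neg_distrib]
    ring
  have hI : ∫ x, (inner ℂ (QT S N β u x) (v x) - inner ℂ (u x) (QT S N β v x)) = 0 := by
    simp only [hpt]
    have hw : ∀ i A, ContDiff ℝ 1 (fun y => inner ℂ (u y) (S.vec (S.g i) A β (v y))) := by
      intro i A
      exact hu1.inner ℂ ((S.vec (S.g i) A β).restrictScalars ℝ |>.contDiff.comp hv1)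
    have hcs : ∀ i A, HasCompactSupport (fun y => inner ℂ (u y) (S.vec (S.g i) A β (v y))) :=
      fun i A => hu.inner_cs
    have hint : ∀ i A, Integrable (fun x => fderiv ℝ (fun y => inner ℂ (u y)
        (S.vec (S.g i) A β (v y))) x (EuclideanSpace.single (i, A) (1 : ℝ))) := by
      intro i A
      exact (((hw i A).continuous_fderiv (by simp)).clm_apply
        continuous_const).integrable_of_hasCompactSupport ((hcs i A).fderiv_apply (𝕜 := ℝ) _)
    rw [integral_finsetSum _ fun i _ => integrable_finsetSum _ fun A _ => (hint i A).const_mul _]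
    refine Finset.sum_eq_zero fun i _ => ?_
    rw [integral_finsetSum _ fun A _ => (hint i A).const_mul _]
    refine Finset.sum_eq_zero fun A _ => ?_
    rw [integral_const_mul, integral_fderiv_eq_zero _ (hw i A) (hcs i A), mul_zero]
  rw [integral_sub ((tst_QT S N hu β).inner_int hv.continuous)
    (hu.inner_int (contDiff_QT S N β hv).continuous)] at hI
  exact sub_eq_zero.mp hI

lemma pd_QT (b : Fin 16) {u : X3 → F} (hu : ContDiff ℝ ∞ u) (j : Fin 9) (B : Fin 3) (x : X3) :
    pd j B (QT S N b u) x = (-Complex.I) • ∑ i, ∑ A, S.vec (S.g i) A b (pd j B (pd i A u) x)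
      + (∑ A, S.vec (N j B A) A b) (u x) + TT S N b x (pd j B u x) := by
  have hd : ∀ i A, DifferentiableAt ℝ (pd i A u) x := fun i A =>
    (contDiff_pd hu).differentiable (by simp) x
  have hdv : ∀ i A, DifferentiableAt ℝ (fun y => S.vec (S.g i) A b (pd i A u y)) x := fun i A =>
    ((S.vec (S.g i) A b).restrictScalars ℝ).differentiableAt.comp x (hd i A)
  have hWd : DifferentiableAt ℝ (TT S N b) x := (contDiff_TT S N b).differentiable (by simp) x
  have hud : DifferentiableAt ℝ u x := hu.differentiable (by simp) x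
  have h1 : DifferentiableAt ℝ (fun y => (-Complex.I) • ∑ i, ∑ A,
      S.vec (S.g i) A b (pd i A u y)) x := by
    refine DifferentiableAt.const_smul ?_ _
    refine DifferentiableAt.fun_sum fun i _ => DifferentiableAt.fun_sum fun A _ => hdv i A
  have h2 : DifferentiableAt ℝ (fun y => TT S N b y (u y)) x :=
    (Setup.contDiff_clm_apply' (contDiff_TT S N b) hu).differentiable (by simp) x
  have e : QT S N b u = fun y => (-Complex.I) • ∑ i, ∑ A, S.vec (S.g i) A b (pd i A u y)
      + TT S N b y (u y) := rfl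
  rw [e, pd_add h1 h2, pd_clm_apply hWd hud, ← add_assoc, fderiv_TT]
  congr 2
  have h3 : pd j B (fun y => (-Complex.I) • ∑ i, ∑ A, S.vec (S.g i) A b (pd i A u y)) x =
      (-Complex.I) • pd j B (fun y => ∑ i, ∑ A, S.vec (S.g i) A b (pd i A u y)) x := by
    unfold pd
    rw [fderiv_fun_const_smul]
    · rfl
    · exact DifferentiableAt.fun_sum fun i _ => DifferentiableAt.fun_sum fun A _ => hdv i A
  rw [h3]
  congr 1
  rw [pd_sum _ (fun i _ => DifferentiableAt.fun_sum fun A _ => hdv i A)]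
  refine Finset.sum_congr rfl fun i _ => ?_
  rw [pd_sum _ (fun A _ => hdv i A)]
  refine Finset.sum_congr rfl fun A _ => ?_
  rw [pd_clm _ (hd i A)]

/-- first order terms vanish -/
lemma first_order_TT (h1 : ∀ j k C B, (S.g j * (N k C B)ᵀ).trace = 0) (j : Fin 9) (B : Fin 3)
    (x : X3) :
    ∑ b, (S.vec (S.g j) B b * TT S N b x + TT S N b x * S.vec (S.g j) B b) = 0 := by
  have h : ∀ b, S.vec (S.g j) B b * TT S N b x + TT S N b x * S.vec (S.g j) B b =
      ∑ A, (if B = A then ((S.g j * (NX N x A)ᵀ) b b) • (1 : F →L[ℂ] F) else 0) := by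
    intro b
    rw [TT_eq, Finset.mul_sum, Finset.sum_mul, ← Finset.sum_add_distrib]
    simp only [S.vec_anti]
  simp only [h]
  rw [Finset.sum_comm]
  refine Finset.sum_eq_zero fun A _ => ?_
  by_cases hA : B = A
  · simp only [hA, if_true, ← Finset.sum_smul]
    have h3 : ∑ b, (S.g j * (NX N x A)ᵀ) b b = (S.g j * (NX N x A)ᵀ).trace := rfl
    have h4 : (S.g j * (NX N x A)ᵀ).trace = 0 := by
      simp only [NX, Matrix.transpose_sum, Matrix.transpose_smul, Matrix.mul_sum, Matrix.mul_smul,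
        Matrix.trace_sum, Matrix.trace_smul, h1, smul_zero, Finset.sum_const_zero]
    rw [h3, h4, zero_smul]
  · simp [hA]

/-- the square of the multiplier -/
lemma zero_order_TT (x : X3) :
    ∑ b, TT S N b x * TT S N b x =
      ((1 / 2 : ℂ) * ∑ A, (NX N x A * (NX N x A)ᵀ).trace) • (1 : F →L[ℂ] F) := by
  have h : ∀ b, (2 : ℂ) • (TT S N b x * TT S N b x) =
      ∑ A, ((NX N x A * (NX N x A)ᵀ) b b) • (1 : F →L[ℂ] F) := by
    intro b
    have e1 : TT S N b x * TT S N b x = ∑ A, ∑ B, S.vec (NX N x A) A b * S.vec (NX N x B) B b := by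
      rw [TT_eq, Finset.sum_mul_sum]
    have e2 : TT S N b x * TT S N b x = ∑ A, ∑ B, S.vec (NX N x B) B b * S.vec (NX N x A) A b := by
      rw [e1, Finset.sum_comm]
    rw [two_smul]
    nth_rewrite 1 [e1]
    rw [e2, ← Finset.sum_add_distrib]
    simp only [← Finset.sum_add_distrib, S.vec_anti]
    simp
  have h2 : (2 : ℂ) • ∑ b, TT S N b x * TT S N b x =
      (∑ A, (NX N x A * (NX N x A)ᵀ).trace) • (1 : F →L[ℂ] F) := by
    rw [Finset.smul_sum]
    simp only [h]
    rw [Finset.sum_comm, Finset.sum_smul]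
    refine Finset.sum_congr rfl fun A _ => ?_
    rw [← Finset.sum_smul]
    rfl
  rw [mul_smul, ← h2, smul_smul]
  norm_num

/-- the constant term -/
noncomputable def KT : F →L[ℂ] F :=
  (-Complex.I) • ∑ j, ∑ B, ∑ A, S.bil (S.g j * N j B A) B A

lemma ferm_order_TT :
    (-Complex.I) • ∑ b, ∑ j, ∑ B, S.vec (S.g j) B b * (∑ A, S.vec (N j B A) A b) = KT S N := by
  unfold KT
  congr 1
  rw [Finset.sum_comm]
  refine Finset.sum_congr rfl fun j _ => ?_
  rw [Finset.sum_comm]
  refine Finset.sum_congr rfl fun B _ => ?_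
  simp only [Finset.mul_sum]
  rw [Finset.sum_comm]
  refine Finset.sum_congr rfl fun A _ => ?_
  rw [S.sum_vec_mul_vec, S.g_symm]

/-- `∑_b Q_b Q_b u` -/
theorem sum_QTQT (h1 : ∀ j k C B, (S.g j * (N k C B)ᵀ).trace = 0) {u : X3 → F}
    (hu : ContDiff ℝ ∞ u) (x : X3) :
    ∑ b, QT S N b (QT S N b u) x = -((8 : ℂ) • ∑ i, ∑ A, pd i A (pd i A u) x) +
      ((1 / 2 : ℂ) * ∑ A, (NX N x A * (NX N x A)ᵀ).trace) • u x + KT S N (u x) := by
  have h0 : ∀ b, QT S N b (QT S N b u) x =
      -(∑ j, ∑ B, ∑ i, ∑ A, S.vec (S.g j) B b (S.vec (S.g i) A b (pd j B (pd i A u) x)))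
      + ((-Complex.I) • ∑ j, ∑ B, S.vec (S.g j) B b * (∑ A, S.vec (N j B A) A b)) (u x)
      + (-Complex.I) • ∑ j, ∑ B, (S.vec (S.g j) B b * TT S N b x + TT S N b x * S.vec (S.g j) B b)
          (pd j B u x)
      + (TT S N b x * TT S N b x) (u x) := by
    intro b
    conv_lhs => rw [QT, Setup.Q0]
    simp only [pd_QT S N b hu]
    rw [QT, Setup.Q0]
    simp only [map_add, map_smul, map_sum, Finset.sum_add_distrib, smul_add,
      _root_.smul_apply, _root_.sum_apply, _root_.add_apply, mul_apply_eq_comp,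
      ← Finset.smul_sum, smul_smul]
    have hI : (-Complex.I) * (-Complex.I) = -1 := by
      rw [neg_mul_neg, Complex.I_mul_I]
    rw [hI, neg_one_smul]
    abel
  simp only [h0, Finset.sum_add_distrib, Finset.sum_neg_distrib]
  rw [S.second_order (fun j B i A => pd j B (pd i A u) x)
    (fun i A j B => pd_comm hu i j A B x)]
  have h2 : ∑ b, ((-Complex.I) • ∑ j, ∑ B, S.vec (S.g j) B b * (∑ A, S.vec (N j B A) A b)) (u x) =
        KT S N (u x) := by
    rw [← _root_.sum_apply, ← Finset.smul_sum, ferm_order_TT]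
  have h3 : ∑ b, (-Complex.I) • ∑ j, ∑ B, (S.vec (S.g j) B b * TT S N b x +
      TT S N b x * S.vec (S.g j) B b) (pd j B u x) = 0 := by
    rw [← Finset.smul_sum, Finset.sum_comm]
    have : ∀ j, ∑ b, ∑ B, (S.vec (S.g j) B b * TT S N b x +
      TT S N b x * S.vec (S.g j) B b) (pd j B u x) = 0 := by
      intro j
      rw [Finset.sum_comm]
      refine Finset.sum_eq_zero fun B _ => ?_
      rw [← _root_.sum_apply, first_order_TT S N h1]
      rfl
    simp only [this, Finset.sum_const_zero, smul_zero]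
  have h4 : ∑ b, (TT S N b x * TT S N b x) (u x) =
      ((1 / 2 : ℂ) * ∑ A, (NX N x A * (NX N x A)ᵀ).trace) • u x := by
    rw [← _root_.sum_apply, zero_order_TT]
    rfl
  rw [h2, h3, h4]
  abel

/-- the energy identity for a linear multiplier -/
theorem energy_QT (hN : ∀ j B A α β, (N j B A α β).im = 0)
    (h1 : ∀ j k C B, (S.g j * (N k C B)ᵀ).trace = 0) (q : X3 → ℝ) (hq : Continuous q)
    (h2 : ∀ x, (1 / 2 : ℂ) * ∑ A, (NX N x A * (NX N x A)ᵀ).trace = ((q x : ℝ) : ℂ))
    (u : X3 → F) (hu : Setup.Tst u) :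
    ∑ β, nsq (QT S N β u) = 8 * (∑ i, ∑ A, nsq (pd i A u)) + (∫ x, q x * ‖u x‖ ^ 2)
        + (∫ x, inner ℂ (u x) (KT S N (u x))).re := by
  have hI : ∀ v : X3 → F, Setup.Tst v → ((nsq v : ℝ) : ℂ) = ∫ x, inner ℂ (v x) (v x) := by
    intro v _
    rw [nsq, ← integral_complex_ofReal]
    congr 1
    ext x
    rw [inner_self_eq_norm_sq_to_K]
    norm_cast
  have h3 : ((∑ β, nsq (QT S N β u) : ℝ) : ℂ) =
      ∫ x, inner ℂ (u x) (∑ b, QT S N b (QT S N b u) x) := by
    push_cast
    simp only [inner_sum]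
    rw [integral_finsetSum]
    · refine Finset.sum_congr rfl fun b _ => ?_
      rw [hI _ (tst_QT S N hu b), QT_symm S N hN b u _ hu (contDiff_QT S N b hu.1)]
    · intro b _
      exact hu.inner_int (contDiff_QT S N b (contDiff_QT S N b hu.1)).continuous
  have hF : Setup.Tst (fun x => KT S N (u x)) := hu.clm contDiff_const
  have h4 : ∀ x, inner ℂ (u x) (∑ b, QT S N b (QT S N b u) x) =
      -(8 : ℂ) * ∑ i, ∑ A, inner ℂ (u x) (pd i A (pd i A u) x) +
      ((q x * ‖u x‖ ^ 2 : ℝ) : ℂ) + inner ℂ (u x) (KT S N (u x)) := by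
    intro x
    rw [sum_QTQT S N h1 hu.1, h2, inner_add_right, inner_add_right, inner_neg_right,
      inner_smul_right, inner_smul_right]
    simp only [inner_sum, inner_self_eq_norm_sq_to_K]
    push_cast
    simp only [Complex.coe_algebraMap]
    ring
  have h5 : (∫ x, inner ℂ (u x) (∑ b, QT S N b (QT S N b u) x)) =
      (8 : ℂ) * ∑ i, ∑ A, ((nsq (pd i A u) : ℝ) : ℂ) +
      ((∫ x, q x * ‖u x‖ ^ 2 : ℝ) : ℂ) +
      ∫ x, inner ℂ (u x) (KT S N (u x)) := by
    simp only [h4]
    have i1 : ∀ i A, Integrable (fun x => inner ℂ (u x) (pd i A (pd i A u) x)) := fun i A =>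
      hu.inner_int (contDiff_pd (contDiff_pd hu.1)).continuous
    have i1' : Integrable (fun x => -(8 : ℂ) * ∑ i, ∑ A, inner ℂ (u x) (pd i A (pd i A u) x)) :=
      (integrable_finsetSum _ fun i _ => integrable_finsetSum _ fun A _ => i1 i A).const_mul _
    have i2 : Integrable (fun x => ((q x * ‖u x‖ ^ 2 : ℝ) : ℂ)) :=
      (hu.mul_norm_sq_int hq).ofReal
    have i3 : Integrable (fun x => inner ℂ (u x) (KT S N (u x))) :=
      (hu.inner_int hF.1.continuous)
    have i12 : Integrable (fun x => -(8 : ℂ) * ∑ i, ∑ A, inner ℂ (u x) (pd i A (pd i A u) x) +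
        ((q x * ‖u x‖ ^ 2 : ℝ) : ℂ)) := i1'.add i2
    rw [integral_add i12 i3, integral_add i1' i2, integral_const_mul, integral_complex_ofReal]
    congr 2
    rw [integral_finsetSum _ fun i _ => integrable_finsetSum _ fun A _ => i1 i A, neg_mul,
      ← mul_neg, ← Finset.sum_neg_distrib]
    congr 1
    refine Finset.sum_congr rfl fun i _ => ?_
    rw [integral_finsetSum _ fun A _ => i1 i A, ← Finset.sum_neg_distrib]
    refine Finset.sum_congr rfl fun A _ => ?_
    rw [← integral_inner_pd u (pd i A u) (hu.1.of_le (by simp)) ((contDiff_pd hu.1).of_le (by simp))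
      hu.2 i A, hI _ (hu.pd i A)]
  have h6 := h3.trans h5
  have h7 := congrArg Complex.re h6
  rw [Complex.ofReal_re] at h7
  rw [h7]
  simp only [Complex.add_re, Complex.ofReal_re, ← Complex.ofReal_sum]
  congr 2
  simp

/-- completing the square with a function `L` whose derivative in direction `(i, A)` is constant -/
theorem nsq_pd_add (L : X3 → ℝ) (hL : ContDiff ℝ ∞ L) (i : Fin 9) (A : Fin 3) (c : ℝ)
    (hc : ∀ x, fderiv ℝ L x (EuclideanSpace.single (i, A) (1 : ℝ)) = c)
    (v : X3 → F) (hv : Setup.Tst v) :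
    nsq (fun x => pd i A v x + ((L x : ℝ) : ℂ) • v x) =
      nsq (pd i A v) + (∫ x, L x ^ 2 * ‖v x‖ ^ 2) - c * nsq v := by
  have hv1 : ContDiff ℝ 1 v := hv.1.of_le (by simp)
  have hLv : Setup.Tst (fun x => ((L x : ℝ) : ℂ) • v x) := hv.rsmul hL
  have hw : ContDiff ℝ 1 (fun x => inner ℂ (v x) (((L x : ℝ) : ℂ) • v x)) :=
    hv1.inner ℂ (hLv.1.of_le (by simp))
  have h0 := integral_fderiv_eq_zero _ hw hv.inner_cs (EuclideanSpace.single (i, A) (1 : ℝ))
  have hd : ∀ x, fderiv ℝ (fun x => inner ℂ (v x) (((L x : ℝ) : ℂ) • v x)) x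
      (EuclideanSpace.single (i, A) (1 : ℝ)) =
      inner ℂ (v x) (((L x : ℝ) : ℂ) • pd i A v x) + inner ℂ (pd i A v x) (((L x : ℝ) : ℂ) • v x)
        + (c : ℂ) * inner ℂ (v x) (v x) := by
    intro x
    have hdv : DifferentiableAt ℝ v x := hv.diff x
    have hdL : DifferentiableAt ℝ L x := hL.differentiable (by simp) x
    rw [fderiv_inner_apply ℂ hdv ((hLv.1.differentiable (by simp)) x)]
    have h := pd_rsmul (i := i) (A := A) hdL hdv
    rw [hc] at h
    change inner ℂ (v x) (pd i A (fun y => ((L y : ℝ) : ℂ) • v y) x) +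
      inner ℂ (pd i A v x) (((L x : ℝ) : ℂ) • v x) = _
    rw [h, inner_add_right, inner_smul_right]
    ring
  simp only [hd] at h0
  have hLc : Continuous (fun x => ((L x : ℝ) : ℂ)) := (Setup.contDiff_ofReal hL).continuous
  have j1 : Integrable (fun x => inner ℂ (v x) (((L x : ℝ) : ℂ) • pd i A v x)) :=
    hv.inner_int (hLc.smul (hv.pd i A).1.continuous)
  have j2 : Integrable (fun x => inner ℂ (pd i A v x) (((L x : ℝ) : ℂ) • v x)) :=
    (hv.pd i A).inner_int (hLc.smul hv.1.continuous)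
  have j3 : Integrable (fun x => (c : ℂ) * inner ℂ (v x) (v x)) :=
    (hv.inner_int hv.1.continuous).const_mul _
  have j12 : Integrable (fun x => inner ℂ (v x) (((L x : ℝ) : ℂ) • pd i A v x) +
      inner ℂ (pd i A v x) (((L x : ℝ) : ℂ) • v x)) := j1.add j2
  rw [integral_add j12 j3, integral_const_mul] at h0
  have hre := congrArg Complex.re h0
  rw [Complex.add_re, Complex.re_ofReal_mul, Complex.zero_re] at hre
  have e3 : (∫ x, inner ℂ (v x) (v x)).re = nsq v := by
    have : ∫ x, inner ℂ (v x) (v x) = ((nsq v : ℝ) : ℂ) := by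
      rw [nsq, ← integral_complex_ofReal]
      congr 1
      ext x
      rw [inner_self_eq_norm_sq_to_K]
      norm_cast
    rw [this, Complex.ofReal_re]
  rw [e3] at hre
  have e12 : (∫ x, (inner ℂ (v x) (((L x : ℝ) : ℂ) • pd i A v x) +
      inner ℂ (pd i A v x) (((L x : ℝ) : ℂ) • v x))).re =
      ∫ x, 2 * (inner ℂ (pd i A v x) (((L x : ℝ) : ℂ) • v x)).re := by
    have := integral_re j12
    have h' : (∫ x, (inner ℂ (v x) (((L x : ℝ) : ℂ) • pd i A v x) +
      inner ℂ (pd i A v x) (((L x : ℝ) : ℂ) • v x))).re = ∫ x, RCLike.re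
      (inner ℂ (v x) (((L x : ℝ) : ℂ) • pd i A v x) +
      inner ℂ (pd i A v x) (((L x : ℝ) : ℂ) • v x)) := this.symm
    rw [h']
    refine integral_congr_ae (Filter.Eventually.of_forall fun x => ?_)
    simp only [map_add]
    have e : (inner ℂ (v x) (((L x : ℝ) : ℂ) • pd i A v x)).re =
        (inner ℂ (pd i A v x) (((L x : ℝ) : ℂ) • v x)).re := by
      rw [inner_smul_right, inner_smul_right, Complex.re_ofReal_mul, Complex.re_ofReal_mul]
      congr 1
      exact inner_re_symm (𝕜 := ℂ) (v x) (pd i A v x)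
    change (inner ℂ (v x) (((L x : ℝ) : ℂ) • pd i A v x)).re +
      (inner ℂ (pd i A v x) (((L x : ℝ) : ℂ) • v x)).re = _
    rw [e]
    ring
  rw [e12] at hre
  have hpt : ∀ x, ‖pd i A v x + ((L x : ℝ) : ℂ) • v x‖ ^ 2 = ‖pd i A v x‖ ^ 2 +
      L x ^ 2 * ‖v x‖ ^ 2 + 2 * (inner ℂ (pd i A v x) (((L x : ℝ) : ℂ) • v x)).re := by
    intro x
    have h := norm_add_sq (𝕜 := ℂ) (pd i A v x) (((L x : ℝ) : ℂ) • v x)
    rw [h, norm_smul, mul_pow]
    have hn : ‖((L x : ℝ) : ℂ)‖ ^ 2 = L x ^ 2 := by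
      rw [Complex.norm_real, Real.norm_eq_abs, sq_abs]
    rw [hn]
    change ‖pd i A v x‖ ^ 2 + 2 * (inner ℂ (pd i A v x) (((L x : ℝ) : ℂ) • v x)).re +
      L x ^ 2 * ‖v x‖ ^ 2 = _
    ring
  have k1 : Integrable (fun x => ‖pd i A v x‖ ^ 2) := (hv.pd i A).norm_sq_int
  have k2 : Integrable (fun x => L x ^ 2 * ‖v x‖ ^ 2) :=
    hv.mul_norm_sq_int (hL.continuous.pow 2)
  have k3 : Integrable (fun x => 2 * (inner ℂ (pd i A v x) (((L x : ℝ) : ℂ) • v x)).re) :=
    (j2.re).const_mul 2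
  have k12 : Integrable (fun x => ‖pd i A v x‖ ^ 2 + L x ^ 2 * ‖v x‖ ^ 2) := k1.add k2
  rw [nsq]
  simp only [hpt]
  rw [integral_add k12 k3, integral_add k1 k2]
  change nsq (pd i A v) + _ + _ = _
  linarith

end Vale.Agent.P353.U.En
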