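import Vale.Agent.P353.U.StmtD
import Vale.Agent.P353.Pot
import Vale.Agent.P353.Pointwise

/-! # P353, uniqueness: the main pointwise estimate, part A (product formula and homogeneity) -/

open MeasureTheory Filter Topology
open scoped ContDiff

namespace Vale.Agent.P353.U

variable {F : Type*} [NormedAddCommGroup F] [InnerProductSpace ℂ F]

namespace EstP

/-! ### the outer weight -/

lemma diff_norm {x : X3} (hx : x ≠ 0) : DifferentiableAt ℝ (fun y : X3 => ‖y‖) x :=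
  (contDiffAt_norm ℝ (n := 1) hx).differentiableAt (by simp)

lemma pdr_norm {x : X3} (hx : x ≠ 0) (i : Fin 9) (A : Fin 3) :
    pdr i A (fun y => ‖y‖) x = x (i, A) / ‖x‖ := by
  have h := pdr_mul i A (diff_norm hx) (diff_norm hx)
  have e : (fun y : X3 => ‖y‖ * ‖y‖) = e1 := by funext y; rw [e1_eq, sq]
  rw [e, pdr_e1] at h
  have h0 : ‖x‖ ≠ 0 := norm_ne_zero_iff.2 hx
  rw [eq_div_iff h0]
  linarith

lemma line_deriv {φ : X3 → ℝ} {x : X3} (hφ : DifferentiableAt ℝ φ x) (i : Fin 9) (A : Fin 3) :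
    HasDerivAt (fun t : ℝ => φ (x + t • EuclideanSpace.single (i, A) (1 : ℝ))) (pdr i A φ x) 0 := by
  have h1 : HasDerivAt (fun t : ℝ => x + t • (EuclideanSpace.single (i, A) (1 : ℝ) : X3))
      (EuclideanSpace.single (i, A) (1 : ℝ)) 0 := by
    have := ((hasDerivAt_id (0 : ℝ)).smul_const
      (EuclideanSpace.single (i, A) (1 : ℝ) : X3)).const_add x
    simpa using this
  have h2 : HasFDerivAt φ (fderiv ℝ φ x) (x + (0 : ℝ) • (EuclideanSpace.single (i, A) (1 : ℝ) : X3)) := by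
    rw [zero_smul, add_zero]; exact hφ.hasFDerivAt
  exact h2.comp_hasDerivAt (0 : ℝ) h1

/-- the quadratic form `∑ a_i |x_i|²` -/
noncomputable def qa (x : X3) : ℝ := ∑ i : Fin 9, ∑ A : Fin 3, aw i * x (i, A) ^ 2

lemma contDiff_qa : ContDiff ℝ ∞ qa := by
  unfold qa
  exact ContDiff.sum fun i _ => ContDiff.sum fun A _ =>
    contDiff_const.mul ((Setup.contDiff_coord _).pow 2)

lemma hasFDerivAt_qa (x : X3) : HasFDerivAt qa
    (∑ i, ∑ A, (aw i * (2 * x (i, A))) • (EuclideanSpace.proj (𝕜 := ℝ) (i, A) : X3 →L[ℝ] ℝ)) x := by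
  unfold qa
  refine HasFDerivAt.fun_sum fun i _ => HasFDerivAt.fun_sum fun A _ => ?_
  have h := ((Setup.hasFDerivAt_coord (i, A) x).pow 2).const_mul (aw i)
  simpa [smul_smul] using h

lemma pdr_qa (j : Fin 9) (B : Fin 3) (x : X3) : pdr j B qa x = 2 * (aw j * x (j, B)) := by
  unfold pdr
  rw [(hasFDerivAt_qa x).fderiv]
  simp only [_root_.sum_apply, _root_.smul_apply, PiLp.proj_apply, PiLp.single_apply,
    Prod.mk.injEq, smul_eq_mul, mul_ite, mul_one, mul_zero]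
  rw [Finset.sum_eq_single j, Finset.sum_eq_single B]
  · simp; ring
  · intro A _ hA; simp [hA]
  · intro h; exact absurd (Finset.mem_univ _) h
  · intro i _ hi
    refine Finset.sum_eq_zero fun A _ => ?_
    simp [hi]
  · intro h; exact absurd (Finset.mem_univ _) h

variable (S : Setup F)

lemma ph_eq (m : ℝ) : S.ph m = fun x =>
    ‖x‖ ^ 3 * Real.exp (-(S.V x / (S.κ * ‖x‖)) - m / 2 * qa x) := rfl

lemma diff_V (x : X3) : DifferentiableAt ℝ S.V x := (contDiff_V S).differentiable (by simp) x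

lemma diff_qa (x : X3) : DifferentiableAt ℝ qa x := contDiff_qa.differentiable (by simp) x

lemma diff_ph (m : ℝ) {x : X3} (hx : x ≠ 0) : DifferentiableAt ℝ (S.ph m) x := by
  rw [ph_eq]
  have h0 : S.κ * ‖x‖ ≠ 0 := mul_ne_zero S.κ_pos.ne' (norm_ne_zero_iff.2 hx)
  have h1 : DifferentiableAt ℝ (fun y : X3 => S.V y / (S.κ * ‖y‖)) x := by
    have := (diff_V S x).mul (((diff_norm hx).const_mul S.κ).fun_inv h0)
    exact this
  exact ((diff_norm hx).pow 3).mul ((h1.neg.sub ((diff_qa x).const_mul _)).exp)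

lemma pdr_ph (m : ℝ) {x : X3} (hx : x ≠ 0) (i : Fin 9) (A : Fin 3) :
    pdr i A (S.ph m) x = S.ph m x * (3 * x (i, A) / ‖x‖ ^ 2 - (pdr i A S.V x / (S.κ * ‖x‖) -
      S.V x * x (i, A) / (S.κ * ‖x‖ ^ 3)) - m * (aw i * x (i, A))) := by
  have hn : ‖x‖ ≠ 0 := norm_ne_zero_iff.2 hx
  have hk : S.κ ≠ 0 := S.κ_pos.ne'
  have h1 := line_deriv (diff_norm hx) i A
  have h2 := line_deriv (diff_V S x) i A
  have h3 := line_deriv (diff_qa x) i A
  have h5 := line_deriv (diff_ph S m hx) i A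
  have e0 : x + (0 : ℝ) • (EuclideanSpace.single (i, A) (1 : ℝ) : X3) = x := by
    rw [zero_smul, add_zero]
  have h0 : S.κ * ‖x + (0 : ℝ) • (EuclideanSpace.single (i, A) (1 : ℝ) : X3)‖ ≠ 0 := by
    rw [e0]; exact mul_ne_zero hk hn
  have h4 := (h1.pow 3).mul (((h2.div (h1.const_mul S.κ) h0).neg.sub (h3.const_mul (m / 2))).exp)
  have h6 := h5.unique h4
  rw [h6]
  simp only [e0, Pi.pow_apply, Pi.neg_apply, Pi.sub_apply, Pi.div_apply]
  rw [pdr_norm hx, pdr_qa, ph_eq]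
  field_simp
  ring

/-! ### the three parts of `Q^m(φv)/φ` -/

/-- the gradient of `V/(κρ)` -/
noncomputable def PP (x : X3) : X3 :=
  (S.κ * ‖x‖) • (x - xh x) - (S.V x / (S.κ * ‖x‖ ^ 3)) • x

lemma xh_apply (x : X3) (i : Fin 9) (A : Fin 3) :
    xh x (i, A) = (∑ B, Gr x A B * x (i, B)) / ‖x‖ ^ 2 := rfl

lemma Gr_eq (x : X3) (A B : Fin 3) : Gr x A B = Sm A B x := rfl

lemma PP_apply {x : X3} (hx : x ≠ 0) (i : Fin 9) (A : Fin 3) : PP S x (i, A) =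
    pdr i A S.V x / (S.κ * ‖x‖) - S.V x * x (i, A) / (S.κ * ‖x‖ ^ 3) := by
  have hn : ‖x‖ ≠ 0 := norm_ne_zero_iff.2 hx
  have hk : S.κ ≠ 0 := S.κ_pos.ne'
  rw [PP, PiLp.sub_apply, PiLp.smul_apply, PiLp.smul_apply, PiLp.sub_apply, xh_apply, pdr_V, e1_eq]
  simp only [smul_eq_mul, Gr_eq]
  field_simp

/-- the part of degree `2` -/
noncomputable def E2 (Ω : F) (β : Fin 16) (x : X3) : F :=
  Complex.I • S.B β (PP S x) (S.vv Ω x) + S.W β x (S.vv Ω x)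

/-- the part of degree `-1` -/
noncomputable def E1 (Ω : F) (β : Fin 16) (x : X3) : F :=
  (-Complex.I) • (∑ i, ∑ A, S.vec (S.g i) A β (pd i A (S.vv Ω) x)) -
    (((3 / ‖x‖ ^ 2 : ℝ) : ℂ) * Complex.I) • S.B β x (S.vv Ω x)

/-- the part of degree `1` -/
noncomputable def EM (Ω : F) (β : Fin 16) (x : X3) : F :=
  S.MM β x (S.vv Ω x) +
    Complex.I • ∑ i, ∑ A, ((aw i * x (i, A) : ℝ) : ℂ) • S.vec (S.g i) A β (S.vv Ω x)

lemma Qm_ph (Ω : F) (m : ℝ) (β : Fin 16) {x : X3} (hx : x ≠ 0)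
    (hv : DifferentiableAt ℝ (S.vv Ω) x) :
    S.Qm m β (fun y => ((S.ph m y : ℝ) : ℂ) • S.vv Ω y) x =
      ((S.ph m x : ℝ) : ℂ) • (E2 S Ω β x + E1 S Ω β x + (m : ℂ) • EM S Ω β x) := by
  rw [Setup.Qm, Q_smul S β (S.ph m) (S.vv Ω) x (diff_ph S m hx) hv, Setup.Q, E2, E1, EM]
  have h1 : ∀ i A, ((pdr i A (S.ph m) x : ℝ) : ℂ) • S.vec (S.g i) A β (S.vv Ω x) =
      ((S.ph m x : ℝ) : ℂ) • (((3 / ‖x‖ ^ 2 : ℝ) : ℂ) • (((x (i, A) : ℝ) : ℂ) •
        S.vec (S.g i) A β (S.vv Ω x)) - ((PP S x (i, A) : ℝ) : ℂ) • S.vec (S.g i) A β (S.vv Ω x) -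
        (m : ℂ) • (((aw i * x (i, A) : ℝ) : ℂ) • S.vec (S.g i) A β (S.vv Ω x))) := by
    intro i A
    rw [pdr_ph S m hx, PP_apply S hx]
    have e : S.ph m x * (3 * x (i, A) / ‖x‖ ^ 2 - (pdr i A S.V x / (S.κ * ‖x‖) -
      S.V x * x (i, A) / (S.κ * ‖x‖ ^ 3)) - m * (aw i * x (i, A))) =
      S.ph m x * (3 / ‖x‖ ^ 2 * x (i, A) - (pdr i A S.V x / (S.κ * ‖x‖) -
      S.V x * x (i, A) / (S.κ * ‖x‖ ^ 3)) - m * (aw i * x (i, A))) := by ring
    rw [e]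
    push_cast
    module
  simp only [h1, ← Finset.smul_sum, Finset.sum_sub_distrib]
  have hB : ∀ y : X3, S.B β y (S.vv Ω x) =
      ∑ i, ∑ A, ((y (i, A) : ℝ) : ℂ) • S.vec (S.g i) A β (S.vv Ω x) := by
    intro y
    simp only [Setup.B, _root_.sum_apply, _root_.smul_apply]
  rw [← hB, ← hB, map_smul]
  module

/-! ### homogeneity -/

lemma xh_smul (t : ℝ) (ht : t ≠ 0) (x : X3) : xh (t • x) = t • xh x := by
  ext ⟨i, A⟩
  rw [xh_apply, PiLp.smul_apply, xh_apply, norm_smul]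
  simp only [Gr, PiLp.smul_apply, smul_eq_mul, Real.norm_eq_abs, mul_pow, sq_abs]
  have e : ∀ B, (∑ i, t * x (i, A) * (t * x (i, B))) = t ^ 2 * ∑ i, x (i, A) * x (i, B) := by
    intro B
    rw [Finset.mul_sum]
    refine Finset.sum_congr rfl fun i _ => ?_
    ring
  simp only [e]
  have e2 : ∑ B, t ^ 2 * (∑ i, x (i, A) * x (i, B)) * (t * x (i, B)) =
      t ^ 2 * (t * ∑ B, (∑ i, x (i, A) * x (i, B)) * x (i, B)) := by
    rw [Finset.mul_sum, Finset.mul_sum]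
    refine Finset.sum_congr rfl fun B _ => ?_
    ring
  rw [e2, mul_div_mul_left _ _ (pow_ne_zero 2 ht), mul_div_assoc]

lemma PP_smul {t : ℝ} (ht : 0 < t) (x : X3) : PP S (t • x) = t ^ 2 • PP S x := by
  have hk : S.κ ≠ 0 := S.κ_pos.ne'
  by_cases hx : x = 0
  · subst hx; simp [PP, xh, Gr]
  have hn : ‖x‖ ≠ 0 := norm_ne_zero_iff.2 hx
  have e1 : S.κ * (t * ‖x‖) * t = t ^ 2 * (S.κ * ‖x‖) := by ring
  have e2 : t ^ 4 * S.V x / (S.κ * (t * ‖x‖) ^ 3) * t = t ^ 2 * (S.V x / (S.κ * ‖x‖ ^ 3)) := by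
    field_simp
  rw [PP, PP, xh_smul t ht.ne', S.V_smul, norm_smul, Real.norm_of_nonneg ht.le, ← smul_sub,
    smul_smul, smul_smul, e1, e2]
  module

lemma W_smul (t : ℝ) (β : Fin 16) (x : X3) : S.W β (t • x) = ((t ^ 2 : ℝ) : ℂ) • S.W β x := by
  simp only [Setup.W, S.FF_smul, Finset.smul_sum, smul_smul]
  refine Finset.sum_congr rfl fun A _ => Finset.sum_congr rfl fun i _ =>
    Finset.sum_congr rfl fun j _ => ?_
  congr 1
  push_cast
  ring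

lemma MM_smul (t : ℝ) (β : Fin 16) (x : X3) : S.MM β (t • x) = ((t : ℝ) : ℂ) • S.MM β x := by
  simp only [Setup.MM, PiLp.smul_apply, smul_eq_mul, Finset.smul_sum, smul_smul]
  refine Finset.sum_congr rfl fun A _ => Finset.sum_congr rfl fun i _ => ?_
  congr 1
  push_cast
  ring

lemma rho6sq_smul (t : ℝ) (x : X3) : rho6sq (t • x) = t ^ 2 * rho6sq x := by
  simp only [rho6sq, PiLp.smul_apply, smul_eq_mul, Finset.mul_sum]
  refine Finset.sum_congr rfl fun i _ => Finset.sum_congr rfl fun A _ => ?_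
  split_ifs <;> ring

variable {S}

lemma E2_smul {Ω : F} (hv : ∀ x, ∀ t : ℝ, 0 < t → S.vv Ω (t • x) = S.vv Ω x) (β : Fin 16) {t : ℝ}
    (ht : 0 < t) (x : X3) : E2 S Ω β (t • x) = ((t ^ 2 : ℝ) : ℂ) • E2 S Ω β x := by
  rw [E2, E2, hv x t ht, PP_smul S ht, W_smul, S.B_smul, _root_.smul_apply, smul_add,
    smul_comm Complex.I]

lemma EM_smul {Ω : F} (hv : ∀ x, ∀ t : ℝ, 0 < t → S.vv Ω (t • x) = S.vv Ω x) (β : Fin 16) {t : ℝ}
    (ht : 0 < t) (x : X3) : EM S Ω β (t • x) = ((t : ℝ) : ℂ) • EM S Ω β x := by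
  rw [EM, EM, hv x t ht, MM_smul, _root_.smul_apply, smul_add]
  congr 1
  simp only [Finset.smul_sum, smul_smul, PiLp.smul_apply, smul_eq_mul]
  refine Finset.sum_congr rfl fun i _ => Finset.sum_congr rfl fun A _ => ?_
  congr 1
  push_cast
  ring

lemma pd_smul_arg {u : X3 → F} (hv : ∀ x, ∀ t : ℝ, 0 < t → u (t • x) = u x)
    (i : Fin 9) (A : Fin 3) {t : ℝ} (ht : 0 < t) (x : X3) :
    pd i A u (t • x) = ((t⁻¹ : ℝ) : ℂ) • pd i A u x := by
  have h1 : fderiv ℝ (fun y => u (t • y)) x = t • fderiv ℝ u (t • x) := by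
    exact fderiv_comp_smul t
  have h2 : (fun y => u (t • y)) = u := funext fun y => hv y t ht
  rw [h2] at h1
  unfold pd
  rw [h1]
  simp only [_root_.smul_apply]
  rw [← Complex.coe_smul t, smul_smul]
  have : ((t⁻¹ : ℝ) : ℂ) * (t : ℂ) = 1 := by
    push_cast
    exact inv_mul_cancel₀ (by exact_mod_cast ht.ne')
  rw [this, one_smul]

lemma E1_smul {Ω : F} (hv : ∀ x, ∀ t : ℝ, 0 < t → S.vv Ω (t • x) = S.vv Ω x) (β : Fin 16) {t : ℝ}
    (ht : 0 < t) (x : X3) : E1 S Ω β (t • x) = ((t⁻¹ : ℝ) : ℂ) • E1 S Ω β x := by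
  rw [E1, E1, hv x t ht]
  simp only [pd_smul_arg hv _ _ ht, map_smul, ← Finset.smul_sum]
  have e : ((3 / (t * ‖x‖) ^ 2 : ℝ) : ℂ) * Complex.I * (t : ℂ) =
      ((t⁻¹ : ℝ) : ℂ) * (((3 / ‖x‖ ^ 2 : ℝ) : ℂ) * Complex.I) := by
    have : (3 / (t * ‖x‖) ^ 2 * t : ℝ) = t⁻¹ * (3 / ‖x‖ ^ 2) := by
      by_cases hx : ‖x‖ = 0
      · simp [hx]
      field_simp
    calc ((3 / (t * ‖x‖) ^ 2 : ℝ) : ℂ) * Complex.I * (t : ℂ) =
        ((3 / (t * ‖x‖) ^ 2 * t : ℝ) : ℂ) * Complex.I := by push_cast; ring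
      _ = _ := by rw [this]; push_cast; ring
  rw [S.B_smul, norm_smul, Real.norm_of_nonneg ht.le,
    smul_smul (((3 / (t * ‖x‖) ^ 2 : ℝ) : ℂ) * Complex.I), e]
  module

end EstP
end Vale.Agent.P353.U
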