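import Vale.Agent.P353.U.EstA
import Vale.Agent.P353.Rad

/-! # P353, uniqueness: the main pointwise estimate, part B (expansion at the cone) -/

open MeasureTheory Filter Topology
open scoped ContDiff

namespace Vale.Agent.P353.U

variable {F : Type*} [NormedAddCommGroup F] [InnerProductSpace ℂ F]

namespace EstP

/-! ### elementary bounds -/

lemma coord_le' (x : X3) (p : Fin 9 × Fin 3) : |x p| ≤ ‖x‖ := by
  have h := PiLp.norm_apply_le x p
  rwa [Real.norm_eq_abs] at h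

lemma norm_le_of_coord {x : X3} {c : ℝ} (h : ∀ i A, |x (i, A)| ≤ c) : ‖x‖ ≤ 27 * c := by
  have hc : 0 ≤ c := (abs_nonneg _).trans (h 0 0)
  have h1 : ‖x‖ ^ 2 ≤ (27 * c) ^ 2 := by
    rw [← e1_eq, e1]
    have h2 : ∑ i : Fin 9, ∑ A : Fin 3, x (i, A) ^ 2 ≤ ∑ i : Fin 9, ∑ A : Fin 3, c ^ 2 := by
      refine Finset.sum_le_sum fun i _ => Finset.sum_le_sum fun A _ => ?_
      rw [← sq_abs]
      exact pow_le_pow_left₀ (abs_nonneg _) (h i A) 2
    refine h2.trans ?_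
    simp only [Finset.sum_const, Finset.card_univ, Fintype.card_fin, nsmul_eq_mul]
    push_cast
    nlinarith [sq_nonneg c]
  exact le_of_sq_le_sq h1 (by positivity)

lemma Sm_le (A B : Fin 3) (z : X3) : |Sm A B z| ≤ ‖z‖ ^ 2 := by
  rw [← e1_eq]
  have h1 : ∀ C : Fin 3, ∑ i : Fin 9, z (i, C) ^ 2 ≤ e1 z := by
    intro C
    rw [e1]
    refine Finset.sum_le_sum fun i _ => ?_
    exact Finset.single_le_sum (f := fun A : Fin 3 => z (i, A) ^ 2) (fun A _ => sq_nonneg _)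
      (Finset.mem_univ C)
  rw [abs_le]
  have hA := h1 A
  have hB := h1 B
  rw [Sm]
  constructor
  · have : 0 ≤ ∑ i : Fin 9, (z (i, A) + z (i, B)) ^ 2 := Finset.sum_nonneg fun i _ => sq_nonneg _
    have e : ∑ i : Fin 9, (z (i, A) + z (i, B)) ^ 2 = ∑ i : Fin 9, z (i, A) ^ 2 +
        ∑ i : Fin 9, z (i, B) ^ 2 + 2 * ∑ i : Fin 9, z (i, A) * z (i, B) := by
      rw [Finset.mul_sum, ← Finset.sum_add_distrib, ← Finset.sum_add_distrib]
      exact Finset.sum_congr rfl fun i _ => by ring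
    linarith
  · have : 0 ≤ ∑ i : Fin 9, (z (i, A) - z (i, B)) ^ 2 := Finset.sum_nonneg fun i _ => sq_nonneg _
    have e : ∑ i : Fin 9, (z (i, A) - z (i, B)) ^ 2 = ∑ i : Fin 9, z (i, A) ^ 2 +
        ∑ i : Fin 9, z (i, B) ^ 2 - 2 * ∑ i : Fin 9, z (i, A) * z (i, B) := by
      rw [Finset.mul_sum, ← Finset.sum_add_distrib, ← Finset.sum_sub_distrib]
      exact Finset.sum_congr rfl fun i _ => by ring
    linarith

/-- `(zᵀz) z` -/
noncomputable def Zz (z : X3) : X3 := WithLp.toLp 2 fun p => ∑ B, Sm p.2 B z * z (p.1, B)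

lemma Zz_apply (z : X3) (i : Fin 9) (A : Fin 3) : Zz z (i, A) = ∑ B, Sm A B z * z (i, B) := rfl

lemma Zz_le (z : X3) : ‖Zz z‖ ≤ 81 * ‖z‖ ^ 3 := by
  have h : ‖Zz z‖ ≤ 27 * (3 * ‖z‖ ^ 3) := by
    refine norm_le_of_coord fun i A => ?_
    rw [Zz_apply]
    refine (Finset.abs_sum_le_sum_abs _ _).trans ?_
    have : ∀ B : Fin 3, |Sm A B z * z (i, B)| ≤ ‖z‖ ^ 3 := by
      intro B
      rw [abs_mul]
      calc |Sm A B z| * |z (i, B)| ≤ ‖z‖ ^ 2 * ‖z‖ :=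
            mul_le_mul (Sm_le A B z) (coord_le' z _) (abs_nonneg _) (by positivity)
        _ = ‖z‖ ^ 3 := by ring
    calc ∑ B : Fin 3, |Sm A B z * z (i, B)| ≤ ∑ B : Fin 3, ‖z‖ ^ 3 :=
          Finset.sum_le_sum fun B _ => this B
      _ = 3 * ‖z‖ ^ 3 := by simp
  linarith

/-- `∑_{AB} (zᵀz)_{AB}²` -/
noncomputable def qz (z : X3) : ℝ := ∑ A, ∑ B, Sm A B z ^ 2

lemma qz_nonneg (z : X3) : 0 ≤ qz z := by unfold qz; positivity

lemma qz_le (z : X3) : qz z ≤ 9 * ‖z‖ ^ 4 := by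
  unfold qz
  have : ∀ A B : Fin 3, Sm A B z ^ 2 ≤ ‖z‖ ^ 4 := by
    intro A B
    rw [← sq_abs]
    calc |Sm A B z| ^ 2 ≤ (‖z‖ ^ 2) ^ 2 := pow_le_pow_left₀ (abs_nonneg _) (Sm_le A B z) 2
      _ = _ := by ring
  calc ∑ A : Fin 3, ∑ B : Fin 3, Sm A B z ^ 2 ≤ ∑ A : Fin 3, ∑ B : Fin 3, ‖z‖ ^ 4 :=
        Finset.sum_le_sum fun A _ => Finset.sum_le_sum fun B _ => this A B
    _ = 9 * ‖z‖ ^ 4 := by simp; ring

/-! ### geometry at the cone -/

lemma cone_apply (n : Fin 3 → ℝ) (y : Fin 9 → ℝ) (i : Fin 9) (A : Fin 3) :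
    cone n y (i, A) = y i * n A := rfl

lemma ry_sq (y : Fin 9 → ℝ) : ry y ^ 2 = ∑ i, y i ^ 2 :=
  Real.sq_sqrt (Finset.sum_nonneg fun _ _ => sq_nonneg _)

lemma ry_nonneg (y : Fin 9 → ℝ) : 0 ≤ ry y := Real.sqrt_nonneg _

lemma norm_cone {n : Fin 3 → ℝ} {y : Fin 9 → ℝ} (hn : ∑ A, n A ^ 2 = 1) : ‖cone n y‖ = ry y := by
  have h : ‖cone n y‖ ^ 2 = ry y ^ 2 := by
    rw [← e1_eq, e1, ry_sq]
    refine Finset.sum_congr rfl fun i _ => ?_
    simp only [cone_apply, mul_pow, ← Finset.mul_sum, hn, mul_one]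
  exact (sq_eq_sq₀ (norm_nonneg _) (ry_nonneg y)).1 h

section geo

variable {n : Fin 3 → ℝ} {y : Fin 9 → ℝ} {z : X3} (hn : ∑ A, n A ^ 2 = 1)
  (zn : ∀ i, ∑ A, z (i, A) * n A = 0) (yz : ∀ A, ∑ i, y i * z (i, A) = 0)

include yz in
lemma Sm_add (A B : Fin 3) : Sm A B (cone n y + z) = ry y ^ 2 * (n A * n B) + Sm A B z := by
  simp only [Sm, PiLp.add_apply, cone_apply]
  have h : ∀ i, (y i * n A + z (i, A)) * (y i * n B + z (i, B)) =
      y i ^ 2 * (n A * n B) + z (i, A) * z (i, B) + n A * (y i * z (i, B)) +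
        n B * (y i * z (i, A)) := fun i => by ring
  simp only [h, Finset.sum_add_distrib, ← Finset.mul_sum, ← Finset.sum_mul, yz, ry_sq]
  ring

include hn yz in
lemma norm_sq_add : ‖cone n y + z‖ ^ 2 = ry y ^ 2 + ‖z‖ ^ 2 := by
  rw [← e1_eq, ← e1_eq, e1_eq_Sm, e1_eq_Sm]
  simp only [Sm_add yz, Finset.sum_add_distrib, ← Finset.mul_sum, ← sq, hn, mul_one]

include zn in
lemma Sm_n (A : Fin 3) : ∑ B, Sm A B z * n B = 0 := by
  simp only [Sm, Finset.sum_mul]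
  rw [Finset.sum_comm]
  refine Finset.sum_eq_zero fun i _ => ?_
  have : ∀ B, z (i, A) * z (i, B) * n B = z (i, A) * (z (i, B) * n B) := fun B => by ring
  simp only [this, ← Finset.mul_sum, zn, mul_zero]

include hn zn yz in
lemma xh_eq (h1 : ‖cone n y + z‖ = 1) :
    xh (cone n y + z) = cone n y + (Zz z - (‖z‖ ^ 2) • cone n y) := by
  have hr : ry y ^ 2 = 1 - ‖z‖ ^ 2 := by
    have := norm_sq_add hn yz
    rw [h1] at this; linarith
  ext ⟨i, A⟩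
  rw [xh_apply, h1, one_pow, div_one]
  simp only [Gr_eq, Sm_add yz, PiLp.add_apply, PiLp.sub_apply, PiLp.smul_apply, smul_eq_mul,
    cone_apply, Zz_apply]
  have h : ∀ B, (ry y ^ 2 * (n A * n B) + Sm A B z) * (y i * n B + z (i, B)) =
      ry y ^ 2 * n A * y i * n B ^ 2 + ry y ^ 2 * n A * (z (i, B) * n B) +
        y i * (Sm A B z * n B) + Sm A B z * z (i, B) := fun B => by ring
  simp only [h, Finset.sum_add_distrib, ← Finset.mul_sum, hn, zn, Sm_n zn]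
  rw [hr]
  ring

include hn zn yz in
lemma V_at (S : Setup F) (h1 : ‖cone n y + z‖ = 1) :
    S.V (cone n y + z) = S.κ ^ 2 / 4 * (2 * ‖z‖ ^ 2 - ‖z‖ ^ 4 - qz z) := by
  have hr : ry y ^ 2 = 1 - ‖z‖ ^ 2 := by
    have := norm_sq_add hn yz
    rw [h1] at this; linarith
  rw [V_eq, e1_eq, h1]
  have h2 : ∑ A, ∑ B, Sm A B (cone n y + z) ^ 2 = ry y ^ 4 + qz z := by
    simp only [Sm_add yz]
    have h : ∀ A B, (ry y ^ 2 * (n A * n B) + Sm A B z) ^ 2 =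
        ry y ^ 4 * (n A ^ 2 * n B ^ 2) + 2 * ry y ^ 2 * (n A * (Sm A B z * n B)) + Sm A B z ^ 2 :=
      fun A B => by ring
    simp only [h, Finset.sum_add_distrib, ← Finset.mul_sum, Sm_n zn, mul_zero, hn, mul_one, qz,
      add_zero]
  have h3 : ry y ^ 4 = (1 - ‖z‖ ^ 2) ^ 2 := by rw [← hr]; ring
  rw [h2, h3]
  ring

end geo

/-! ### linearity and bounds of the coefficients -/

variable (S : Setup F)

lemma B_add (β : Fin 16) (x y : X3) : S.B β (x + y) = S.B β x + S.B β y := by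
  simp only [Setup.B, PiLp.add_apply, Complex.ofReal_add, add_smul, Finset.sum_add_distrib]

lemma B_sub (β : Fin 16) (x y : X3) : S.B β (x - y) = S.B β x - S.B β y := by
  simp only [Setup.B, PiLp.sub_apply, Complex.ofReal_sub, sub_smul, Finset.sum_sub_distrib]

lemma B_smul' (β : Fin 16) (t : ℝ) (x : X3) : S.B β (t • x) = ((t : ℝ) : ℂ) • S.B β x := by
  ext v
  rw [S.B_smul, _root_.smul_apply]

lemma Fx_add (x y : X3) : S.Fx (x + y) = S.Fx x + S.Fx y := by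
  simp only [Setup.Fx, PiLp.add_apply, Complex.ofReal_add, mul_add, add_smul,
    Finset.sum_add_distrib, smul_add]

lemma Fx_sub (x y : X3) : S.Fx (x - y) = S.Fx x - S.Fx y := by
  simp only [Setup.Fx, PiLp.sub_apply, Complex.ofReal_sub, mul_sub, sub_smul,
    Finset.sum_sub_distrib, smul_sub]

lemma Fx_bound : ∃ C, 0 ≤ C ∧ ∀ x, ‖S.Fx x‖ ≤ C * ‖x‖ := by
  refine ⟨‖(Complex.I / 2 * (S.κ : ℂ))‖ *
    ∑ q : Fin 9, ∑ A, ∑ B, ∑ C, ‖(eps A B C : ℂ)‖ * ‖S.bil (S.g q) A B‖, by positivity, fun x => ?_⟩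
  unfold Setup.Fx
  rw [norm_smul, mul_assoc]
  apply mul_le_mul_of_nonneg_left _ (norm_nonneg _)
  simp only [Finset.sum_mul]
  refine (norm_sum_le _ _).trans (Finset.sum_le_sum fun q _ => ?_)
  refine (norm_sum_le _ _).trans (Finset.sum_le_sum fun A _ => ?_)
  refine (norm_sum_le _ _).trans (Finset.sum_le_sum fun B _ => ?_)
  refine (norm_sum_le _ _).trans (Finset.sum_le_sum fun C _ => ?_)
  rw [norm_smul, norm_mul]
  have h1 : ‖((x (q, C) : ℝ) : ℂ)‖ ≤ ‖x‖ := by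
    rw [Complex.norm_real, Real.norm_eq_abs]
    exact coord_le' x _
  calc ‖(eps A B C : ℂ)‖ * ‖((x (q, C) : ℝ) : ℂ)‖ * ‖S.bil (S.g q) A B‖ ≤
      ‖(eps A B C : ℂ)‖ * ‖x‖ * ‖S.bil (S.g q) A B‖ := by gcongr
    _ = _ := by ring

lemma DW_bound (β : Fin 16) : ∃ C, 0 ≤ C ∧ ∀ ξ x, ‖S.DW ξ β x‖ ≤ C * (‖ξ‖ * ‖x‖) := by
  refine ⟨‖(S.κ : ℂ)‖ * ∑ A : Fin 3, ∑ B : Fin 3, ∑ C : Fin 3, ∑ i, ∑ j,
    ‖(eps A B C : ℂ)‖ * ‖S.vec (S.g2 i j) A β‖, by positivity, fun ξ x => ?_⟩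
  unfold Setup.DW
  rw [norm_smul, mul_assoc]
  apply mul_le_mul_of_nonneg_left _ (norm_nonneg _)
  simp only [Finset.sum_mul]
  refine (norm_sum_le _ _).trans (Finset.sum_le_sum fun A _ => ?_)
  refine (norm_sum_le _ _).trans (Finset.sum_le_sum fun B _ => ?_)
  refine (norm_sum_le _ _).trans (Finset.sum_le_sum fun C _ => ?_)
  refine (norm_sum_le _ _).trans (Finset.sum_le_sum fun i _ => ?_)
  refine (norm_sum_le _ _).trans (Finset.sum_le_sum fun j _ => ?_)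
  rw [norm_smul, norm_mul, norm_mul]
  have h1 : ∀ (w : X3) p, ‖((w p : ℝ) : ℂ)‖ ≤ ‖w‖ := by
    intro w p
    rw [Complex.norm_real, Real.norm_eq_abs]
    exact coord_le' w _
  calc ‖(eps A B C : ℂ)‖ * ‖((ξ (i, B) : ℝ) : ℂ)‖ * ‖((x (j, C) : ℝ) : ℂ)‖ *
        ‖S.vec (S.g2 i j) A β‖ ≤
      ‖(eps A B C : ℂ)‖ * ‖ξ‖ * ‖x‖ * ‖S.vec (S.g2 i j) A β‖ := by
        gcongr
        · exact h1 _ _
        · exact h1 _ _
    _ = _ := by ring

lemma W_eq_DW (β : Fin 16) (x : X3) : S.W β x = (1 / 2 : ℂ) • S.DW x β x := by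
  rw [Setup.W, Setup.DW]
  congr 1
  rw [Finset.smul_sum]
  refine Finset.sum_congr rfl fun A _ => ?_
  simp only [Setup.FF, Complex.ofReal_mul, Complex.ofReal_sum, Finset.smul_sum, smul_smul,
    Finset.mul_sum, Finset.sum_smul]
  have h1 : ∑ B : Fin 3, ∑ C : Fin 3, ∑ i : Fin 9, ∑ j : Fin 9,
      ((S.κ : ℂ) * ((eps A B C : ℂ) * (x (i, B) : ℂ) * (x (j, C) : ℂ))) • S.vec (S.g2 i j) A β =
      ∑ i : Fin 9, ∑ j : Fin 9, ∑ B : Fin 3, ∑ C : Fin 3,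
      ((S.κ : ℂ) * ((eps A B C : ℂ) * (x (i, B) : ℂ) * (x (j, C) : ℂ))) • S.vec (S.g2 i j) A β := by
    calc _ = ∑ B : Fin 3, ∑ i : Fin 9, ∑ C : Fin 3, ∑ j : Fin 9,
        ((S.κ : ℂ) * ((eps A B C : ℂ) * (x (i, B) : ℂ) * (x (j, C) : ℂ))) •
          S.vec (S.g2 i j) A β := Finset.sum_congr rfl fun B _ => Finset.sum_comm
      _ = ∑ i : Fin 9, ∑ B : Fin 3, ∑ C : Fin 3, ∑ j : Fin 9,
        ((S.κ : ℂ) * ((eps A B C : ℂ) * (x (i, B) : ℂ) * (x (j, C) : ℂ))) •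
          S.vec (S.g2 i j) A β := Finset.sum_comm
      _ = ∑ i : Fin 9, ∑ B : Fin 3, ∑ j : Fin 9, ∑ C : Fin 3,
        ((S.κ : ℂ) * ((eps A B C : ℂ) * (x (i, B) : ℂ) * (x (j, C) : ℂ))) •
          S.vec (S.g2 i j) A β := Finset.sum_congr rfl fun i _ => Finset.sum_congr rfl fun B _ =>
            Finset.sum_comm
      _ = _ := Finset.sum_congr rfl fun i _ => Finset.sum_comm
  rw [h1]
  refine Finset.sum_congr rfl fun i _ => Finset.sum_congr rfl fun j _ =>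
    Finset.sum_congr rfl fun B _ => Finset.sum_congr rfl fun C _ => ?_
  congr 1

lemma DW_symm (β : Fin 16) (x z : X3) : S.DW z β x = S.DW x β z := by
  rw [Setup.DW, Setup.DW]
  congr 1
  refine Finset.sum_congr rfl fun A _ => ?_
  rw [Finset.sum_comm]
  refine Finset.sum_congr rfl fun C _ => Finset.sum_congr rfl fun B _ => ?_
  rw [Finset.sum_comm]
  refine Finset.sum_congr rfl fun j _ => Finset.sum_congr rfl fun i _ => ?_
  have he : ∀ A B C : Fin 3, eps A B C = - eps A C B := by decide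
  rw [he A B C, S.g2_swap i j, S.vec_neg, smul_neg, ← neg_smul]
  congr 1
  push_cast
  ring

lemma DW_add (ξ : X3) (β : Fin 16) (x y : X3) : S.DW ξ β (x + y) = S.DW ξ β x + S.DW ξ β y := by
  simp only [Setup.DW, PiLp.add_apply, Complex.ofReal_add, mul_add, add_smul,
    Finset.sum_add_distrib, smul_add]

lemma DW_add' (ξ ξ' : X3) (β : Fin 16) (x : X3) :
    S.DW (ξ + ξ') β x = S.DW ξ β x + S.DW ξ' β x := by
  rw [DW_symm, DW_add, DW_symm, DW_symm S β ξ' x]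

lemma DW_cone (n : Fin 3 → ℝ) (y : Fin 9 → ℝ) (β : Fin 16) :
    S.DW (cone n y) β (cone n y) = 0 := by
  rw [Setup.DW]
  have he : ∀ A B C : Fin 3, eps A B C = - eps A C B := by decide
  have h : ∀ A : Fin 3, ∑ B : Fin 3, ∑ C : Fin 3, ∑ i : Fin 9, ∑ j : Fin 9,
      ((eps A B C : ℂ) * (cone n y (i, B) : ℂ) * (cone n y (j, C) : ℂ)) •
        S.vec (S.g2 i j) A β = 0 := by
    intro A
    set f : Fin 3 → Fin 3 → (F →L[ℂ] F) := fun B C => ∑ i : Fin 9, ∑ j : Fin 9,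
      ((eps A B C : ℂ) * (cone n y (i, B) : ℂ) * (cone n y (j, C) : ℂ)) •
        S.vec (S.g2 i j) A β with hf
    have h1 : ∀ B C, f B C = - f C B := by
      intro B C
      simp only [hf, ← Finset.sum_neg_distrib, ← neg_smul]
      refine Finset.sum_congr rfl fun i _ => Finset.sum_congr rfl fun j _ => ?_
      congr 1
      rw [he A B C]
      simp only [cone_apply]
      push_cast
      ring
    have h2 : ∑ B, ∑ C, f B C = - ∑ B, ∑ C, f B C := by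
      conv_rhs => rw [Finset.sum_comm]
      rw [← Finset.sum_neg_distrib]
      refine Finset.sum_congr rfl fun B _ => ?_
      rw [← Finset.sum_neg_distrib]
      exact Finset.sum_congr rfl fun C _ => h1 B C
    have h3 : (2 : ℂ) • ∑ B, ∑ C, f B C = 0 := by
      rw [two_smul]
      nth_rewrite 1 [h2]
      exact neg_add_cancel _
    calc ∑ B, ∑ C, f B C = (1 / 2 : ℂ) • ((2 : ℂ) • ∑ B, ∑ C, f B C) := by
          rw [smul_smul]; norm_num
      _ = 0 := by rw [h3, smul_zero]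
  simp only [h, Finset.sum_const_zero, smul_zero]

lemma W_add (n : Fin 3 → ℝ) (y : Fin 9 → ℝ) (z : X3) (β : Fin 16) :
    S.W β (cone n y + z) = S.DW (cone n y) β z + S.W β z := by
  rw [W_eq_DW, W_eq_DW, DW_add', DW_add, DW_add, DW_cone, DW_symm S β (cone n y) z]
  module

lemma W_bound (β : Fin 16) : ∃ C, 0 ≤ C ∧ ∀ x, ‖S.W β x‖ ≤ C * ‖x‖ ^ 2 := by
  obtain ⟨C, hC, h⟩ := DW_bound S β
  refine ⟨C, hC, fun x => ?_⟩
  rw [W_eq_DW, norm_smul]
  have h1 : ‖(1 / 2 : ℂ)‖ ≤ 1 := by norm_num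
  calc ‖(1 / 2 : ℂ)‖ * ‖S.DW x β x‖ ≤ 1 * (C * (‖x‖ * ‖x‖)) :=
        mul_le_mul h1 (h x x) (norm_nonneg _) zero_le_one
    _ = _ := by ring

end EstP
end Vale.Agent.P353.U
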