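import Vale.Agent.P353.U.EstB

/-! # P353, uniqueness: the main pointwise estimate, part C (third order vanishing of `E²`) -/

open MeasureTheory Filter Topology
open scoped ContDiff

namespace Vale.Agent.P353.U

variable {F : Type*} [NormedAddCommGroup F] [InnerProductSpace ℂ F]

namespace EstP

lemma r_facts {r t : ℝ} (hr0 : 0 ≤ r) (hr : r ^ 2 = 1 - t ^ 2) (h3 : 1 / 3 ≤ r ^ 2) :
    0 < r ∧ r ≤ 1 ∧ 1 / r ≤ 2 ∧ 0 ≤ 1 / r - 1 ∧ 1 / r - 1 ≤ 2 * t ^ 2 ∧ 0 ≤ 1 - r ∧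
      1 - r ≤ t ^ 2 := by
  have h2 : 1 / 2 < r := by nlinarith
  have h0 : 0 < r := by linarith
  have h1 : r ≤ 1 := by nlinarith [sq_nonneg t]
  refine ⟨h0, h1, ?_, ?_, ?_, by linarith, by nlinarith⟩
  · rw [div_le_iff₀ h0]; linarith
  · rw [sub_nonneg, le_div_iff₀ h0]; linarith
  · rw [sub_le_iff_le_add, div_le_iff₀ h0]
    have : t ^ 2 = 1 - r ^ 2 := by linarith
    rw [this]
    nlinarith [mul_nonneg h0.le (sub_nonneg.2 h1), sq_nonneg r, mul_nonneg (sub_nonneg.2 h1)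
      (sub_nonneg.2 h2.le)]

variable {S : Setup F} {n : Fin 3 → ℝ} {y : Fin 9 → ℝ} {z : X3}

/-- `d = x̂ - x_c` -/
noncomputable def dd (n : Fin 3 → ℝ) (y : Fin 9 → ℝ) (z : X3) : X3 :=
  Zz z - (‖z‖ ^ 2) • cone n y

lemma dd_le (hn : ∑ A, n A ^ 2 = 1) (hr : ry y ≤ 1) (hz : ‖z‖ ≤ 1) :
    ‖dd n y z‖ ≤ 82 * ‖z‖ ^ 2 := by
  rw [dd]
  refine (norm_sub_le _ _).trans ?_
  rw [norm_smul, norm_cone hn, Real.norm_of_nonneg (sq_nonneg _)]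
  have h1 := Zz_le z
  have h0 := norm_nonneg z
  have h2 : ‖z‖ ^ 3 ≤ ‖z‖ ^ 2 := by
    calc ‖z‖ ^ 3 = ‖z‖ ^ 2 * ‖z‖ := by ring
      _ ≤ ‖z‖ ^ 2 * 1 := by gcongr
      _ = _ := by ring
  have h3 : ‖z‖ ^ 2 * ry y ≤ ‖z‖ ^ 2 * 1 := mul_le_mul_of_nonneg_left hr (sq_nonneg _)
  linarith

section

variable (hn : ∑ A, n A ^ 2 = 1) (zn : ∀ i, ∑ A, z (i, A) * n A = 0)
  (yz : ∀ A, ∑ i, y i * z (i, A) = 0) (h1 : ‖cone n y + z‖ = 1)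

include hn zn yz h1 in
lemma sub_xh : cone n y + z - xh (cone n y + z) = z - dd n y z := by
  rw [xh_eq hn zn yz h1, dd]; abel

include hn zn yz h1 in
/-- expansion of `v` at the cone -/
lemma vv_expand {Ω : F} (h3 : 1 / 3 ≤ ry y ^ 2) {c L CF : ℝ} (hc : ‖S.om Ω (cone n y)‖ ≤ c)
    (hL : 0 ≤ L) (hom : ‖S.om Ω (xh (cone n y + z)) - S.om Ω (cone n y)‖ ≤ L * ‖dd n y z‖)
    (hCF0 : 0 ≤ CF) (hCF : ∀ x, ‖S.Fx x‖ ≤ CF * ‖x‖) :
    ‖S.vv Ω (cone n y + z) - (S.om Ω (cone n y) -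
      ((1 / (2 * S.κ * ry y) : ℝ) : ℂ) • S.Fx z (S.om Ω (cone n y)))‖ ≤
      (82 * L + 1 / (2 * S.κ) * CF * (82 * L + 82 * (c + 82 * L) + 2 * c)) * ‖z‖ ^ 2 := by
  have hrz : ry y ^ 2 = 1 - ‖z‖ ^ 2 := by
    have := norm_sq_add hn yz
    rw [h1] at this; linarith
  have hz : ‖z‖ ≤ 1 := by nlinarith [norm_nonneg z]
  obtain ⟨r0, r1, r2, r3, r4, r5, r6⟩ := r_facts (ry_nonneg y) hrz h3
  have hd := dd_le hn r1 hz
  have hk := S.κ_pos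
  have hz0 := norm_nonneg z
  have hc0 : 0 ≤ c := (norm_nonneg _).trans hc
  set w := S.om Ω (cone n y) with hw
  set w' := S.om Ω (xh (cone n y + z)) with hw'
  have e : S.vv Ω (cone n y + z) - (w - ((1 / (2 * S.κ * ry y) : ℝ) : ℂ) • S.Fx z w) =
      (w' - w) - ((1 / (2 * S.κ) : ℝ) : ℂ) • (S.Fx z (w' - w) - S.Fx (dd n y z) w') +
        ((1 / (2 * S.κ) * (1 / ry y - 1) : ℝ) : ℂ) • S.Fx z w := by
    have e1 : (1 / (2 * S.κ) * (1 / ry y - 1) : ℝ) =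
        1 / (2 * S.κ * ry y) - 1 / (2 * S.κ) := by
      field_simp
    rw [Setup.vv, sub_xh hn zn yz h1, h1, mul_one, ← hw', Fx_sub, _root_.sub_apply, map_sub, e1,
      Complex.ofReal_sub]
    module
  rw [e]
  have b0 : ‖w' - w‖ ≤ 82 * L * ‖z‖ ^ 2 := by
    refine hom.trans ?_
    calc L * ‖dd n y z‖ ≤ L * (82 * ‖z‖ ^ 2) := mul_le_mul_of_nonneg_left hd hL
      _ = _ := by ring
  have hz2 : ‖z‖ ^ 2 ≤ 1 := by nlinarith
  have b1 : ‖w'‖ ≤ c + 82 * L := by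
    have : w' = w + (w' - w) := by abel
    rw [this]
    refine (norm_add_le _ _).trans (add_le_add hc (b0.trans ?_))
    calc 82 * L * ‖z‖ ^ 2 ≤ 82 * L * 1 := mul_le_mul_of_nonneg_left hz2 (by positivity)
      _ = _ := by ring
  have b2 : ‖S.Fx z (w' - w)‖ ≤ CF * (82 * L) * ‖z‖ ^ 2 := by
    calc ‖S.Fx z (w' - w)‖ ≤ ‖S.Fx z‖ * ‖w' - w‖ := (S.Fx z).le_opNorm _
      _ ≤ (CF * ‖z‖) * (82 * L * ‖z‖ ^ 2) := mul_le_mul (hCF z) b0 (norm_nonneg _) (by positivity)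
      _ ≤ (CF * 1) * (82 * L * ‖z‖ ^ 2) := by gcongr
      _ = _ := by ring
  have b3 : ‖S.Fx (dd n y z) w'‖ ≤ CF * (82 * (c + 82 * L)) * ‖z‖ ^ 2 := by
    calc ‖S.Fx (dd n y z) w'‖ ≤ ‖S.Fx (dd n y z)‖ * ‖w'‖ := (S.Fx _).le_opNorm _
      _ ≤ (CF * (82 * ‖z‖ ^ 2)) * (c + 82 * L) :=
        mul_le_mul ((hCF _).trans (mul_le_mul_of_nonneg_left hd hCF0)) b1 (norm_nonneg _)
          (by positivity)
      _ = _ := by ring
  have b4 : ‖S.Fx z w‖ ≤ CF * c := by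
    calc ‖S.Fx z w‖ ≤ ‖S.Fx z‖ * ‖w‖ := (S.Fx z).le_opNorm _
      _ ≤ (CF * ‖z‖) * c := mul_le_mul (hCF z) hc (norm_nonneg _) (by positivity)
      _ ≤ (CF * 1) * c := by gcongr
      _ = _ := by ring
  have ha : 0 ≤ 1 / (2 * S.κ) := by positivity
  have b5 : ‖((1 / (2 * S.κ) : ℝ) : ℂ) • (S.Fx z (w' - w) - S.Fx (dd n y z) w')‖ ≤
      1 / (2 * S.κ) * (CF * (82 * L) * ‖z‖ ^ 2 + CF * (82 * (c + 82 * L)) * ‖z‖ ^ 2) := by
    rw [norm_smul, Complex.norm_real, Real.norm_of_nonneg ha]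
    exact mul_le_mul_of_nonneg_left ((norm_sub_le _ _).trans (add_le_add b2 b3)) ha
  have b6 : ‖((1 / (2 * S.κ) * (1 / ry y - 1) : ℝ) : ℂ) • S.Fx z w‖ ≤
      1 / (2 * S.κ) * (2 * ‖z‖ ^ 2) * (CF * c) := by
    rw [norm_smul, Complex.norm_real, Real.norm_of_nonneg (mul_nonneg ha r3)]
    exact mul_le_mul (mul_le_mul_of_nonneg_left r4 ha) b4 (norm_nonneg _) (by positivity)
  calc _ ≤ ‖w' - w‖ + ‖((1 / (2 * S.κ) : ℝ) : ℂ) • (S.Fx z (w' - w) - S.Fx (dd n y z) w')‖ +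
        ‖((1 / (2 * S.κ) * (1 / ry y - 1) : ℝ) : ℂ) • S.Fx z w‖ :=
        (norm_add_le _ _).trans (add_le_add_left (norm_sub_le _ _) _)
    _ ≤ 82 * L * ‖z‖ ^ 2 + 1 / (2 * S.κ) * (CF * (82 * L) * ‖z‖ ^ 2 +
        CF * (82 * (c + 82 * L)) * ‖z‖ ^ 2) + 1 / (2 * S.κ) * (2 * ‖z‖ ^ 2) * (CF * c) :=
        add_le_add (add_le_add b0 b5) b6
    _ = _ := by ring

include hn zn yz h1 in
/-- the operator in `E²` at the cone -/
lemma T_expand (h3 : 1 / 3 ≤ ry y ^ 2) (β : Fin 16) {CB : ℝ} (hCB0 : 0 ≤ CB)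
    (hCB : ∀ x, ‖S.B β x‖ ≤ CB * ‖x‖) : ∃ R : F →L[ℂ] F, ‖R‖ ≤ 87 * S.κ * CB * ‖z‖ ^ 3 ∧
      Complex.I • S.B β (PP S (cone n y + z)) + S.W β (cone n y + z) = S.T1 n y β z +
        ((Complex.I * ((S.κ * ‖z‖ ^ 2 / (2 * ry y) : ℝ) : ℂ)) • S.B β (cone n y) + S.W β z) + R := by
  have hrz : ry y ^ 2 = 1 - ‖z‖ ^ 2 := by
    have := norm_sq_add hn yz
    rw [h1] at this; linarith
  have hz : ‖z‖ ≤ 1 := by nlinarith [norm_nonneg z]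
  obtain ⟨r0, r1, r2, r3, r4, r5, r6⟩ := r_facts (ry_nonneg y) hrz h3
  have hk := S.κ_pos
  have hz0 := norm_nonneg z
  have hV := V_at hn zn yz S h1
  set s : ℝ := S.κ * ‖z‖ ^ 2 - S.V (cone n y + z) / S.κ - S.κ * ‖z‖ ^ 2 / (2 * ry y) with hs
  refine ⟨((S.κ * (1 - ry y) : ℝ) * Complex.I) • S.B β z + ((s : ℝ) * Complex.I) •
    S.B β (cone n y) - ((S.κ : ℝ) * Complex.I) • S.B β (Zz z) -
      ((S.V (cone n y + z) / S.κ : ℝ) * Complex.I) • S.B β z, ?_, ?_⟩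
  · have hz2 : ‖z‖ ^ 2 ≤ 1 := by nlinarith
    have q0 := qz_nonneg z
    have q1 := qz_le z
    have z4 : ‖z‖ ^ 4 ≤ ‖z‖ ^ 3 := by
      calc ‖z‖ ^ 4 = ‖z‖ ^ 3 * ‖z‖ := by ring
        _ ≤ ‖z‖ ^ 3 * 1 := by gcongr
        _ = _ := by ring
    have hs1 : s = S.κ * (-(1 / 2) * ‖z‖ ^ 2 * (1 / ry y - 1) + 1 / 4 * ‖z‖ ^ 4 + 1 / 4 * qz z) := by
      rw [hs, hV]
      field_simp
      ring
    have hs2 : |s| ≤ S.κ * 4 * ‖z‖ ^ 3 := by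
      rw [hs1, abs_mul, abs_of_pos hk, mul_assoc S.κ 4]
      refine mul_le_mul_of_nonneg_left ?_ hk.le
      rw [abs_le]
      have h5 : ‖z‖ ^ 2 * (1 / ry y - 1) ≤ 2 * ‖z‖ ^ 4 := by
        calc ‖z‖ ^ 2 * (1 / ry y - 1) ≤ ‖z‖ ^ 2 * (2 * ‖z‖ ^ 2) := by gcongr
          _ = _ := by ring
      have h6 : 0 ≤ ‖z‖ ^ 2 * (1 / ry y - 1) := mul_nonneg (sq_nonneg _) r3
      have h7 : 0 ≤ ‖z‖ ^ 4 := by positivity
      constructor <;> nlinarith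
    have hV0 : 0 ≤ S.V (cone n y + z) := S.V_nonneg _
    have hV1 : S.V (cone n y + z) / S.κ ≤ S.κ * ‖z‖ ^ 2 := by
      rw [div_le_iff₀ hk, hV]
      have h7 : 0 ≤ ‖z‖ ^ 4 := by positivity
      have h8 : 0 < S.κ ^ 2 := by positivity
      nlinarith [mul_nonneg h8.le h7, mul_nonneg h8.le q0, mul_nonneg h8.le (sq_nonneg ‖z‖)]
    have nI : ∀ t : ℝ, ‖((t : ℝ) : ℂ) * Complex.I‖ = |t| := by
      intro t
      rw [norm_mul, Complex.norm_I, mul_one, Complex.norm_real, Real.norm_eq_abs]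
    have b1 : ‖((S.κ * (1 - ry y) : ℝ) * Complex.I) • S.B β z‖ ≤ S.κ * CB * ‖z‖ ^ 3 := by
      rw [norm_smul, nI, abs_of_nonneg (mul_nonneg hk.le r5)]
      calc S.κ * (1 - ry y) * ‖S.B β z‖ ≤ S.κ * ‖z‖ ^ 2 * (CB * ‖z‖) :=
            mul_le_mul (mul_le_mul_of_nonneg_left r6 hk.le) (hCB z) (norm_nonneg _) (by positivity)
        _ = _ := by ring
    have b2 : ‖((s : ℝ) * Complex.I) • S.B β (cone n y)‖ ≤ 4 * S.κ * CB * ‖z‖ ^ 3 := by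
      rw [norm_smul, nI]
      calc |s| * ‖S.B β (cone n y)‖ ≤ S.κ * 4 * ‖z‖ ^ 3 * (CB * 1) := by
            refine mul_le_mul hs2 ((hCB _).trans ?_) (norm_nonneg _) (by positivity)
            rw [norm_cone hn]
            exact mul_le_mul_of_nonneg_left r1 hCB0
        _ = _ := by ring
    have b3 : ‖((S.κ : ℝ) * Complex.I) • S.B β (Zz z)‖ ≤ 81 * S.κ * CB * ‖z‖ ^ 3 := by
      rw [norm_smul, nI, abs_of_pos hk]
      calc S.κ * ‖S.B β (Zz z)‖ ≤ S.κ * (CB * (81 * ‖z‖ ^ 3)) :=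
            mul_le_mul_of_nonneg_left ((hCB _).trans (mul_le_mul_of_nonneg_left (Zz_le z) hCB0))
              hk.le
        _ = _ := by ring
    have b4 : ‖((S.V (cone n y + z) / S.κ : ℝ) * Complex.I) • S.B β z‖ ≤
        S.κ * CB * ‖z‖ ^ 3 := by
      rw [norm_smul, nI, abs_of_nonneg (div_nonneg hV0 hk.le)]
      calc S.V (cone n y + z) / S.κ * ‖S.B β z‖ ≤ S.κ * ‖z‖ ^ 2 * (CB * ‖z‖) :=
            mul_le_mul hV1 (hCB z) (norm_nonneg _) (by positivity)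
        _ = _ := by ring
    calc _ ≤ ‖((S.κ * (1 - ry y) : ℝ) * Complex.I) • S.B β z‖ +
          ‖((s : ℝ) * Complex.I) • S.B β (cone n y)‖ +
          ‖((S.κ : ℝ) * Complex.I) • S.B β (Zz z)‖ +
          ‖((S.V (cone n y + z) / S.κ : ℝ) * Complex.I) • S.B β z‖ :=
          (norm_sub_le _ _).trans (add_le_add_left ((norm_sub_le _ _).trans
            (add_le_add_left (norm_add_le _ _) _)) _)
      _ ≤ S.κ * CB * ‖z‖ ^ 3 + 4 * S.κ * CB * ‖z‖ ^ 3 + 81 * S.κ * CB * ‖z‖ ^ 3 +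
          S.κ * CB * ‖z‖ ^ 3 := add_le_add (add_le_add (add_le_add b1 b2) b3) b4
      _ = _ := by ring
  · rw [PP, sub_xh hn zn yz h1, h1, dd, W_add, Setup.T1]
    simp only [B_sub, B_smul', B_add, mul_one, one_pow, hs]
    push_cast
    module

include hn zn yz h1 in
/-- third order vanishing of `E²` -/
lemma E2_unit (hM12 : M12Stmt S) {Ω : F} (hVT : S.VT n y (S.om Ω (cone n y)))
    (h3 : 1 / 3 ≤ ry y ^ 2) (β : Fin 16) {c L CF CB CD CW : ℝ}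
    (hc : ‖S.om Ω (cone n y)‖ ≤ c)
    (hL : 0 ≤ L) (hom : ‖S.om Ω (xh (cone n y + z)) - S.om Ω (cone n y)‖ ≤ L * ‖dd n y z‖)
    (hCF0 : 0 ≤ CF) (hCF : ∀ x, ‖S.Fx x‖ ≤ CF * ‖x‖)
    (hCB0 : 0 ≤ CB) (hCB : ∀ x, ‖S.B β x‖ ≤ CB * ‖x‖)
    (hCD0 : 0 ≤ CD) (hCD : ∀ ξ x, ‖S.DW ξ β x‖ ≤ CD * (‖ξ‖ * ‖x‖))
    (hCW0 : 0 ≤ CW) (hCW : ∀ x, ‖S.W β x‖ ≤ CW * ‖x‖ ^ 2) {Ke Kf : ℝ}
    (hKe : Ke = 82 * L + 1 / (2 * S.κ) * CF * (82 * L + 82 * (c + 82 * L) + 2 * c))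
    (hKf : Kf = 2 * (1 / (2 * S.κ)) * CF * c) :
    ‖E2 S Ω β (cone n y + z)‖ ≤ ((S.κ * CB + CD) * Ke + (S.κ * CB + CW) * Kf +
      (S.κ * CB + CW) * Ke + 87 * S.κ * CB * (c + Kf + Ke)) * ‖z‖ ^ 3 := by
  have hrz : ry y ^ 2 = 1 - ‖z‖ ^ 2 := by
    have := norm_sq_add hn yz
    rw [h1] at this; linarith
  have hz : ‖z‖ ≤ 1 := by nlinarith [norm_nonneg z]
  obtain ⟨r0, r1, r2, r3, r4, r5, r6⟩ := r_facts (ry_nonneg y) hrz h3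
  have hk := S.κ_pos
  have hz0 := norm_nonneg z
  have hc0 : 0 ≤ c := (norm_nonneg _).trans hc
  have hKe0 : 0 ≤ Ke := by rw [hKe]; positivity
  have hKf0 : 0 ≤ Kf := by rw [hKf]; positivity
  have he := vv_expand hn zn yz h1 h3 hc hL hom hCF0 hCF
  rw [← hKe] at he
  obtain ⟨R, hR, hT⟩ := T_expand (S := S) hn zn yz h1 h3 β hCB0 hCB
  obtain ⟨m1, m2⟩ := hM12 n y hn r0 (S.om Ω (cone n y)) hVT z zn yz β
  set w := S.om Ω (cone n y) with hw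
  set f : F := ((1 / (2 * S.κ * ry y) : ℝ) : ℂ) • S.Fx z w with hf
  set e : F := S.vv Ω (cone n y + z) - (w - f) with he'
  set T1 := S.T1 n y β z with hT1
  set T2 := (Complex.I * ((S.κ * ‖z‖ ^ 2 / (2 * ry y) : ℝ) : ℂ)) • S.B β (cone n y) + S.W β z
    with hT2
  have hv : S.vv Ω (cone n y + z) = w - f + e := by rw [he']; abel
  have bf : ‖f‖ ≤ Kf * ‖z‖ := by
    rw [hf, norm_smul, Complex.norm_real, Real.norm_of_nonneg (by positivity), hKf]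
    have h5 : (1 / (2 * S.κ * ry y) : ℝ) ≤ 2 * (1 / (2 * S.κ)) := by
      have : (1 / (2 * S.κ * ry y) : ℝ) = 1 / ry y * (1 / (2 * S.κ)) := by field_simp
      rw [this]
      exact mul_le_mul_of_nonneg_right r2 (by positivity)
    calc 1 / (2 * S.κ * ry y) * ‖S.Fx z w‖ ≤ 2 * (1 / (2 * S.κ)) * ((CF * ‖z‖) * c) :=
          mul_le_mul h5 (((S.Fx z).le_opNorm _).trans (mul_le_mul (hCF z) hc (norm_nonneg _)
            (by positivity))) (norm_nonneg _) (by positivity)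
      _ = _ := by ring
  have bf' : ‖f‖ ≤ Kf := bf.trans (by
    calc Kf * ‖z‖ ≤ Kf * 1 := mul_le_mul_of_nonneg_left hz hKf0
      _ = _ := mul_one _)
  have be' : ‖e‖ ≤ Ke := he.trans (by
    calc Ke * ‖z‖ ^ 2 ≤ Ke * 1 := mul_le_mul_of_nonneg_left (by nlinarith) hKe0
      _ = _ := mul_one _)
  have bv : ‖S.vv Ω (cone n y + z)‖ ≤ c + Kf + Ke := by
    rw [hv]
    exact (norm_add_le _ _).trans (add_le_add ((norm_sub_le _ _).trans (add_le_add hc bf')) be')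
  have bT1 : ‖T1‖ ≤ (S.κ * CB + CD) * ‖z‖ := by
    rw [hT1, Setup.T1]
    refine (norm_add_le _ _).trans ?_
    rw [norm_smul, norm_mul, Complex.norm_I, one_mul, Complex.norm_real,
      Real.norm_of_nonneg (by positivity), add_mul]
    refine add_le_add ?_ ?_
    · calc S.κ * ry y * ‖S.B β z‖ ≤ S.κ * 1 * (CB * ‖z‖) :=
            mul_le_mul (mul_le_mul_of_nonneg_left r1 hk.le) (hCB z) (norm_nonneg _) (by positivity)
        _ = _ := by ring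
    · refine (hCD _ _).trans ?_
      rw [norm_cone hn]
      calc CD * (ry y * ‖z‖) ≤ CD * (1 * ‖z‖) := by gcongr
        _ = _ := by ring
  have bT2 : ‖T2‖ ≤ (S.κ * CB + CW) * ‖z‖ ^ 2 := by
    rw [hT2]
    refine (norm_add_le _ _).trans ?_
    rw [norm_smul, norm_mul, Complex.norm_I, one_mul, Complex.norm_real,
      Real.norm_of_nonneg (by positivity), add_mul]
    refine add_le_add ?_ (hCW z)
    have h5 : S.κ * ‖z‖ ^ 2 / (2 * ry y) ≤ S.κ * ‖z‖ ^ 2 := by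
      have : S.κ * ‖z‖ ^ 2 / (2 * ry y) = S.κ * ‖z‖ ^ 2 * (1 / ry y) / 2 := by field_simp
      rw [this]
      have h6 : 0 ≤ S.κ * ‖z‖ ^ 2 := by positivity
      nlinarith
    calc S.κ * ‖z‖ ^ 2 / (2 * ry y) * ‖S.B β (cone n y)‖ ≤ S.κ * ‖z‖ ^ 2 * (CB * 1) := by
          refine mul_le_mul h5 ((hCB _).trans ?_) (norm_nonneg _) (by positivity)
          rw [norm_cone hn]
          exact mul_le_mul_of_nonneg_left r1 hCB0
      _ = _ := by ring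
  have key : E2 S Ω β (cone n y + z) = T1 e - T2 f + T2 e + R (S.vv Ω (cone n y + z)) := by
    have e1 : E2 S Ω β (cone n y + z) =
        (Complex.I • S.B β (PP S (cone n y + z)) + S.W β (cone n y + z))
          (S.vv Ω (cone n y + z)) := by
      rw [E2, _root_.add_apply, _root_.smul_apply]
    have e2 : T2 w - T1 f = 0 := by
      rw [← m2, hT2, _root_.add_apply, _root_.smul_apply, hf, map_smul]
    rw [e1, hT, _root_.add_apply, _root_.add_apply]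
    have e3 : T1 (S.vv Ω (cone n y + z)) + T2 (S.vv Ω (cone n y + z)) =
        T1 w + (T2 w - T1 f) + T1 e - T2 f + T2 e := by
      rw [hv]
      simp only [map_add, map_sub]
      abel
    rw [e3, m1, e2]
    abel
  rw [key]
  have c1 : ‖T1 e‖ ≤ (S.κ * CB + CD) * Ke * ‖z‖ ^ 3 := by
    calc ‖T1 e‖ ≤ ‖T1‖ * ‖e‖ := T1.le_opNorm _
      _ ≤ ((S.κ * CB + CD) * ‖z‖) * (Ke * ‖z‖ ^ 2) :=
        mul_le_mul bT1 he (norm_nonneg _) (by positivity)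
      _ = _ := by ring
  have c2 : ‖T2 f‖ ≤ (S.κ * CB + CW) * Kf * ‖z‖ ^ 3 := by
    calc ‖T2 f‖ ≤ ‖T2‖ * ‖f‖ := T2.le_opNorm _
      _ ≤ ((S.κ * CB + CW) * ‖z‖ ^ 2) * (Kf * ‖z‖) :=
        mul_le_mul bT2 bf (norm_nonneg _) (by positivity)
      _ = _ := by ring
  have c3 : ‖T2 e‖ ≤ (S.κ * CB + CW) * Ke * ‖z‖ ^ 3 := by
    calc ‖T2 e‖ ≤ ‖T2‖ * ‖e‖ := T2.le_opNorm _
      _ ≤ ((S.κ * CB + CW) * ‖z‖ ^ 2) * (Ke * ‖z‖ ^ 2) :=
        mul_le_mul bT2 he (norm_nonneg _) (by positivity)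
      _ = (S.κ * CB + CW) * Ke * ‖z‖ ^ 3 * ‖z‖ := by ring
      _ ≤ (S.κ * CB + CW) * Ke * ‖z‖ ^ 3 * 1 := by gcongr
      _ = _ := by ring
  have c4 : ‖R (S.vv Ω (cone n y + z))‖ ≤ 87 * S.κ * CB * (c + Kf + Ke) * ‖z‖ ^ 3 := by
    calc ‖R (S.vv Ω (cone n y + z))‖ ≤ ‖R‖ * ‖S.vv Ω (cone n y + z)‖ := R.le_opNorm _
      _ ≤ (87 * S.κ * CB * ‖z‖ ^ 3) * (c + Kf + Ke) :=
        mul_le_mul hR bv (norm_nonneg _) (by positivity)
      _ = _ := by ring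
  calc _ ≤ ‖T1 e‖ + ‖T2 f‖ + ‖T2 e‖ + ‖R (S.vv Ω (cone n y + z))‖ :=
        (norm_add_le _ _).trans (add_le_add_left ((norm_add_le _ _).trans
          (add_le_add_left (norm_sub_le _ _) _)) _)
    _ ≤ (S.κ * CB + CD) * Ke * ‖z‖ ^ 3 + (S.κ * CB + CW) * Kf * ‖z‖ ^ 3 +
        (S.κ * CB + CW) * Ke * ‖z‖ ^ 3 + 87 * S.κ * CB * (c + Kf + Ke) * ‖z‖ ^ 3 :=
        add_le_add (add_le_add (add_le_add c1 c2) c3) c4
    _ = _ := by ring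

end

end EstP
end Vale.Agent.P353.U
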