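import Vale.Agent.P353.U.StmtB
import Vale.Agent.P353.U.MollRad
import Vale.Agent.P353.Loc

/-! # P353, uniqueness, task B8: approximation by (invariant) test functions -/

open MeasureTheory Filter Topology
open scoped ContDiff

namespace Vale.Agent.P353.U.InvL

open Vale.Agent.P353.Moll

variable {F : Type*} [NormedAddCommGroup F] [InnerProductSpace ℂ F]

lemma int_op_cs {T : X3 → F →L[ℂ] F} (hT : Continuous T) (hTc : HasCompactSupport T)
    {f : X3 → F} (hf : MemLp f 2 (volume : Measure X3)) : Integrable (fun y => T y (f y)) := by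
  have h1 : Integrable (fun y => ‖T y‖ ^ 2) := by
    refine (hT.norm.pow 2).integrable_of_hasCompactSupport ?_
    refine hTc.mono fun x hx => ?_
    simp only [Function.mem_support] at hx ⊢
    intro h0
    exact hx (by simp [h0])
  refine (h1.add (memLp_norm_sq_int hf)).mono' (continuous_apply_clm hT hf.1)
    (Eventually.of_forall fun y => ?_)
  have h2 := (T y).le_opNorm (f y)
  simp only [Pi.add_apply]
  nlinarith [sq_nonneg (‖T y‖ - ‖f y‖), norm_nonneg (T y), norm_nonneg (f y),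
    mul_nonneg (norm_nonneg (T y)) (norm_nonneg (f y))]

section kernel

variable {ρ : X3 → ℝ}

lemma pdr_kernel (hρ : ContDiff ℝ ∞ ρ) (i : Fin 9) (A : Fin 3) (x y : X3) :
    pdr i A (fun y => ρ (x - y)) y = -pdr i A ρ (x - y) := by
  have h1 : HasFDerivAt (fun y : X3 => x - y) (-ContinuousLinearMap.id ℝ X3) y :=
    (hasFDerivAt_id y).const_sub x
  have h2 := ((hρ.differentiable (by simp)) (x - y)).hasFDerivAt.comp y h1
  have h3 : fderiv ℝ (fun y => ρ (x - y)) y = _ := h2.fderiv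
  rw [pdr, h3]
  simp [pdr]

lemma contDiff_kernel (hρ : ContDiff ℝ ∞ ρ) (x : X3) : ContDiff ℝ ∞ (fun y => ρ (x - y)) :=
  hρ.comp (contDiff_const.sub contDiff_id)

lemma hcs_kernel (hc : HasCompactSupport ρ) (x : X3) :
    HasCompactSupport (fun y => ρ (x - y)) :=
  hc.comp_homeomorph (Homeomorph.subLeft x)

lemma Tst_kernel (hρ : ContDiff ℝ ∞ ρ) (hc : HasCompactSupport ρ) (x : X3) (v : F) :
    Setup.Tst (fun y => ((ρ (x - y) : ℝ) : ℂ) • v) := by
  refine ⟨(Setup.contDiff_ofReal (contDiff_kernel hρ x)).smul contDiff_const,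
    (hcs_kernel hc x).mono fun y hy => ?_⟩
  simp only [Function.mem_support] at hy ⊢
  intro h0
  exact hy (by simp [h0])

lemma pd_kernel (hρ : ContDiff ℝ ∞ ρ) (i : Fin 9) (A : Fin 3) (x y : X3) (v : F) :
    pd i A (fun y => ((ρ (x - y) : ℝ) : ℂ) • v) y = (-(pdr i A ρ (x - y) : ℝ) : ℂ) • v := by
  have h1 := pd_rsmul (i := i) (A := A) (φ := fun y => ρ (x - y)) (u := fun _ : X3 => v) (x := y)
    ((contDiff_kernel hρ x).differentiable (by simp) y) (differentiableAt_const v)
  have h2 : pd i A (fun _ : X3 => v) y = 0 := by simp [pd]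
  have h3 := pdr_kernel hρ i A x y
  rw [pdr] at h3
  rw [h1, h2, smul_zero, add_zero, h3]
  push_cast
  rfl

lemma inner_mo_eq (hρ : Continuous ρ) (hc : HasCompactSupport ρ) {f : X3 → F} [CompleteSpace F]
    (hf : MemLp f 2 (volume : Measure X3)) (x : X3) (v : F) :
    ∫ y, inner ℂ (((ρ (x - y) : ℝ) : ℂ) • v) (f y) = inner ℂ v (mo ρ f x) := by
  rw [mo, ← integral_inner (integrable_mo hρ hc (locInt hf) x) v]
  refine integral_congr_ae (Eventually.of_forall fun y => ?_)
  simp only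
  rw [inner_smul_left, Complex.conj_ofReal, ← Complex.coe_smul, inner_smul_right]

lemma pd_mo (hρ : ContDiff ℝ ∞ ρ) (hc : HasCompactSupport ρ) {f : X3 → F}
    (hf : MemLp f 2 (volume : Measure X3)) (i : Fin 9) (A : Fin 3) (x : X3) :
    pd i A (mo ρ f) x = mo (pdr i A ρ) f x :=
  fderiv_mo hρ hc (locInt hf) x _

lemma contDiff_pdr' (hρ : ContDiff ℝ ∞ ρ) (i : Fin 9) (A : Fin 3) : ContDiff ℝ ∞ (pdr i A ρ) :=
  (hρ.fderiv_right (m := ∞) (by simp)).clm_apply contDiff_const

lemma hcs_pdr (hc : HasCompactSupport ρ) (i : Fin 9) (A : Fin 3) :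
    HasCompactSupport (pdr i A ρ) :=
  hc.fderiv_apply (𝕜 := ℝ) (EuclideanSpace.single (i, A) (1 : ℝ) : X3)

end kernel

variable (S : Setup F)

/-- zero order part of `Q_β + m M_β` -/
noncomputable def AA (m : ℝ) (β : Fin 16) (x : X3) : F →L[ℂ] F :=
  S.W β x + (m : ℂ) • S.MM β x

lemma MM_symm (β : Fin 16) (x : X3) (v w : F) :
    inner ℂ (S.MM β x v) w = inner ℂ v (S.MM β x w) := by
  simp only [Setup.MM, _root_.sum_apply, _root_.smul_apply, sum_inner,
    inner_sum, inner_smul_left, inner_smul_right,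
    S.vec_symm _ (Setup.mul_im_zero (S.g_im _) S.Gam_real), Complex.conj_ofReal]

lemma continuous_AA (m : ℝ) (β : Fin 16) : Continuous (AA S m β) := by
  have h1 : ContDiff ℝ ∞ (S.MM β) := by
    unfold Setup.MM
    refine ContDiff.sum fun i _ => ContDiff.sum fun A _ => ?_
    exact (Setup.contDiff_ofReal (contDiff_const.mul (Setup.contDiff_coord _))).smul contDiff_const
  exact (S.contDiff_W β).continuous.add (h1.continuous.const_smul (m : ℂ))

variable {S} {m : ℝ} {β : Fin 16} {Ψ Θ : X3 → F} {ρ : X3 → ℝ}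

lemma int_AA (hΨ : MemLp Ψ 2 (volume : Measure X3)) (hρ : Continuous ρ)
    (hc : HasCompactSupport ρ) (x : X3) :
    Integrable (fun y => ρ (x - y) • AA S m β y (Ψ y)) := by
  have h1 : Continuous (fun y => ((ρ (x - y) : ℝ) : ℂ) • AA S m β y) :=
    Setup.continuous_rsmul_op (hρ.comp (continuous_const.sub continuous_id)) (continuous_AA S m β)
  have h2 : HasCompactSupport (fun y => ((ρ (x - y) : ℝ) : ℂ) • AA S m β y) := by
    refine (hcs_kernel hc x).mono fun y hy => ?_
    simp only [Function.mem_support] at hy ⊢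
    intro h0
    exact hy (by simp [h0])
  refine (int_op_cs h1 h2 hΨ).congr (Eventually.of_forall fun y => ?_)
  simp only [_root_.smul_apply, Complex.coe_smul]

/-- the weak equation tested with kernels -/
lemma weakQ [CompleteSpace F] (hΨ : MemLp Ψ 2 (volume : Measure X3))
    (hΘ : MemLp Θ 2 (volume : Measure X3)) (h : S.wQ m β Ψ Θ) (hρ : ContDiff ℝ ∞ ρ)
    (hc : HasCompactSupport ρ) (x : X3) :
    (-Complex.I) • ∑ i, ∑ A, S.vec (S.g i) A β (mo (pdr i A ρ) Ψ x) +
      ∫ y, ρ (x - y) • AA S m β y (Ψ y) = mo ρ Θ x := by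
  have i1 : ∀ i A, Integrable (fun y => S.vec (S.g i) A β (pdr i A ρ (x - y) • Ψ y)) :=
    fun i A => (S.vec (S.g i) A β).integrable_comp
      (integrable_mo (contDiff_pdr' hρ i A).continuous (hcs_pdr hc i A) (locInt hΨ) x)
  have i2 := int_AA (S := S) (m := m) (β := β) hΨ hρ.continuous hc x
  have i3 : Integrable (fun y => (-Complex.I) • ∑ i, ∑ A,
      S.vec (S.g i) A β (pdr i A ρ (x - y) • Ψ y)) :=
    (integrable_finsetSum _ fun i _ => integrable_finsetSum _ fun A _ => i1 i A).smul _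
  have e1 : (-Complex.I) • ∑ i, ∑ A, S.vec (S.g i) A β (mo (pdr i A ρ) Ψ x) +
      ∫ y, ρ (x - y) • AA S m β y (Ψ y) = ∫ y, ((-Complex.I) • ∑ i, ∑ A,
      S.vec (S.g i) A β (pdr i A ρ (x - y) • Ψ y) + ρ (x - y) • AA S m β y (Ψ y)) := by
    rw [integral_add i3 i2, integral_smul, integral_finsetSum _ fun i _ =>
      integrable_finsetSum _ fun A _ => i1 i A]
    congr 2
    refine Finset.sum_congr rfl fun i _ => ?_
    rw [integral_finsetSum _ fun A _ => i1 i A]
    refine Finset.sum_congr rfl fun A _ => ?_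
    rw [(S.vec (S.g i) A β).integral_comp_comm
      (integrable_mo (contDiff_pdr' hρ i A).continuous (hcs_pdr hc i A) (locInt hΨ) x)]
    rfl
  have i4 : Integrable (fun y => (-Complex.I) • ∑ i, ∑ A,
      S.vec (S.g i) A β (pdr i A ρ (x - y) • Ψ y) + ρ (x - y) • AA S m β y (Ψ y)) := i3.add i2
  rw [e1]
  refine ext_inner_left ℂ fun v => ?_
  rw [← integral_inner i4 v, ← inner_mo_eq hρ.continuous hc hΘ x v,
    ← h _ (Tst_kernel hρ hc x v)]
  refine integral_congr_ae (Eventually.of_forall fun y => ?_)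
  simp only [Setup.Qm, Setup.Q, pd_kernel hρ, AA]
  simp only [← Complex.coe_smul, inner_add_left, inner_add_right, inner_smul_left,
    inner_smul_right, sum_inner, inner_sum, map_smul, map_neg, Complex.conj_ofReal,
    Complex.conj_I, _root_.add_apply, _root_.smul_apply,
    S.vec_symm _ (S.g_im _), S.W_symm, MM_symm, neg_mul, mul_neg, neg_neg,
    Finset.sum_neg_distrib]
  ring

/-- `Q_β (ρ * Ψ) = ρ * Θ_β + commutator` -/
lemma Qm_mo [CompleteSpace F] (hΨ : MemLp Ψ 2 (volume : Measure X3))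
    (hΘ : MemLp Θ 2 (volume : Measure X3)) (h : S.wQ m β Ψ Θ) (hρ : ContDiff ℝ ∞ ρ)
    (hc : HasCompactSupport ρ) (x : X3) :
    S.Qm m β (mo ρ Ψ) x = mo ρ Θ x +
      ∫ y, ρ (x - y) • ((AA S m β x - AA S m β y) (Ψ y)) := by
  have h1 := weakQ hΨ hΘ h hρ hc x
  have i2 := int_AA (S := S) (m := m) (β := β) hΨ hρ.continuous hc x
  have i0 := integrable_mo hρ.continuous hc (locInt hΨ) x
  have i1 : Integrable (fun y => ρ (x - y) • AA S m β x (Ψ y)) := by
    refine ((AA S m β x).integrable_comp i0).congr (Eventually.of_forall fun y => ?_)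
    simp only [← Complex.coe_smul, map_smul]
  have e1 : ∫ y, ρ (x - y) • ((AA S m β x - AA S m β y) (Ψ y)) =
      AA S m β x (mo ρ Ψ x) - ∫ y, ρ (x - y) • AA S m β y (Ψ y) := by
    have e2 : AA S m β x (mo ρ Ψ x) = ∫ y, ρ (x - y) • AA S m β x (Ψ y) := by
      rw [mo, ← (AA S m β x).integral_comp_comm i0]
      refine integral_congr_ae (Eventually.of_forall fun y => ?_)
      simp only [← Complex.coe_smul, map_smul]
    rw [e2, ← integral_sub i1 i2]
    refine integral_congr_ae (Eventually.of_forall fun y => ?_)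
    simp only [_root_.sub_apply, smul_sub]
  rw [e1, ← h1]
  simp only [Setup.Qm, Setup.Q, pd_mo hρ hc hΨ, AA, _root_.add_apply, _root_.smul_apply]
  abel

/-- bound of the commutator -/
lemma comm_bound {ε η : ℝ} (hρ : IsMol ε ρ) (hΨ : MemLp Ψ 2 (volume : Measure X3)) {x : X3}
    (hx : ∀ y, ‖x - y‖ < ε → ‖AA S m β x - AA S m β y‖ ≤ η) :
    ‖∫ y, ρ (x - y) • ((AA S m β x - AA S m β y) (Ψ y))‖ ≤ η * mo ρ (fun y => ‖Ψ y‖) x := by
  have i1 : Integrable (fun y => ρ (x - y) • ‖Ψ y‖) :=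
    integrable_mo hρ.contDiff.continuous hρ.hcs (fun z => (locInt hΨ z).norm) x
  rw [mo, ← integral_const_mul]
  refine norm_integral_le_of_norm_le (i1.const_mul η) (Eventually.of_forall fun y => ?_)
  rw [norm_smul, Real.norm_of_nonneg (hρ.nonneg _), smul_eq_mul]
  by_cases hy : ‖x - y‖ < ε
  · have h1 := ((AA S m β x - AA S m β y).le_opNorm (Ψ y)).trans
      (mul_le_mul_of_nonneg_right (hx y hy) (norm_nonneg _))
    calc ρ (x - y) * ‖(AA S m β x - AA S m β y) (Ψ y)‖ ≤ ρ (x - y) * (η * ‖Ψ y‖) :=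
          mul_le_mul_of_nonneg_left h1 (hρ.nonneg _)
      _ = η * (ρ (x - y) * ‖Ψ y‖) := by ring
  · rw [hρ.supp _ (not_lt.1 hy)]
    simp

end Vale.Agent.P353.U.InvL
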