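import Vale.Agent.P353.U.L1a

/-! # P353, C-L1: Gaussian test functions -/

open MeasureTheory Filter Topology
open scoped ContDiff ComplexConjugate

namespace Vale.Agent.P353.U

/-- coordinate vectors -/
noncomputable def l1e (p : Fin 9 × Fin 3) : X3 := EuclideanSpace.single p 1

theorem l1_inner_e (x : X3) (p : Fin 9 × Fin 3) : inner ℝ x (l1e p) = x p := by
  simp [l1e, EuclideanSpace.inner_single_right]

theorem l1_inner_sum (x y : X3) : inner ℝ x y = ∑ p, x p * y p := by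
  simp [PiLp.inner_apply, mul_comm]

/-- data of the scalar Liouville lemma -/
structure L1D (ι : Type) [Fintype ι] [DecidableEq ι] where
  A : X3 →L[ℝ] X3
  τ : ι → X3
  symm : ∀ x y, inner ℝ (A x) y = inner ℝ x (A y)
  Aτ : ∀ C, A (τ C) = 0
  ττ : ∀ C D, inner ℝ (τ C) (τ D) = if C = D then 2 else 0
  low : ∀ x, ‖x‖ ^ 2 ≤ inner ℝ x (A x) + (1 / 2) * ∑ C, inner ℝ (τ C) x ^ 2
  pos : ∀ x, 0 ≤ inner ℝ x (A x)

namespace L1D

variable {ι : Type} [Fintype ι] [DecidableEq ι] (D : L1D ι)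

/-- `A + ∑ τ τᵀ` -/
noncomputable def M2 : X3 →L[ℝ] X3 :=
  D.A + ∑ C, (innerSL ℝ (D.τ C)).smulRight (D.τ C)

/-- `A + ½ ∑ τ τᵀ` -/
noncomputable def M : X3 →L[ℝ] X3 :=
  D.A + (1 / 2 : ℝ) • ∑ C, (innerSL ℝ (D.τ C)).smulRight (D.τ C)

theorem M2_apply (x : X3) : D.M2 x = D.A x + ∑ C, inner ℝ (D.τ C) x • D.τ C := by
  simp [M2]

theorem M_apply (x : X3) : D.M x = D.A x + (1 / 2 : ℝ) • ∑ C, inner ℝ (D.τ C) x • D.τ C := by
  simp [M]

theorem inner_M2 (x y : X3) : inner ℝ (D.M2 x) y = inner ℝ (D.A x) y +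
    ∑ C, inner ℝ (D.τ C) x * inner ℝ (D.τ C) y := by
  rw [M2_apply, inner_add_left, sum_inner]
  simp only [real_inner_smul_left]

theorem inner_M (x y : X3) : inner ℝ (D.M x) y = inner ℝ (D.A x) y +
    (1 / 2) * ∑ C, inner ℝ (D.τ C) x * inner ℝ (D.τ C) y := by
  rw [M_apply, inner_add_left, real_inner_smul_left, sum_inner]
  simp only [real_inner_smul_left]

theorem M2_symm (x y : X3) : inner ℝ (D.M2 x) y = inner ℝ x (D.M2 y) := by
  rw [real_inner_comm (D.M2 y) x, inner_M2, inner_M2, D.symm, real_inner_comm (D.A y) x]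
  congr 1
  exact Finset.sum_congr rfl fun C _ => mul_comm _ _

theorem M_symm (x y : X3) : inner ℝ (D.M x) y = inner ℝ x (D.M y) := by
  rw [real_inner_comm (D.M y) x, inner_M, inner_M, D.symm, real_inner_comm (D.A y) x]
  congr 2
  exact Finset.sum_congr rfl fun C _ => mul_comm _ _

theorem M_low (x : X3) : ‖x‖ ^ 2 ≤ inner ℝ (D.M x) x := by
  rw [inner_M, D.symm]
  refine (D.low x).trans (le_of_eq ?_)
  congr 2
  exact Finset.sum_congr rfl fun C _ => by ring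

theorem M2_low (x : X3) : ‖x‖ ^ 2 ≤ inner ℝ (D.M2 x) x := by
  rw [inner_M2, D.symm]
  refine (D.low x).trans ?_
  have h : (0 : ℝ) ≤ ∑ C, inner ℝ (D.τ C) x ^ 2 := Finset.sum_nonneg fun C _ => sq_nonneg _
  have h2 : ∑ C, inner ℝ (D.τ C) x * inner ℝ (D.τ C) x = ∑ C, inner ℝ (D.τ C) x ^ 2 :=
    Finset.sum_congr rfl fun C _ => by ring
  rw [h2]; linarith

theorem M2_τ (C : ι) : D.M2 (D.τ C) = (2 : ℝ) • D.τ C := by
  rw [M2_apply, D.Aτ, zero_add]
  simp [D.ττ]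

theorem norm_M2_sq (x : X3) : ‖D.M2 x‖ ^ 2 = ‖D.A x‖ ^ 2 + 2 * ∑ C, inner ℝ (D.τ C) x ^ 2 := by
  have h1 : ‖D.M2 x‖ ^ 2 = inner ℝ (D.M2 x) (D.M2 x) := (real_inner_self_eq_norm_sq _).symm
  rw [h1, inner_M2]
  have h2 : inner ℝ (D.A x) (D.M2 x) = ‖D.A x‖ ^ 2 := by
    rw [real_inner_comm, inner_M2, real_inner_self_eq_norm_sq]
    have : ∀ C, inner ℝ (D.τ C) (D.A x) = 0 := fun C => by
      rw [← D.symm, D.Aτ, inner_zero_left]
    simp [this]
  have h3 : ∀ C, inner ℝ (D.τ C) (D.M2 x) = 2 * inner ℝ (D.τ C) x := fun C => by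
    rw [← M2_symm, M2_τ, real_inner_smul_left]
  rw [h2]
  simp only [h3]
  rw [Finset.mul_sum]
  congr 1
  exact Finset.sum_congr rfl fun C _ => by ring

/-- trace of `A` -/
noncomputable def tr : ℝ := ∑ p, inner ℝ (D.A (l1e p)) (l1e p)

theorem tr_M2 : ∑ p, inner ℝ (D.M2 (l1e p)) (l1e p) = D.tr + 2 * Fintype.card ι := by
  simp only [inner_M2, tr, Finset.sum_add_distrib]
  congr 1
  rw [Finset.sum_comm]
  have : ∀ C, ∑ p, inner ℝ (D.τ C) (l1e p) * inner ℝ (D.τ C) (l1e p) = 2 := fun C => by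
    simp only [l1_inner_e]
    rw [← l1_inner_sum, D.ττ, if_pos rfl]
  simp [this, mul_comm]

/-! ### the Gaussian functions -/

/-- exponent -/
noncomputable def ph (k x : X3) : ℂ :=
  ((-(1 / 2) * inner ℝ (D.M2 x) x : ℝ) : ℂ) + ((inner ℝ k x : ℝ) : ℂ) * Complex.I

/-- `E_k(x) = exp(-½⟨x, M₂ x⟩ + i⟨k,x⟩)` -/
noncomputable def EE (k x : X3) : ℂ := Complex.exp (D.ph k x)

/-- logarithmic derivative -/
noncomputable def cc (k e x : X3) : ℂ :=
  -((inner ℝ (D.M2 x) e : ℝ) : ℂ) + ((inner ℝ k e : ℝ) : ℂ) * Complex.I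

theorem norm_EE (k x : X3) : ‖D.EE k x‖ = Real.exp (-(1 / 2) * inner ℝ (D.M2 x) x) := by
  rw [EE, Complex.norm_exp, ph]
  simp

theorem norm_EE_le (k x : X3) : ‖D.EE k x‖ ≤ Real.exp (-(1 / 2 * ‖x‖ ^ 2)) := by
  rw [norm_EE, Real.exp_le_exp]
  have := D.M2_low x
  linarith

theorem hasFDerivAt_q (x : X3) : HasFDerivAt (fun y => inner ℝ (D.M2 y) y)
    ((2 : ℝ) • innerSL ℝ (D.M2 x)) x := by
  have h := (D.M2.hasFDerivAt (x := x)).inner ℝ (hasFDerivAt_id x)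
  refine h.congr_fderiv ?_
  ext e
  simp only [ContinuousLinearMap.comp_apply, fderivInnerCLM_apply,
    ContinuousLinearMap.prod_apply, ContinuousLinearMap.id_apply, id,
    smul_apply, innerSL_apply_apply, smul_eq_mul]
  rw [D.M2_symm e x, real_inner_comm (D.M2 x) e]
  ring

theorem hasFDerivAt_ph (k x : X3) : HasFDerivAt (D.ph k)
    (Complex.ofRealCLM.comp (-innerSL ℝ (D.M2 x)) +
      (Complex.I • Complex.ofRealCLM.comp (innerSL ℝ k))) x := by
  have h1 : HasFDerivAt (fun y => -(1 / 2) * inner ℝ (D.M2 y) y) (-innerSL ℝ (D.M2 x)) x := by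
    refine ((D.hasFDerivAt_q x).const_mul (-(1 / 2))).congr_fderiv ?_
    ext e; simp
  have h2 := (Complex.ofRealCLM.hasFDerivAt (x := -(1 / 2) * inner ℝ (D.M2 x) x)).comp x h1
  have h3 : HasFDerivAt (fun y => inner ℝ k y) (innerSL ℝ k) x := (innerSL ℝ k).hasFDerivAt
  have h4 := ((Complex.ofRealCLM.hasFDerivAt (x := inner ℝ k x)).comp x h3).mul_const Complex.I
  refine (h2.add h4).congr_fderiv ?_
  ext e; simp

theorem fderiv_EE (k x e : X3) : fderiv ℝ (D.EE k) x e = D.EE k x * D.cc k e x := by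
  have h := (D.hasFDerivAt_ph k x).cexp
  have h2 : HasFDerivAt (D.EE k) _ x := h
  rw [h2.fderiv]
  simp [EE, cc]
  ring

theorem contDiff_EE (k : X3) : ContDiff ℝ ∞ (D.EE k) := by
  unfold EE ph
  refine ContDiff.cexp (ContDiff.add ?_ ?_)
  · exact Complex.ofRealCLM.contDiff.comp (contDiff_const.mul (D.M2.contDiff.inner ℝ contDiff_id))
  · exact (Complex.ofRealCLM.contDiff.comp (contDiff_const.inner ℝ contDiff_id)).mul contDiff_const

theorem fderiv_cc (k e x e' : X3) : fderiv ℝ (D.cc k e) x e' = -((inner ℝ (D.M2 e') e : ℝ) : ℂ) := by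
  have h1 : HasFDerivAt (fun y => inner ℝ (D.M2 y) e) ((innerSL ℝ e).comp D.M2) x := by
    have h0 : HasFDerivAt (fun y => inner ℝ e (D.M2 y)) ((innerSL ℝ e).comp D.M2) x :=
      ((innerSL ℝ e).comp D.M2).hasFDerivAt
    simpa only [real_inner_comm] using h0
  have h2 := (Complex.ofRealCLM.hasFDerivAt (x := inner ℝ (D.M2 x) e)).comp x h1
  have h3 : HasFDerivAt (D.cc k e) _ x := h2.neg.add_const (((inner ℝ k e : ℝ) : ℂ) * Complex.I)
  rw [h3.fderiv]
  simp [real_inner_comm]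

theorem differentiable_cc (k e : X3) : Differentiable ℝ (D.cc k e) := by
  unfold cc
  refine Differentiable.add_const _ (Differentiable.neg ?_)
  exact Complex.ofRealCLM.differentiable.comp (D.M2.differentiable.inner ℝ (differentiable_const e))

end L1D

end Vale.Agent.P353.U
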