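import Vale.Agent.P353.U.L1b

/-! # P353, C-L1: the weak equation for Gaussian test functions -/

open MeasureTheory Filter Topology
open scoped ContDiff ComplexConjugate

namespace Vale.Agent.P353.U

/-! ### product rules -/

theorem l1_fderiv_mul {f g : X3 → ℂ} {x : X3} (hf : DifferentiableAt ℝ f x)
    (hg : DifferentiableAt ℝ g x) (e : X3) :
    fderiv ℝ (fun y => f y * g y) x e = fderiv ℝ f x e * g x + f x * fderiv ℝ g x e := by
  have h := (hf.hasFDerivAt.mul hg.hasFDerivAt).fderiv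
  have h2 : fderiv ℝ (fun y => f y * g y) x = _ := h
  rw [h2]
  simp
  ring

theorem l1_contDiff_dir {f : X3 → ℂ} (hf : ContDiff ℝ ∞ f) (e : X3) :
    ContDiff ℝ ∞ (fun y => fderiv ℝ f y e) :=
  (hf.fderiv_right (m := ∞) (by simp)).clm_apply contDiff_const

theorem l1_diff {f : X3 → ℂ} (hf : ContDiff ℝ ∞ f) (x : X3) : DifferentiableAt ℝ f x :=
  (hf.differentiable (by simp)) x

theorem l1_fderiv2_mul {f g : X3 → ℂ} (hf : ContDiff ℝ ∞ f) (hg : ContDiff ℝ ∞ g) (x e : X3) :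
    fderiv ℝ (fun y => fderiv ℝ (fun z => f z * g z) y e) x e =
      fderiv ℝ (fun y => fderiv ℝ f y e) x e * g x +
        2 * (fderiv ℝ f x e * fderiv ℝ g x e) +
        f x * fderiv ℝ (fun y => fderiv ℝ g y e) x e := by
  have h1 : (fun y => fderiv ℝ (fun z => f z * g z) y e) =
      fun y => fderiv ℝ f y e * g y + f y * fderiv ℝ g y e := by
    funext y
    exact l1_fderiv_mul (l1_diff hf y) (l1_diff hg y) e
  rw [h1]
  have hf' := l1_diff (l1_contDiff_dir hf e) x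
  have hg' := l1_diff (l1_contDiff_dir hg e) x
  have h2 : fderiv ℝ (fun y => fderiv ℝ f y e * g y + f y * fderiv ℝ g y e) x e =
      fderiv ℝ (fun y => fderiv ℝ f y e * g y) x e +
        fderiv ℝ (fun y => f y * fderiv ℝ g y e) x e := by
    have d1 : DifferentiableAt ℝ (fun y => fderiv ℝ f y e * g y) x := hf'.mul (l1_diff hg x)
    have d2 : DifferentiableAt ℝ (fun y => f y * fderiv ℝ g y e) x := (l1_diff hf x).mul hg'
    rw [fderiv_fun_add d1 d2]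
    rfl
  rw [h2, l1_fderiv_mul hf' (l1_diff hg x), l1_fderiv_mul (l1_diff hf x) hg']
  ring

namespace L1D

variable {ι : Type} [Fintype ι] [DecidableEq ι] (D : L1D ι)

theorem fderiv2_EE (k x e : X3) :
    fderiv ℝ (fun y => fderiv ℝ (D.EE k) y e) x e =
      D.EE k x * (D.cc k e x ^ 2 - ((inner ℝ (D.M2 e) e : ℝ) : ℂ)) := by
  have h1 : (fun y => fderiv ℝ (D.EE k) y e) = fun y => D.EE k y * D.cc k e y := by
    funext y; exact D.fderiv_EE k y e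
  rw [h1, l1_fderiv_mul (l1_diff (D.contDiff_EE k) x) (D.differentiable_cc k e x),
    fderiv_EE, fderiv_cc]
  ring

theorem fderiv_τ (C : ι) (x e : X3) :
    fderiv ℝ (fun y => ((inner ℝ (D.τ C) y : ℝ) : ℂ)) x e = ((inner ℝ (D.τ C) e : ℝ) : ℂ) := by
  have h3 : HasFDerivAt (fun y => inner ℝ (D.τ C) y) (innerSL ℝ (D.τ C)) x :=
    (innerSL ℝ (D.τ C)).hasFDerivAt
  have h4 : HasFDerivAt (fun y => ((inner ℝ (D.τ C) y : ℝ) : ℂ)) _ x :=
    (Complex.ofRealCLM.hasFDerivAt (x := inner ℝ (D.τ C) x)).comp x h3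
  rw [h4.fderiv]
  simp

theorem contDiff_τ (C : ι) : ContDiff ℝ ∞ (fun y : X3 => ((inner ℝ (D.τ C) y : ℝ) : ℂ)) :=
  Complex.ofRealCLM.contDiff.comp (contDiff_const.inner ℝ contDiff_id)

/-- the second order part and potential -/
noncomputable def L0 (ν : ℝ) (η : X3 → ℂ) (x : X3) : ℂ :=
  -(∑ p, fderiv ℝ (fun y => fderiv ℝ η y (l1e p)) x (l1e p)) +
    ((‖D.A x‖ ^ 2 - D.tr + 2 * ν : ℝ) : ℂ) * η x

/-- the scalar operator -/
noncomputable def LL (ν : ℝ) (η : X3 → ℂ) (x : X3) : ℂ :=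
  D.L0 ν η x - ∑ C, fderiv ℝ (fun y => ((inner ℝ (D.τ C) y : ℝ) : ℂ) * η y) x (D.τ C)

/-- multiplier -/
noncomputable def bb (ν : ℝ) (k x : X3) : ℂ :=
  ((‖k‖ ^ 2 + 2 * ν : ℝ) : ℂ) + 2 * ((inner ℝ (D.M x) k : ℝ) : ℂ) * Complex.I

theorem sum_cc_sq (k x : X3) : ∑ p, D.cc k (l1e p) x ^ 2 =
    ((‖D.M2 x‖ ^ 2 - ‖k‖ ^ 2 : ℝ) : ℂ) - 2 * ((inner ℝ (D.M2 x) k : ℝ) : ℂ) * Complex.I := by
  have h1 : ∀ p, D.cc k (l1e p) x ^ 2 = (((D.M2 x) p * (D.M2 x) p : ℝ) : ℂ) -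
      ((k p * k p : ℝ) : ℂ) - 2 * (((D.M2 x) p * k p : ℝ) : ℂ) * Complex.I := by
    intro p
    unfold cc
    rw [l1_inner_e, l1_inner_e]
    push_cast
    linear_combination (k p : ℂ) ^ 2 * Complex.I_sq
  simp only [h1, Finset.sum_sub_distrib, ← Finset.sum_mul, ← Finset.mul_sum]
  rw [← Complex.ofReal_sum, ← Complex.ofReal_sum, ← Complex.ofReal_sum, ← l1_inner_sum,
    ← l1_inner_sum, ← l1_inner_sum, real_inner_self_eq_norm_sq, real_inner_self_eq_norm_sq]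
  push_cast
  ring

theorem alg (ν : ℝ) (k x : X3) :
    -(∑ p, (D.cc k (l1e p) x ^ 2 - ((inner ℝ (D.M2 (l1e p)) (l1e p) : ℝ) : ℂ))) +
      ((‖D.A x‖ ^ 2 - D.tr + 2 * ν : ℝ) : ℂ) -
      ∑ C, (2 + ((inner ℝ (D.τ C) x : ℝ) : ℂ) * D.cc k (D.τ C) x) = D.bb ν k x := by
  rw [Finset.sum_sub_distrib, sum_cc_sq, ← Complex.ofReal_sum, tr_M2, norm_M2_sq]
  have h1 : ∀ C, ((inner ℝ (D.τ C) x : ℝ) : ℂ) * D.cc k (D.τ C) x =
      -2 * ((inner ℝ (D.τ C) x ^ 2 : ℝ) : ℂ) +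
        ((inner ℝ (D.τ C) x * inner ℝ (D.τ C) k : ℝ) : ℂ) * Complex.I := by
    intro C
    unfold cc
    rw [M2_symm, M2_τ, real_inner_smul_right, real_inner_comm (D.τ C) x, real_inner_comm (D.τ C) k]
    push_cast
    ring
  simp only [h1, Finset.sum_add_distrib, ← Finset.sum_mul, ← Finset.mul_sum]
  rw [← Complex.ofReal_sum, ← Complex.ofReal_sum, inner_M2]
  unfold bb
  rw [inner_M]
  simp only [Finset.sum_const, Finset.card_univ, nsmul_eq_mul]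
  push_cast
  ring

theorem LL_mul (ν : ℝ) (k : X3) {χ : X3 → ℂ} (hχ : ContDiff ℝ ∞ χ) (x : X3) :
    D.LL ν (fun y => χ y * D.EE k y) x = D.EE k x * (χ x * D.bb ν k x -
      ((∑ p, (fderiv ℝ (fun y => fderiv ℝ χ y (l1e p)) x (l1e p) +
        2 * (fderiv ℝ χ x (l1e p) * D.cc k (l1e p) x))) +
      ∑ C, ((inner ℝ (D.τ C) x : ℝ) : ℂ) * fderiv ℝ χ x (D.τ C))) := by
  have hE := D.contDiff_EE k
  unfold LL L0
  rw [← D.alg ν k x]
  have h1 : ∀ p, fderiv ℝ (fun y => fderiv ℝ (fun z => χ z * D.EE k z) y (l1e p)) x (l1e p) =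
      D.EE k x * (χ x * (D.cc k (l1e p) x ^ 2 - ((inner ℝ (D.M2 (l1e p)) (l1e p) : ℝ) : ℂ))) +
      D.EE k x * (fderiv ℝ (fun y => fderiv ℝ χ y (l1e p)) x (l1e p) +
        2 * (fderiv ℝ χ x (l1e p) * D.cc k (l1e p) x)) := by
    intro p
    rw [l1_fderiv2_mul hχ hE, fderiv2_EE, fderiv_EE]
    ring
  have h2 : ∀ C, fderiv ℝ (fun y => ((inner ℝ (D.τ C) y : ℝ) : ℂ) * (χ y * D.EE k y)) x (D.τ C) =
      D.EE k x * (χ x * (2 + ((inner ℝ (D.τ C) x : ℝ) : ℂ) * D.cc k (D.τ C) x)) +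
      D.EE k x * (((inner ℝ (D.τ C) x : ℝ) : ℂ) * fderiv ℝ χ x (D.τ C)) := by
    intro C
    have hm : DifferentiableAt ℝ (fun y => χ y * D.EE k y) x := (l1_diff hχ x).mul (l1_diff hE x)
    rw [l1_fderiv_mul (l1_diff (D.contDiff_τ C) x) hm,
      l1_fderiv_mul (l1_diff hχ x) (l1_diff hE x), fderiv_τ, fderiv_EE, D.ττ, if_pos rfl]
    push_cast
    ring
  simp only [h1, h2, Finset.sum_add_distrib, ← Finset.mul_sum]
  ring

end L1D

end Vale.Agent.P353.U
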