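import Vale.Agent.P353.U.L1c

/-! # P353, C-L1: the weak equation for Gaussian test functions, limit of cut-offs -/

open MeasureTheory Filter Topology
open scoped ContDiff ComplexConjugate

namespace Vale.Agent.P353.U

theorem L1Gr.int_inner {U : X3 → ℂ} (h : L1Gr U) {g : X3 → ℂ}
    (hg : AEStronglyMeasurable g (volume : Measure X3)) {C c : ℝ} (hc : 0 < c)
    (hb : ∀ x, ‖g x‖ ≤ C * Real.exp (-(c * ‖x‖ ^ 2))) :
    Integrable (fun x => inner ℂ (g x) (U x)) := by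
  refine ((h.int_dom hc).const_mul C).mono' (hg.inner h.meas)
    (Eventually.of_forall fun x => ?_)
  have h1 := hb x
  have h0 : 0 ≤ C * Real.exp (-(c * ‖x‖ ^ 2)) := (norm_nonneg _).trans h1
  calc ‖inner ℂ (g x) (U x)‖ ≤ ‖g x‖ * ‖U x‖ := norm_inner_le_norm _ _
    _ ≤ (C * Real.exp (-(c * ‖x‖ ^ 2))) * (1 + ‖U x‖ ^ 2) := by
        refine mul_le_mul h1 ?_ (norm_nonneg _) h0
        nlinarith [sq_nonneg (‖U x‖ - 1), norm_nonneg (U x)]
    _ = _ := by ring

theorem l1_cs_bound {g : X3 → ℂ} (hg : Continuous g) (hs : HasCompactSupport g) :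
    ∃ C : ℝ, ∀ x, ‖g x‖ ≤ C * Real.exp (-(1 * ‖x‖ ^ 2)) := by
  have h1 : Continuous fun x : X3 => ((Real.exp (‖x‖ ^ 2) : ℝ) : ℂ) * g x := by fun_prop
  have h2 : HasCompactSupport fun x : X3 => ((Real.exp (‖x‖ ^ 2) : ℝ) : ℂ) * g x := hs.mul_left
  obtain ⟨C, hC⟩ := h2.exists_bound_of_continuous h1
  refine ⟨C, fun x => ?_⟩
  have h3 := hC x
  rw [norm_mul, Complex.norm_real, Real.norm_of_nonneg (Real.exp_pos _).le] at h3
  have h4 : ‖g x‖ = Real.exp (-(1 * ‖x‖ ^ 2)) * (Real.exp (‖x‖ ^ 2) * ‖g x‖) := by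
    rw [← mul_assoc, ← Real.exp_add]
    simp
  rw [h4, mul_comm C]
  exact mul_le_mul_of_nonneg_left h3 (Real.exp_pos _).le

theorem L1Gr.int_inner_cs {U : X3 → ℂ} (h : L1Gr U) {g : X3 → ℂ}
    (hg : Continuous g) (hs : HasCompactSupport g) :
    Integrable (fun x => inner ℂ (g x) (U x)) := by
  obtain ⟨C, hC⟩ := l1_cs_bound hg hs
  exact h.int_inner hg.aestronglyMeasurable one_pos hC

theorem l1_hcs_dir {f : X3 → ℂ} (hf : HasCompactSupport f) (e : X3) :
    HasCompactSupport (fun y => fderiv ℝ f y e) := hf.fderiv_apply (𝕜 := ℝ) e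

/-- weak solutions -/
structure L1Sol {ι : Type} [Fintype ι] [DecidableEq ι] (D : L1D ι) (ν : ℝ) (U : X3 → ℂ) :
    Prop where
  gr : L1Gr U
  eq1 : ∀ η : X3 → ℂ, ContDiff ℝ ∞ η → HasCompactSupport η →
    ∫ x, inner ℂ (D.L0 ν η x) (U x) = 0
  eq2 : ∀ (C : ι) (η : X3 → ℂ), ContDiff ℝ ∞ η → HasCompactSupport η →
    ∫ x, inner ℂ (fderiv ℝ η x (D.τ C)) (U x) = 0

/-! ### scaling of a function -/

theorem l1_fderiv_scale {f : X3 → ℂ} (hf : ContDiff ℝ ∞ f) (r : ℝ) (x e : X3) :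
    fderiv ℝ (fun y => f (r • y)) x e = (r : ℂ) * fderiv ℝ f (r • x) e := by
  have h1 : HasFDerivAt (fun x : X3 => r • x) (r • ContinuousLinearMap.id ℝ X3) x :=
    (hasFDerivAt_id x).const_smul r
  have h2 := (l1_diff hf (r • x)).hasFDerivAt.comp x h1
  have h3 : fderiv ℝ (fun x : X3 => f (r • x)) x = _ := h2.fderiv
  rw [h3]
  simp

theorem l1_fderiv2_scale {f : X3 → ℂ} (hf : ContDiff ℝ ∞ f) (r : ℝ) (x e : X3) :
    fderiv ℝ (fun y => fderiv ℝ (fun z => f (r • z)) y e) x e =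
      (r : ℂ) ^ 2 * fderiv ℝ (fun z => fderiv ℝ f z e) (r • x) e := by
  have h1 : (fun y => fderiv ℝ (fun z => f (r • z)) y e) =
      fun y => (r : ℂ) * (fun z => fderiv ℝ f z e) (r • y) := by
    funext y; exact l1_fderiv_scale hf r y e
  rw [h1]
  have hg := l1_contDiff_dir hf e
  have hg' : DifferentiableAt ℝ (fun y : X3 => (fun z => fderiv ℝ f z e) (r • y)) x :=
    l1_diff (hg.comp (contDiff_const_smul r)) x
  have h2 := l1_fderiv_scale hg r x e
  rw [fderiv_const_mul hg', smul_apply, h2]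
  simp only [smul_eq_mul]
  ring

namespace L1D

variable {ι : Type} [Fintype ι] [DecidableEq ι] (D : L1D ι)

theorem contDiff_L0 (ν : ℝ) {η : X3 → ℂ} (hη : ContDiff ℝ ∞ η) : Continuous (D.L0 ν η) := by
  unfold L0
  refine Continuous.add (Continuous.neg (continuous_finsetSum _ fun p _ => ?_))
    (Continuous.mul ?_ hη.continuous)
  · exact (l1_contDiff_dir (l1_contDiff_dir hη _) _).continuous
  · have : Continuous D.A := D.A.continuous
    fun_prop

theorem hcs_L0 (ν : ℝ) {η : X3 → ℂ} (hη : HasCompactSupport η) : HasCompactSupport (D.L0 ν η) := by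
  unfold L0
  refine HasCompactSupport.add ?_ hη.mul_left
  have h : ∀ p, HasCompactSupport (fun x => fderiv ℝ (fun y => fderiv ℝ η y (l1e p)) x (l1e p)) :=
    fun p => l1_hcs_dir (l1_hcs_dir hη _) _
  have h2 : HasCompactSupport (fun x => ∑ p, fderiv ℝ (fun y => fderiv ℝ η y (l1e p)) x (l1e p)) := by
    refine HasCompactSupport.intro' (K := tsupport η) hη (isClosed_tsupport η) fun x hx => ?_
    refine Finset.sum_eq_zero fun p _ => ?_
    by_contra hne
    refine hx ?_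
    have h3 : x ∈ tsupport (fun y => fderiv ℝ η y (l1e p)) :=
      tsupport_fderiv_apply_subset ℝ (l1e p) (subset_tsupport _ hne)
    exact tsupport_fderiv_apply_subset ℝ (l1e p) h3
  exact h2.neg

end L1D

theorem L1Sol.eqL {ι : Type} [Fintype ι] [DecidableEq ι] {D : L1D ι} {ν : ℝ} {U : X3 → ℂ}
    (h : L1Sol D ν U) {η : X3 → ℂ} (hη : ContDiff ℝ ∞ η) (hs : HasCompactSupport η) :
    ∫ x, inner ℂ (D.LL ν η x) (U x) = 0 := by
  unfold L1D.LL
  simp only [inner_sub_left, sum_inner]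
  have hc : ∀ C, ContDiff ℝ ∞ (fun y => ((inner ℝ (D.τ C) y : ℝ) : ℂ) * η y) :=
    fun C => (D.contDiff_τ C).mul hη
  have hsC : ∀ C, HasCompactSupport (fun y => ((inner ℝ (D.τ C) y : ℝ) : ℂ) * η y) :=
    fun C => hs.mul_left
  have hi : ∀ C, Integrable (fun x => inner ℂ
      (fderiv ℝ (fun y => ((inner ℝ (D.τ C) y : ℝ) : ℂ) * η y) x (D.τ C)) (U x)) :=
    fun C => h.gr.int_inner_cs (l1_contDiff_dir (hc C) _).continuous (l1_hcs_dir (hsC C) _)
  rw [integral_sub (h.gr.int_inner_cs (D.contDiff_L0 ν hη) (D.hcs_L0 ν hs))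
    (integrable_finsetSum _ fun C _ => hi C), h.eq1 η hη hs,
    integral_finsetSum _ fun C _ => hi C]
  rw [Finset.sum_eq_zero fun C _ => h.eq2 C _ (hc C) (hsC C), sub_zero]

end Vale.Agent.P353.U
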