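import Vale.Agent.P353.U.L1d

/-! # P353, C-L1: the weak equation for Gaussian test functions, limit of cut-offs -/

open MeasureTheory Filter Topology
open scoped ContDiff ComplexConjugate

namespace Vale.Agent.P353.U

namespace L1D

variable {ι : Type} [Fintype ι] [DecidableEq ι] (D : L1D ι)

theorem norm_cc_le (k e x : X3) : ‖D.cc k e x‖ ≤ (‖D.M2‖ + ‖k‖) * ‖e‖ * (1 + ‖x‖) := by
  unfold cc
  have h1 : ‖-((inner ℝ (D.M2 x) e : ℝ) : ℂ)‖ ≤ ‖D.M2‖ * ‖x‖ * ‖e‖ := by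
    rw [norm_neg, Complex.norm_real]
    exact (norm_inner_le_norm _ _).trans
      (mul_le_mul_of_nonneg_right (D.M2.le_opNorm x) (norm_nonneg _))
  have h2 : ‖((inner ℝ k e : ℝ) : ℂ) * Complex.I‖ ≤ ‖k‖ * ‖e‖ := by
    rw [norm_mul, Complex.norm_I, mul_one, Complex.norm_real]
    exact norm_inner_le_norm _ _
  refine (norm_add_le _ _).trans ((add_le_add h1 h2).trans ?_)
  have h3 := norm_nonneg x
  have h4 : 0 ≤ ‖D.M2‖ * ‖e‖ := by positivity
  have h5 : 0 ≤ ‖k‖ * ‖e‖ * ‖x‖ := by positivity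
  nlinarith

theorem norm_bb_le (ν : ℝ) (k x : X3) :
    ‖D.bb ν k x‖ ≤ (‖k‖ ^ 2 + 2 * |ν| + 2 * (‖D.M‖ * ‖k‖)) * (1 + ‖x‖) := by
  unfold bb
  have h1 : ‖((‖k‖ ^ 2 + 2 * ν : ℝ) : ℂ)‖ ≤ ‖k‖ ^ 2 + 2 * |ν| := by
    rw [Complex.norm_real]
    refine (norm_add_le _ _).trans (le_of_eq ?_)
    simp
  have h2 : ‖2 * ((inner ℝ (D.M x) k : ℝ) : ℂ) * Complex.I‖ ≤ 2 * (‖D.M‖ * ‖x‖ * ‖k‖) := by
    rw [norm_mul, norm_mul, Complex.norm_I, mul_one, Complex.norm_real, Complex.norm_ofNat]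
    refine mul_le_mul_of_nonneg_left ?_ (by norm_num)
    exact (norm_inner_le_norm _ _).trans
      (mul_le_mul_of_nonneg_right (D.M.le_opNorm x) (norm_nonneg _))
  refine (norm_add_le _ _).trans ((add_le_add h1 h2).trans ?_)
  have h3 := norm_nonneg x
  have h4 : 0 ≤ ‖D.M‖ * ‖k‖ := by positivity
  have h5 : 0 ≤ (‖k‖ ^ 2 + 2 * |ν|) * ‖x‖ := by positivity
  nlinarith

theorem continuous_cc (k e : X3) : Continuous (D.cc k e) := (D.differentiable_cc k e).continuous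

theorem continuous_bb (ν : ℝ) (k : X3) : Continuous (D.bb ν k) := by
  unfold bb
  have : Continuous D.M := D.M.continuous
  fun_prop

/-- cut-off expression -/
noncomputable def gg (ν : ℝ) (k : X3) (ψ : X3 → ℂ) (r : ℝ) (x : X3) : ℂ :=
  ψ (r • x) * D.bb ν k x -
      ((∑ p, ((r : ℂ) ^ 2 * fderiv ℝ (fun z => fderiv ℝ ψ z (l1e p)) (r • x) (l1e p) +
        2 * (((r : ℂ) * fderiv ℝ ψ (r • x) (l1e p)) * D.cc k (l1e p) x))) +
      ∑ C, ((inner ℝ (D.τ C) x : ℝ) : ℂ) * ((r : ℂ) * fderiv ℝ ψ (r • x) (D.τ C)))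

theorem LL_scale (ν : ℝ) (k : X3) {ψ : X3 → ℂ} (hψ : ContDiff ℝ ∞ ψ) (r : ℝ) (x : X3) :
    D.LL ν (fun y => ψ (r • y) * D.EE k y) x = D.EE k x * D.gg ν k ψ r x := by
  have h : ContDiff ℝ ∞ (fun y : X3 => ψ (r • y)) := hψ.comp (contDiff_const_smul r)
  rw [D.LL_mul ν k h x]
  unfold gg
  simp only [l1_fderiv2_scale hψ]
  simp only [l1_fderiv_scale hψ]

theorem gg_bound (ν : ℝ) (k : X3) {ψ : X3 → ℂ} (hψ : ContDiff ℝ ∞ ψ)
    (hs : HasCompactSupport ψ) : ∃ C : ℝ, 0 ≤ C ∧ ∀ r : ℝ, 0 ≤ r → r ≤ 1 → ∀ x,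
      ‖D.gg ν k ψ r x‖ ≤ C * (1 + ‖x‖) ^ 1 := by
  obtain ⟨K0, hK0⟩ := hs.exists_bound_of_continuous hψ.continuous
  have h1 : ∀ e : X3, ∃ K : ℝ, ∀ y, ‖fderiv ℝ ψ y e‖ ≤ K := fun e =>
    (l1_hcs_dir hs e).exists_bound_of_continuous (l1_contDiff_dir hψ e).continuous
  have h2 : ∀ e : X3, ∃ K : ℝ, ∀ y, ‖fderiv ℝ (fun z => fderiv ℝ ψ z e) y e‖ ≤ K := fun e =>
    (l1_hcs_dir (l1_hcs_dir hs e) e).exists_bound_of_continuous
      (l1_contDiff_dir (l1_contDiff_dir hψ e) e).continuous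
  choose K1 hK1 using h1
  choose K2 hK2 using h2
  have hK0' : 0 ≤ K0 := (norm_nonneg _).trans (hK0 0)
  have hK1' : ∀ e, 0 ≤ K1 e := fun e => (norm_nonneg _).trans (hK1 e 0)
  have hK2' : ∀ e, 0 ≤ K2 e := fun e => (norm_nonneg _).trans (hK2 e 0)
  refine ⟨K0 * (‖k‖ ^ 2 + 2 * |ν| + 2 * (‖D.M‖ * ‖k‖)) +
    ((∑ p, (K2 (l1e p) + 2 * (K1 (l1e p) * ((‖D.M2‖ + ‖k‖) * ‖l1e p‖)))) +
      ∑ C, ‖D.τ C‖ * K1 (D.τ C)), ?_, fun r hr0 hr1 x => ?_⟩
  · have e1 : ∀ p, 0 ≤ K2 (l1e p) + 2 * (K1 (l1e p) * ((‖D.M2‖ + ‖k‖) * ‖l1e p‖)) := fun p => by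
      have := hK1' (l1e p); have := hK2' (l1e p); positivity
    have e2 : ∀ C, 0 ≤ ‖D.τ C‖ * K1 (D.τ C) := fun C => by
      have := hK1' (D.τ C); positivity
    have e3 := Finset.sum_nonneg fun p (_ : p ∈ Finset.univ) => e1 p
    have e4 := Finset.sum_nonneg fun C (_ : C ∈ Finset.univ) => e2 C
    positivity
  · have hx := norm_nonneg x
    have hx1 : 1 ≤ 1 + ‖x‖ := by linarith
    have hrc : ‖(r : ℂ)‖ ≤ 1 := by rw [Complex.norm_real, Real.norm_of_nonneg hr0]; exact hr1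
    unfold gg
    refine (norm_sub_le _ _).trans ?_
    rw [pow_one, add_mul, add_mul]
    refine add_le_add ?_ ((norm_add_le _ _).trans (add_le_add ?_ ?_))
    · rw [norm_mul, mul_assoc]
      exact mul_le_mul (hK0 _) (D.norm_bb_le ν k x) (norm_nonneg _) hK0'
    · rw [Finset.sum_mul]
      refine norm_sum_le_of_le _ fun p _ => ?_
      have a1 : ‖(r : ℂ) ^ 2 * fderiv ℝ (fun z => fderiv ℝ ψ z (l1e p)) (r • x) (l1e p)‖ ≤
          K2 (l1e p) := by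
        rw [norm_mul, norm_pow]
        calc ‖(r : ℂ)‖ ^ 2 * _ ≤ 1 * K2 (l1e p) :=
              mul_le_mul (pow_le_one₀ (norm_nonneg _) hrc) (hK2 _ _) (norm_nonneg _) zero_le_one
          _ = _ := one_mul _
      have a2 : ‖(r : ℂ) * fderiv ℝ ψ (r • x) (l1e p)‖ ≤ K1 (l1e p) := by
        rw [norm_mul]
        calc ‖(r : ℂ)‖ * _ ≤ 1 * K1 (l1e p) :=
              mul_le_mul hrc (hK1 _ _) (norm_nonneg _) zero_le_one
          _ = _ := one_mul _
      have a3 : ‖2 * (((r : ℂ) * fderiv ℝ ψ (r • x) (l1e p)) * D.cc k (l1e p) x)‖ ≤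
          2 * (K1 (l1e p) * ((‖D.M2‖ + ‖k‖) * ‖l1e p‖ * (1 + ‖x‖))) := by
        rw [norm_mul, Complex.norm_ofNat, norm_mul _ (D.cc k (l1e p) x)]
        refine mul_le_mul_of_nonneg_left ?_ (by norm_num)
        exact mul_le_mul a2 (D.norm_cc_le k _ x) (norm_nonneg _) (hK1' _)
      refine (norm_add_le _ _).trans ((add_le_add a1 a3).trans ?_)
      have := hK2' (l1e p)
      nlinarith
    · rw [Finset.sum_mul]
      refine norm_sum_le_of_le _ fun C _ => ?_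
      have a2 : ‖(r : ℂ) * fderiv ℝ ψ (r • x) (D.τ C)‖ ≤ K1 (D.τ C) := by
        rw [norm_mul]
        calc ‖(r : ℂ)‖ * _ ≤ 1 * K1 (D.τ C) :=
              mul_le_mul hrc (hK1 _ _) (norm_nonneg _) zero_le_one
          _ = _ := one_mul _
      have a1 : ‖((inner ℝ (D.τ C) x : ℝ) : ℂ)‖ ≤ ‖D.τ C‖ * (1 + ‖x‖) := by
        rw [Complex.norm_real]
        refine (norm_inner_le_norm _ _).trans ?_
        exact mul_le_mul_of_nonneg_left (by linarith) (norm_nonneg _)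
      rw [norm_mul]
      calc _ ≤ (‖D.τ C‖ * (1 + ‖x‖)) * K1 (D.τ C) :=
            mul_le_mul a1 a2 (norm_nonneg _) (by positivity)
        _ = _ := by ring

theorem gg_continuous (ν : ℝ) (k : X3) {ψ : X3 → ℂ} (hψ : ContDiff ℝ ∞ ψ) :
    Continuous (fun q : ℝ × X3 => D.gg ν k ψ q.1 q.2) := by
  have hs : Continuous fun q : ℝ × X3 => q.1 • q.2 := continuous_fst.smul continuous_snd
  have h0 := hψ.continuous.comp hs
  have h1 : ∀ e, Continuous fun q : ℝ × X3 => fderiv ℝ ψ (q.1 • q.2) e := fun e =>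
    (l1_contDiff_dir hψ e).continuous.comp hs
  have h2 : ∀ e, Continuous fun q : ℝ × X3 =>
      fderiv ℝ (fun z => fderiv ℝ ψ z e) (q.1 • q.2) e := fun e =>
    (l1_contDiff_dir (l1_contDiff_dir hψ e) e).continuous.comp hs
  have hr : Continuous fun q : ℝ × X3 => (q.1 : ℂ) := Complex.continuous_ofReal.comp continuous_fst
  unfold gg
  refine (h0.mul ((D.continuous_bb ν k).comp continuous_snd)).sub
    ((continuous_finsetSum _ fun p _ => ?_).add (continuous_finsetSum _ fun C _ => ?_))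
  · exact ((hr.pow 2).mul (h2 _)).add (continuous_const.mul
      ((hr.mul (h1 _)).mul ((D.continuous_cc k _).comp continuous_snd)))
  · refine Continuous.mul ?_ (hr.mul (h1 _))
    exact Complex.continuous_ofReal.comp (continuous_const.inner continuous_snd)

theorem gg_tendsto (ν : ℝ) (k : X3) {ψ : X3 → ℂ} (hψ : ContDiff ℝ ∞ ψ) {r : ℕ → ℝ}
    (hr : Tendsto r atTop (𝓝 0)) (x : X3) :
    Tendsto (fun n => D.gg ν k ψ (r n) x) atTop (𝓝 (D.gg ν k ψ 0 x)) := by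
  have h1 : Continuous fun s : ℝ => D.gg ν k ψ s x :=
    (D.gg_continuous ν k hψ).comp (continuous_id.prodMk continuous_const)
  exact (h1.tendsto 0).comp hr

theorem gg_continuous' (ν : ℝ) (k : X3) {ψ : X3 → ℂ} (hψ : ContDiff ℝ ∞ ψ) (r : ℝ) :
    Continuous (D.gg ν k ψ r) :=
  (D.gg_continuous ν k hψ).comp (continuous_const.prodMk continuous_id)

theorem gg_zero (ν : ℝ) (k : X3) {ψ : X3 → ℂ} (h1 : ψ 0 = 1) (x : X3) :
    D.gg ν k ψ 0 x = D.bb ν k x := by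
  unfold gg
  simp [h1]

end L1D

/-- **(W)** the weak equation for Gaussian test functions -/
theorem L1Sol.weak {ι : Type} [Fintype ι] [DecidableEq ι] {D : L1D ι} {ν : ℝ} {U : X3 → ℂ}
    (h : L1Sol D ν U) (k : X3) : ∫ x, inner ℂ (D.EE k x * D.bb ν k x) (U x) = 0 := by
  let b : ContDiffBump (0 : X3) := ⟨1, 2, one_pos, one_lt_two⟩
  let ψ : X3 → ℂ := fun x => ((b x : ℝ) : ℂ)
  have hψ : ContDiff ℝ ∞ ψ := Complex.ofRealCLM.contDiff.comp b.contDiff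
  have hs : HasCompactSupport ψ := b.hasCompactSupport.comp_left Complex.ofReal_zero
  have h1 : ψ 0 = 1 := by
    have : b 0 = 1 := b.one_of_mem_closedBall (by simp [b])
    simp [ψ, this]
  obtain ⟨C, hC, hb⟩ := D.gg_bound ν k hψ hs
  obtain ⟨C', hC', hp⟩ := l1_poly_gauss (c := 1 / 2) (d := 1 / 4) (by norm_num) 1
  let r : ℕ → ℝ := fun n => 1 / ((n : ℝ) + 1)
  have hr0 : ∀ n, 0 < r n := fun n => by positivity
  have hr1 : ∀ n, r n ≤ 1 := fun n => by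
    rw [div_le_one (by positivity)]
    linarith [Nat.cast_nonneg (α := ℝ) n]
  have hrt : Tendsto r atTop (𝓝 0) := tendsto_one_div_add_atTop_nhds_zero_nat
  have hbound : ∀ n x, ‖D.EE k x * D.gg ν k ψ (r n) x‖ ≤
      (C * C') * Real.exp (-(1 / 4 * ‖x‖ ^ 2)) := by
    intro n x
    rw [norm_mul]
    calc ‖D.EE k x‖ * ‖D.gg ν k ψ (r n) x‖
        ≤ Real.exp (-(1 / 2 * ‖x‖ ^ 2)) * (C * (1 + ‖x‖) ^ 1) :=
          mul_le_mul (D.norm_EE_le k x) (hb _ (hr0 n).le (hr1 n) x) (norm_nonneg _)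
            (Real.exp_pos _).le
      _ = C * ((1 + ‖x‖) ^ 1 * Real.exp (-(1 / 2 * ‖x‖ ^ 2))) := by ring
      _ ≤ C * (C' * Real.exp (-(1 / 4 * ‖x‖ ^ 2))) := mul_le_mul_of_nonneg_left (hp x) hC
      _ = _ := by ring
  have hzero : ∀ n, ∫ x, inner ℂ (D.EE k x * D.gg ν k ψ (r n) x) (U x) = 0 := by
    intro n
    have hη : ContDiff ℝ ∞ (fun y : X3 => ψ (r n • y) * D.EE k y) :=
      (hψ.comp (contDiff_const_smul (r n))).mul (D.contDiff_EE k)
    have hηs : HasCompactSupport (fun y : X3 => ψ (r n • y) * D.EE k y) :=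
      (hs.comp_smul (hr0 n).ne').mul_right
    have := h.eqL hη hηs
    simpa only [D.LL_scale ν k hψ] using this
  have hlim : Tendsto (fun n => ∫ x, inner ℂ (D.EE k x * D.gg ν k ψ (r n) x) (U x)) atTop
      (𝓝 (∫ x, inner ℂ (D.EE k x * D.bb ν k x) (U x))) := by
    refine tendsto_integral_of_dominated_convergence
      (fun x => (C * C') * (Real.exp (-(1 / 4 * ‖x‖ ^ 2)) * (1 + ‖U x‖ ^ 2))) ?_ ?_ ?_ ?_
    · intro n
      refine AEStronglyMeasurable.inner (Continuous.aestronglyMeasurable ?_) h.gr.meas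
      exact (D.contDiff_EE k).continuous.mul (D.gg_continuous' ν k hψ (r n))
    · exact (h.gr.int_dom (by norm_num)).const_mul _
    · intro n
      refine Eventually.of_forall fun x => ?_
      calc ‖inner ℂ (D.EE k x * D.gg ν k ψ (r n) x) (U x)‖
          ≤ ‖D.EE k x * D.gg ν k ψ (r n) x‖ * ‖U x‖ := norm_inner_le_norm _ _
        _ ≤ ((C * C') * Real.exp (-(1 / 4 * ‖x‖ ^ 2))) * (1 + ‖U x‖ ^ 2) := by
            refine mul_le_mul (hbound n x) ?_ (norm_nonneg _) (by positivity)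
            nlinarith [sq_nonneg (‖U x‖ - 1), norm_nonneg (U x)]
        _ = _ := by ring
    · refine Eventually.of_forall fun x => ?_
      have h2 := D.gg_tendsto ν k hψ hrt x
      rw [D.gg_zero ν k h1] at h2
      have h3 : Tendsto (fun n => D.EE k x * D.gg ν k ψ (r n) x) atTop
          (𝓝 (D.EE k x * D.bb ν k x)) := h2.const_mul _
      exact h3.inner tendsto_const_nhds
  simp only [hzero] at hlim
  exact (tendsto_nhds_unique hlim tendsto_const_nhds)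

end Vale.Agent.P353.U
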