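import Vale.Agent.P353.U.L1g

/-! # P353, C-L1: scalar Liouville theorem -/

open MeasureTheory Filter Topology
open scoped ContDiff ComplexConjugate

namespace Vale.Agent.P353.U

theorem l1_ibp {f g : X3 → ℂ} (hf : ContDiff ℝ ∞ f) (hs : HasCompactSupport f)
    (hg : ContDiff ℝ ∞ g) (e : X3) :
    ∫ x, inner ℂ (fderiv ℝ f x e) (g x) = - ∫ x, inner ℂ (f x) (fderiv ℝ g x e) := by
  have hw : ContDiff ℝ 1 (fun x => inner ℂ (f x) (g x)) :=
    (hf.inner ℂ hg).of_le (by simp)
  have hcw : HasCompactSupport (fun x => inner ℂ (f x) (g x)) := by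
    refine hs.mono ?_
    intro x hx
    simp only [Function.mem_support] at hx ⊢
    intro h0
    exact hx (by rw [h0, inner_zero_left])
  have h := integral_fderiv_eq_zero _ hw hcw e
  have hd : ∀ x, fderiv ℝ (fun x => inner ℂ (f x) (g x)) x e =
      inner ℂ (f x) (fderiv ℝ g x e) + inner ℂ (fderiv ℝ f x e) (g x) := by
    intro x
    rw [fderiv_inner_apply ℂ (l1_diff hf x) (l1_diff hg x)]
  have hi1 : Integrable (fun x => inner ℂ (f x) (fderiv ℝ g x e)) := by
    refine (hf.continuous.inner (l1_contDiff_dir hg e).continuous).integrable_of_hasCompactSupport ?_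
    refine hs.mono ?_
    intro x hx
    simp only [Function.mem_support] at hx ⊢
    intro h0
    exact hx (by rw [h0, inner_zero_left])
  have hi2 : Integrable (fun x => inner ℂ (fderiv ℝ f x e) (g x)) := by
    refine ((l1_contDiff_dir hf e).continuous.inner hg.continuous).integrable_of_hasCompactSupport ?_
    refine (l1_hcs_dir hs e).mono ?_
    intro x hx
    simp only [Function.mem_support] at hx ⊢
    intro h0
    exact hx (by rw [h0, inner_zero_left])
  simp only [hd] at h
  rw [integral_add hi1 hi2] at h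
  linear_combination h

variable {ι : Type} [Fintype ι] [DecidableEq ι]

namespace L1D

variable (D : L1D ι)

/-- the ground state -/
noncomputable def GG (x : X3) : ℂ := Complex.exp ((-(1 / 2) * inner ℝ (D.A x) x : ℝ) : ℂ)

theorem GG_eq (x : X3) : D.GG x = ((Real.exp (-(1 / 2) * inner ℝ (D.A x) x) : ℝ) : ℂ) := by
  rw [GG, Complex.ofReal_exp]

theorem norm_GG_le (x : X3) : ‖D.GG x‖ ≤ 1 := by
  rw [GG_eq, Complex.norm_real, Real.norm_of_nonneg (Real.exp_pos _).le, Real.exp_le_one_iff,
    D.symm]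
  have := D.pos x
  linarith

theorem contDiff_GG : ContDiff ℝ ∞ D.GG := by
  unfold GG
  refine ContDiff.cexp ?_
  exact Complex.ofRealCLM.contDiff.comp (contDiff_const.mul (D.A.contDiff.inner ℝ contDiff_id))

theorem fderiv_GG (x e : X3) : fderiv ℝ D.GG x e = -((inner ℝ (D.A x) e : ℝ) : ℂ) * D.GG x := by
  have h := (D.A.hasFDerivAt (x := x)).inner ℝ (hasFDerivAt_id x)
  have h1 : HasFDerivAt (fun y => -(1 / 2) * inner ℝ (D.A y) y) (-innerSL ℝ (D.A x)) x := by
    refine (h.const_mul (-(1 / 2))).congr_fderiv ?_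
    ext e
    simp only [ContinuousLinearMap.comp_apply, fderivInnerCLM_apply,
      ContinuousLinearMap.prod_apply, ContinuousLinearMap.id_apply, id,
      smul_apply, innerSL_apply_apply, smul_eq_mul, neg_apply]
    rw [D.symm e x, real_inner_comm (D.A x) e]
    ring
  have h2 := (Complex.ofRealCLM.hasFDerivAt (x := -(1 / 2) * inner ℝ (D.A x) x)).comp x h1
  have h3 : HasFDerivAt D.GG _ x := h2.cexp
  rw [h3.fderiv]
  simp [GG]
  ring

theorem fderiv_A (x e e' : X3) :
    fderiv ℝ (fun y => -((inner ℝ (D.A y) e : ℝ) : ℂ)) x e' = -((inner ℝ (D.A e') e : ℝ) : ℂ) := by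
  have h1 : HasFDerivAt (fun y => inner ℝ (D.A y) e) ((innerSL ℝ e).comp D.A) x := by
    have h0 : HasFDerivAt (fun y => inner ℝ e (D.A y)) ((innerSL ℝ e).comp D.A) x :=
      ((innerSL ℝ e).comp D.A).hasFDerivAt
    simpa only [real_inner_comm] using h0
  have h2 := (Complex.ofRealCLM.hasFDerivAt (x := inner ℝ (D.A x) e)).comp x h1
  have h3 : HasFDerivAt (fun y => -((inner ℝ (D.A y) e : ℝ) : ℂ)) _ x := h2.neg
  rw [h3.fderiv]
  simp [real_inner_comm]

theorem diff_A (x e : X3) : DifferentiableAt ℝ (fun y => -((inner ℝ (D.A y) e : ℝ) : ℂ)) x := by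
  refine (Differentiable.neg ?_) x
  exact Complex.ofRealCLM.differentiable.comp (D.A.differentiable.inner ℝ (differentiable_const e))

theorem fderiv2_GG (x e : X3) : fderiv ℝ (fun y => fderiv ℝ D.GG y e) x e =
    (((inner ℝ (D.A x) e) ^ 2 - inner ℝ (D.A e) e : ℝ) : ℂ) * D.GG x := by
  have h1 : (fun y => fderiv ℝ D.GG y e) = fun y => -((inner ℝ (D.A y) e : ℝ) : ℂ) * D.GG y := by
    funext y; exact D.fderiv_GG y e
  rw [h1, l1_fderiv_mul (D.diff_A x e) (l1_diff D.contDiff_GG x), fderiv_A, fderiv_GG]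
  push_cast
  ring

theorem gr_GG : L1Gr D.GG := by
  have hc := D.contDiff_GG.continuous
  have hloc : ∀ s : ℝ, IntegrableOn (fun x => ‖D.GG x‖ ^ 2) (Metric.ball (0 : X3) s) := fun s =>
    ((hc.norm.pow 2).continuousOn.integrableOn_compact (isCompact_closedBall (0 : X3) s)).mono_set
      Metric.ball_subset_closedBall
  refine ⟨hc.aestronglyMeasurable, fun s _ => hloc s, ?_⟩
  refine ⟨(volume (Metric.ball (0 : X3) 1)).toReal, Module.finrank ℝ X3, fun s hs => ?_⟩
  have h1 : ∫ x in Metric.ball (0 : X3) s, ‖D.GG x‖ ^ 2 ≤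
      ∫ x in Metric.ball (0 : X3) s, (1 : ℝ) := by
    refine setIntegral_mono (hloc s) ?_ fun x => ?_
    · exact integrableOn_const (by exact measure_ball_lt_top.ne)
    · exact pow_le_one₀ (norm_nonneg _) (D.norm_GG_le x)
  refine h1.trans (le_of_eq ?_)
  rw [setIntegral_const, smul_eq_mul, mul_one, Measure.real,
    Measure.addHaar_ball _ _ (by linarith), ENNReal.toReal_mul,
    ENNReal.toReal_ofReal (by positivity), mul_comm]

theorem sol_GG : L1Sol D 0 D.GG := by
  have hG := D.contDiff_GG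
  refine ⟨D.gr_GG, fun η hη hs => ?_, fun C η hη hs => ?_⟩
  · have hi2 : ∀ p, Integrable (fun x => inner ℂ
        (fderiv ℝ (fun y => fderiv ℝ η y (l1e p)) x (l1e p)) (D.GG x)) := fun p =>
      D.gr_GG.int_inner_cs (l1_contDiff_dir (l1_contDiff_dir hη _) _).continuous
        (l1_hcs_dir (l1_hcs_dir hs _) _)
    have e2 : ∀ p, ∫ x, inner ℂ (fderiv ℝ (fun y => fderiv ℝ η y (l1e p)) x (l1e p)) (D.GG x) =
        ∫ x, inner ℂ (η x) (fderiv ℝ (fun y => fderiv ℝ D.GG y (l1e p)) x (l1e p)) := fun p => by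
      rw [l1_ibp (l1_contDiff_dir hη _) (l1_hcs_dir hs _) hG,
        l1_ibp hη hs (l1_contDiff_dir hG _), neg_neg]
    have hA := D.A.continuous
    have hc0 : Continuous fun x => ((‖D.A x‖ ^ 2 - D.tr + 2 * 0 : ℝ) : ℂ) * η x := by
      have := hη.continuous
      fun_prop
    have hi0 : Integrable (fun x => inner ℂ
        (((‖D.A x‖ ^ 2 - D.tr + 2 * 0 : ℝ) : ℂ) * η x) (D.GG x)) :=
      D.gr_GG.int_inner_cs hc0 hs.mul_left
    have hn2 : Integrable (fun x => -∑ p, inner ℂ
        (fderiv ℝ (fun y => fderiv ℝ η y (l1e p)) x (l1e p)) (D.GG x)) :=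
      (integrable_finsetSum _ fun p _ => hi2 p).neg
    unfold L0
    simp only [inner_add_left, inner_neg_left, sum_inner]
    rw [integral_add hn2 hi0, integral_neg,
      integral_finsetSum _ fun p _ => hi2 p]
    simp only [e2]
    have hi3 : ∀ p, Integrable (fun x => inner ℂ (η x)
        (fderiv ℝ (fun y => fderiv ℝ D.GG y (l1e p)) x (l1e p))) := fun p => by
      refine (hη.continuous.inner (l1_contDiff_dir (l1_contDiff_dir hG _)
        _).continuous).integrable_of_hasCompactSupport ?_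
      refine hs.mono ?_
      intro x hx
      simp only [Function.mem_support] at hx ⊢
      intro h0
      exact hx (by rw [h0, inner_zero_left])
    have hn3 : Integrable (fun x => -∑ p, inner ℂ (η x)
        (fderiv ℝ (fun y => fderiv ℝ D.GG y (l1e p)) x (l1e p))) :=
      (integrable_finsetSum _ fun p _ => hi3 p).neg
    rw [← integral_finsetSum _ fun p _ => hi3 p, ← integral_neg, ← integral_add hn3 hi0]
    rw [← integral_zero X3 ℂ]
    refine integral_congr_ae (Eventually.of_forall fun x => ?_)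
    simp only [fderiv2_GG]
    rw [← inner_sum, ← Finset.sum_mul, ← Complex.ofReal_sum, Finset.sum_sub_distrib]
    have h4 : ∑ p, inner ℝ (D.A x) (l1e p) ^ 2 = ‖D.A x‖ ^ 2 := by
      rw [← real_inner_self_eq_norm_sq, l1_inner_sum]
      exact Finset.sum_congr rfl fun p _ => by rw [l1_inner_e]; ring
    rw [h4]
    simp only [RCLike.inner_apply, map_mul, Complex.conj_ofReal, tr]
    push_cast
    ring
  · rw [l1_ibp hη hs hG]
    have : ∀ x, fderiv ℝ D.GG x (D.τ C) = 0 := fun x => by
      rw [fderiv_GG, D.symm, D.Aτ, inner_zero_right]; simp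
    simp [this]

theorem FF_GG_ne : D.FF D.GG 0 ≠ 0 := by
  have h1 : ∀ x, inner ℂ (D.EE 0 x) (D.GG x) =
      ((Real.exp (-(1 / 2) * inner ℝ (D.M2 x) x) * Real.exp (-(1 / 2) * inner ℝ (D.A x) x) : ℝ) : ℂ) := by
    intro x
    rw [GG_eq, EE, ph, inner_zero_left, Complex.ofReal_zero, zero_mul, add_zero,
      ← Complex.ofReal_exp]
    simp only [RCLike.inner_apply, Complex.conj_ofReal]
    push_cast
    ring
  unfold FF
  have hint := D.int_EE D.gr_GG 0
  simp only [h1] at hint ⊢
  rw [integral_complex_ofReal, Complex.ofReal_ne_zero]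
  have hint' : Integrable (fun x : X3 => Real.exp (-(1 / 2) * inner ℝ (D.M2 x) x) *
      Real.exp (-(1 / 2) * inner ℝ (D.A x) x)) := by
    refine hint.re.congr (Eventually.of_forall fun x => ?_)
    exact Complex.ofReal_re _
  refine ne_of_gt ?_
  rw [integral_pos_iff_support_of_nonneg (fun x => by positivity) hint']
  have hsupp : Function.support (fun x : X3 => Real.exp (-(1 / 2) * inner ℝ (D.M2 x) x) *
      Real.exp (-(1 / 2) * inner ℝ (D.A x) x)) = Set.univ := by
    ext x
    simp only [Function.mem_support, Set.mem_univ, iff_true]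
    positivity
  rw [hsupp]
  exact (isOpen_univ.measure_pos volume Set.univ_nonempty)

end L1D

/-- **scalar Liouville theorem** -/
theorem L1Sol.liouville {D : L1D ι} {ν : ℝ} {U : X3 → ℂ} (hν : 0 ≤ ν) (h : L1Sol D ν U) :
    ∃ c : ℂ, (0 < ν → c = 0) ∧ ∀ᵐ x, U x = c * D.GG x := by
  obtain ⟨Γ, hΓ⟩ := L1Sol.exists_Gamma' D
  have key : ∀ c : ℂ, (∀ k, D.FF U k = c * D.FF D.GG k) → ∀ᵐ x, U x = c * D.GG x := by
    intro c hc
    have hI : Integrable fun x => inner ℂ (D.EE 0 x) (U x - c * D.GG x) := by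
      have h1 := (D.int_EE h.gr 0).sub ((D.int_EE D.gr_GG 0).const_mul c)
      refine h1.congr (Eventually.of_forall fun x => ?_)
      simp only [Pi.sub_apply, RCLike.inner_apply]
      ring
    have h0 := l1_fourier hI fun k => by
      have h1 : ∀ x, Complex.exp (((inner ℝ k x : ℝ) : ℂ) * Complex.I) *
          inner ℂ (D.EE 0 x) (U x - c * D.GG x) =
          inner ℂ (D.EE (-k) x) (U x) - c * inner ℂ (D.EE (-k) x) (D.GG x) := by
        intro x
        have h2 : conj (D.EE (-k) x) = Complex.exp (((inner ℝ k x : ℝ) : ℂ) * Complex.I) *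
            conj (D.EE 0 x) := by
          unfold L1D.EE L1D.ph
          rw [← Complex.exp_conj, ← Complex.exp_conj, ← Complex.exp_add]
          congr 1
          rw [map_add, map_add, map_mul, map_mul, Complex.conj_ofReal, Complex.conj_ofReal,
            Complex.conj_ofReal, Complex.conj_I, inner_neg_left, inner_zero_left]
          push_cast
          ring
        simp only [RCLike.inner_apply, h2]
        ring
      simp only [h1]
      rw [integral_sub (D.int_EE h.gr _) ((D.int_EE D.gr_GG _).const_mul c), integral_const_mul]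
      have := hc (-k)
      unfold L1D.FF at this
      rw [this, sub_self]
    filter_upwards [h0] with x hx
    simp only [Pi.zero_apply, RCLike.inner_apply, mul_eq_zero] at hx
    rcases hx with hx | hx
    · exact sub_eq_zero.mp hx
    · exact absurd ((map_eq_zero _).mp hx) (Complex.exp_ne_zero _)
  rcases hν.eq_or_lt with h0 | h0
  · refine ⟨D.FF U 0 / D.FF D.GG 0, fun h1 => absurd h0 h1.ne, key _ fun k => ?_⟩
    rw [(hΓ ν U h).1 h0.symm k, (hΓ 0 D.GG D.sol_GG).1 rfl k]
    have := D.FF_GG_ne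
    field_simp
  · refine ⟨0, fun _ => rfl, key 0 fun k => ?_⟩
    rw [(hΓ ν U h).2 h0 k, zero_mul]

end Vale.Agent.P353.U
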