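import Vale.Agent.P353.U.L1h
import Vale.Agent.P353.U.Defs

/-! # P353, C-L1: the concrete data -/

open MeasureTheory Filter Topology
open scoped ContDiff ComplexConjugate

namespace Vale.Agent.P353.U

/-- `A_1` as a linear map -/
noncomputable def l1Alin : X3 →ₗ[ℝ] X3 where
  toFun x := WithLp.toLp 2 fun p => A1 x p.1 p.2
  map_add' x y := by
    ext p
    simp only [A1, PiLp.add_apply, Finset.sum_add_distrib]
    split_ifs <;> ring
  map_smul' c x := by
    ext p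
    simp only [A1, PiLp.smul_apply, smul_eq_mul, RingHom.id_apply, ← Finset.mul_sum]
    split_ifs <;> ring

/-- the gauge directions -/
noncomputable def l1tau (C : Fin 3) : X3 := ∑ A, ∑ B, (eps C A B : ℝ) • l1e (ci A, B)

theorem l1Alin_apply (x : X3) (i : Fin 9) (A : Fin 3) : l1Alin x (i, A) = A1 x i A := rfl

theorem l1_sum27 (f : Fin 9 × Fin 3 → ℝ) : ∑ p, f p =
    (∑ k : Fin 3, ∑ A, f (ci k, A)) + ∑ k : Fin 6, ∑ A, f (⟨k.val + 3, by omega⟩, A) := by
  rw [Fintype.sum_prod_type]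
  simp [Fin.sum_univ_succ, ci]
  ring

theorem A1_block (x : X3) (k A : Fin 3) : A1 x (ci k) A =
    2 * (x (ci k, A) + x (ci A, k)) - (if k = A then 2 / 3 * ∑ k, x (ci k, k) else 0) := by
  have h : (ci k).val < 3 := k.2
  have h2 : (ci k = ci A) ↔ k = A := by
    constructor
    · intro h; have := congrArg Fin.val h; exact Fin.ext this
    · rintro rfl; rfl
  simp only [A1, h, dif_pos, h2]
  rfl

theorem A1_six (x : X3) (k : Fin 6) (A : Fin 3) :
    A1 x ⟨k.val + 3, by omega⟩ A = 3 * x (⟨k.val + 3, by omega⟩, A) := by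
  have h : ¬ ((⟨k.val + 3, by omega⟩ : Fin 9).val < 3) := by simp
  rw [A1, dif_neg h]

theorem l1_symm (x y : X3) : inner ℝ (l1Alin x) y = inner ℝ x (l1Alin y) := by
  rw [l1_inner_sum, l1_inner_sum, l1_sum27, l1_sum27]
  simp only [l1Alin_apply, A1_block, A1_six]
  congr 1
  · simp [Fin.sum_univ_three]
    ring
  · exact Finset.sum_congr rfl fun k _ => Finset.sum_congr rfl fun A _ => by ring

theorem l1_inner_tau (C : Fin 3) (x : X3) : inner ℝ (l1tau C) x =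
    ∑ A, ∑ B, (eps C A B : ℝ) * x (ci A, B) := by
  unfold l1tau
  simp only [sum_inner, real_inner_smul_left]
  refine Finset.sum_congr rfl fun A _ => Finset.sum_congr rfl fun B _ => ?_
  rw [real_inner_comm, l1_inner_e]

theorem l1_tau_block (C k A : Fin 3) : l1tau C (ci k, A) = (eps C k A : ℝ) := by
  rw [← l1_inner_e (l1tau C), l1_inner_tau]
  simp only [l1e, PiLp.single_apply]
  fin_cases C <;> fin_cases k <;> fin_cases A <;>
    simp [Fin.sum_univ_three, ci, eps] <;> norm_num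

theorem l1_tau_six (C : Fin 3) (k : Fin 6) (A : Fin 3) :
    l1tau C (⟨k.val + 3, by omega⟩, A) = 0 := by
  rw [← l1_inner_e (l1tau C), l1_inner_tau]
  simp only [l1e, PiLp.single_apply]
  refine Finset.sum_eq_zero fun A' _ => Finset.sum_eq_zero fun B' _ => ?_
  rw [if_neg, mul_zero]
  intro h
  have h1 := congrArg (fun q : Fin 9 × Fin 3 => q.1.val) h
  simp only [ci] at h1
  have h2 := A'.2
  omega

theorem l1_A_tau (C : Fin 3) : l1Alin (l1tau C) = 0 := by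
  have h6 : ∀ (k : Fin 6) (A : Fin 3), l1Alin (l1tau C) (⟨k.val + 3, by omega⟩, A) = 0 := by
    intro k A
    rw [l1Alin_apply, A1_six, l1_tau_six, mul_zero]
  have h3 : ∀ (k A : Fin 3), l1Alin (l1tau C) (ci k, A) = 0 := by
    intro k A
    rw [l1Alin_apply, A1_block]
    simp only [l1_tau_block]
    fin_cases C <;> fin_cases k <;> fin_cases A <;> simp [eps]
  have hz : inner ℝ (l1Alin (l1tau C)) (l1Alin (l1tau C)) = 0 := by
    rw [l1_inner_sum, l1_sum27]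
    simp only [h6, h3]
    simp
  exact inner_self_eq_zero.mp hz

theorem l1_tau_tau (C C' : Fin 3) : inner ℝ (l1tau C) (l1tau C') = if C = C' then 2 else 0 := by
  rw [l1_inner_tau]
  simp only [l1_tau_block]
  fin_cases C <;> fin_cases C' <;> simp [Fin.sum_univ_three, eps] <;> norm_num

theorem l1_inner_A (x : X3) : inner ℝ x (l1Alin x) =
    (4 * (x (ci 0, 0) ^ 2 + x (ci 1, 1) ^ 2 + x (ci 2, 2) ^ 2) -
      2 / 3 * (x (ci 0, 0) + x (ci 1, 1) + x (ci 2, 2)) ^ 2 +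
      2 * ((x (ci 0, 1) + x (ci 1, 0)) ^ 2 + (x (ci 0, 2) + x (ci 2, 0)) ^ 2 +
        (x (ci 1, 2) + x (ci 2, 1)) ^ 2)) +
      3 * ∑ k : Fin 6, ∑ A, x (⟨k.val + 3, by omega⟩, A) ^ 2 := by
  rw [l1_inner_sum, l1_sum27]
  simp only [l1Alin_apply, A1_block, A1_six]
  congr 1
  · simp [Fin.sum_univ_three]
    ring
  · simp only [Finset.mul_sum]
    exact Finset.sum_congr rfl fun k _ => Finset.sum_congr rfl fun A _ => by ring

theorem l1_norm_sq (x : X3) : ‖x‖ ^ 2 =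
    (x (ci 0, 0) ^ 2 + x (ci 1, 1) ^ 2 + x (ci 2, 2) ^ 2 + x (ci 0, 1) ^ 2 + x (ci 1, 0) ^ 2 +
      x (ci 0, 2) ^ 2 + x (ci 2, 0) ^ 2 + x (ci 1, 2) ^ 2 + x (ci 2, 1) ^ 2) +
      ∑ k : Fin 6, ∑ A, x (⟨k.val + 3, by omega⟩, A) ^ 2 := by
  rw [← real_inner_self_eq_norm_sq, l1_inner_sum, l1_sum27]
  congr 1
  · simp [Fin.sum_univ_three]
    ring
  · exact Finset.sum_congr rfl fun k _ => Finset.sum_congr rfl fun A _ => by ring

theorem l1_sum_tau (x : X3) : ∑ C, inner ℝ (l1tau C) x ^ 2 =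
    (x (ci 1, 2) - x (ci 2, 1)) ^ 2 + (x (ci 2, 0) - x (ci 0, 2)) ^ 2 +
      (x (ci 0, 1) - x (ci 1, 0)) ^ 2 := by
  simp only [l1_inner_tau]
  simp [Fin.sum_univ_three, eps]
  ring

/-- the concrete data -/
noncomputable def l1D : L1D (Fin 3) where
  A := l1Alin.toContinuousLinearMap
  τ := l1tau
  symm := l1_symm
  Aτ := l1_A_tau
  ττ := l1_tau_tau
  low x := by
    rw [LinearMap.coe_toContinuousLinearMap', l1_inner_A, l1_sum_tau, l1_norm_sq]
    have h6 : 0 ≤ ∑ k : Fin 6, ∑ A, x (⟨k.val + 3, by omega⟩, A) ^ 2 :=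
      Finset.sum_nonneg fun k _ => Finset.sum_nonneg fun A _ => sq_nonneg _
    nlinarith [sq_nonneg (x (ci 0, 1) + x (ci 1, 0)), sq_nonneg (x (ci 0, 2) + x (ci 2, 0)),
      sq_nonneg (x (ci 1, 2) + x (ci 2, 1)), sq_nonneg (x (ci 0, 0) - x (ci 1, 1)),
      sq_nonneg (x (ci 0, 0) - x (ci 2, 2)), sq_nonneg (x (ci 1, 1) - x (ci 2, 2)),
      sq_nonneg (x (ci 0, 0)), sq_nonneg (x (ci 1, 1)), sq_nonneg (x (ci 2, 2))]
  pos x := by
    rw [LinearMap.coe_toContinuousLinearMap', l1_inner_A]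
    have h6 : 0 ≤ ∑ k : Fin 6, ∑ A, x (⟨k.val + 3, by omega⟩, A) ^ 2 :=
      Finset.sum_nonneg fun k _ => Finset.sum_nonneg fun A _ => sq_nonneg _
    nlinarith [sq_nonneg (x (ci 0, 1) + x (ci 1, 0)), sq_nonneg (x (ci 0, 2) + x (ci 2, 0)),
      sq_nonneg (x (ci 1, 2) + x (ci 2, 1)), sq_nonneg (x (ci 0, 0) - x (ci 1, 1)),
      sq_nonneg (x (ci 0, 0) - x (ci 2, 2)), sq_nonneg (x (ci 1, 1) - x (ci 2, 2)),
      sq_nonneg (x (ci 0, 0)), sq_nonneg (x (ci 1, 1)), sq_nonneg (x (ci 2, 2))]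

theorem l1D_A (x : X3) (i : Fin 9) (A : Fin 3) : l1D.A x (i, A) = A1 x i A := rfl

theorem l1D_GG (x : X3) : l1D.GG x =
    (Real.exp (-(∑ i, ∑ A, x (i, A) * A1 x i A) / 2) : ℂ) := by
  rw [L1D.GG_eq]
  congr 2
  rw [l1_inner_sum, Fintype.sum_prod_type]
  simp only [l1D_A]
  rw [neg_div, neg_mul, neg_inj, one_div, div_eq_inv_mul]
  congr 1
  exact Finset.sum_congr rfl fun i _ => Finset.sum_congr rfl fun A _ => mul_comm _ _

end Vale.Agent.P353.U
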