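import Vale.Agent.P353.U.StmtA
import Vale.Agent.P353.U.StmtB
import Vale.Agent.P353.U.StmtC
import Vale.Agent.P353.Loc

/-! # P353, uniqueness for `N = 2`: local limits, algebra and scaling -/

open MeasureTheory Filter Topology
open scoped ContDiff

namespace Vale.Agent.P353.U

variable {F : Type*} [NormedAddCommGroup F] [InnerProductSpace ℂ F]

section alg

variable (S : Setup F)

lemma lm_eps_swap (A B C : Fin 3) : eps A C B = -eps A B C := by revert A B C; decide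

lemma lm_sum4 {G : Type*} [AddCommMonoid G] (f : Fin 9 → Fin 9 → Fin 3 → Fin 3 → G) :
    ∑ i, ∑ j, ∑ B, ∑ C, f i j B C = ∑ B, ∑ C, ∑ i, ∑ j, f i j B C := by
  calc ∑ i, ∑ j, ∑ B, ∑ C, f i j B C = ∑ i, ∑ B, ∑ j, ∑ C, f i j B C :=
        Finset.sum_congr rfl fun i _ => Finset.sum_comm
    _ = ∑ B, ∑ i, ∑ j, ∑ C, f i j B C := Finset.sum_comm
    _ = ∑ B, ∑ i, ∑ C, ∑ j, f i j B C :=
        Finset.sum_congr rfl fun B _ => Finset.sum_congr rfl fun i _ => Finset.sum_comm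
    _ = ∑ B, ∑ C, ∑ i, ∑ j, f i j B C := Finset.sum_congr rfl fun B _ => Finset.sum_comm

/-- the bilinear form of `W` -/
noncomputable def lmT (β : Fin 16) (x y : X3) : F →L[ℂ] F :=
  ∑ A, ∑ B, ∑ C, ∑ i, ∑ j,
    ((eps A B C : ℂ) * (x (i, B) : ℂ) * (y (j, C) : ℂ)) • S.vec (S.g2 i j) A β

lemma lm_DW (ξ : X3) (β : Fin 16) (x : X3) : S.DW ξ β x = (S.κ : ℂ) • lmT S β ξ x := by
  rw [Setup.DW, lmT]

lemma lm_W (β : Fin 16) (x : X3) : S.W β x = ((1 / 2 : ℂ) * (S.κ : ℂ)) • lmT S β x x := by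
  rw [Setup.W, lmT, mul_smul]
  congr 1
  rw [Finset.smul_sum]
  refine Finset.sum_congr rfl fun A _ => ?_
  rw [← lm_sum4, Finset.smul_sum]
  refine Finset.sum_congr rfl fun i _ => ?_
  rw [Finset.smul_sum]
  refine Finset.sum_congr rfl fun j _ => ?_
  rw [Setup.FF]
  push_cast
  rw [mul_smul]
  congr 1
  rw [Finset.sum_smul]
  refine Finset.sum_congr rfl fun B _ => ?_
  rw [Finset.sum_smul]

lemma lm_g2_swap (i j : Fin 9) : S.g2 j i = -S.g2 i j := by
  unfold CS.g2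
  rw [← smul_neg, neg_sub]

lemma lmT_symm (β : Fin 16) (x y : X3) : lmT S β y x = lmT S β x y := by
  unfold lmT
  refine Finset.sum_congr rfl fun A _ => ?_
  rw [Finset.sum_comm]
  refine Finset.sum_congr rfl fun B _ => Finset.sum_congr rfl fun C _ => ?_
  rw [Finset.sum_comm]
  refine Finset.sum_congr rfl fun i _ => Finset.sum_congr rfl fun j _ => ?_
  rw [lm_eps_swap A B C, lm_g2_swap S i j, S.vec_neg, smul_neg, ← neg_smul]
  congr 1
  push_cast
  ring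

lemma lmT_left (β : Fin 16) (a b : ℝ) (x x' y : X3) :
    lmT S β (a • x + b • x') y = (a : ℂ) • lmT S β x y + (b : ℂ) • lmT S β x' y := by
  simp only [lmT, Finset.smul_sum, ← Finset.sum_add_distrib]
  refine Finset.sum_congr rfl fun A _ => Finset.sum_congr rfl fun B _ =>
    Finset.sum_congr rfl fun C _ => Finset.sum_congr rfl fun i _ =>
    Finset.sum_congr rfl fun j _ => ?_
  rw [smul_smul, smul_smul, ← add_smul]
  congr 1
  rw [PiLp.add_apply, PiLp.smul_apply, PiLp.smul_apply, smul_eq_mul, smul_eq_mul]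
  push_cast
  ring

lemma lmT_right (β : Fin 16) (a b : ℝ) (x x' y : X3) :
    lmT S β y (a • x + b • x') = (a : ℂ) • lmT S β y x + (b : ℂ) • lmT S β y x' := by
  rw [lmT_symm, lmT_left, lmT_symm S β y x, lmT_symm S β y x']

lemma lm_W_affine (β : Fin 16) (a b : ℝ) (ξ w : X3) :
    S.W β (a • ξ + b • w) = ((a ^ 2 : ℝ) : ℂ) • S.W β ξ + ((a * b : ℝ) : ℂ) • S.DW ξ β w +
      ((b ^ 2 : ℝ) : ℂ) • S.W β w := by
  rw [lm_W, lm_W, lm_W, lm_DW, lmT_left, lmT_right, lmT_right, lmT_symm S β ξ w]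
  push_cast
  module

lemma lm_MM_affine (β : Fin 16) (a b : ℝ) (ξ w : X3) :
    S.MM β (a • ξ + b • w) = (a : ℂ) • S.MM β ξ + (b : ℂ) • S.MM β w := by
  simp only [Setup.MM, Finset.smul_sum, ← Finset.sum_add_distrib]
  refine Finset.sum_congr rfl fun i _ => Finset.sum_congr rfl fun A _ => ?_
  rw [smul_smul, smul_smul, ← add_smul]
  congr 1
  rw [PiLp.add_apply, PiLp.smul_apply, PiLp.smul_apply, smul_eq_mul, smul_eq_mul]
  push_cast
  ring

lemma lm_contDiff_MM (β : Fin 16) : ContDiff ℝ ∞ (S.MM β) := by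
  unfold Setup.MM
  refine ContDiff.sum fun i _ => ContDiff.sum fun A _ => ?_
  exact (Setup.contDiff_ofReal (contDiff_const.mul (Setup.contDiff_coord _))).smul contDiff_const

lemma lm_contDiff_DW (ξ : X3) (β : Fin 16) : ContDiff ℝ ∞ (S.DW ξ β) := by
  unfold Setup.DW
  refine ContDiff.const_smul _ (ContDiff.sum fun A _ => ContDiff.sum fun B _ =>
    ContDiff.sum fun C _ => ContDiff.sum fun i _ => ContDiff.sum fun j _ => ?_)
  exact (contDiff_const.mul (Setup.contDiff_ofReal (Setup.contDiff_coord _))).smul contDiff_const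

lemma lm_MM_symm (β : Fin 16) (x : X3) (v w : F) :
    inner ℂ (S.MM β x v) w = inner ℂ v (S.MM β x w) := by
  have h : ∀ i, ∀ α β, ((S.g i * S.Gam) α β).im = 0 := fun i =>
    Setup.mul_im_zero (S.g_im i) S.Gam_real
  simp only [Setup.MM, _root_.sum_apply, _root_.smul_apply, sum_inner, inner_sum, inner_smul_left,
    inner_smul_right, S.vec_symm _ (h _), Complex.conj_ofReal]

lemma lm_DW_symm (ξ : X3) (β : Fin 16) (x : X3) (v w : F) :
    inner ℂ (S.DW ξ β x v) w = inner ℂ v (S.DW ξ β x w) := by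
  have hc : ∀ n : ℤ, (starRingEnd ℂ) (n : ℂ) = n := fun n => by simp
  simp only [Setup.DW, _root_.sum_apply, _root_.smul_apply, sum_inner, inner_sum, inner_smul_left,
    inner_smul_right, S.vec_symm _ (S.g2_im _ _), Complex.conj_ofReal, map_mul, hc]

end alg

/-! ### scaling -/

section scaling

variable (S : Setup F)

lemma lm_scl_contDiff {φ : X3 → F} (hφ : ContDiff ℝ ∞ φ) (m : ℝ) (ξ : X3) :
    ContDiff ℝ ∞ (scl m ξ φ) := by
  have h : ContDiff ℝ ∞ (fun w : X3 => m • ξ + (Real.sqrt m)⁻¹ • w) :=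
    contDiff_const.add (contDiff_id.const_smul _)
  exact hφ.comp h

lemma lm_pd_scl {φ : X3 → F} (hφ : ContDiff ℝ ∞ φ) (m : ℝ) (ξ : X3) (i : Fin 9) (A : Fin 3)
    (w : X3) : pd i A (scl m ξ φ) w =
      (((Real.sqrt m)⁻¹ : ℝ) : ℂ) • pd i A φ (m • ξ + (Real.sqrt m)⁻¹ • w) := by
  have h1 : HasFDerivAt (fun w : X3 => m • ξ + (Real.sqrt m)⁻¹ • w)
      ((Real.sqrt m)⁻¹ • ContinuousLinearMap.id ℝ X3) w :=
    ((hasFDerivAt_id w).const_smul (Real.sqrt m)⁻¹).const_add (m • ξ)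
  have h2 := ((hφ.differentiable (by simp)) (m • ξ + (Real.sqrt m)⁻¹ • w)).hasFDerivAt.comp w h1
  have h3 : fderiv ℝ (scl m ξ φ) w = _ := h2.fderiv
  rw [pd, h3, pd, ContinuousLinearMap.comp_apply, _root_.smul_apply,
    ContinuousLinearMap.id_apply, map_smul]
  exact (Complex.coe_smul _ _).symm

/-- the scaled supercharge -/
lemma lm_Qm_scl {φ : X3 → F} (hφ : ContDiff ℝ ∞ φ) {m : ℝ} (hm : 0 < m) {ξ : X3} {β : Fin 16}
    (hcr : S.W β ξ + S.MM β ξ = 0) (w : X3) :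
    (((Real.sqrt m)⁻¹ : ℝ) : ℂ) • scl m ξ (S.Qm m β φ) w =
      S.Qlin ξ β (scl m ξ φ) w +
        ((((Real.sqrt m)⁻¹) ^ 3 : ℝ) : ℂ) • S.W β w (scl m ξ φ w) := by
  have ht : 0 < Real.sqrt m := Real.sqrt_pos.2 hm
  have ht2 : Real.sqrt m ^ 2 = m := Real.sq_sqrt hm.le
  have htc : ((Real.sqrt m : ℝ) : ℂ) ≠ 0 := Complex.ofReal_ne_zero.2 ht.ne'
  have hmc : (m : ℂ) = ((Real.sqrt m : ℝ) : ℂ) ^ 2 := by
    rw [← Complex.ofReal_pow, ht2]
  have hW : S.W β ξ = -S.MM β ξ := eq_neg_of_add_eq_zero_left hcr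
  have e1 : scl m ξ (S.Qm m β φ) w =
      S.Qm m β φ (m • ξ + (Real.sqrt m)⁻¹ • w) := rfl
  have e2 : scl m ξ φ w = φ (m • ξ + (Real.sqrt m)⁻¹ • w) := rfl
  rw [e1, Setup.Qm, Setup.Q, Setup.Qlin, Setup.Q0, lm_W_affine, lm_MM_affine, hW, ← e2]
  simp only [lm_pd_scl hφ, map_smul, ← Finset.smul_sum]
  generalize (∑ i, ∑ A, (S.vec (S.g i) A β) (pd i A φ (m • ξ + (Real.sqrt m)⁻¹ • w))) = a
  simp only [_root_.add_apply, _root_.smul_apply, _root_.neg_apply]
  generalize scl m ξ φ w = v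
  push_cast
  rw [hmc]
  match_scalars <;> field_simp <;> ring

end scaling

end Vale.Agent.P353.U
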