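import Vale.Agent.P353.U.LimA

/-! # P353, uniqueness for `N = 2`: local limits, `L²` estimates -/

open MeasureTheory Filter Topology
open scoped ContDiff

namespace Vale.Agent.P353.U

variable {F : Type*} [NormedAddCommGroup F] [InnerProductSpace ℂ F]

/-! ### local `L²` tools -/

lemma lm_intOn {f : X3 → ℝ} (hf : Continuous f) (s : ℝ) :
    IntegrableOn f (Metric.ball (0 : X3) s) :=
  (hf.continuousOn.integrableOn_compact (isCompact_closedBall 0 s)).mono_set
    Metric.ball_subset_closedBall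

lemma lm_cs {ζ f : X3 → F} {s : ℝ} (hζ : MemLp ζ 2 (volume : Measure X3))
    (hs : ∀ x, x ∉ Metric.ball (0 : X3) s → ζ x = 0)
    (hf : AEStronglyMeasurable f (volume : Measure X3))
    (hi : IntegrableOn (fun x => ‖f x‖ ^ 2) (Metric.ball (0 : X3) s)) :
    Integrable (fun x => inner ℂ (ζ x) (f x)) ∧
    ‖∫ x, inner ℂ (ζ x) (f x)‖ ≤ Real.sqrt (nsq ζ) *
      Real.sqrt (∫ x in Metric.ball (0 : X3) s, ‖f x‖ ^ 2) := by
  have hgm : AEStronglyMeasurable ((Metric.ball (0 : X3) s).indicator f)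
    (volume : Measure X3) := hf.indicator measurableSet_ball
  have hg2 : (fun x => ‖(Metric.ball (0 : X3) s).indicator f x‖ ^ 2) =
      (Metric.ball (0 : X3) s).indicator (fun x => ‖f x‖ ^ 2) := by
    funext x
    by_cases hx : x ∈ Metric.ball (0 : X3) s
    · rw [Set.indicator_of_mem hx, Set.indicator_of_mem hx]
    · rw [Set.indicator_of_notMem hx, Set.indicator_of_notMem hx]
      simp
  have hgL : MemLp ((Metric.ball (0 : X3) s).indicator f) 2 (volume : Measure X3) :=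
    (memLp_two_iff_integrable_sq_norm hgm).2
      (by rw [hg2]; exact (integrable_indicator_iff measurableSet_ball).2 hi)
  have he : (fun x => inner ℂ (ζ x) (f x)) =
      fun x => inner ℂ (ζ x) ((Metric.ball (0 : X3) s).indicator f x) := by
    funext x
    by_cases hx : x ∈ Metric.ball (0 : X3) s
    · rw [Set.indicator_of_mem hx]
    · rw [hs x hx, inner_zero_left, inner_zero_left]
  have hn : ∫ x, ‖(Metric.ball (0 : X3) s).indicator f x‖ ^ 2 =
      ∫ x in Metric.ball (0 : X3) s, ‖f x‖ ^ 2 := by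
    rw [hg2, integral_indicator measurableSet_ball]
  refine ⟨?_, ?_⟩
  · rw [he]; exact integrable_inner_memLp hζ hgL
  · rw [he, ← hn]; exact cs_inner hζ hgL

lemma lm_supp {ζ : X3 → F} (hζ : Setup.Tst ζ) :
    ∃ s : ℝ, 0 < s ∧ ∀ x, x ∉ Metric.ball (0 : X3) s → ζ x = 0 := by
  obtain ⟨C, r, -, hr, -, h⟩ := hζ.exists_bound
  refine ⟨r + 1, by linarith, fun x hx => h x ?_⟩
  rw [Metric.mem_ball, dist_zero_right, not_lt] at hx
  linarith

lemma lm_sub_sq {a b : F} : ‖a - b‖ ^ 2 ≤ 2 * ‖a‖ ^ 2 + 2 * ‖b‖ ^ 2 := by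
  have h1 := norm_sub_le a b
  have h2 := norm_nonneg (a - b)
  nlinarith [sq_nonneg (‖a‖ - ‖b‖)]

/-- weak limits from local strong limits -/
lemma lm_tend {v : ℕ → X3 → F} {u : X3 → F} (hv : ∀ k, Continuous (v k))
    (hu : StronglyMeasurable u)
    (hi : ∀ s : ℝ, 0 < s → IntegrableOn (fun x => ‖u x‖ ^ 2) (Metric.ball (0 : X3) s))
    (hl : ∀ s : ℝ, 0 < s → Tendsto (fun k => ∫ x in Metric.ball (0 : X3) s, ‖v k x - u x‖ ^ 2)
      atTop (𝓝 0)) {ζ : X3 → F} (hζ : Setup.Tst ζ) :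
    Tendsto (fun k => ∫ x, inner ℂ (ζ x) (v k x)) atTop (𝓝 (∫ x, inner ℂ (ζ x) (u x))) := by
  obtain ⟨s, hs0, hs⟩ := lm_supp hζ
  have hmem := hζ.memLp
  have hvi : ∀ k, IntegrableOn (fun x => ‖v k x‖ ^ 2) (Metric.ball (0 : X3) s) := fun k =>
    lm_intOn ((hv k).norm.pow 2) s
  have hdi : ∀ k, IntegrableOn (fun x => ‖v k x - u x‖ ^ 2) (Metric.ball (0 : X3) s) := by
    intro k
    refine Integrable.mono' (((hvi k).const_mul 2).add ((hi s hs0).const_mul 2)) ?_
      (Filter.Eventually.of_forall fun x => ?_)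
    · exact (((hv k).aestronglyMeasurable.sub hu.aestronglyMeasurable).norm.pow 2)
    · rw [Real.norm_of_nonneg (by positivity)]
      exact lm_sub_sq
  rw [tendsto_iff_norm_sub_tendsto_zero]
  have hb : ∀ k, ‖(∫ x, inner ℂ (ζ x) (v k x)) - ∫ x, inner ℂ (ζ x) (u x)‖ ≤
      Real.sqrt (nsq ζ) * Real.sqrt (∫ x in Metric.ball (0 : X3) s, ‖v k x - u x‖ ^ 2) := by
    intro k
    have i1 := (lm_cs hmem hs (hv k).aestronglyMeasurable (hvi k)).1
    have i2 := (lm_cs hmem hs hu.aestronglyMeasurable (hi s hs0)).1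
    have i3 := (lm_cs hmem hs ((hv k).aestronglyMeasurable.sub hu.aestronglyMeasurable)
      (hdi k)).2
    rw [← integral_sub i1 i2]
    simpa only [inner_sub_right, Pi.sub_apply] using i3
  refine squeeze_zero (fun k => norm_nonneg _) hb ?_
  have := ((Real.continuous_sqrt.tendsto 0).comp (hl s hs0)).const_mul (Real.sqrt (nsq ζ))
  rw [Real.sqrt_zero, mul_zero] at this
  exact this

/-- local norms tending to zero -/
lemma lm_null {v : ℕ → X3 → F} (hv : ∀ k, Continuous (v k))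
    (hl : ∀ s : ℝ, 0 < s → Tendsto (fun k => ∫ x in Metric.ball (0 : X3) s, ‖v k x‖ ^ 2)
      atTop (𝓝 0)) {ζ : X3 → F} (hζ : Setup.Tst ζ) :
    Tendsto (fun k => ∫ x, inner ℂ (ζ x) (v k x)) atTop (𝓝 0) := by
  have h := lm_tend (u := fun _ => (0 : F)) hv stronglyMeasurable_const
    (fun s _ => by simp) (fun s hs => by simpa using hl s hs) hζ
  simpa using h

/-! ### symmetry -/

section symm

variable (S : Setup F)

lemma lm_Qlin_eq (ξ : X3) (β : Fin 16) (u : X3 → F) (x : X3) :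
    S.Qlin ξ β u x = S.Q β u x + (S.MM β x + S.DW ξ β x - S.W β x) (u x) := by
  rw [Setup.Qlin, Setup.Q, Setup.Q0, _root_.sub_apply, _root_.add_apply]
  abel

lemma lm_contDiff_op (ξ : X3) (β : Fin 16) :
    ContDiff ℝ ∞ (fun x => S.MM β x + S.DW ξ β x - S.W β x) :=
  ((lm_contDiff_MM S β).add (lm_contDiff_DW S ξ β)).sub (S.contDiff_W β)

lemma lm_contDiff_Qlin (ξ : X3) (β : Fin 16) {u : X3 → F} (hu : ContDiff ℝ ∞ u) :
    ContDiff ℝ ∞ (S.Qlin ξ β u) := by
  have h : S.Qlin ξ β u = fun x => S.Q β u x + (S.MM β x + S.DW ξ β x - S.W β x) (u x) :=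
    funext fun x => lm_Qlin_eq S ξ β u x
  rw [h]
  exact (S.contDiff_Q β hu).add (Setup.contDiff_clm_apply' (lm_contDiff_op S ξ β) hu)

lemma lm_Tst_Qlin (ξ : X3) (β : Fin 16) {u : X3 → F} (hu : Setup.Tst u) :
    Setup.Tst (S.Qlin ξ β u) := by
  have h : S.Qlin ξ β u = fun x => S.Q β u x + (S.MM β x + S.DW ξ β x - S.W β x) (u x) :=
    funext fun x => lm_Qlin_eq S ξ β u x
  rw [h]
  exact (hu.Q S β).add (Setup.Tst.clm (lm_contDiff_op S ξ β) hu)

lemma lm_Qlin_symm (ξ : X3) (β : Fin 16) {ζ v : X3 → F} (hζ : Setup.Tst ζ)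
    (hv : ContDiff ℝ ∞ v) :
    ∫ x, inner ℂ (S.Qlin ξ β ζ x) (v x) = ∫ x, inner ℂ (ζ x) (S.Qlin ξ β v x) := by
  simp only [lm_Qlin_eq, inner_add_left, inner_add_right]
  rw [integral_add ((hζ.Q S β).inner_int hv.continuous)
    ((Setup.Tst.clm (lm_contDiff_op S ξ β) hζ).inner_int hv.continuous),
    integral_add (hζ.inner_int (S.contDiff_Q β hv).continuous)
    (hζ.inner_int (Setup.contDiff_clm_apply' (lm_contDiff_op S ξ β) hv).continuous),
    Q_symm S β ζ v hζ hv]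
  congr 1
  refine integral_congr_ae (Filter.Eventually.of_forall fun x => ?_)
  simp only [_root_.sub_apply, _root_.add_apply, inner_sub_left, inner_add_left, inner_sub_right,
    inner_add_right, lm_MM_symm, lm_DW_symm, S.W_symm]

end symm

end Vale.Agent.P353.U
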