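import Vale.Agent.P353.U.LimB

/-! # P353, uniqueness for `N = 2`: local limits, gradient bounds -/

open MeasureTheory Filter Topology
open scoped ContDiff

namespace Vale.Agent.P353.U

variable {F : Type*} [NormedAddCommGroup F] [InnerProductSpace ℂ F]

section grad

variable (S : Setup F)

lemma lm_Q0_eq (β : Fin 16) (u : X3 → F) (x : X3) : S.Q0 β u x = S.Q β u x - S.W β x (u x) := by
  rw [Setup.Q, Setup.Q0]; abel

lemma lm_Q0_cut (χ : X3 → ℝ) (β : Fin 16) (u : X3 → F) (x : X3) (hχ : DifferentiableAt ℝ χ x)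
    (hu : DifferentiableAt ℝ u x) :
    S.Q0 β (fun y => ((χ y : ℝ) : ℂ) • u y) x = ((χ x : ℝ) : ℂ) • S.Q0 β u x +
      S.gradOp χ β x (u x) := by
  rw [lm_Q0_eq, S.Q_cut χ β u x hχ hu, lm_Q0_eq, map_smul, smul_sub]
  abel

lemma lm_Q0_lin (ξ : X3) (β : Fin 16) (u : X3 → F) (x : X3) :
    S.Q0 β u x = S.Qlin ξ β u x - (S.MM β x (u x) + S.DW ξ β x (u x)) := by
  rw [Setup.Qlin]; abel

/-- value and derivatives of a cutoff function times `u` outside the support of the cutoff -/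
lemma lm_cut_zero {χ : X3 → ℝ} {u : X3 → F} {R : ℝ} (h : ∀ x, R ≤ ‖x‖ → χ x = 0) {x : X3}
    (hx : R < ‖x‖) (β : Fin 16) : S.Q0 β (fun y => ((χ y : ℝ) : ℂ) • u y) x = 0 := by
  have h1 : (fun y => ((χ y : ℝ) : ℂ) • u y) =ᶠ[𝓝 x] fun _ => (0 : F) := by
    have h2 : {y : X3 | R < ‖y‖} ∈ 𝓝 x := (isOpen_lt continuous_const continuous_norm).mem_nhds hx
    filter_upwards [h2] with y hy
    rw [h y (le_of_lt hy)]; simp
  have h3 : ∀ i A, pd i A (fun y => ((χ y : ℝ) : ℂ) • u y) x = 0 := by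
    intro i A
    rw [pd, h1.fderiv_eq]; simp
  rw [Setup.Q0]
  simp only [h3, map_zero, Finset.sum_const_zero, smul_zero]

lemma lm_pd_cut_one {χ : X3 → ℝ} {u : X3 → F} {R : ℝ} (h : ∀ x, ‖x‖ ≤ R → χ x = 1) {x : X3}
    (hx : ‖x‖ < R) (i : Fin 9) (A : Fin 3) :
    pd i A (fun y => ((χ y : ℝ) : ℂ) • u y) x = pd i A u x := by
  have h1 : (fun y => ((χ y : ℝ) : ℂ) • u y) =ᶠ[𝓝 x] u := by
    have h2 : {y : X3 | ‖y‖ < R} ∈ 𝓝 x := (isOpen_lt continuous_norm continuous_const).mem_nhds hx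
    filter_upwards [h2] with y hy
    rw [h y (le_of_lt hy)]; simp
  rw [pd, pd, h1.fderiv_eq]

/-- local gradient bound -/
lemma lm_grad (h8 : A8Stmt S) (ξ : X3) (hcr : ∀ β, S.W β ξ + S.MM β ξ = 0) {s : ℝ}
    (hs : 0 < s) : ∃ C : ℝ, 0 ≤ C ∧ ∀ m : ℝ, 1 ≤ m → ∀ φ : X3 → F, ContDiff ℝ ∞ φ →
      ∑ i, ∑ A, (∫ x in Metric.ball (0 : X3) s, ‖pd i A (scl m ξ φ) x‖ ^ 2) ≤
        C * (∑ β, (∫ x in Metric.ball (0 : X3) (3 * s), m⁻¹ * ‖scl m ξ (S.Qm m β φ) x‖ ^ 2) +
          ∫ x in Metric.ball (0 : X3) (3 * s), ‖scl m ξ φ x‖ ^ 2) := by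
  obtain ⟨K, hK, hcut⟩ := exists_cut
  obtain ⟨χ, hχ, hc, hχ0, hχ1, hone, hzero, -, -⟩ := hcut s hs
  -- operator bounds
  have hop : ∀ β : Fin 16, ∃ C : ℝ, 0 ≤ C ∧ ∀ x ∈ Metric.closedBall (0 : X3) (3 * s),
      ‖S.W β x‖ + ‖S.MM β x‖ + ‖S.DW ξ β x‖ + ‖S.gradOp χ β x‖ ≤ C := by
    intro β
    obtain ⟨C1, h1, hC1⟩ := S.gradOp_bound hχ hc β
    have hcont : Continuous fun x => ‖S.W β x‖ + ‖S.MM β x‖ + ‖S.DW ξ β x‖ :=
      (((S.contDiff_W β).continuous.norm).add (lm_contDiff_MM S β).continuous.norm).add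
        (lm_contDiff_DW S ξ β).continuous.norm
    obtain ⟨C2, hC2⟩ := (isCompact_closedBall (0 : X3) (3 * s)).exists_bound_of_continuousOn
      hcont.continuousOn
    refine ⟨max (C2 + C1) 0, le_max_right _ _, fun x hx => le_trans ?_ (le_max_left _ _)⟩
    have h3 := hC2 x hx
    rw [Real.norm_of_nonneg (by positivity)] at h3
    linarith [hC1 x]
  choose C0 hC0 hC0' using hop
  set C : ℝ := ∑ β, C0 β with hCdef
  have hCβ : ∀ β, C0 β ≤ C := fun β => Finset.single_le_sum (f := C0)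
    (fun β _ => hC0 β) (Finset.mem_univ β)
  have hC : 0 ≤ C := Finset.sum_nonneg fun β _ => hC0 β
  refine ⟨2 + 32 * C ^ 2, by positivity, ?_⟩
  intro m hm φ hφ
  have hm0 : 0 < m := by linarith
  set u : X3 → F := scl m ξ φ with hu
  have huc : ContDiff ℝ ∞ u := lm_scl_contDiff hφ m ξ
  set t : ℝ := (Real.sqrt m)⁻¹ with ht
  have hsq1 : 1 ≤ Real.sqrt m := by rw [Real.one_le_sqrt]; exact hm
  have ht0 : 0 ≤ t := by positivity
  have ht1 : t ≤ 1 := inv_le_one_of_one_le₀ hsq1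
  have ht3 : t ^ 3 ≤ 1 := pow_le_one₀ ht0 ht1
  have ht2 : t ^ 2 = m⁻¹ := by rw [ht, inv_pow, Real.sq_sqrt hm0.le]
  -- the cutoff function
  have hv : Setup.Tst (fun y => ((χ y : ℝ) : ℂ) • u y) := by
    refine ⟨(Setup.contDiff_ofReal hχ).smul huc, hc.mono ?_⟩
    intro x hx
    simp only [Function.mem_support] at hx ⊢
    intro h0
    exact hx (by rw [h0]; simp)
  have hA := h8 _ hv
  -- gradient on the small ball
  have hleft : ∑ i, ∑ A, (∫ x in Metric.ball (0 : X3) s, ‖pd i A u x‖ ^ 2) ≤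
      ∑ i, ∑ A, nsq (pd i A (fun y => ((χ y : ℝ) : ℂ) • u y)) := by
    refine Finset.sum_le_sum fun i _ => Finset.sum_le_sum fun A _ => ?_
    have h1 : ∫ x in Metric.ball (0 : X3) s, ‖pd i A u x‖ ^ 2 =
        ∫ x in Metric.ball (0 : X3) s, ‖pd i A (fun y => ((χ y : ℝ) : ℂ) • u y) x‖ ^ 2 := by
      refine setIntegral_congr_fun measurableSet_ball fun x hx => ?_
      rw [Metric.mem_ball, dist_zero_right] at hx
      rw [lm_pd_cut_one hone hx i A]
    rw [h1, nsq]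
    exact setIntegral_le_integral ((hv.pd i A).norm_sq_int)
      (Filter.Eventually.of_forall fun x => by positivity)
  -- supercharges
  have hQ : ∀ β, nsq (S.Q0 β (fun y => ((χ y : ℝ) : ℂ) • u y)) ≤
      2 * (∫ x in Metric.ball (0 : X3) (3 * s), m⁻¹ * ‖scl m ξ (S.Qm m β φ) x‖ ^ 2) +
        2 * C ^ 2 * ∫ x in Metric.ball (0 : X3) (3 * s), ‖u x‖ ^ 2 := by
    intro β
    have hE : ∀ x, S.Q0 β u x = ((t : ℝ) : ℂ) • scl m ξ (S.Qm m β φ) x -
        (((t ^ 3 : ℝ) : ℂ) • S.W β x (u x) + S.MM β x (u x) + S.DW ξ β x (u x)) := by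
      intro x
      rw [lm_Q0_lin S ξ, lm_Qm_scl S hφ hm0 (hcr β) x]
      abel
    have hcE : Continuous fun x => scl m ξ (S.Qm m β φ) x := by
      have h1 : ContDiff ℝ ∞ (S.Qm m β φ) := by
        have : ContDiff ℝ ∞ (fun x => S.Q β φ x + (m : ℂ) • S.MM β x (φ x)) :=
          (S.contDiff_Q β hφ).add
            ((Setup.contDiff_clm_apply' (lm_contDiff_MM S β) hφ).const_smul (m : ℂ))
        exact this
      exact (lm_scl_contDiff h1 m ξ).continuous
    have hout : ∀ x, x ∉ Metric.ball (0 : X3) (3 * s) →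
        ‖S.Q0 β (fun y => ((χ y : ℝ) : ℂ) • u y) x‖ ^ 2 = 0 := by
      intro x hx
      rw [Metric.mem_ball, dist_zero_right, not_lt] at hx
      rw [lm_cut_zero S hzero (by linarith) β]
      simp
    have hin : nsq (S.Q0 β (fun y => ((χ y : ℝ) : ℂ) • u y)) =
        ∫ x in Metric.ball (0 : X3) (3 * s),
          ‖S.Q0 β (fun y => ((χ y : ℝ) : ℂ) • u y) x‖ ^ 2 := by
      rw [nsq]
      exact (setIntegral_eq_integral_of_forall_compl_eq_zero hout).symm
    rw [hin, ← integral_const_mul, ← integral_const_mul, ← integral_add]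
    · refine integral_mono_of_nonneg (Filter.Eventually.of_forall fun x => by positivity) ?_ ?_
      · exact ((lm_intOn ((continuous_const.mul (hcE.norm.pow 2))) _).const_mul 2).add
          ((lm_intOn (huc.continuous.norm.pow 2) _).const_mul _)
      · refine (ae_restrict_iff' measurableSet_ball).2 (Filter.Eventually.of_forall fun x hx => ?_)
        have hb := hC0' β x (Metric.ball_subset_closedBall hx)
        have hbC := hb.trans (hCβ β)
        simp only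
        rw [lm_Q0_cut S χ β u x (hχ.differentiable (by simp) x)
          (huc.differentiable (by simp) x), hE x]
        set e : F := ((t : ℝ) : ℂ) • scl m ξ (S.Qm m β φ) x with he
        have hne : ‖e‖ ^ 2 = m⁻¹ * ‖scl m ξ (S.Qm m β φ) x‖ ^ 2 := by
          rw [he, norm_smul, Complex.norm_real, Real.norm_of_nonneg ht0, mul_pow, ht2]
        have h1 : ‖((χ x : ℝ) : ℂ) • (e - (((t ^ 3 : ℝ) : ℂ) • S.W β x (u x) + S.MM β x (u x) +
            S.DW ξ β x (u x))) + S.gradOp χ β x (u x)‖ ≤ ‖e‖ + C * ‖u x‖ := by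
          have a1 : ‖((χ x : ℝ) : ℂ)‖ ≤ 1 := by
            rw [Complex.norm_real, Real.norm_of_nonneg (hχ0 x)]; exact hχ1 x
          have a2 : ‖((t ^ 3 : ℝ) : ℂ)‖ ≤ 1 := by
            rw [Complex.norm_real, Real.norm_of_nonneg (by positivity)]; exact ht3
          have b1 : ‖((t ^ 3 : ℝ) : ℂ) • S.W β x (u x)‖ ≤ ‖S.W β x‖ * ‖u x‖ := by
            rw [norm_smul]
            calc ‖((t ^ 3 : ℝ) : ℂ)‖ * ‖S.W β x (u x)‖ ≤ 1 * (‖S.W β x‖ * ‖u x‖) :=
                  mul_le_mul a2 ((S.W β x).le_opNorm _) (norm_nonneg _) zero_le_one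
              _ = _ := one_mul _
          have b2 := (S.MM β x).le_opNorm (u x)
          have b3 := (S.DW ξ β x).le_opNorm (u x)
          have b4 := (S.gradOp χ β x).le_opNorm (u x)
          have c1 : ‖e - (((t ^ 3 : ℝ) : ℂ) • S.W β x (u x) + S.MM β x (u x) +
              S.DW ξ β x (u x))‖ ≤ ‖e‖ + (‖S.W β x‖ + ‖S.MM β x‖ + ‖S.DW ξ β x‖) * ‖u x‖ := by
            refine (norm_sub_le _ _).trans ?_
            have := norm_add_le (((t ^ 3 : ℝ) : ℂ) • S.W β x (u x) + S.MM β x (u x))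
              (S.DW ξ β x (u x))
            have := norm_add_le (((t ^ 3 : ℝ) : ℂ) • S.W β x (u x)) (S.MM β x (u x))
            linarith
          have c2 : ‖((χ x : ℝ) : ℂ) • (e - (((t ^ 3 : ℝ) : ℂ) • S.W β x (u x) +
              S.MM β x (u x) + S.DW ξ β x (u x)))‖ ≤
              ‖e‖ + (‖S.W β x‖ + ‖S.MM β x‖ + ‖S.DW ξ β x‖) * ‖u x‖ := by
            rw [norm_smul]
            refine le_trans ?_ c1
            calc ‖((χ x : ℝ) : ℂ)‖ * _ ≤ 1 * _ := mul_le_mul_of_nonneg_right a1 (norm_nonneg _)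
              _ = _ := one_mul _
          have c3 := mul_le_mul_of_nonneg_right hbC (norm_nonneg (u x))
          refine (norm_add_le _ _).trans ?_
          linarith
        have h2 := pow_le_pow_left₀ (norm_nonneg _) h1 2
        refine h2.trans ?_
        rw [← hne]
        nlinarith [sq_nonneg (‖e‖ - C * ‖u x‖)]
    · exact (lm_intOn ((continuous_const.mul (hcE.norm.pow 2))) _).const_mul 2
    · exact (lm_intOn (huc.continuous.norm.pow 2) _).const_mul _
  have hsum := Finset.sum_le_sum fun β (_ : β ∈ Finset.univ) => hQ β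
  rw [hA, Finset.sum_add_distrib, ← Finset.mul_sum, Finset.sum_const, Finset.card_univ,
    Fintype.card_fin, nsmul_eq_mul] at hsum
  have n1 : 0 ≤ ∑ β, (∫ x in Metric.ball (0 : X3) (3 * s),
      m⁻¹ * ‖scl m ξ (S.Qm m β φ) x‖ ^ 2) :=
    Finset.sum_nonneg fun β _ => integral_nonneg fun x => by positivity
  have n2 : 0 ≤ ∫ x in Metric.ball (0 : X3) (3 * s), ‖u x‖ ^ 2 :=
    integral_nonneg fun x => by positivity
  push_cast at hsum
  have n3 : 0 ≤ C ^ 2 * ∑ β, (∫ x in Metric.ball (0 : X3) (3 * s),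
      m⁻¹ * ‖scl m ξ (S.Qm m β φ) x‖ ^ 2) := by positivity
  have n4 : 0 ≤ C ^ 2 * ∫ x in Metric.ball (0 : X3) (3 * s), ‖u x‖ ^ 2 := by positivity
  nlinarith

end grad

/-! ### adjoints -/

section adj

/-- `L` has a formal adjoint on test functions -/
def LmAdj (L : (X3 → F) → X3 → F) : Prop :=
  (∀ v, ContDiff ℝ ∞ v → Continuous (L v)) ∧ ∀ ζ, Setup.Tst ζ → ∃ Z, Setup.Tst Z ∧
    ∀ v, ContDiff ℝ ∞ v → ∫ x, inner ℂ (ζ x) (L v x) = ∫ x, inner ℂ (Z x) (v x)

lemma LmAdj.zero : LmAdj (fun (_ : X3 → F) (_ : X3) => (0 : F)) := by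
  refine ⟨fun v _ => continuous_const, fun ζ _ => ⟨fun _ => 0, ⟨contDiff_const, ?_⟩, ?_⟩⟩
  · exact HasCompactSupport.zero
  · intro v _; simp

lemma LmAdj.add {L L' : (X3 → F) → X3 → F} (h : LmAdj L) (h' : LmAdj L') :
    LmAdj (fun v x => L v x + L' v x) := by
  refine ⟨fun v hv => (h.1 v hv).add (h'.1 v hv), fun ζ hζ => ?_⟩
  obtain ⟨Z, hZ, hZ'⟩ := h.2 ζ hζ
  obtain ⟨Y, hY, hY'⟩ := h'.2 ζ hζ
  refine ⟨fun x => Z x + Y x, hZ.add hY, fun v hv => ?_⟩
  simp only [inner_add_left, inner_add_right]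
  rw [integral_add (hζ.inner_int (h.1 v hv)) (hζ.inner_int (h'.1 v hv)),
    integral_add (hZ.inner_int hv.continuous) (hY.inner_int hv.continuous), hZ' v hv, hY' v hv]

lemma LmAdj.sum {ι : Type*} (s : Finset ι) {L : ι → (X3 → F) → X3 → F}
    (h : ∀ i, LmAdj (L i)) : LmAdj (fun v x => ∑ i ∈ s, L i v x) := by
  classical
  induction s using Finset.induction_on with
  | empty => simpa using LmAdj.zero
  | insert a s ha ih =>
    simp only [Finset.sum_insert ha]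
    exact (h a).add ih

lemma LmAdj.smul {L : (X3 → F) → X3 → F} (c : ℂ) (h : LmAdj L) :
    LmAdj (fun v x => c • L v x) := by
  refine ⟨fun v hv => (h.1 v hv).const_smul c, fun ζ hζ => ?_⟩
  obtain ⟨Z, hZ, hZ'⟩ := h.2 ζ hζ
  refine ⟨fun x => (starRingEnd ℂ) c • Z x, ⟨hZ.1.const_smul _, hZ.2.mono ?_⟩, fun v hv => ?_⟩
  · intro x hx
    simp only [Function.mem_support] at hx ⊢
    intro h0
    exact hx (by rw [h0, smul_zero])
  · simp only [inner_smul_left, inner_smul_right, RingHomCompTriple.comp_apply, RingHom.id_apply]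
    rw [integral_const_mul, integral_const_mul, hZ' v hv]

lemma LmAdj.xpd (p : Fin 9 × Fin 3) (i : Fin 9) (A : Fin 3) :
    LmAdj (fun (v : X3 → F) x => ((x p : ℝ) : ℂ) • pd i A v x) := by
  refine ⟨fun v hv => ((Setup.contDiff_ofReal (Setup.contDiff_coord p)).continuous).smul
    (contDiff_pd hv).continuous, fun ζ hζ => ?_⟩
  have h1 : Setup.Tst (fun x => ((x p : ℝ) : ℂ) • ζ x) :=
    Setup.Tst.rsmul (Setup.contDiff_coord p) hζ
  refine ⟨fun x => -pd i A (fun x => ((x p : ℝ) : ℂ) • ζ x) x, (h1.pd i A).neg, fun v hv => ?_⟩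
  have h2 := integral_inner_pd (fun x => ((x p : ℝ) : ℂ) • ζ x) v (h1.1.of_le (by simp))
    (hv.of_le (by simp)) h1.2 i A
  simp only [inner_neg_left]
  rw [integral_neg, h2, neg_neg]
  refine integral_congr_ae (Filter.Eventually.of_forall fun x => ?_)
  simp only [inner_smul_left, inner_smul_right, Complex.conj_ofReal]

lemma LmAdj.clm {T : F →L[ℂ] F} (hT : ∀ v w, inner ℂ (T v) w = inner ℂ v (T w)) :
    LmAdj (fun (v : X3 → F) x => T (v x)) := by
  refine ⟨fun v hv => T.continuous.comp hv.continuous, fun ζ hζ => ?_⟩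
  refine ⟨fun x => T (ζ x), Setup.Tst.clm (T := fun _ => T) contDiff_const hζ, fun v hv => ?_⟩
  simp only [hT]

lemma lm_adj_G (S : Setup F) (C : Fin 3) : LmAdj (S.G C) := by
  have h : LmAdj (fun (u : X3 → F) x => (-Complex.I) • ∑ i, ∑ A, ∑ B,
      ((eps C A B : ℂ) * (x (i, A) : ℂ)) • pd i B u x + S.cS C (u x)) := by
    refine LmAdj.add (LmAdj.smul _ (LmAdj.sum _ fun i => LmAdj.sum _ fun A =>
      LmAdj.sum _ fun B => ?_)) (LmAdj.clm (S.cS_symm C))
    have h1 := LmAdj.smul (F := F) (eps C A B : ℂ) (LmAdj.xpd (i, A) i B)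
    simpa only [smul_smul] using h1
  exact h

end adj

end Vale.Agent.P353.U
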