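import Vale.Agent.P353.U.StmtD
import Vale.Agent.P353.Gamma

set_option linter.all false

/-! # P353, D-2: derivatives of the outer vacuum along the cone -/

open MeasureTheory Filter Topology
open scoped ContDiff Matrix

namespace Vale.Agent.P353.OmTwo

variable {F : Type*} [NormedAddCommGroup F] [InnerProductSpace ℂ F]

variable (S : Setup F)

/-- Feynman slash -/
noncomputable def sl (y : Fin 9 → ℝ) : Matrix (Fin 16) (Fin 16) ℂ := ∑ i, ((y i : ℝ) : ℂ) • S.g i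

lemma sl_tr (y : Fin 9 → ℝ) : (sl S y)ᵀ = sl S y := by
  unfold sl
  rw [Matrix.transpose_sum]
  refine Finset.sum_congr rfl fun i _ => ?_
  rw [Matrix.transpose_smul, S.g_symm]

lemma sl_add (y w : Fin 9 → ℝ) : sl S (y + w) = sl S y + sl S w := by
  unfold sl
  rw [← Finset.sum_add_distrib]
  refine Finset.sum_congr rfl fun i _ => ?_
  rw [← add_smul]; push_cast [Pi.add_apply]; rfl

lemma sl_anti (y w : Fin 9 → ℝ) :
    sl S y * sl S w + sl S w * sl S y = ((2 * ∑ i, y i * w i : ℝ) : ℂ) • 1 := by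
  have h1 : sl S y * sl S w = ∑ i, ∑ j, ((y i * w j : ℝ) : ℂ) • (S.g i * S.g j) := by
    unfold sl
    rw [Finset.sum_mul_sum]
    refine Finset.sum_congr rfl fun i _ => Finset.sum_congr rfl fun j _ => ?_
    rw [smul_mul_smul_comm]; push_cast; rfl
  have h2 : sl S w * sl S y = ∑ i, ∑ j, ((y i * w j : ℝ) : ℂ) • (S.g j * S.g i) := by
    unfold sl
    rw [Finset.sum_mul_sum, Finset.sum_comm]
    refine Finset.sum_congr rfl fun i _ => Finset.sum_congr rfl fun j _ => ?_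
    rw [smul_mul_smul_comm, mul_comm ((w j : ℝ) : ℂ)]; push_cast; rfl
  rw [h1, h2, ← Finset.sum_add_distrib]
  simp only [← Finset.sum_add_distrib, ← smul_add, S.g_anti, smul_ite, smul_zero,
    Finset.sum_ite_eq, Finset.mem_univ, if_true]
  rw [← Finset.sum_smul]
  have h3 : (2 : Matrix (Fin 16) (Fin 16) ℂ) = (2 : ℂ) • 1 := by
    rw [← Nat.cast_ofNat (R := Matrix (Fin 16) (Fin 16) ℂ), ← Nat.cast_ofNat (R := ℂ),
      Nat.cast_smul_eq_nsmul]
    simp
  rw [h3, smul_smul]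
  congr 1
  push_cast
  ring

lemma sl_sq (y : Fin 9 → ℝ) : sl S y * sl S y = ((∑ i, y i ^ 2 : ℝ) : ℂ) • 1 := by
  have h := sl_anti S y y
  have h2 : (2 : ℂ) • (sl S y * sl S y) = (2 : ℂ) • (((∑ i, y i ^ 2 : ℝ) : ℂ) • 1) := by
    rw [two_smul, h, smul_smul]
    congr 1
    push_cast
    simp only [sq]
  have h3 := congrArg (fun M => (2 : ℂ)⁻¹ • M) h2
  simpa [smul_smul] using h3

lemma sl_swap {y w : Fin 9 → ℝ} (h : ∑ i, w i * y i = 0) : sl S y * sl S w = -(sl S w * sl S y) := by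
  have h1 := sl_anti S w y
  rw [h] at h1
  simp only [mul_zero, Complex.ofReal_zero, zero_smul] at h1
  rw [add_comm] at h1
  exact eq_neg_of_add_eq_zero_left h1

/-- part in `I3` -/
def y3 (y : Fin 9 → ℝ) (i : Fin 9) : ℝ := if i.val < 3 then y i else 0

/-- part in `I6` -/
def y6 (y : Fin 9 → ℝ) (i : Fin 9) : ℝ := if 3 ≤ i.val then y i else 0

lemma y36 (y : Fin 9 → ℝ) : y3 y + y6 y = y := by
  funext i
  simp only [Pi.add_apply, y3, y6]
  by_cases h : i.val < 3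
  · rw [if_pos h, if_neg (by omega), add_zero]
  · rw [if_neg h, if_pos (by omega), zero_add]

lemma sl36 (y : Fin 9 → ℝ) : sl S y = sl S (y3 y) + sl S (y6 y) := by
  rw [← sl_add, y36]

lemma sl3_comm (y : Fin 9 → ℝ) : sl S (y3 y) * S.Gam = S.Gam * sl S (y3 y) := by
  unfold sl
  rw [Finset.sum_mul, Finset.mul_sum]
  refine Finset.sum_congr rfl fun i _ => ?_
  rw [Matrix.smul_mul, Matrix.mul_smul]
  unfold y3
  by_cases h : i.val < 3
  · rw [if_pos h, S.g_Gam_comm h]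
  · rw [if_neg h]; simp

lemma sl6_anti (y : Fin 9 → ℝ) : sl S (y6 y) * S.Gam = -(S.Gam * sl S (y6 y)) := by
  unfold sl
  rw [Finset.sum_mul, Finset.mul_sum, ← Finset.sum_neg_distrib]
  refine Finset.sum_congr rfl fun i _ => ?_
  rw [Matrix.smul_mul, Matrix.mul_smul]
  unfold y6
  by_cases h : 3 ≤ i.val
  · rw [if_pos h, S.g_Gam_anti h, smul_neg]
  · rw [if_neg h]; simp

/-- contraction of the colour indices of a bilinear -/
noncomputable def BB (K : Matrix (Fin 3) (Fin 3) ℂ) (N : Matrix (Fin 16) (Fin 16) ℂ) : F →L[ℂ] F :=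
  ∑ A, ∑ B, K A B • S.bil N A B

lemma BB_add (K) (N M : Matrix (Fin 16) (Fin 16) ℂ) : BB S K (N + M) = BB S K N + BB S K M := by
  unfold BB
  simp only [S.bil_add, smul_add, Finset.sum_add_distrib]

lemma BB_smul (K) (c : ℂ) (N : Matrix (Fin 16) (Fin 16) ℂ) : BB S K (c • N) = c • BB S K N := by
  unfold BB
  simp only [S.bil_smul, Finset.smul_sum, smul_comm c]

lemma BB_neg (K) (N : Matrix (Fin 16) (Fin 16) ℂ) : BB S K (-N) = -BB S K N := by
  have h := BB_smul S K (-1) N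
  simpa using h

lemma BB_swap (K : Matrix (Fin 3) (Fin 3) ℂ) (N : Matrix (Fin 16) (Fin 16) ℂ) :
    BB S K N = (K.trace * N.trace) • (1 : F →L[ℂ] F) - BB S Kᵀ Nᵀ := by
  unfold BB
  have h1 : ∀ A B, K A B • S.bil N A B =
      (if A = B then (K A B * N.trace) • (1 : F →L[ℂ] F) else 0) - K A B • S.bil Nᵀ B A := by
    intro A B
    rw [S.bil_swap N A B, smul_sub]
    by_cases h : A = B
    · rw [if_pos h, if_pos h, smul_smul]
    · rw [if_neg h, if_neg h, smul_zero]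
  simp only [h1, Finset.sum_sub_distrib, Finset.sum_ite_eq, Finset.mem_univ, if_true]
  congr 1
  · rw [← Finset.sum_smul, ← Finset.sum_mul]; rfl
  · rw [Finset.sum_comm]; rfl

/-- commutator of a fermion with a contracted bilinear -/
lemma vec_comm_BB (N M : Matrix (Fin 16) (Fin 16) ℂ) (hM : Mᵀ = -M)
    (K : Matrix (Fin 3) (Fin 3) ℂ) (hK : Kᵀ = K) (C : Fin 3) (α : Fin 16) :
    S.vec N C α * BB S K M - BB S K M * S.vec N C α =
      (2 : ℂ) • ∑ B, K C B • S.vec (N * M) B α := by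
  have key : ∀ A B, S.vec N C α * S.bil M A B - S.bil M A B * S.vec N C α =
      (if C = A then S.vec (N * M) B α else 0) + (if C = B then S.vec (N * M) A α else 0) := by
    intro A B
    have hb : S.bil M A B = ∑ δ, S.vec 1 A δ * S.vec M B δ := by
      rw [S.sum_vec_mul_vec]; simp
    rw [hb, Finset.mul_sum, Finset.sum_mul, ← Finset.sum_sub_distrib]
    have h1 : ∀ δ, S.vec N C α * (S.vec 1 A δ * S.vec M B δ) -
        S.vec 1 A δ * S.vec M B δ * S.vec N C α =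
        (if C = A then (N α δ) • S.vec M B δ else 0) -
          (if C = B then ((N * Mᵀ) α δ) • S.vec 1 A δ else 0) := by
      intro δ
      have e1 := S.vec_anti N 1 C A α δ
      have e2 := S.vec_anti N M C B α δ
      have : S.vec N C α * (S.vec 1 A δ * S.vec M B δ) -
        S.vec 1 A δ * S.vec M B δ * S.vec N C α =
        (S.vec N C α * S.vec 1 A δ + S.vec 1 A δ * S.vec N C α) * S.vec M B δ -
        S.vec 1 A δ * (S.vec N C α * S.vec M B δ + S.vec M B δ * S.vec N C α) := by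
        noncomm_ring
      rw [this, e1, e2]
      congr 1
      · split_ifs
        · simp
        · simp
      · split_ifs
        · simp
        · simp
    rw [Finset.sum_congr rfl fun δ _ => h1 δ, Finset.sum_sub_distrib]
    have h2 : ∑ δ, (if C = A then (N α δ) • S.vec M B δ else 0) =
        if C = A then S.vec (N * M) B α else 0 := by
      split_ifs
      · rw [S.vec_mul]
      · simp
    have h3 : ∑ δ, (if C = B then ((N * Mᵀ) α δ) • S.vec 1 A δ else 0) =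
        if C = B then -S.vec (N * M) A α else 0 := by
      split_ifs
      · rw [← S.vec_mul, Matrix.mul_one, hM, mul_neg, S.vec_neg]
      · simp
    rw [h2, h3]
    split_ifs <;> simp
  unfold BB
  simp only [Finset.mul_sum, Finset.sum_mul, mul_smul_comm, smul_mul_assoc,
    ← Finset.sum_sub_distrib, ← smul_sub, key, smul_add, Finset.sum_add_distrib, smul_ite, smul_zero]
  rw [two_smul]
  congr 1
  · rw [Finset.sum_comm]
    simp only [Finset.sum_ite_eq, Finset.mem_univ, if_true]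
  · simp only [Finset.sum_ite_eq, Finset.mem_univ, if_true]
    refine Finset.sum_congr rfl fun A _ => ?_
    have : K A C = K C A := by
      conv_lhs => rw [← hK]
      rfl
    rw [this]

/-- projection on the complement of `n` -/
noncomputable def Pn (n : Fin 3 → ℝ) : Matrix (Fin 3) (Fin 3) ℂ :=
  Matrix.of fun A B => (((if A = B then 1 else 0) - n A * n B : ℝ) : ℂ)

/-- the matrix of `n ×` -/
noncomputable def Jn (n : Fin 3 → ℝ) : Matrix (Fin 3) (Fin 3) ℂ :=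
  Matrix.of fun A C => ∑ B, (eps A B C : ℂ) * ((n B : ℝ) : ℂ)

lemma Pn_tr (n : Fin 3 → ℝ) : (Pn n)ᵀ = Pn n := by
  ext A B
  simp only [Matrix.transpose_apply, Pn, Matrix.of_apply]
  congr 1
  rw [mul_comm (n B)]
  congr 1
  by_cases h : A = B
  · rw [if_pos h, if_pos h.symm]
  · rw [if_neg h, if_neg (fun h' => h h'.symm)]

lemma Jn_tr (n : Fin 3 → ℝ) : (Jn n)ᵀ = -Jn n := by
  ext A B
  simp only [Matrix.transpose_apply, Jn, Matrix.of_apply, Matrix.neg_apply]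
  fin_cases A <;> fin_cases B <;> simp [Fin.sum_univ_three, eps] <;> norm_num

lemma Pn_trace (n : Fin 3 → ℝ) (hn : ∑ A, n A ^ 2 = 1) : (Pn n).trace = 2 := by
  have h : ((∑ A, n A ^ 2 : ℝ) : ℂ) = 1 := by rw [hn]; norm_num
  simp only [Fin.sum_univ_three] at h
  simp only [Matrix.trace, Matrix.diag_apply, Pn, Matrix.of_apply, Fin.sum_univ_three]
  push_cast at h ⊢
  linear_combination -h

lemma Jn_trace (n : Fin 3 → ℝ) : (Jn n).trace = 0 := by
  simp [Matrix.trace, Jn, Fin.sum_univ_three, eps]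

lemma Pn_sq (n : Fin 3 → ℝ) (hn : ∑ A, n A ^ 2 = 1) : Pn n * Pn n = Pn n := by
  have h : ((∑ A, n A ^ 2 : ℝ) : ℂ) = 1 := by rw [hn]; norm_num
  simp only [Fin.sum_univ_three] at h
  push_cast at h
  have key : ∀ A B : Fin 3, (Pn n * Pn n) A B - Pn n A B =
      (n A : ℂ) * (n B : ℂ) * ((n 0 : ℂ) ^ 2 + (n 1 : ℂ) ^ 2 + (n 2 : ℂ) ^ 2 - 1) := by
    intro A B
    simp only [Matrix.mul_apply, Pn, Matrix.of_apply, Fin.sum_univ_three]
    push_cast
    fin_cases A <;> fin_cases B <;> simp <;> ring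
  ext A B
  have := key A B
  rw [h, sub_self, mul_zero] at this
  exact sub_eq_zero.1 this

lemma Jn_mul_Pn (n : Fin 3 → ℝ) : Jn n * Pn n = Jn n := by
  have key : ∀ A B : Fin 3, (Jn n * Pn n) A B = Jn n A B := by
    intro A B
    simp only [Matrix.mul_apply, Pn, Jn, Matrix.of_apply, Fin.sum_univ_three]
    push_cast
    fin_cases A <;> fin_cases B <;> simp [eps] <;> ring
  ext A B
  exact key A B

lemma n_Pn (n : Fin 3 → ℝ) (hn : ∑ A, n A ^ 2 = 1) (C : Fin 3) :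
    ∑ B, ((n B : ℝ) : ℂ) * Pn n B C = 0 := by
  have h : ((∑ A, n A ^ 2 : ℝ) : ℂ) = 1 := by rw [hn]; norm_num
  simp only [Fin.sum_univ_three] at h
  push_cast at h
  have key : ∀ C : Fin 3, ∑ B, ((n B : ℝ) : ℂ) * Pn n B C =
      (n C : ℂ) * (1 - ((n 0 : ℂ) ^ 2 + (n 1 : ℂ) ^ 2 + (n 2 : ℂ) ^ 2)) := by
    intro C
    simp only [Pn, Matrix.of_apply, Fin.sum_univ_three]
    push_cast
    fin_cases C <;> simp <;> ring
  rw [key, h, sub_self, mul_zero]

/-- `VT` in matrix form -/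
lemma VT_iff (n : Fin 3 → ℝ) (y : Fin 9 → ℝ) (v : F) : S.VT n y v ↔ ∀ A α,
    ((ry y : ℝ) : ℂ) • (∑ C, Pn n A C • S.vec 1 C α v) =
      Complex.I • ∑ C, Jn n A C • S.vec (sl S y) C α v := by
  have h1 : ∀ A α, S.th α A v - ((n A : ℝ) : ℂ) • S.thn n α v = ∑ C, Pn n A C • S.vec 1 C α v := by
    intro A α
    simp only [Pn, Matrix.of_apply, S.vec_one, Setup.thn, ContinuousLinearMap.sum_apply,
      ContinuousLinearMap.smul_apply, Finset.smul_sum, smul_smul]
    push_cast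
    simp only [sub_smul, Finset.sum_sub_distrib]
    congr 1
    simp
  have h2 : ∀ A α, (∑ B, ∑ C, ∑ i, ((eps A B C : ℂ) * (n B : ℂ) * (y i : ℂ)) •
      S.vec (S.g i) C α v) = ∑ C, Jn n A C • S.vec (sl S y) C α v := by
    intro A α
    rw [Finset.sum_comm]
    refine Finset.sum_congr rfl fun C _ => ?_
    unfold sl
    rw [S.vec_sum, ContinuousLinearMap.sum_apply]
    simp only [Jn, Matrix.of_apply, S.vec_smul, ContinuousLinearMap.smul_apply, Finset.smul_sum,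
      smul_smul, Finset.sum_mul, Finset.sum_smul]
    rw [Finset.sum_comm]
  unfold Setup.VT
  simp only [h1, h2]

lemma BB_apply (K : Matrix (Fin 3) (Fin 3) ℂ) (N : Matrix (Fin 16) (Fin 16) ℂ) (v : F) :
    BB S K N v = ∑ A, ∑ α, S.th α A (∑ B, K A B • S.vec N B α v) := by
  unfold BB CS.bil
  simp only [ContinuousLinearMap.sum_apply, ContinuousLinearMap.smul_apply,
    ContinuousLinearMap.mul_apply', map_sum, map_smul, Finset.smul_sum]
  refine Finset.sum_congr rfl fun A _ => ?_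
  rw [Finset.sum_comm]
  rfl

lemma W_mul (K : Matrix (Fin 3) (Fin 3) ℂ) (N M : Matrix (Fin 16) (Fin 16) ℂ) (A : Fin 3)
    (α : Fin 16) (v : F) : ∑ B, K A B • S.vec (N * M) B α v =
      ∑ γ, N α γ • ∑ B, K A B • S.vec M B γ v := by
  simp only [S.vec_mul, ContinuousLinearMap.sum_apply, ContinuousLinearMap.smul_apply,
    Finset.smul_sum]
  rw [Finset.sum_comm]
  refine Finset.sum_congr rfl fun γ _ => Finset.sum_congr rfl fun B _ => ?_
  rw [smul_comm]

lemma VT_BB {n : Fin 3 → ℝ} {y : Fin 9 → ℝ} {v : F} (h : S.VT n y v)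
    (N : Matrix (Fin 16) (Fin 16) ℂ) :
    ((ry y : ℝ) : ℂ) • BB S (Pn n) N v = Complex.I • BB S (Jn n) (N * sl S y) v := by
  have h' := (VT_iff S n y v).1 h
  rw [BB_apply, BB_apply, Finset.smul_sum, Finset.smul_sum]
  refine Finset.sum_congr rfl fun A _ => ?_
  rw [Finset.smul_sum, Finset.smul_sum]
  refine Finset.sum_congr rfl fun α _ => ?_
  rw [← map_smul, ← map_smul]
  congr 1
  rw [W_mul]
  have e : ∑ B, Pn n A B • S.vec N B α v = ∑ γ, N α γ • ∑ B, Pn n A B • S.vec 1 B γ v := by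
    rw [← W_mul, Matrix.mul_one]
  rw [e, Finset.smul_sum, Finset.smul_sum]
  refine Finset.sum_congr rfl fun γ _ => ?_
  rw [smul_comm, h', smul_comm]

/-- a state annihilated by all `a` -/
lemma am_th {Ω : F} (hΩ : ∀ A α, S.am A α Ω = 0) (A : Fin 3) (α : Fin 16) :
    S.th α A Ω = Complex.I • ∑ γ, S.Gam α γ • S.th γ A Ω := by
  have h := hΩ A α
  unfold Setup.am CS.vec at h
  rw [ContinuousLinearMap.smul_apply, smul_eq_zero] at h
  rcases h with h | h
  · norm_num at h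
  · rw [ContinuousLinearMap.sub_apply, ContinuousLinearMap.smul_apply,
      ContinuousLinearMap.sum_apply] at h
    simpa [ContinuousLinearMap.smul_apply] using sub_eq_zero.1 h

lemma inner_BB {Ω : F} (hΩ : ∀ A α, S.am A α Ω = 0) (K : Matrix (Fin 3) (Fin 3) ℂ)
    (N : Matrix (Fin 16) (Fin 16) ℂ) (v : F) :
    inner ℂ Ω (BB S K N v) = Complex.I * inner ℂ Ω (BB S K (S.Gam * N) v) := by
  have hre : ∀ α γ, (starRingEnd ℂ) (S.Gam α γ) = S.Gam α γ := fun α γ =>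
    Complex.conj_eq_iff_im.2 (S.Gam_real α γ)
  have hl : ∀ A α (w : F), inner ℂ Ω (S.th α A w) =
      -Complex.I * ∑ γ, S.Gam α γ * inner ℂ Ω (S.th γ A w) := by
    intro A α w
    rw [← S.th_sa, am_th S hΩ A α, inner_smul_left, sum_inner, Complex.conj_I]
    congr 1
    refine Finset.sum_congr rfl fun γ _ => ?_
    rw [inner_smul_left, hre, S.th_sa]
  rw [BB_apply, BB_apply, inner_sum, inner_sum, Finset.mul_sum]
  refine Finset.sum_congr rfl fun A _ => ?_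
  rw [inner_sum, inner_sum]
  have h1 : ∀ γ, (∑ B, K A B • S.vec (S.Gam * N) B γ v) =
      ∑ α, S.Gam γ α • ∑ B, K A B • S.vec N B α v := fun γ => W_mul S K S.Gam N A γ v
  simp only [h1]
  have gen : ∀ W : Fin 16 → F, ∑ α, inner ℂ Ω (S.th α A (W α)) =
      Complex.I * ∑ γ, inner ℂ Ω (S.th γ A (∑ α, S.Gam γ α • W α)) := by
    intro W
    have h2 : ∀ γ, inner ℂ Ω (S.th γ A (∑ α, S.Gam γ α • W α)) =
        ∑ α, S.Gam γ α * inner ℂ Ω (S.th γ A (W α)) := by
      intro γ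
      rw [map_sum, inner_sum]
      refine Finset.sum_congr rfl fun α _ => ?_
      rw [map_smul, inner_smul_right]
    simp only [h2]
    rw [Finset.sum_comm, Finset.mul_sum]
    refine Finset.sum_congr rfl fun α _ => ?_
    rw [hl A α (W α), Finset.mul_sum, Finset.mul_sum]
    refine Finset.sum_congr rfl fun γ _ => ?_
    have ht : S.Gam γ α = - S.Gam α γ := by
      have := congrFun (congrFun S.Gam_transpose α) γ
      simpa using this
    rw [ht]
    ring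
  exact gen _

/-! the functional `p` -/

lemma q_comm {Ω : F} (hΩ : ∀ A α, S.am A α Ω = 0) {n : Fin 3 → ℝ} (v : F)
    {N : Matrix (Fin 16) (Fin 16) ℂ} (hN : N * S.Gam = S.Gam * N) :
    inner ℂ Ω (BB S (Jn n) N v) = 0 := by
  have hsw : ∀ M : Matrix (Fin 16) (Fin 16) ℂ, BB S (Jn n) M = BB S (Jn n) Mᵀ := by
    intro M
    rw [BB_swap, Jn_trace, zero_mul, zero_smul, zero_sub, Jn_tr]
    unfold BB
    simp only [Matrix.neg_apply, neg_smul, Finset.sum_neg_distrib, neg_neg]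
  have h1 := inner_BB S hΩ (Jn n) N v
  have h2 : inner ℂ Ω (BB S (Jn n) (S.Gam * N) v) = - inner ℂ Ω (BB S (Jn n) (S.Gam * Nᵀ) v) := by
    rw [← hN, hsw (N * S.Gam), Matrix.transpose_mul, S.Gam_transpose, neg_mul, BB_neg,
      ContinuousLinearMap.neg_apply, inner_neg_right]
  have h3 := inner_BB S hΩ (Jn n) Nᵀ v
  rw [← hsw] at h3
  rw [h2] at h1
  have : (2 : ℂ) * inner ℂ Ω (BB S (Jn n) N v) = 0 := by linear_combination h1 + h3
  simpa using this

lemma p_comm {Ω : F} (hΩ : ∀ A α, S.am A α Ω = 0) {n : Fin 3 → ℝ} (hn : ∑ A, n A ^ 2 = 1) (v : F)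
    {N : Matrix (Fin 16) (Fin 16) ℂ} (hN : N * S.Gam = S.Gam * N) :
    inner ℂ Ω (BB S (Pn n) N v) = (N.trace + Complex.I * (N * S.Gam).trace) * inner ℂ Ω v := by
  have hsw : ∀ M : Matrix (Fin 16) (Fin 16) ℂ, inner ℂ Ω (BB S (Pn n) M v) =
      2 * M.trace * inner ℂ Ω v - inner ℂ Ω (BB S (Pn n) Mᵀ v) := by
    intro M
    conv_lhs => rw [BB_swap, Pn_trace n hn, Pn_tr]
    rw [ContinuousLinearMap.sub_apply, inner_sub_right, ContinuousLinearMap.smul_apply,
      inner_smul_right]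
    simp
  have h1 := inner_BB S hΩ (Pn n) N v
  have h3 := inner_BB S hΩ (Pn n) Nᵀ v
  have h4 := hsw N
  have h5 : inner ℂ Ω (BB S (Pn n) (N * S.Gam) v) = 2 * (N * S.Gam).trace * inner ℂ Ω v +
      inner ℂ Ω (BB S (Pn n) (S.Gam * Nᵀ) v) := by
    have h6 : BB S (Pn n) (N * S.Gam)ᵀ v = -(BB S (Pn n) (S.Gam * Nᵀ) v) := by
      rw [Matrix.transpose_mul, S.Gam_transpose, neg_mul, BB_neg, ContinuousLinearMap.neg_apply]
    rw [hsw (N * S.Gam), h6, inner_neg_right Ω (BB S (Pn n) (S.Gam * Nᵀ) v), sub_neg_eq_add]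
  rw [← hN] at h1
  have : (2 : ℂ) * inner ℂ Ω (BB S (Pn n) N v) =
      2 * ((N.trace + Complex.I * (N * S.Gam).trace) * inner ℂ Ω v) := by
    linear_combination h1 - h3 + h4 + Complex.I * h5
  exact mul_left_cancel₀ (two_ne_zero' ℂ) this

lemma sl_trace (y w : Fin 9 → ℝ) : (sl S y * sl S w).trace = 16 * ((∑ i, y i * w i : ℝ) : ℂ) := by
  have h := congrArg Matrix.trace (sl_anti S y w)
  rw [Matrix.trace_add, Matrix.trace_mul_comm (sl S w), Matrix.trace_smul, Matrix.trace_one] at h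
  have : (2 : ℂ) * (sl S y * sl S w).trace = 2 * (16 * ((∑ i, y i * w i : ℝ) : ℂ)) := by
    rw [two_mul, h]
    simp only [Fintype.card_fin]
    push_cast
    rw [smul_eq_mul]
    ring
  exact mul_left_cancel₀ two_ne_zero this

lemma sl_trace_Gam (y w : Fin 9 → ℝ) : (sl S y * sl S w * S.Gam).trace = 0 := by
  have h1 : sl S y * sl S w * S.Gam = ∑ i, ∑ j, (((y i : ℝ) : ℂ) * ((w j : ℝ) : ℂ)) •
      (S.g i * S.g j * S.g 0 * S.g 1 * S.g 2) := by
    unfold sl
    rw [Finset.sum_mul_sum, Finset.sum_mul]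
    refine Finset.sum_congr rfl fun i _ => ?_
    rw [Finset.sum_mul]
    refine Finset.sum_congr rfl fun j _ => ?_
    rw [smul_mul_smul_comm, Matrix.smul_mul]
    congr 1
    unfold Setup.Gam
    simp only [mul_assoc]
  rw [h1, Matrix.trace_sum]
  refine Finset.sum_eq_zero fun i _ => ?_
  rw [Matrix.trace_sum]
  refine Finset.sum_eq_zero fun j _ => ?_
  rw [Matrix.trace_smul, S.toCS.trace_ggggg, smul_zero]

lemma y36_orth (y w : Fin 9 → ℝ) : ∑ i, y6 w i * y3 y i = 0 := by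
  refine Finset.sum_eq_zero fun i _ => ?_
  unfold y3 y6
  by_cases h : i.val < 3
  · rw [if_neg (by omega : ¬ 3 ≤ i.val), zero_mul]
  · rw [if_neg h, mul_zero]

lemma sq36 (y : Fin 9 → ℝ) : ∑ i, y i ^ 2 = ∑ i, y3 y i ^ 2 + ∑ i, y6 y i ^ 2 := by
  rw [← Finset.sum_add_distrib]
  refine Finset.sum_congr rfl fun i _ => ?_
  unfold y3 y6
  by_cases h : i.val < 3
  · rw [if_pos h, if_neg (by omega : ¬ 3 ≤ i.val)]; ring
  · rw [if_neg h, if_pos (by omega : 3 ≤ i.val)]; ring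

lemma ry_sq (y : Fin 9 → ℝ) : ry y ^ 2 = ∑ i, y i ^ 2 :=
  Real.sq_sqrt (Finset.sum_nonneg fun i _ => sq_nonneg _)

/-- the pairing of `Ω` with the rotation term -/
lemma pair {Ω : F} (hΩ : ∀ A α, S.am A α Ω = 0) {n : Fin 3 → ℝ} (hn : ∑ A, n A ^ 2 = 1)
    {y : Fin 9 → ℝ} {v : F} (hv : S.VT n y v) (hy : 0 < ry y) (w : Fin 9 → ℝ) :
    ((∑ i, y6 y i ^ 2 : ℝ) : ℂ) * inner ℂ Ω (BB S (Pn n) (sl S w * sl S y) v) =
      16 * ((ry y ^ 2 : ℝ) : ℂ) * ((∑ i, y6 w i * y6 y i : ℝ) : ℂ) * inner ℂ Ω v := by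
  have hr0 : ((ry y : ℝ) : ℂ) ≠ 0 := by
    rw [Ne, Complex.ofReal_eq_zero]; exact hy.ne'
  have hr2 : ((∑ i, y i ^ 2 : ℝ) : ℂ) = ((ry y : ℝ) : ℂ) ^ 2 := by
    rw [← ry_sq]; push_cast; ring
  have hC : ∀ N : Matrix (Fin 16) (Fin 16) ℂ, ((ry y : ℝ) : ℂ) * inner ℂ Ω (BB S (Pn n) N v) =
      Complex.I * inner ℂ Ω (BB S (Jn n) (N * sl S y) v) := by
    intro N
    rw [← inner_smul_right, VT_BB S hv, inner_smul_right]
  have hadd : ∀ (K : Matrix (Fin 3) (Fin 3) ℂ) (N M : Matrix (Fin 16) (Fin 16) ℂ),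
      inner ℂ Ω (BB S K (N + M) v) = inner ℂ Ω (BB S K N v) + inner ℂ Ω (BB S K M v) := by
    intro K N M
    rw [BB_add, ContinuousLinearMap.add_apply, inner_add_right]
  have hsm : ∀ (K : Matrix (Fin 3) (Fin 3) ℂ) (c : ℂ) (N : Matrix (Fin 16) (Fin 16) ℂ),
      inner ℂ Ω (BB S K (c • N) v) = c * inner ℂ Ω (BB S K N v) := by
    intro K c N
    rw [BB_smul, ContinuousLinearMap.smul_apply, inner_smul_right]
  -- (0) the total
  have m0 : ∀ w : Fin 9 → ℝ, sl S w * sl S y * sl S y = (((ry y : ℝ) : ℂ) ^ 2) • sl S w := by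
    intro w
    rw [mul_assoc (sl S w), sl_sq, Matrix.mul_smul, Matrix.mul_one, hr2]
  have e0 : ((ry y : ℝ) : ℂ) * inner ℂ Ω (BB S (Pn n) (sl S w * sl S y) v) =
      Complex.I * (((ry y : ℝ) : ℂ) ^ 2 * inner ℂ Ω (BB S (Jn n) (sl S (y6 w)) v)) := by
    rw [hC, m0, hsm]
    congr 2
    conv_lhs => rw [sl36 S w]
    rw [hadd, q_comm S hΩ v (sl3_comm S w), zero_add]
  -- (1)
  have e1 : ((ry y : ℝ) : ℂ) * inner ℂ Ω (BB S (Pn n) (sl S (y6 w) * sl S y) v) =
      Complex.I * (((ry y : ℝ) : ℂ) ^ 2 * inner ℂ Ω (BB S (Jn n) (sl S (y6 w)) v)) := by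
    rw [hC, m0, hsm]
  -- (2)
  have e2 : inner ℂ Ω (BB S (Pn n) (sl S (y6 w) * sl S y) v) =
      inner ℂ Ω (BB S (Pn n) (sl S (y6 w) * sl S (y3 y)) v) +
        16 * ((∑ i, y6 w i * y6 y i : ℝ) : ℂ) * inner ℂ Ω v := by
    have m1 : sl S (y6 w) * sl S y = sl S (y6 w) * sl S (y3 y) + sl S (y6 w) * sl S (y6 y) := by
      conv_lhs => rw [sl36 S y]
      rw [Matrix.mul_add]
    rw [m1, hadd]
    congr 1
    rw [p_comm S hΩ hn, sl_trace, sl_trace_Gam]
    · ring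
    · rw [mul_assoc, sl6_anti, mul_neg, ← mul_assoc, sl6_anti, neg_mul, neg_neg, mul_assoc]
  -- (3)
  have e4 : sl S (y6 w) * sl S (y3 y) * sl S y =
      ((∑ i, y3 y i ^ 2 : ℝ) : ℂ) • sl S (y6 w) + sl S (y6 w) * sl S (y3 y) * sl S (y6 y) := by
    conv_lhs => rw [sl36 S y]
    rw [mul_add, mul_assoc (sl S (y6 w)) (sl S (y3 y)) (sl S (y3 y)), sl_sq, Matrix.mul_smul,
      Matrix.mul_one]
  have e5 : inner ℂ Ω (BB S (Jn n) (sl S (y6 w) * sl S (y3 y) * sl S (y6 y)) v) = 0 := by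
    refine q_comm S hΩ v ?_
    rw [mul_assoc, sl6_anti, mul_neg, ← mul_assoc, mul_assoc (sl S (y6 w)), sl3_comm, ← mul_assoc,
      sl6_anti, neg_mul, neg_mul, neg_neg]
    simp only [mul_assoc]
  have e3 : ((ry y : ℝ) : ℂ) * inner ℂ Ω (BB S (Pn n) (sl S (y6 w) * sl S (y3 y)) v) =
      Complex.I * (((∑ i, y3 y i ^ 2 : ℝ) : ℂ) * inner ℂ Ω (BB S (Jn n) (sl S (y6 w)) v)) := by
    rw [hC, e4, hadd, hsm, e5, add_zero]
  have hs : ((ry y : ℝ) : ℂ) ^ 2 = ((∑ i, y3 y i ^ 2 : ℝ) : ℂ) + ((∑ i, y6 y i ^ 2 : ℝ) : ℂ) := by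
    rw [← hr2, sq36]; push_cast; ring
  generalize inner ℂ Ω (BB S (Jn n) (sl S (y6 w)) v) = q at *
  generalize inner ℂ Ω (BB S (Pn n) (sl S w * sl S y) v) = p at *
  generalize inner ℂ Ω (BB S (Pn n) (sl S (y6 w) * sl S (y3 y)) v) = p2 at *
  generalize ((∑ i, y3 y i ^ 2 : ℝ) : ℂ) = s3 at *
  generalize ((∑ i, y6 y i ^ 2 : ℝ) : ℂ) = s6 at *
  generalize ((∑ i, y6 w i * y6 y i : ℝ) : ℂ) = t at *
  rw [e2] at e1
  have hcast : ((ry y ^ 2 : ℝ) : ℂ) = ((ry y : ℝ) : ℂ) ^ 2 := by push_cast; ring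
  rw [hcast]
  generalize ((ry y : ℝ) : ℂ) = r at *
  refine mul_left_cancel₀ hr0 ?_
  linear_combination s6 * e0 - r ^ 2 * e1 + r ^ 2 * e3 - Complex.I * r ^ 2 * q * hs

/-! analysis along the line `y + t w` -/

lemma cone_line (n : Fin 3 → ℝ) (y w : Fin 9 → ℝ) (t : ℝ) :
    cone n (y + t • w) = cone n y + t • cone n w := by
  ext p
  simp [cone]
  ring

lemma cone_line' (n e : Fin 3 → ℝ) (y : Fin 9 → ℝ) (t : ℝ) :
    cone (n + t • e) y = cone n y + t • cone e y := by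
  ext p
  simp [cone]
  ring

lemma rho6sq_cont : Continuous (rho6sq) := by
  unfold rho6sq
  refine continuous_finset_sum _ fun i _ => continuous_finset_sum _ fun A _ => ?_
  split_ifs
  · fun_prop
  · fun_prop

lemma rho6sq_cone {n : Fin 3 → ℝ} (hn : ∑ A, n A ^ 2 = 1) (y : Fin 9 → ℝ) :
    rho6sq (cone n y) = ∑ i, y6 y i ^ 2 := by
  unfold rho6sq
  refine Finset.sum_congr rfl fun i _ => ?_
  have : ∀ A, (cone n y) (i, A) = y i * n A := fun A => rfl
  simp only [this]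
  unfold y6
  by_cases h : 3 ≤ i.val
  · simp only [if_pos h, mul_pow]
    rw [← Finset.mul_sum, hn, mul_one]
  · simp only [if_neg h]; simp

lemma ry_pos {n : Fin 3 → ℝ} (hn : ∑ A, n A ^ 2 = 1) {y : Fin 9 → ℝ} (h : 0 < rho6sq (cone n y)) :
    0 < ry y := by
  unfold ry
  rw [Real.sqrt_pos, sq36]
  rw [rho6sq_cone hn] at h
  have : 0 ≤ ∑ i, y3 y i ^ 2 := Finset.sum_nonneg fun i _ => sq_nonneg _
  linarith

lemma om_diff {Ω : F} (hs : U.SmStmt S) (hΩ : ∀ A α, S.am A α Ω = 0) {x : X3}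
    (hx : 0 < rho6sq x) : DifferentiableAt ℝ (S.om Ω) x := by
  have h1 := (hs Ω hΩ).1
  have ho : IsOpen {x : X3 | 0 < rho6sq x} := isOpen_lt continuous_const rho6sq_cont
  exact ((h1.contDiffAt (ho.mem_nhds hx)).differentiableAt (by simp))

lemma om_line {Ω : F} (hs : U.SmStmt S) (hΩ : ∀ A α, S.am A α Ω = 0) {n : Fin 3 → ℝ}
    {y : Fin 9 → ℝ} (hx : 0 < rho6sq (cone n y)) (w : Fin 9 → ℝ) :
    HasDerivAt (fun t : ℝ => S.om Ω (cone n (y + t • w)))
      (fderiv ℝ (S.om Ω) (cone n y) (cone n w)) 0 := by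
  have h1 : HasDerivAt (fun t : ℝ => cone n y + t • cone n w) (cone n w) 0 := by
    simpa using ((hasDerivAt_id (0 : ℝ)).smul_const (cone n w)).const_add (cone n y)
  have h2 := (om_diff S hs hΩ hx).hasFDerivAt
  have h3 : HasFDerivAt (S.om Ω) (fderiv ℝ (S.om Ω) (cone n y))
      ((fun t : ℝ => cone n y + t • cone n w) 0) := by simpa using h2
  have h4 := h3.comp_hasDerivAt (0 : ℝ) h1
  refine h4.congr_of_eventuallyEq (Filter.Eventually.of_forall fun t => ?_)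
  simp only [Function.comp, cone_line]

lemma ev_pos {n : Fin 3 → ℝ} {y : Fin 9 → ℝ} (hx : 0 < rho6sq (cone n y)) (w : Fin 9 → ℝ) :
    ∀ᶠ t : ℝ in 𝓝 0, 0 < rho6sq (cone n (y + t • w)) := by
  have hc : Continuous fun t : ℝ => rho6sq (cone n (y + t • w)) := by
    simp only [cone_line]
    exact rho6sq_cont.comp (by fun_prop)
  have h0 : 0 < rho6sq (cone n (y + (0 : ℝ) • w)) := by simpa using hx
  exact hc.continuousAt.eventually (isOpen_Ioi.mem_nhds h0)

/-- an identically vanishing curve has derivative `0` -/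
lemma deriv_zero {E : Type*} [NormedAddCommGroup E] [NormedSpace ℝ E] {f : ℝ → E} {f' : E}
    (h : HasDerivAt f f' 0) (h0 : ∀ᶠ t in 𝓝 (0 : ℝ), f t = 0) : f' = 0 := by
  have h1 : HasDerivAt f 0 0 := (hasDerivAt_const (0 : ℝ) (0 : E)).congr_of_eventuallyEq h0
  exact h.unique h1

lemma clm_deriv (T : F →L[ℂ] F) {f : ℝ → F} {f' : F} {t : ℝ} (h : HasDerivAt f f' t) :
    HasDerivAt (fun s => T (f s)) (T f') t :=
  (T.restrictScalars ℝ).hasFDerivAt.comp_hasDerivAt t h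

/-! the operators of `VT` and `VN` -/

/-- `∑_B K_{AB} (N θ^B)_α` -/
noncomputable def KV (K : Matrix (Fin 3) (Fin 3) ℂ) (N : Matrix (Fin 16) (Fin 16) ℂ) (A : Fin 3)
    (α : Fin 16) : F →L[ℂ] F := ∑ B, K A B • S.vec N B α

lemma KV_apply (K : Matrix (Fin 3) (Fin 3) ℂ) (N : Matrix (Fin 16) (Fin 16) ℂ) (A : Fin 3)
    (α : Fin 16) (v : F) : KV S K N A α v = ∑ B, K A B • S.vec N B α v := by
  simp [KV]

lemma KV_smul (K : Matrix (Fin 3) (Fin 3) ℂ) (c : ℂ) (N : Matrix (Fin 16) (Fin 16) ℂ) (A : Fin 3)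
    (α : Fin 16) : KV S K (c • N) A α = c • KV S K N A α := by
  simp only [KV, S.vec_smul, Finset.smul_sum, smul_comm c]

lemma KV_neg (K : Matrix (Fin 3) (Fin 3) ℂ) (N : Matrix (Fin 16) (Fin 16) ℂ) (A : Fin 3)
    (α : Fin 16) : KV S K (-N) A α = -KV S K N A α := by
  have h := KV_smul S K (-1) N A α
  simpa using h

lemma KV_add (K : Matrix (Fin 3) (Fin 3) ℂ) (N M : Matrix (Fin 16) (Fin 16) ℂ) (A : Fin 3)
    (α : Fin 16) : KV S K (N + M) A α = KV S K N A α + KV S K M A α := by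
  simp only [KV, S.vec_add, smul_add, Finset.sum_add_distrib]

lemma KV_mul (K : Matrix (Fin 3) (Fin 3) ℂ) (N M : Matrix (Fin 16) (Fin 16) ℂ) (A : Fin 3)
    (α : Fin 16) (v : F) : KV S K (N * M) A α v = ∑ γ, N α γ • KV S K M A γ v := by
  rw [KV_apply, W_mul]
  simp only [KV_apply]

lemma KV_comm (L : Matrix (Fin 3) (Fin 3) ℂ) (N M : Matrix (Fin 16) (Fin 16) ℂ) (hM : Mᵀ = -M)
    (K : Matrix (Fin 3) (Fin 3) ℂ) (hK : Kᵀ = K) (A : Fin 3) (α : Fin 16) (v : F) :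
    KV S L N A α (BB S K M v) =
      BB S K M (KV S L N A α v) + (2 : ℂ) • KV S (L * K) (N * M) A α v := by
  have h : KV S L N A α * BB S K M - BB S K M * KV S L N A α =
      (2 : ℂ) • KV S (L * K) (N * M) A α := by
    unfold KV
    rw [Finset.sum_mul, Finset.mul_sum, ← Finset.sum_sub_distrib]
    have h1 : ∀ B, L A B • S.vec N B α * BB S K M - BB S K M * L A B • S.vec N B α =
        L A B • ((2 : ℂ) • ∑ C, K B C • S.vec (N * M) C α) := by
      intro B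
      rw [smul_mul_assoc, mul_smul_comm, ← smul_sub, vec_comm_BB S N M hM K hK]
    simp only [h1]
    simp only [Finset.smul_sum, Matrix.mul_apply, Finset.sum_smul, smul_smul]
    rw [Finset.sum_comm]
    refine Finset.sum_congr rfl fun C _ => Finset.sum_congr rfl fun B _ => ?_
    congr 1
    ring
  have h3 : ∀ T U W : F →L[ℂ] F, T * U - U * T = W → T (U v) = U (T v) + W v := by
    intro T U W h
    rw [← h]
    have : (T * U - U * T) v = T (U v) - U (T v) := rfl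
    rw [this, add_sub_cancel]
  exact h3 _ _ _ h

lemma VT_iff' (n : Fin 3 → ℝ) (y : Fin 9 → ℝ) (v : F) : S.VT n y v ↔ ∀ A α,
    ((ry y : ℝ) : ℂ) • KV S (Pn n) 1 A α v = Complex.I • KV S (Jn n) (sl S y) A α v := by
  rw [VT_iff]
  simp only [KV_apply]

/-- row matrix with all rows equal to `n` -/
noncomputable def Rn (n : Fin 3 → ℝ) : Matrix (Fin 3) (Fin 3) ℂ :=
  Matrix.of fun _ B => ((n B : ℝ) : ℂ)

lemma Rn_mul_Pn (n : Fin 3 → ℝ) (hn : ∑ A, n A ^ 2 = 1) : Rn n * Pn n = 0 := by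
  ext A C
  rw [Matrix.mul_apply]
  simp only [Rn, Matrix.of_apply, Matrix.zero_apply]
  exact n_Pn n hn C

lemma VN_iff' (n : Fin 3 → ℝ) (v : F) : S.VN n v ↔ ∀ α,
    KV S (Rn n) 1 0 α v = Complex.I • KV S (Rn n) S.Gam 0 α v := by
  unfold Setup.VN Setup.thn
  simp only [KV_apply, Rn, Matrix.of_apply, S.vec_one, ContinuousLinearMap.sum_apply,
    ContinuousLinearMap.smul_apply]

lemma sl_line (y w : Fin 9 → ℝ) (t : ℝ) : sl S (y + t • w) = sl S y + (t : ℂ) • sl S w := by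
  rw [sl_add]
  congr 1
  unfold sl
  rw [Finset.smul_sum]
  refine Finset.sum_congr rfl fun i _ => ?_
  rw [smul_smul]
  push_cast [Pi.smul_apply, smul_eq_mul]
  rfl

lemma ry_deriv {y w : Fin 9 → ℝ} (hy : 0 < ry y) (hw : ∑ i, w i * y i = 0) :
    HasDerivAt (fun t : ℝ => ry (y + t • w)) 0 0 := by
  have h1 : HasDerivAt (fun t : ℝ => ∑ i, (y + t • w) i ^ 2) 0 0 := by
    have h2 : HasDerivAt (fun t : ℝ => ∑ i, (y + t • w) i ^ 2)
        (∑ i, 2 * (w i * y i)) 0 := by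
      refine HasDerivAt.fun_sum fun i _ => ?_
      have h3 : HasDerivAt (fun t : ℝ => y i + t * w i) (w i) 0 := by
        simpa using ((hasDerivAt_id (0 : ℝ)).mul_const (w i)).const_add (y i)
      have h4 := h3.pow 2
      simp only [Pi.add_apply, Pi.smul_apply, smul_eq_mul]
      refine h4.congr_deriv ?_
      simp
      ring
    rw [← Finset.mul_sum, hw, mul_zero] at h2
    exact h2
  have h5 : (∑ i, (y + (0 : ℝ) • w) i ^ 2) ≠ 0 := by
    have : 0 < ∑ i, y i ^ 2 := by rw [← ry_sq]; positivity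
    simpa using this.ne'
  have h6 := h1.sqrt h5
  simpa [ry] using h6

/-- differentiated `VT` -/
lemma dVT {Ω : F} (hs : U.SmStmt S) (h1 : U.Om1Stmt S) (hΩ : ∀ A α, S.am A α Ω = 0)
    {n : Fin 3 → ℝ} (hn : ∑ A, n A ^ 2 = 1) {y : Fin 9 → ℝ} (hx : 0 < rho6sq (cone n y))
    {w : Fin 9 → ℝ} (hw : ∑ i, w i * y i = 0) (A : Fin 3) (α : Fin 16) :
    ((ry y : ℝ) : ℂ) • KV S (Pn n) 1 A α (fderiv ℝ (S.om Ω) (cone n y) (cone n w)) =
      Complex.I • (KV S (Jn n) (sl S y) A α (fderiv ℝ (S.om Ω) (cone n y) (cone n w)) +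
        KV S (Jn n) (sl S w) A α (S.om Ω (cone n y))) := by
  set v' := fderiv ℝ (S.om Ω) (cone n y) (cone n w) with hv'
  set f : ℝ → F := fun t => S.om Ω (cone n (y + t • w)) with hf
  have hd : HasDerivAt f v' 0 := om_line S hs hΩ hx w
  have hf0 : f 0 = S.om Ω (cone n y) := by simp [hf]
  have hr : HasDerivAt (fun t : ℝ => ry (y + t • w)) 0 0 := ry_deriv (ry_pos hn hx) hw
  have e1 : HasDerivAt (fun t : ℝ => ry (y + t • w) • KV S (Pn n) 1 A α (f t))
      (ry (y + (0 : ℝ) • w) • KV S (Pn n) 1 A α v' + (0 : ℝ) • KV S (Pn n) 1 A α (f 0)) 0 :=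
    hr.smul (clm_deriv (KV S (Pn n) 1 A α) hd)
  have e2 : HasDerivAt (fun t : ℝ => t • KV S (Jn n) (sl S w) A α (f t))
      ((0 : ℝ) • KV S (Jn n) (sl S w) A α v' + (1 : ℝ) • KV S (Jn n) (sl S w) A α (f 0)) 0 :=
    (hasDerivAt_id (0 : ℝ)).smul (clm_deriv (KV S (Jn n) (sl S w) A α) hd)
  have e3 := clm_deriv (KV S (Jn n) (sl S y) A α) hd
  have e4 := clm_deriv (Complex.I • (1 : F →L[ℂ] F)) (e3.add e2)
  have e5 := e1.sub e4
  have ev : ∀ᶠ t in 𝓝 (0 : ℝ), (ry (y + t • w) • KV S (Pn n) 1 A α (f t) -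
      (Complex.I • (1 : F →L[ℂ] F)) (KV S (Jn n) (sl S y) A α (f t) +
        t • KV S (Jn n) (sl S w) A α (f t))) = 0 := by
    filter_upwards [ev_pos hx w] with t ht
    have h2 := ((VT_iff' S n (y + t • w) (f t)).1 (h1 Ω hΩ n (y + t • w) hn ht).1) A α
    rw [sl_line, KV_add, KV_smul] at h2
    rw [sub_eq_zero]
    simpa using h2
  have e6 := deriv_zero e5 ev
  rw [sub_eq_zero] at e6
  rw [hf0] at e6
  simpa using e6

/-- differentiated `VN` -/
lemma dVN {Ω : F} (hs : U.SmStmt S) (h1 : U.Om1Stmt S) (hΩ : ∀ A α, S.am A α Ω = 0)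
    {n : Fin 3 → ℝ} (hn : ∑ A, n A ^ 2 = 1) {y : Fin 9 → ℝ} (hx : 0 < rho6sq (cone n y))
    (w : Fin 9 → ℝ) : S.VN n (fderiv ℝ (S.om Ω) (cone n y) (cone n w)) := by
  rw [VN_iff']
  intro α
  set v' := fderiv ℝ (S.om Ω) (cone n y) (cone n w) with hv'
  set f : ℝ → F := fun t => S.om Ω (cone n (y + t • w)) with hf
  have hd : HasDerivAt f v' 0 := om_line S hs hΩ hx w
  have e1 := clm_deriv (KV S (Rn n) 1 0 α) hd
  have e2 := clm_deriv (Complex.I • KV S (Rn n) S.Gam 0 α) hd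
  have e5 := e1.sub e2
  have ev : ∀ᶠ t in 𝓝 (0 : ℝ), (KV S (Rn n) 1 0 α (f t) -
      (Complex.I • KV S (Rn n) S.Gam 0 α) (f t)) = 0 := by
    filter_upwards [ev_pos hx w] with t ht
    have h2 := (VN_iff' S n (f t)).1 (h1 Ω hΩ n (y + t • w) hn ht).2.1 α
    rw [sub_eq_zero, h2]
    rfl
  have e6 := deriv_zero e5 ev
  rw [sub_eq_zero] at e6
  exact e6

/-- the pairing of `Ω` with the derivative -/
lemma dpair {Ω : F} (hs : U.SmStmt S) (h1 : U.Om1Stmt S) (hΩ : ∀ A α, S.am A α Ω = 0)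
    {n : Fin 3 → ℝ} (hn : ∑ A, n A ^ 2 = 1) {y : Fin 9 → ℝ} (hx : 0 < rho6sq (cone n y))
    {w : Fin 9 → ℝ} (hw : ∑ i, w i * y i = 0) :
    inner ℂ Ω (fderiv ℝ (S.om Ω) (cone n y) (cone n w)) =
      (((∑ i, y6 y i ^ 2) * (∑ i, y6 w i * y6 y i) / (4 * ry y ^ 4) : ℝ) : ℂ) *
        ((‖Ω‖ ^ 2 : ℝ) : ℂ) := by
  set v' := fderiv ℝ (S.om Ω) (cone n y) (cone n w) with hv'
  set f : ℝ → F := fun t => S.om Ω (cone n (y + t • w)) with hf
  have hd : HasDerivAt f v' 0 := om_line S hs hΩ hx w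
  have hy := ry_pos hn hx
  have hr : HasDerivAt (fun t : ℝ => ry (y + t • w)) 0 0 := ry_deriv hy hw
  have e1 : HasDerivAt (fun t : ℝ => inner ℂ Ω (f t)) (inner ℂ Ω v') 0 :=
    ((innerSL ℂ Ω).restrictScalars ℝ).hasFDerivAt.comp_hasDerivAt 0 hd
  -- the scalar function
  have e2 : HasDerivAt (fun t : ℝ => ∑ i, y6 (y + t • w) i ^ 2)
      (2 * ∑ i, y6 w i * y6 y i) 0 := by
    have h2 : HasDerivAt (fun t : ℝ => ∑ i, y6 (y + t • w) i ^ 2)
        (∑ i, 2 * (y6 w i * y6 y i)) 0 := by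
      refine HasDerivAt.fun_sum fun i _ => ?_
      have h3 : HasDerivAt (fun t : ℝ => y6 y i + t * y6 w i) (y6 w i) 0 := by
        simpa using ((hasDerivAt_id (0 : ℝ)).mul_const (y6 w i)).const_add (y6 y i)
      have h4 := h3.pow 2
      have h5 : (fun t : ℝ => y6 (y + t • w) i ^ 2) = fun t : ℝ => (y6 y i + t * y6 w i) ^ 2 := by
        funext t
        unfold y6
        by_cases h : 3 ≤ i.val
        · simp [if_pos h]
        · simp [if_neg h]
      rw [h5]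
      refine h4.congr_deriv ?_
      simp
      ring
    rw [← Finset.mul_sum] at h2
    exact h2
  have e3 : HasDerivAt (fun t : ℝ => (((∑ i, y6 (y + t • w) i ^ 2) / ry (y + t • w) ^ 2) ^ 2 / 16) *
      ‖Ω‖ ^ 2) ((∑ i, y6 y i ^ 2) * (∑ i, y6 w i * y6 y i) / (4 * ry y ^ 4) * ‖Ω‖ ^ 2) 0 := by
    have hr2 := hr.pow 2
    have hne : (fun t : ℝ => ry (y + t • w)) 0 ^ 2 ≠ 0 := by
      have : (fun t : ℝ => ry (y + t • w)) 0 = ry y := by simp
      rw [this]; positivity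
    have h6 := (((e2.div hr2 hne).pow 2).div_const 16).mul_const (‖Ω‖ ^ 2)
    refine h6.congr_deriv ?_
    simp
    left
    field_simp
    ring
  have ev : (fun t : ℝ => inner ℂ Ω (f t)) =ᶠ[𝓝 0] fun t : ℝ =>
      (((((∑ i, y6 (y + t • w) i ^ 2) / ry (y + t • w) ^ 2) ^ 2 / 16) * ‖Ω‖ ^ 2 : ℝ) : ℂ) := by
    filter_upwards [ev_pos hx w] with t ht
    have h2 := (h1 Ω hΩ n (y + t • w) hn ht).2.2
    rw [rho6sq_cone hn] at h2
    rw [h2]
    push_cast
    rfl
  have e4 := (e3.ofReal_comp).congr_of_eventuallyEq ev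
  have e5 := e1.unique e4
  rw [e5]
  push_cast
  rfl

/-- expansion of the rotation term -/
lemma BB_expand (n : Fin 3 → ℝ) (y w : Fin 9 → ℝ) (v : F) :
    BB S (Pn n) (sl S w * sl S y) v = ∑ A, ∑ B, ∑ i, ∑ j,
      ((((if A = B then 1 else 0) - n A * n B) * w i * y j : ℝ) : ℂ) •
        S.bil (S.g i * S.g j) A B v := by
  unfold BB
  simp only [ContinuousLinearMap.sum_apply, ContinuousLinearMap.smul_apply]
  refine Finset.sum_congr rfl fun A _ => Finset.sum_congr rfl fun B _ => ?_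
  have h1 : sl S w * sl S y = ∑ i, ∑ j, ((w i * y j : ℝ) : ℂ) • (S.g i * S.g j) := by
    unfold sl
    rw [Finset.sum_mul_sum]
    refine Finset.sum_congr rfl fun i _ => Finset.sum_congr rfl fun j _ => ?_
    rw [smul_mul_smul_comm]; push_cast; rfl
  rw [h1, S.bil_sum]
  simp only [S.bil_sum, S.bil_smul, ContinuousLinearMap.sum_apply, ContinuousLinearMap.smul_apply,
    Finset.smul_sum, smul_smul]
  refine Finset.sum_congr rfl fun i _ => Finset.sum_congr rfl fun j _ => ?_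
  congr 1
  unfold Pn
  rw [Matrix.of_apply, ← Complex.ofReal_mul, mul_assoc]

theorem first {Ω : F} (hΩ0 : Ω ≠ 0) (hs : U.SmStmt S) (h1 : U.Om1Stmt S) (hu : U.VUniqStmt S)
    (hΩ : ∀ A α, S.am A α Ω = 0)
    {n : Fin 3 → ℝ} (hn : ∑ A, n A ^ 2 = 1) {y : Fin 9 → ℝ} (hx : 0 < rho6sq (cone n y))
    {w : Fin 9 → ℝ} (hw : ∑ i, w i * y i = 0) :
    fderiv ℝ (S.om Ω) (cone n y) (cone n w) =
      ((1 / (4 * ry y ^ 2) : ℝ) : ℂ) • BB S (Pn n) (sl S w * sl S y) (S.om Ω (cone n y)) := by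
  have hy := ry_pos hn hx
  have hd := dVT S hs h1 hΩ hn hx hw
  have hN := dVN S hs h1 hΩ hn hx w
  have hp := dpair S hs h1 hΩ hn hx hw
  obtain ⟨hvT, hvN, hv0⟩ := h1 Ω hΩ n y hn hx
  have hq := pair S hΩ hn hvT hy w
  generalize fderiv ℝ (S.om Ω) (cone n y) (cone n w) = v' at *
  have hu' := hu Ω hΩ0 hΩ n y hn hx
  generalize S.om Ω (cone n y) = v at *
  have hM : (sl S w * sl S y)ᵀ = -(sl S w * sl S y) := by
    rw [Matrix.transpose_mul, sl_tr, sl_tr, sl_swap S hw]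
  have hr0 : ((ry y : ℝ) : ℂ) ≠ 0 := by
    rw [Ne, Complex.ofReal_eq_zero]; exact hy.ne'
  have hr2 : ((∑ i, y i ^ 2 : ℝ) : ℂ) = ((ry y : ℝ) : ℂ) ^ 2 := by
    rw [← ry_sq]; push_cast; ring
  have m1 : sl S w * sl S y * sl S y = (((ry y : ℝ) : ℂ) ^ 2) • sl S w := by
    rw [mul_assoc (sl S w), sl_sq, Matrix.mul_smul, Matrix.mul_one, hr2]
  have m2 : sl S y * (sl S w * sl S y) = -((((ry y : ℝ) : ℂ) ^ 2) • sl S w) := by
    rw [← mul_assoc, sl_swap S hw, neg_mul, m1]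
  have hc : ((1 / (4 * ry y ^ 2) : ℝ) : ℂ) = 1 / (4 * ((ry y : ℝ) : ℂ) ^ 2) := by
    push_cast; ring
  rw [← sub_eq_zero]
  set u := v' - ((1 / (4 * ry y ^ 2) : ℝ) : ℂ) • BB S (Pn n) (sl S w * sl S y) v with hudef
  have hT : S.VT n y u := by
    rw [VT_iff']
    intro A α
    have g1 := (VT_iff' S n y v).1 hvT A α
    have g2 := hd A α
    have g3 := KV_comm S (Pn n) 1 _ hM (Pn n) (Pn_tr n) A α v
    have g4 := KV_comm S (Jn n) (sl S y) _ hM (Pn n) (Pn_tr n) A α v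
    rw [Pn_sq n hn, Matrix.one_mul] at g3
    rw [Jn_mul_Pn, m2, KV_neg, KV_smul] at g4
    have g5 : ((ry y : ℝ) : ℂ) • KV S (Pn n) (sl S w * sl S y) A α v =
        Complex.I • (((ry y : ℝ) : ℂ) ^ 2 • KV S (Jn n) (sl S w) A α v) := by
      have e : KV S (Pn n) (sl S w * sl S y) A α v =
          ∑ γ, (sl S w * sl S y) α γ • KV S (Pn n) 1 A γ v := by
        rw [← KV_mul, Matrix.mul_one]
      have e2 : (((ry y : ℝ) : ℂ) ^ 2) • KV S (Jn n) (sl S w) A α v =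
          KV S (Jn n) (sl S w * sl S y * sl S y) A α v := by
        rw [m1, KV_smul]; rfl
      rw [e, e2, KV_mul, Finset.smul_sum, Finset.smul_sum]
      refine Finset.sum_congr rfl fun γ _ => ?_
      rw [smul_comm, (VT_iff' S n y v).1 hvT A γ, smul_comm]
    have g6 := congrArg (fun z => BB S (Pn n) (sl S w * sl S y) z) g1
    simp only [map_smul] at g6
    rw [hudef, map_sub, map_sub, map_smul, map_smul, g3, g4]
    have g7 : (-((((ry y : ℝ) : ℂ) ^ 2) • KV S (Jn n) (sl S w) A α)) v =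
        -((((ry y : ℝ) : ℂ) ^ 2) • KV S (Jn n) (sl S w) A α v) := rfl
    rw [g7, hc]
    generalize BB S (Pn n) (sl S w * sl S y) (KV S (Pn n) 1 A α v) = Z1 at *
    generalize BB S (Pn n) (sl S w * sl S y) (KV S (Jn n) (sl S y) A α v) = Z2 at *
    generalize KV S (Jn n) (sl S w) A α v = W at *
    generalize KV S (Pn n) (sl S w * sl S y) A α v = X at *
    generalize KV S (Pn n) 1 A α v' = a1 at *
    generalize KV S (Jn n) (sl S y) A α v' = b1 at *
    have hc4 : (4 : ℂ) * (1 / (4 * ((ry y : ℝ) : ℂ) ^ 2)) * ((ry y : ℝ) : ℂ) ^ 2 = 1 := by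
      field_simp
    generalize (1 / (4 * ((ry y : ℝ) : ℂ) ^ 2)) = c at *
    generalize ((ry y : ℝ) : ℂ) = r at *
    have e1 : r • (a1 - c • (Z1 + (2 : ℂ) • X)) = r • a1 - c • (r • Z1) - (2 * c) • (r • X) := by
      module
    rw [e1, g2, g6, g5]
    have e2 : Complex.I • (b1 + W) - c • Complex.I • Z2 - (2 * c) • Complex.I • r ^ 2 • W =
        Complex.I • (b1 - c • (Z2 + (2 : ℂ) • -(r ^ 2 • W))) +
          (1 - 4 * c * r ^ 2) • (Complex.I • W) := by
      module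
    rw [e2, hc4, sub_self, zero_smul, add_zero]
  have hN' : S.VN n u := by
    rw [VN_iff']
    intro α
    have g1 := (VN_iff' S n v).1 hvN α
    have g2 := (VN_iff' S n v').1 hN α
    have g3 := KV_comm S (Rn n) 1 _ hM (Pn n) (Pn_tr n) 0 α v
    have g4 := KV_comm S (Rn n) S.Gam _ hM (Pn n) (Pn_tr n) 0 α v
    have hz : ∀ N, KV S 0 N 0 α v = 0 := by
      intro N; rw [KV_apply]; simp
    rw [Rn_mul_Pn n hn, hz, smul_zero, add_zero] at g3 g4
    rw [hudef, map_sub, map_sub, map_smul, map_smul, g3, g4, g1, g2, map_smul, smul_sub]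
    rw [smul_comm Complex.I]
  obtain ⟨l, hl⟩ := hu' u hT hN'
  have hs6 : 0 < ∑ i, y6 y i ^ 2 := by rw [← rho6sq_cone hn]; exact hx
  have hs6' : ((∑ i, y6 y i ^ 2 : ℝ) : ℂ) ≠ 0 := by
    rw [Ne, Complex.ofReal_eq_zero]; exact hs6.ne'
  have hΩ2 : ((‖Ω‖ ^ 2 : ℝ) : ℂ) ≠ 0 := by
    rw [Ne, Complex.ofReal_eq_zero]
    have := norm_pos_iff.2 hΩ0
    positivity
  rw [rho6sq_cone hn] at hv0
  have hin : inner ℂ Ω u = 0 := by
    have e1 : inner ℂ Ω u = inner ℂ Ω v' - ((1 / (4 * ry y ^ 2) : ℝ) : ℂ) *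
        inner ℂ Ω (BB S (Pn n) (sl S w * sl S y) v) := by
      rw [hudef, inner_sub_right, inner_smul_right]
    rw [e1, hp]
    rw [hv0] at hq
    generalize inner ℂ Ω (BB S (Pn n) (sl S w * sl S y) v) = p at *
    have hq' : p = ((16 * ry y ^ 2 * (∑ i, y6 w i * y6 y i) *
        ((∑ i, y6 y i ^ 2) / ry y ^ 2) ^ 2 / 16 / (∑ i, y6 y i ^ 2) : ℝ) : ℂ) *
          ((‖Ω‖ ^ 2 : ℝ) : ℂ) := by
      refine mul_left_cancel₀ hs6' ?_
      rw [hq]
      push_cast
      push_cast at hs6'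
      field_simp
    rw [hq', ← mul_assoc, ← sub_mul, ← Complex.ofReal_mul, ← Complex.ofReal_sub]
    have : (∑ i, y6 y i ^ 2) * (∑ i, y6 w i * y6 y i) / (4 * ry y ^ 4) -
        1 / (4 * ry y ^ 2) * (16 * ry y ^ 2 * (∑ i, y6 w i * y6 y i) *
        ((∑ i, y6 y i ^ 2) / ry y ^ 2) ^ 2 / 16 / (∑ i, y6 y i ^ 2)) = 0 := by
      field_simp
      ring
    rw [this]; simp
  rw [hl, inner_smul_right, hv0] at hin
  have hne : ((((∑ i, y6 y i ^ 2) / ry y ^ 2) ^ 2 / 16 : ℝ) : ℂ) * ((‖Ω‖ ^ 2 : ℝ) : ℂ) ≠ 0 := by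
    refine mul_ne_zero ?_ hΩ2
    rw [Ne, Complex.ofReal_eq_zero]
    have : 0 < ((∑ i, y6 y i ^ 2) / ry y ^ 2) ^ 2 / 16 := by positivity
    exact this.ne'
  rcases mul_eq_zero.1 hin with h | h
  · rw [hl, h, zero_smul]
  · exact absurd h hne

lemma fderiv_sum_pd (u : X3 → F) (x z : X3) :
    fderiv ℝ u x z = ∑ i, ∑ A, z (i, A) • pd i A u x := by
  have hz : z = ∑ i, ∑ A, z (i, A) • (EuclideanSpace.single (i, A) (1 : ℝ) : X3) := by
    ext p
    obtain ⟨i, A⟩ := p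
    simp only [WithLp.ofLp_sum, Finset.sum_apply, WithLp.ofLp_smul, Pi.smul_apply]
    rw [Finset.sum_eq_single i]
    · rw [Finset.sum_eq_single A]
      · simp
      · intro B _ hB; simp [Ne.symm hB]
      · simp
    · intro j _ hj
      refine Finset.sum_eq_zero fun B _ => ?_
      simp [Ne.symm hj]
    · simp
  conv_lhs => rw [hz]
  simp only [map_sum, map_smul, pd]

lemma eps_eps (D E D' E' : Fin 3) : ∑ C, eps C D E * eps C D' E' =
    (if D = D' ∧ E = E' then 1 else 0) - (if D = E' ∧ E = D' then 1 else 0) := by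
  revert D E D' E'
  decide

lemma eps_eps' (D E D' E' : Fin 3) : ∑ C, (eps C D E : ℝ) * (eps C D' E' : ℝ) =
    (if D = D' ∧ E = E' then 1 else 0) - (if D = E' ∧ E = D' then 1 else 0) := by
  have h := congrArg (fun z : ℤ => (z : ℝ)) (eps_eps D E D' E')
  push_cast at h
  exact h

/-- cross product -/
lemma cross_id2 (n e : Fin 3 → ℝ) (D' E' : Fin 3) :
    ∑ C, (∑ D, ∑ E, (eps C D E : ℝ) * n D * e E) * (eps C D' E' : ℝ) =
      n D' * e E' - n E' * e D' := by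
  have h : ∑ C, (∑ D, ∑ E, (eps C D E : ℝ) * n D * e E) * (eps C D' E' : ℝ) =
      ∑ D, ∑ E, n D * e E * ∑ C, (eps C D E : ℝ) * (eps C D' E' : ℝ) := by
    simp only [Finset.sum_mul, Finset.mul_sum]
    rw [Finset.sum_comm]
    refine Finset.sum_congr rfl fun D _ => ?_
    rw [Finset.sum_comm]
    refine Finset.sum_congr rfl fun E _ => Finset.sum_congr rfl fun C _ => ?_
    ring
  rw [h]
  simp only [eps_eps', mul_sub, Finset.sum_sub_distrib]
  congr 1
  · rw [Finset.sum_eq_single D']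
    · rw [Finset.sum_eq_single E']
      · simp
      · intro E _ hE; simp [hE]
      · simp
    · intro D _ hD
      refine Finset.sum_eq_zero fun E _ => ?_
      simp [hD]
    · simp
  · rw [Finset.sum_eq_single E']
    · rw [Finset.sum_eq_single D']
      · simp
      · intro E _ hE; simp [hE]
      · simp
    · intro D _ hD
      refine Finset.sum_eq_zero fun E _ => ?_
      simp [hD]
    · simp

lemma cross_id {n e : Fin 3 → ℝ} (hn : ∑ A, n A ^ 2 = 1) (he : ∑ A, e A * n A = 0) (B : Fin 3) :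
    ∑ C, ∑ A, (∑ D, ∑ E, (eps C D E : ℝ) * n D * e E) * ((eps C A B : ℝ) * n A) = e B := by
  have h : ∑ C, ∑ A, (∑ D, ∑ E, (eps C D E : ℝ) * n D * e E) * ((eps C A B : ℝ) * n A) =
      ∑ A, (∑ C, (∑ D, ∑ E, (eps C D E : ℝ) * n D * e E) * (eps C A B : ℝ)) * n A := by
    rw [Finset.sum_comm]
    refine Finset.sum_congr rfl fun A _ => ?_
    rw [Finset.sum_mul]
    refine Finset.sum_congr rfl fun C _ => ?_
    ring
  rw [h]
  simp only [cross_id2]
  have h2 : ∑ A, (n A * e B - n B * e A) * n A = e B * (∑ A, n A ^ 2) - n B * (∑ A, e A * n A) := by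
    rw [Finset.mul_sum, Finset.mul_sum, ← Finset.sum_sub_distrib]
    refine Finset.sum_congr rfl fun A _ => ?_
    ring
  rw [h2, hn, he]; ring

theorem second {Ω : F} (hs : U.SmStmt S) (hΩ : ∀ A α, S.am A α Ω = 0)
    {n : Fin 3 → ℝ} (hn : ∑ A, n A ^ 2 = 1) {y : Fin 9 → ℝ} (hx : 0 < rho6sq (cone n y))
    {e : Fin 3 → ℝ} (he : ∑ A, e A * n A = 0) :
    fderiv ℝ (S.om Ω) (cone n y) (cone e y) =
      ∑ A, ∑ B, ((e A * n B : ℝ) : ℂ) • S.bil 1 A B (S.om Ω (cone n y)) := by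
  have hG : ∀ C, S.G C (S.om Ω) (cone n y) = 0 := fun C =>
    (((hs Ω hΩ).2.2.2.2.2 (cone n y) hx).1 C).1
  set c : Fin 3 → ℝ := fun C => ∑ D, ∑ E, (eps C D E : ℝ) * n D * e E with hc
  have h1 : ∑ C, ((c C : ℝ) : ℂ) • S.G C (S.om Ω) (cone n y) = 0 := by
    simp only [hG, smul_zero, Finset.sum_const_zero]
  have hd : fderiv ℝ (S.om Ω) (cone n y) (cone e y) = ∑ C, ((c C : ℝ) : ℂ) •
      ∑ i, ∑ A, ∑ B, ((eps C A B : ℂ) * ((cone n y) (i, A) : ℂ)) • pd i B (S.om Ω) (cone n y) := by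
    rw [fderiv_sum_pd]
    have hx' : ∀ (m : Fin 3 → ℝ) i A, (cone m y) (i, A) = y i * m A := fun m i A => rfl
    simp only [hx', Finset.smul_sum, smul_smul]
    conv_rhs => rw [Finset.sum_comm]
    refine Finset.sum_congr rfl fun i _ => ?_
    have h3 : ∀ B, (y i * e B) • pd i B (S.om Ω) (cone n y) =
        ∑ C, ∑ A, (((c C : ℝ) : ℂ) * ((eps C A B : ℂ) * ((y i * n A : ℝ) : ℂ))) •
          pd i B (S.om Ω) (cone n y) := by
      intro B
      rw [← cross_id hn he B]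
      simp only [← Finset.sum_smul]
      rw [← Complex.coe_smul]
      congr 1
      push_cast
      rw [Finset.mul_sum]
      refine Finset.sum_congr rfl fun C _ => ?_
      rw [Finset.mul_sum]
      refine Finset.sum_congr rfl fun A _ => ?_
      simp only [hc]
      push_cast
      ring
    rw [Finset.sum_congr rfl fun B _ => h3 B, Finset.sum_comm]
    refine Finset.sum_congr rfl fun C _ => ?_
    rw [Finset.sum_comm]
  have h2 : ∑ C, ((c C : ℝ) : ℂ) • S.G C (S.om Ω) (cone n y) =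
      (-Complex.I) • fderiv ℝ (S.om Ω) (cone n y) (cone e y) +
        ∑ C, ((c C : ℝ) : ℂ) • S.cS C (S.om Ω (cone n y)) := by
    rw [hd, Finset.smul_sum, ← Finset.sum_add_distrib]
    refine Finset.sum_congr rfl fun C _ => ?_
    unfold Setup.G
    rw [smul_add, smul_comm (-Complex.I)]
  rw [h1] at h2
  generalize fderiv ℝ (S.om Ω) (cone n y) (cone e y) = D at *
  generalize S.om Ω (cone n y) = v at *
  set K : Matrix (Fin 3) (Fin 3) ℂ := Matrix.of fun A B => ((e A * n B : ℝ) : ℂ) with hK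
  have hKt : K.trace = 0 := by
    have : K.trace = ((∑ A, e A * n A : ℝ) : ℂ) := by
      simp [Matrix.trace, hK]
    rw [this, he]; simp
  have h4 : ∑ C, ((c C : ℝ) : ℂ) • S.cS C v =
      (-Complex.I / 2) • (BB S Kᵀ 1 v - BB S K 1 v) := by
    unfold Setup.cS BB
    simp only [ContinuousLinearMap.smul_apply, ContinuousLinearMap.sum_apply, Finset.smul_sum,
      smul_smul, ← Finset.sum_sub_distrib, ← sub_smul]
    rw [Finset.sum_comm]
    refine Finset.sum_congr rfl fun A _ => ?_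
    rw [Finset.sum_comm]
    refine Finset.sum_congr rfl fun B _ => ?_
    rw [← Finset.sum_smul]
    congr 1
    have h5 := congrArg (fun z : ℝ => (z : ℂ)) (cross_id2 n e A B)
    have h6 : ∑ C, ((c C : ℝ) : ℂ) * (-Complex.I / 2 * (eps C A B : ℂ)) =
        (-Complex.I / 2) * ((∑ C, (∑ D, ∑ E, (eps C D E : ℝ) * n D * e E) * (eps C A B : ℝ) : ℝ) : ℂ) := by
      push_cast
      rw [Finset.mul_sum]
      refine Finset.sum_congr rfl fun C _ => ?_
      simp only [hc]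
      push_cast
      ring
    rw [h6, h5]
    simp only [hK, Matrix.transpose_apply, Matrix.of_apply]
    push_cast
    ring
  have h7 : BB S Kᵀ 1 v = -(BB S K 1 v) := by
    have h8 := BB_swap S K 1
    rw [hKt, zero_mul, zero_smul, zero_sub, Matrix.transpose_one] at h8
    rw [h8]
    simp
  rw [h4, h7] at h2
  have h9 : D = BB S K 1 v := by
    have h10 : D = Complex.I • ((-Complex.I) • D + (-Complex.I / 2) • (-(BB S K 1 v) - BB S K 1 v)) +
        BB S K 1 v := by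
      have hI : Complex.I * Complex.I = -1 := Complex.I_mul_I
      have e1 : Complex.I • ((-Complex.I) • D + (-Complex.I / 2) • (-(BB S K 1 v) - BB S K 1 v)) =
          (-(Complex.I * Complex.I)) • D + (Complex.I * Complex.I) • BB S K 1 v := by
        module
      rw [e1, hI]
      module
    rw [← h2] at h10
    simpa using h10
  rw [h9]
  unfold BB
  simp only [ContinuousLinearMap.sum_apply, ContinuousLinearMap.smul_apply, hK, Matrix.of_apply]

end Vale.Agent.P353.OmTwo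

namespace Vale.Agent.P353.U

open OmTwo

variable {F : Type*} [NormedAddCommGroup F] [InnerProductSpace ℂ F]

/-- **D-2** -/
theorem om2 (S : Setup F) (hs : SmStmt S) (h1 : Om1Stmt S) (hu : VUniqStmt S) : Om2Stmt S := by
  intro Ω hΩ n y hn hx
  refine ⟨fun w hw => ?_, fun e he => second S hs hΩ hn hx he⟩
  rw [← BB_expand]
  by_cases h0 : Ω = 0
  · subst h0
    have hz : S.om (0 : F) = fun _ => 0 := by
      funext x
      simp [Setup.om]
    rw [hz]
    simp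
  · exact first S h0 hs h1 hu hΩ hn hx hw

end Vale.Agent.P353.U
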