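import Vale.Agent.P353.U.StmtD
import Vale.Agent.P353.Pointwise

/-! # P353, D-Out, part A: integrals over shells near the cone -/

set_option linter.all false

open MeasureTheory Filter Topology
open scoped ContDiff

namespace Vale.Agent.P353.U

variable {F : Type*} [NormedAddCommGroup F] [InnerProductSpace ℂ F]

lemma out_finrank : Module.finrank ℝ X3 = 27 := by
  rw [finrank_euclideanSpace, Fintype.card_prod, Fintype.card_fin, Fintype.card_fin]

lemma out_scale (f : X3 → ℝ) {r : ℝ} (hr : 0 < r) :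
    ∫ x, f x = r ^ 27 * ∫ y : X3, f (r • y) := by
  rw [Measure.integral_comp_smul, out_finrank, abs_of_pos (by positivity), smul_eq_mul,
    ← mul_assoc, mul_inv_cancel₀ (by positivity), one_mul]

lemma out_rho6_smul (t : ℝ) (x : X3) : rho6sq (t • x) = t ^ 2 * rho6sq x := by
  unfold rho6sq
  rw [Finset.mul_sum]
  refine Finset.sum_congr rfl fun i _ => ?_
  rw [Finset.mul_sum]
  refine Finset.sum_congr rfl fun A _ => ?_
  split_ifs
  · simp only [PiLp.smul_apply, smul_eq_mul]; ring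
  · simp

lemma out_rho6_nonneg (x : X3) : 0 ≤ rho6sq x := by
  unfold rho6sq
  refine Finset.sum_nonneg fun i _ => Finset.sum_nonneg fun A _ => ?_
  split_ifs <;> positivity

lemma out_rho6_cont : Continuous rho6sq := by
  unfold rho6sq
  refine continuous_finset_sum _ fun i _ => continuous_finset_sum _ fun A _ => ?_
  split_ifs
  · fun_prop
  · exact continuous_const

lemma out_rho6_le (x : X3) : rho6sq x ≤ ‖x‖ ^ 2 := by
  rw [EuclideanSpace.norm_sq_eq, Fintype.sum_prod_type]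
  unfold rho6sq
  refine Finset.sum_le_sum fun i _ => Finset.sum_le_sum fun A _ => ?_
  split_ifs
  · simp
  · positivity

lemma out_V_cont (S : Setup F) : Continuous S.V := (contDiff_V S).continuous

/-- integrability of bounded functions on shells -/
lemma out_ind_int {a b : ℝ} {P : Set X3} (hP : MeasurableSet P) {g : X3 → ℝ} (hg : Measurable g)
    {M : ℝ} (hM : ∀ x, |g x| ≤ M) :
    Integrable (Set.indicator ({x : X3 | a ≤ ‖x‖ ∧ ‖x‖ ≤ b} ∩ P) g) := by
  have hset : MeasurableSet ({x : X3 | a ≤ ‖x‖ ∧ ‖x‖ ≤ b} ∩ P) :=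
    ((measurableSet_le measurable_const measurable_norm).inter
      (measurableSet_le measurable_norm measurable_const)).inter hP
  rw [integrable_indicator_iff hset]
  have hfin : volume ({x : X3 | a ≤ ‖x‖ ∧ ‖x‖ ≤ b} ∩ P) ≠ ⊤ := by
    refine ne_top_of_le_ne_top (measure_closedBall_lt_top (x := (0 : X3)) (r := b)).ne
      (measure_mono fun x hx => ?_)
    rw [Metric.mem_closedBall, dist_zero_right]
    exact hx.1.2
  exact Measure.integrableOn_of_bounded (M := M) hfin hg.aestronglyMeasurable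
    (Eventually.of_forall fun x => hM x)

/-- `1_{a ≤ ρ ≤ b, P} e^{-kV/ρ}` -/
noncomputable def shl (S : Setup F) (k a b : ℝ) (P : Set X3) : X3 → ℝ :=
  Set.indicator ({x : X3 | a ≤ ‖x‖ ∧ ‖x‖ ≤ b} ∩ P) (fun x => Real.exp (-(k * S.V x / ‖x‖)))

lemma shl_nonneg (S : Setup F) (k a b : ℝ) (P : Set X3) (x : X3) : 0 ≤ shl S k a b P x :=
  Set.indicator_nonneg (fun _ _ => (Real.exp_pos _).le) _

lemma shl_int (S : Setup F) {k a b : ℝ} (hk : 0 ≤ k) {P : Set X3} (hP : MeasurableSet P) :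
    Integrable (shl S k a b P) := by
  refine out_ind_int hP (M := 1) ?_ fun x => ?_
  · exact (((measurable_const.mul (out_V_cont S).measurable).div measurable_norm).neg).exp
  · rw [abs_of_pos (Real.exp_pos _), Real.exp_le_one_iff, neg_nonpos]
    exact div_nonneg (mul_nonneg hk (S.V_nonneg x)) (norm_nonneg _)

lemma shl_of_mem (S : Setup F) (k a b : ℝ) (P : Set X3) {x : X3} (h1 : a ≤ ‖x‖) (h2 : ‖x‖ ≤ b)
    (h3 : x ∈ P) : shl S k a b P x = Real.exp (-(k * S.V x / ‖x‖)) := by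
  have h : x ∈ ({x : X3 | a ≤ ‖x‖ ∧ ‖x‖ ≤ b} ∩ P) := ⟨⟨h1, h2⟩, h3⟩
  exact Set.indicator_of_mem h _

/-- hypothesis on the unit shell -/
def UShell (S : Setup F) (k D : ℝ) (P : Set X3) : Prop :=
  ∀ t : ℝ, 1 ≤ t → ∫ x : X3, Set.indicator ({x : X3 | 1 ≤ ‖x‖ ∧ ‖x‖ ≤ 2} ∩ P)
      (fun x => Real.exp (-(k * t * S.V x))) x ≤ D * t ^ (-8 : ℝ)

lemma out_rpow {r : ℝ} (hr : 0 < r) : (r ^ 3) ^ (-8 : ℝ) = (r ^ 24)⁻¹ := by
  rw [Real.rpow_neg (by positivity), show (8 : ℝ) = ((8 : ℕ) : ℝ) by norm_num,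
    Real.rpow_natCast, ← pow_mul]

lemma shl_shell (S : Setup F) {k D : ℝ} (hk : 0 < k) {P : Set X3} (hP : MeasurableSet P)
    (hPs : ∀ t : ℝ, 0 < t → ∀ x, t • x ∈ P ↔ x ∈ P) (hD : UShell S k D P) {r : ℝ} (hr : 1 ≤ r) :
    ∫ x, shl S (2 * k) r (2 * r) P x ≤ D * r ^ 3 := by
  have hr0 : 0 < r := by linarith
  rw [out_scale _ hr0]
  have h1 : ∫ y : X3, shl S (2 * k) r (2 * r) P (r • y) ≤ D * (r ^ 3) ^ (-8 : ℝ) := by
    refine le_trans ?_ (hD (r ^ 3) (one_le_pow₀ hr))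
    refine integral_mono_of_nonneg (Eventually.of_forall fun y => shl_nonneg _ _ _ _ _ _)
      ?_ (Eventually.of_forall fun y => ?_)
    · refine out_ind_int hP (M := 1) ?_ fun x => ?_
      · exact ((measurable_const.mul (out_V_cont S).measurable).neg).exp
      · rw [abs_of_pos (Real.exp_pos _), Real.exp_le_one_iff, neg_nonpos]
        have := S.V_nonneg x
        positivity
    · show shl S (2 * k) r (2 * r) P (r • y) ≤ _
      by_cases hy : (1 ≤ ‖y‖ ∧ ‖y‖ ≤ 2) ∧ y ∈ P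
      · have hn : ‖r • y‖ = r * ‖y‖ := by rw [norm_smul, Real.norm_of_nonneg hr0.le]
        have hmem : y ∈ ({x : X3 | 1 ≤ ‖x‖ ∧ ‖x‖ ≤ 2} ∩ P) := ⟨hy.1, hy.2⟩
        rw [shl_of_mem S _ _ _ _ (by rw [hn]; nlinarith [hy.1.1]) (by rw [hn]; nlinarith [hy.1.2])
          ((hPs r hr0 y).2 hy.2), Set.indicator_of_mem hmem]
        rw [Real.exp_le_exp, neg_le_neg_iff, hn, S.V_smul]
        have hV := S.V_nonneg y
        have hy0 : 0 < ‖y‖ := by linarith [hy.1.1]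
        rw [le_div_iff₀ (by positivity)]
        have : k * r ^ 3 * S.V y * (r * ‖y‖) = k * r ^ 4 * S.V y * ‖y‖ := by ring
        rw [this]
        have h2 : k * r ^ 4 * S.V y * ‖y‖ ≤ k * r ^ 4 * S.V y * 2 := by
          have : 0 ≤ k * r ^ 4 * S.V y := by positivity
          exact mul_le_mul_of_nonneg_left hy.1.2 this
        linarith
      · have hz : shl S (2 * k) r (2 * r) P (r • y) = 0 := by
          refine Set.indicator_of_notMem (fun hm => hy ?_) _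
          have hn : ‖r • y‖ = r * ‖y‖ := by rw [norm_smul, Real.norm_of_nonneg hr0.le]
          obtain ⟨⟨h1, h2⟩, h3⟩ := hm
          refine ⟨⟨?_, ?_⟩, (hPs r hr0 y).1 h3⟩
          · rw [hn] at h1; nlinarith
          · rw [hn] at h2; nlinarith
        rw [hz]
        exact Set.indicator_nonneg (fun _ _ => (Real.exp_pos _).le) _
  calc r ^ 27 * ∫ y : X3, shl S (2 * k) r (2 * r) P (r • y)
      ≤ r ^ 27 * (D * (r ^ 3) ^ (-8 : ℝ)) := by gcongr
    _ = D * r ^ 3 := by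
      rw [out_rpow hr0]
      field_simp

lemma ushell_nonneg {S : Setup F} {k D : ℝ} {P : Set X3} (hD : UShell S k D P) : 0 ≤ D := by
  have h := hD 1 le_rfl
  rw [Real.one_rpow, mul_one (a := D)] at h
  exact le_trans (integral_nonneg fun x => Set.indicator_nonneg (fun _ _ => (Real.exp_pos _).le) _) h

lemma shl_multi (S : Setup F) {k D : ℝ} (hk : 0 < k) {P : Set X3} (hP : MeasurableSet P)
    (hPs : ∀ t : ℝ, 0 < t → ∀ x, t • x ∈ P ↔ x ∈ P) (hD : UShell S k D P) {a : ℝ} (ha : 1 ≤ a)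
    (J : ℕ) : ∫ x, shl S (2 * k) a (2 ^ (J + 1) * a) P x ≤ D * (J + 1) * (2 ^ J * a) ^ 3 := by
  have hD0 := ushell_nonneg hD
  induction J with
  | zero =>
    have := shl_shell S hk hP hPs hD ha
    simpa using this
  | succ J ih =>
    have hq : 1 ≤ 2 ^ (J + 1) * a := by
      have : (1 : ℝ) ≤ 2 ^ (J + 1) := one_le_pow₀ (by norm_num)
      nlinarith
    have h1 := shl_shell S hk hP hPs hD hq
    have hle : ∀ x, shl S (2 * k) a (2 ^ (J + 1 + 1) * a) P x ≤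
        shl S (2 * k) a (2 ^ (J + 1) * a) P x +
        shl S (2 * k) (2 ^ (J + 1) * a) (2 * (2 ^ (J + 1) * a)) P x := by
      intro x
      by_cases hx : x ∈ ({x : X3 | a ≤ ‖x‖ ∧ ‖x‖ ≤ 2 ^ (J + 1 + 1) * a} ∩ P)
      · obtain ⟨⟨g1, g2⟩, g3⟩ := hx
        rw [shl_of_mem S _ _ _ _ g1 g2 g3]
        rcases le_total ‖x‖ (2 ^ (J + 1) * a) with h | h
        · rw [shl_of_mem S _ _ _ _ g1 h g3]
          linarith [shl_nonneg S (2 * k) (2 ^ (J + 1) * a) (2 * (2 ^ (J + 1) * a)) P x]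
        · rw [shl_of_mem S _ (2 ^ (J + 1) * a) (2 * (2 ^ (J + 1) * a)) _ h
            (by refine g2.trans (le_of_eq ?_); ring) g3]
          linarith [shl_nonneg S (2 * k) a (2 ^ (J + 1) * a) P x]
      · have : shl S (2 * k) a (2 ^ (J + 1 + 1) * a) P x = 0 := Set.indicator_of_notMem hx _
        rw [this]
        exact add_nonneg (shl_nonneg _ _ _ _ _ _) (shl_nonneg _ _ _ _ _ _)
    calc ∫ x, shl S (2 * k) a (2 ^ (J + 1 + 1) * a) P x
        ≤ ∫ x, (shl S (2 * k) a (2 ^ (J + 1) * a) P x +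
          shl S (2 * k) (2 ^ (J + 1) * a) (2 * (2 ^ (J + 1) * a)) P x) :=
          integral_mono (shl_int S (by positivity) hP)
            ((shl_int S (by positivity) hP).add (shl_int S (by positivity) hP)) hle
      _ = (∫ x, shl S (2 * k) a (2 ^ (J + 1) * a) P x) +
          ∫ x, shl S (2 * k) (2 ^ (J + 1) * a) (2 * (2 ^ (J + 1) * a)) P x :=
          integral_add (shl_int S (by positivity) hP) (shl_int S (by positivity) hP)
      _ ≤ D * (J + 1) * (2 ^ J * a) ^ 3 + D * (2 ^ (J + 1) * a) ^ 3 := add_le_add ih h1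
      _ ≤ D * (((J + 1 : ℕ) : ℝ) + 1) * (2 ^ (J + 1) * a) ^ 3 := by
        have h2 : (2 ^ J * a) ^ 3 ≤ (2 ^ (J + 1) * a) ^ 3 := by
          have : (2 : ℝ) ^ J ≤ 2 ^ (J + 1) := pow_le_pow_right₀ (by norm_num) (by omega)
          gcongr
        have h3 : D * (J + 1) * (2 ^ J * a) ^ 3 ≤ D * (J + 1) * (2 ^ (J + 1) * a) ^ 3 := by
          gcongr
        push_cast
        linarith

/-- the integral estimates in the form used below -/
lemma out_ints (S : Setup F) (hI : IntStmt S) {k : ℝ} (hk : 0 < k) : ∃ D : ℝ, 0 < D ∧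
    UShell S k D Set.univ ∧
    (∀ δ : ℝ, 0 < δ → δ ≤ 1 / 10 → UShell S k (D * δ ^ 6) {x | rho6sq x ≤ δ ^ 2 * ‖x‖ ^ 2}) ∧
    ∀ r : ℝ, 1 ≤ r → r ^ 3 ≤ D * ∫ x : X3, Set.indicator ({x : X3 | r ≤ ‖x‖ ∧ ‖x‖ ≤ 2 * r} ∩
      {x | ‖x‖ ^ 2 / 4 ≤ rho6sq x ∧ S.V x ≤ r}) (fun _ => (1 : ℝ)) x := by
  obtain ⟨C, hC, h1, h2, h3⟩ := hI k hk
  refine ⟨C, hC, fun t ht => ?_, fun δ hδ hδ' t ht => ?_, fun r hr => ?_⟩
  · refine le_trans (le_of_eq ?_) (h1 t ht)
    congr 1
    funext x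
    by_cases hx : 1 ≤ ‖x‖ ∧ ‖x‖ ≤ 2
    · rw [if_pos hx, Set.indicator_of_mem]
      exact ⟨hx, Set.mem_univ _⟩
    · rw [if_neg hx, Set.indicator_of_notMem]
      exact fun h => hx h.1
  · refine le_trans (le_of_eq ?_) (h2 t δ ht hδ hδ')
    congr 1
    funext x
    by_cases hx : 1 ≤ ‖x‖ ∧ ‖x‖ ≤ 2 ∧ rho6sq x ≤ δ ^ 2 * ‖x‖ ^ 2
    · rw [if_pos hx, Set.indicator_of_mem]
      exact ⟨⟨hx.1, hx.2.1⟩, hx.2.2⟩
    · rw [if_neg hx, Set.indicator_of_notMem]
      exact fun h => hx ⟨h.1.1, h.1.2, h.2⟩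
  · have hr0 : 0 < r := by linarith
    have h4 := h3 (r ^ 3) (one_le_pow₀ hr)
    rw [out_rpow hr0] at h4
    rw [out_scale _ hr0]
    have h5 : ∀ y : X3, Set.indicator ({x : X3 | r ≤ ‖x‖ ∧ ‖x‖ ≤ 2 * r} ∩
        {x | ‖x‖ ^ 2 / 4 ≤ rho6sq x ∧ S.V x ≤ r}) (fun _ => (1 : ℝ)) (r • y) =
        if 1 ≤ ‖y‖ ∧ ‖y‖ ≤ 2 ∧ ‖y‖ ^ 2 / 4 ≤ rho6sq y ∧ S.V y ≤ 1 / r ^ 3 then 1 else 0 := by
      intro y
      have hn : ‖r • y‖ = r * ‖y‖ := by rw [norm_smul, Real.norm_of_nonneg hr0.le]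
      have e1 : r ≤ ‖r • y‖ ↔ 1 ≤ ‖y‖ := by
        rw [hn]
        constructor
        · intro h; nlinarith
        · intro h; nlinarith
      have e2 : ‖r • y‖ ≤ 2 * r ↔ ‖y‖ ≤ 2 := by
        rw [hn]
        constructor
        · intro h; nlinarith
        · intro h; nlinarith
      have e3 : ‖r • y‖ ^ 2 / 4 ≤ rho6sq (r • y) ↔ ‖y‖ ^ 2 / 4 ≤ rho6sq y := by
        rw [hn, out_rho6_smul]
        have hp : 0 < r ^ 2 := by positivity
        constructor
        · intro h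
          have : r ^ 2 * (‖y‖ ^ 2 / 4) ≤ r ^ 2 * rho6sq y := by
            refine le_trans (le_of_eq ?_) h; ring
          exact le_of_mul_le_mul_left this hp
        · intro h
          refine le_trans (le_of_eq ?_) (mul_le_mul_of_nonneg_left h hp.le)
          ring
      have e4 : S.V (r • y) ≤ r ↔ S.V y ≤ 1 / r ^ 3 := by
        rw [S.V_smul, le_div_iff₀ (by positivity)]
        constructor
        · intro h
          have h' : r * (S.V y * r ^ 3) ≤ r * 1 := by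
            refine le_trans (le_of_eq ?_) (h.trans (le_of_eq (mul_one r).symm)); ring
          exact le_of_mul_le_mul_left h' hr0
        · intro h
          have := mul_le_mul_of_nonneg_left h hr0.le
          refine le_trans (le_of_eq ?_) (this.trans (le_of_eq (mul_one r))); ring
      by_cases hy : 1 ≤ ‖y‖ ∧ ‖y‖ ≤ 2 ∧ ‖y‖ ^ 2 / 4 ≤ rho6sq y ∧ S.V y ≤ 1 / r ^ 3
      · rw [if_pos hy, Set.indicator_of_mem]
        exact ⟨⟨e1.2 hy.1, e2.2 hy.2.1⟩, ⟨e3.2 hy.2.2.1, e4.2 hy.2.2.2⟩⟩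
      · rw [if_neg hy, Set.indicator_of_notMem]
        exact fun h => hy ⟨e1.1 h.1.1, e2.1 h.1.2, e3.1 h.2.1, e4.1 h.2.2⟩
    simp only [h5]
    have h6 : r ^ 3 = r ^ 27 * (r ^ 24)⁻¹ := by field_simp
    have h7 := mul_le_mul_of_nonneg_left h4 (show 0 ≤ r ^ 27 by positivity)
    rw [← h6] at h7
    refine h7.trans (le_of_eq ?_)
    exact mul_left_comm _ _ _

end Vale.Agent.P353.U
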