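import Vale.Agent.P353.U.OutA
import Vale.Agent.P353.U.Grp
import Vale.Agent.P353.Rad

/-! # P353, D-Out, part B: cutoff functions and their invariance -/

set_option linter.all false

open MeasureTheory Filter Topology
open scoped ContDiff

namespace Vale.Agent.P353.U

variable {F : Type*} [NormedAddCommGroup F] [InnerProductSpace ℂ F]

/-- infinitesimal rotation in the flavour indices `k,l` -/
noncomputable def jj (k l : Fin 9) (x : X3) : X3 :=
  WithLp.toLp 2 fun p => (if p.1 = l then x (k, p.2) else 0) - (if p.1 = k then x (l, p.2) else 0)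

lemma fderiv_jj (k l : Fin 9) (u : X3 → F) (y : X3) :
    fderiv ℝ u y (jj k l y) =
      ∑ A, ((y (k, A) : ℂ) • pd l A u y - (y (l, A) : ℂ) • pd k A u y) := by
  have hx : jj k l y = ∑ A, (y (k, A) • (EuclideanSpace.single (l, A) (1 : ℝ) : X3) -
      y (l, A) • (EuclideanSpace.single (k, A) (1 : ℝ) : X3)) := by
    ext ⟨i, B⟩
    simp only [jj, WithLp.ofLp_sum, WithLp.ofLp_smul, WithLp.ofLp_sub, Finset.sum_apply,
      Pi.smul_apply, Pi.sub_apply, PiLp.single_apply, smul_eq_mul, mul_ite, mul_one, mul_zero,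
      Prod.mk.injEq, Finset.sum_sub_distrib]
    congr 1
    · by_cases h : i = l
      · simp [h]
      · simp [h]
    · by_cases h : i = k
      · simp [h]
      · simp [h]
  rw [hx, map_sum]
  refine Finset.sum_congr rfl fun A _ => ?_
  rw [map_sub, map_smul, map_smul]
  unfold pd
  rfl

/-- directions of the infinitesimal symmetries -/
def IsDir (x ξ : X3) : Prop := (∃ C, ξ = kk C x) ∨ ∃ k l, Same k l ∧ ξ = jj k l x

/-- differentiable and infinitesimally invariant at `x` -/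
def HI (f : X3 → ℝ) (x : X3) : Prop :=
  DifferentiableAt ℝ f x ∧ ∀ ξ, IsDir x ξ → fderiv ℝ f x ξ = 0

lemma HI.const (c : ℝ) (x : X3) : HI (fun _ => c) x :=
  ⟨differentiableAt_const _, fun ξ _ => by simp⟩

lemma HI.add {f g : X3 → ℝ} {x : X3} (hf : HI f x) (hg : HI g x) : HI (fun y => f y + g y) x :=
  ⟨hf.1.add hg.1, fun ξ h => by
    rw [fderiv_fun_add hf.1 hg.1]
    show fderiv ℝ f x ξ + fderiv ℝ g x ξ = 0
    rw [hf.2 ξ h, hg.2 ξ h, add_zero]⟩

lemma HI.sub {f g : X3 → ℝ} {x : X3} (hf : HI f x) (hg : HI g x) : HI (fun y => f y - g y) x :=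
  ⟨hf.1.sub hg.1, fun ξ h => by
    rw [fderiv_fun_sub hf.1 hg.1]
    show fderiv ℝ f x ξ - fderiv ℝ g x ξ = 0
    rw [hf.2 ξ h, hg.2 ξ h, sub_zero]⟩

lemma HI.mul {f g : X3 → ℝ} {x : X3} (hf : HI f x) (hg : HI g x) : HI (fun y => f y * g y) x :=
  ⟨hf.1.mul hg.1, fun ξ h => by
    rw [fderiv_fun_mul hf.1 hg.1]
    show f x * fderiv ℝ g x ξ + g x * fderiv ℝ f x ξ = 0
    rw [hf.2 ξ h, hg.2 ξ h, mul_zero, mul_zero, add_zero]⟩

lemma HI.comp {f : X3 → ℝ} {x : X3} (hf : HI f x) {φ : ℝ → ℝ} (hφ : DifferentiableAt ℝ φ (f x)) :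
    HI (fun y => φ (f y)) x := by
  refine ⟨DifferentiableAt.comp x hφ hf.1, fun ξ h => ?_⟩
  have h1 : HasFDerivAt (fun y => φ (f y)) (deriv φ (f x) • fderiv ℝ f x) x :=
    hφ.hasDerivAt.comp_hasFDerivAt x hf.1.hasFDerivAt
  rw [h1.fderiv]
  show deriv φ (f x) * fderiv ℝ f x ξ = 0
  rw [hf.2 ξ h, mul_zero]

lemma HI.congr {f g : X3 → ℝ} {x : X3} (hf : HI f x) (h : g =ᶠ[𝓝 x] f) : HI g x :=
  ⟨hf.1.congr_of_eventuallyEq h, fun ξ hξ => by rw [h.fderiv_eq, hf.2 ξ hξ]⟩

lemma HI.div {f g : X3 → ℝ} {x : X3} (hf : HI f x) (hg : HI g x) (h0 : g x ≠ 0) :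
    HI (fun y => f y / g y) x := by
  have h1 : HI (fun y => (g y)⁻¹) x := hg.comp (φ := fun s => s⁻¹) (differentiableAt_inv h0)
  simpa only [div_eq_mul_inv] using hf.mul h1

lemma HI.pow {f : X3 → ℝ} {x : X3} (hf : HI f x) (n : ℕ) : HI (fun y => f y ^ n) x :=
  hf.comp (φ := fun s => s ^ n) (differentiableAt_id.pow n)

/-- weighted squares -/
noncomputable def Qw (w : Fin 9 → ℝ) (x : X3) : ℝ := ∑ i, ∑ A, w i * x (i, A) ^ 2

lemma fderiv_Qw (w : Fin 9 → ℝ) (x : X3) : DifferentiableAt ℝ (Qw w) x ∧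
    ∀ ξ, fderiv ℝ (Qw w) x ξ = ∑ i, ∑ A, w i * (2 * x (i, A) * ξ (i, A)) := by
  have h : HasFDerivAt (Qw w) (∑ i, ∑ A, w i • ((2 * x (i, A)) •
      (EuclideanSpace.proj (𝕜 := ℝ) (i, A) : X3 →L[ℝ] ℝ))) x := by
    unfold Qw
    refine HasFDerivAt.fun_sum fun i _ => HasFDerivAt.fun_sum fun A _ => ?_
    refine HasFDerivAt.const_mul ?_ (w i)
    have := (Setup.hasFDerivAt_coord (i, A) x).pow 2
    refine this.congr_fderiv ?_
    simp
  refine ⟨h.differentiableAt, fun ξ => ?_⟩
  rw [h.fderiv]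
  simp only [_root_.sum_apply, _root_.smul_apply, smul_eq_mul]
  rfl

lemma eps_anti (C A B : Fin 3) : (eps C A B : ℝ) = -(eps C B A : ℝ) := by
  fin_cases C <;> fin_cases A <;> fin_cases B <;> simp [eps]

lemma HI_Qw (w : Fin 9 → ℝ) (hw : ∀ k l, Same k l → w k = w l) (x : X3) : HI (Qw w) x := by
  refine ⟨(fderiv_Qw w x).1, fun ξ hξ => ?_⟩
  rw [(fderiv_Qw w x).2]
  rcases hξ with ⟨C, rfl⟩ | ⟨k, l, hkl, rfl⟩
  · refine Finset.sum_eq_zero fun i _ => ?_
    have h1 : ∀ A, (kk C x) (i, A) = ∑ B, (eps C B A : ℝ) * x (i, B) := fun A => rfl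
    simp only [h1, Fin.sum_univ_three]
    have e1 := eps_anti C 0 1
    have e2 := eps_anti C 0 2
    have e3 := eps_anti C 1 2
    have e4 := eps_anti C 0 0
    have e5 := eps_anti C 1 1
    have e6 := eps_anti C 2 2
    have e4' : (eps C 0 0 : ℝ) = 0 := by linarith
    have e5' : (eps C 1 1 : ℝ) = 0 := by linarith
    have e6' : (eps C 2 2 : ℝ) = 0 := by linarith
    rw [e1, e2, e3, e4', e5', e6']
    ring
  · have h1 : ∀ i A, (jj k l x) (i, A) = (if i = l then x (k, A) else 0) -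
        (if i = k then x (l, A) else 0) := fun i A => rfl
    simp only [h1]
    have h2 : ∀ i, ∑ A, w i * (2 * x (i, A) * ((if i = l then x (k, A) else 0) -
        (if i = k then x (l, A) else 0))) = (if i = l then ∑ A, w l * (2 * x (l, A) * x (k, A)) else 0)
        - (if i = k then ∑ A, w k * (2 * x (k, A) * x (l, A)) else 0) := by
      intro i
      by_cases hl : i = l
      · subst hl
        by_cases hk : i = k
        · subst hk; simp
        · simp [hk]
      · by_cases hk : i = k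
        · subst hk; simp [hl, Finset.sum_neg_distrib]
        · simp [hl, hk]
    simp only [h2, Finset.sum_sub_distrib, Finset.sum_ite_eq', Finset.mem_univ, if_true]
    rw [hw k l hkl, sub_eq_zero]
    refine Finset.sum_congr rfl fun A _ => ?_
    ring

lemma norm_eq_Qw (x : X3) : ‖x‖ = Real.sqrt (Qw (fun _ => 1) x) := by
  rw [EuclideanSpace.norm_eq, Qw, Fintype.sum_prod_type]
  simp

lemma normsq_eq_Qw (x : X3) : ‖x‖ ^ 2 = Qw (fun _ => 1) x := by
  rw [EuclideanSpace.norm_sq_eq, Qw, Fintype.sum_prod_type]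
  simp

lemma HI_norm {x : X3} (hx : x ≠ 0) : HI (fun y : X3 => ‖y‖) x := by
  have h1 : HI (fun y : X3 => Real.sqrt (Qw (fun _ => 1) y)) x := by
    refine (HI_Qw (fun _ => 1) (fun _ _ _ => rfl) x).comp (φ := Real.sqrt) ?_
    refine (Real.hasDerivAt_sqrt ?_).differentiableAt
    rw [← normsq_eq_Qw]
    exact pow_ne_zero _ (norm_ne_zero_iff.2 hx)
  refine h1.congr (Eventually.of_forall fun y => norm_eq_Qw y)

lemma rho6_eq_Qw : rho6sq = Qw (fun i => if 3 ≤ i.val then 1 else 0) := by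
  funext x
  unfold rho6sq Qw
  refine Finset.sum_congr rfl fun i _ => Finset.sum_congr rfl fun A _ => ?_
  dsimp only
  by_cases h : 3 ≤ i.val
  · rw [if_pos h, if_pos h, one_mul]
  · rw [if_neg h, if_neg h, zero_mul]

lemma HI_rho6 (x : X3) : HI rho6sq x := by
  rw [rho6_eq_Qw]
  refine HI_Qw _ (fun k l h => ?_) x
  have := h.2
  by_cases h1 : 3 ≤ k.val
  · have h2 : 3 ≤ l.val := by
      by_contra h3
      rw [not_le] at h3
      exact absurd (this.2 h3) (by omega)
    simp [h1, h2]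
  · have h2 : ¬ 3 ≤ l.val := by
      have := this.1 (by omega)
      omega
    simp [h1, h2]

lemma HI_aw (x : X3) : HI (fun y : X3 => ∑ i, ∑ A, aw i * y (i, A) ^ 2) x := by
  refine HI_Qw aw (fun k l h => ?_) x
  unfold aw
  by_cases h1 : k.val < 3
  · rw [if_pos h1, if_pos (h.2.1 h1)]
  · rw [if_neg h1, if_neg (fun h2 => h1 (h.2.2 h2))]

/-- derivative of `FF` -/
noncomputable def dFF (S : Setup F) (A : Fin 3) (i j : Fin 9) (x ξ : X3) : ℝ :=
  S.κ * ∑ B, ∑ C, (eps A B C : ℝ) * (x (i, B) * ξ (j, C) + x (j, C) * ξ (i, B))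

lemma hasFDerivAt_FF (S : Setup F) (A : Fin 3) (i j : Fin 9) (x : X3) :
    DifferentiableAt ℝ (S.FF A i j) x ∧ ∀ ξ, fderiv ℝ (S.FF A i j) x ξ = dFF S A i j x ξ := by
  have h : HasFDerivAt (S.FF A i j) (S.κ • ∑ B, ∑ C, (((eps A B C : ℝ) * x (i, B)) •
      (EuclideanSpace.proj (𝕜 := ℝ) (j, C) : X3 →L[ℝ] ℝ) + x (j, C) • ((eps A B C : ℝ) •
      (EuclideanSpace.proj (𝕜 := ℝ) (i, B) : X3 →L[ℝ] ℝ)))) x := by
    unfold Setup.FF
    refine HasFDerivAt.const_mul ?_ S.κ
    refine HasFDerivAt.fun_sum fun B _ => HasFDerivAt.fun_sum fun C _ => ?_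
    exact ((Setup.hasFDerivAt_coord (i, B) x).const_mul (eps A B C : ℝ)).mul (Setup.hasFDerivAt_coord (j, C) x)
  refine ⟨h.differentiableAt, fun ξ => ?_⟩
  rw [h.fderiv]
  simp only [_root_.sum_apply, _root_.smul_apply, _root_.add_apply, smul_eq_mul, dFF]
  congr 1
  refine Finset.sum_congr rfl fun B _ => Finset.sum_congr rfl fun C _ => ?_
  show (eps A B C : ℝ) * x (i, B) * ξ (j, C) + x (j, C) * ((eps A B C : ℝ) * ξ (i, B)) = _
  ring

lemma hasFDerivAt_V (S : Setup F) (x : X3) : DifferentiableAt ℝ S.V x ∧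
    ∀ ξ, fderiv ℝ S.V x ξ = 1 / 4 * ∑ A, ∑ i, ∑ j, 2 * S.FF A i j x * dFF S A i j x ξ := by
  have h : HasFDerivAt S.V ((1 / 4 : ℝ) • ∑ A, ∑ i, ∑ j, (2 * S.FF A i j x) •
      fderiv ℝ (S.FF A i j) x) x := by
    unfold Setup.V
    refine HasFDerivAt.const_mul ?_ (1 / 4 : ℝ)
    refine HasFDerivAt.fun_sum fun A _ => HasFDerivAt.fun_sum fun i _ =>
      HasFDerivAt.fun_sum fun j _ => ?_
    have := ((hasFDerivAt_FF S A i j x).1.hasFDerivAt).pow 2
    refine this.congr_fderiv ?_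
    simp
  refine ⟨h.differentiableAt, fun ξ => ?_⟩
  rw [h.fderiv]
  simp only [_root_.sum_apply, _root_.smul_apply, smul_eq_mul, (hasFDerivAt_FF S _ _ _ x).2]

lemma FF_dFF_kk (S : Setup F) (C : Fin 3) (i j : Fin 9) (x : X3) :
    ∑ A, S.FF A i j x * dFF S A i j x (kk C x) = 0 := by
  have h1 : ∀ i A, (kk C x) (i, A) = ∑ B, (eps C B A : ℝ) * x (i, B) := fun i A => rfl
  simp only [Setup.FF, dFF, h1, Fin.sum_univ_three]
  fin_cases C <;> simp [eps] <;> ring

lemma dFF_jj (S : Setup F) (A : Fin 3) (k l i j : Fin 9) (x : X3) :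
    dFF S A i j x (jj k l x) = ((if j = l then S.FF A i k x else 0) -
      (if j = k then S.FF A i l x else 0)) + ((if i = l then S.FF A k j x else 0) -
      (if i = k then S.FF A l j x else 0)) := by
  have h1 : ∀ i A, (jj k l x) (i, A) = (if i = l then x (k, A) else 0) -
        (if i = k then x (l, A) else 0) := fun i A => rfl
  simp only [dFF, h1, Setup.FF]
  have e1 : ∀ (c : Prop) [Decidable c] (s : ℝ), (if c then S.κ * s else 0) =
      S.κ * (if c then s else 0) := by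
    intro c _ s; split_ifs <;> simp
  simp only [e1, ← mul_sub, ← mul_add]
  congr 1
  have e2 : ∀ (c : Prop) [Decidable c] (g : Fin 3 → Fin 3 → ℝ),
      (if c then ∑ B, ∑ C, g B C else 0) = ∑ B, ∑ C, (if c then g B C else 0) := by
    intro c _ g; split_ifs <;> simp
  simp only [e2, ← Finset.sum_sub_distrib, ← Finset.sum_add_distrib]
  refine Finset.sum_congr rfl fun B _ => Finset.sum_congr rfl fun C _ => ?_
  split_ifs <;> ring

lemma HI_V (S : Setup F) (x : X3) : HI S.V x := by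
  refine ⟨(hasFDerivAt_V S x).1, fun ξ hξ => ?_⟩
  rw [(hasFDerivAt_V S x).2]
  rcases hξ with ⟨C, rfl⟩ | ⟨k, l, hkl, rfl⟩
  · have : ∑ A, ∑ i, ∑ j, 2 * S.FF A i j x * dFF S A i j x (kk C x) = 0 := by
      rw [Finset.sum_comm]
      refine Finset.sum_eq_zero fun i _ => ?_
      rw [Finset.sum_comm]
      refine Finset.sum_eq_zero fun j _ => ?_
      simp only [mul_assoc, ← Finset.mul_sum]
      rw [FF_dFF_kk, mul_zero]
    rw [this, mul_zero]
  · have : ∀ A, ∑ i, ∑ j, 2 * S.FF A i j x * dFF S A i j x (jj k l x) = 0 := by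
      intro A
      simp only [dFF_jj]
      have e : ∀ i j, 2 * S.FF A i j x * (((if j = l then S.FF A i k x else 0) -
          (if j = k then S.FF A i l x else 0)) + ((if i = l then S.FF A k j x else 0) -
          (if i = k then S.FF A l j x else 0))) =
          (if j = l then 2 * S.FF A i l x * S.FF A i k x else 0) -
          (if j = k then 2 * S.FF A i k x * S.FF A i l x else 0) +
          ((if i = l then 2 * S.FF A l j x * S.FF A k j x else 0) -
          (if i = k then 2 * S.FF A k j x * S.FF A l j x else 0)) := by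
        intro i j
        have a1 : (2 * S.FF A i j x) * (if j = l then S.FF A i k x else 0) =
            (if j = l then 2 * S.FF A i l x * S.FF A i k x else 0) := by
          split_ifs with h
          · rw [h]
          · rw [mul_zero]
        have a2 : (2 * S.FF A i j x) * (if j = k then S.FF A i l x else 0) =
            (if j = k then 2 * S.FF A i k x * S.FF A i l x else 0) := by
          split_ifs with h
          · rw [h]
          · rw [mul_zero]
        have a3 : (2 * S.FF A i j x) * (if i = l then S.FF A k j x else 0) =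
            (if i = l then 2 * S.FF A l j x * S.FF A k j x else 0) := by
          split_ifs with h
          · rw [h]
          · rw [mul_zero]
        have a4 : (2 * S.FF A i j x) * (if i = k then S.FF A l j x else 0) =
            (if i = k then 2 * S.FF A k j x * S.FF A l j x else 0) := by
          split_ifs with h
          · rw [h]
          · rw [mul_zero]
        rw [mul_add, mul_sub, mul_sub, a1, a2, a3, a4]
      simp only [e, Finset.sum_add_distrib, Finset.sum_sub_distrib, Finset.sum_ite_eq',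
        Finset.mem_univ, if_true]
      have b1 : ∑ i, ∑ j, (if i = l then 2 * S.FF A l j x * S.FF A k j x else 0) =
          ∑ j, 2 * S.FF A l j x * S.FF A k j x := by
        rw [Finset.sum_comm]; simp
      have b2 : ∑ i, ∑ j, (if i = k then 2 * S.FF A k j x * S.FF A l j x else 0) =
          ∑ j, 2 * S.FF A k j x * S.FF A l j x := by
        rw [Finset.sum_comm]; simp
      rw [b1, b2]
      have c1 : ∑ i, 2 * S.FF A i l x * S.FF A i k x = ∑ i, 2 * S.FF A i k x * S.FF A i l x :=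
        Finset.sum_congr rfl fun i _ => by ring
      have c2 : ∑ j, 2 * S.FF A l j x * S.FF A k j x = ∑ j, 2 * S.FF A k j x * S.FF A l j x :=
        Finset.sum_congr rfl fun i _ => by ring
      rw [c1, c2]
      ring
    simp only [this, Finset.sum_const_zero, mul_zero]

/-! gradient of homogeneous functions -/

lemma homog_grad {f : X3 → ℝ} (hf : ∀ x : X3, x ≠ 0 → ContDiffAt ℝ 1 f x)
    (hh : ∀ t : ℝ, 0 < t → ∀ x, f (t • x) = f x) :
    ∃ C, 0 ≤ C ∧ ∀ x : X3, x ≠ 0 → ∀ i A, |pdr i A f x| ≤ C / ‖x‖ := by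
  have hc : ContinuousOn (fun y => fderiv ℝ f y) (Metric.sphere (0 : X3) 1) := by
    intro y hy
    have hy0 : y ≠ 0 := by
      rintro rfl
      simp at hy
    have := (hf y hy0).fderiv_right (m := 0) (by norm_num)
    exact this.continuousAt.continuousWithinAt
  obtain ⟨C, hC⟩ := (isCompact_sphere (0 : X3) 1).exists_bound_of_continuousOn hc
  refine ⟨max C 0, le_max_right _ _, fun x hx i A => ?_⟩
  have hn : 0 < ‖x‖ := norm_pos_iff.2 hx
  have h1 : f = fun y => f (‖x‖⁻¹ • y) := by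
    funext y
    rw [hh _ (inv_pos.2 hn)]
  have h2 : fderiv ℝ f x = ‖x‖⁻¹ • fderiv ℝ f (‖x‖⁻¹ • x) := by
    conv_lhs => rw [h1]
    exact fderiv_comp_smul _
  have h3 : ‖fderiv ℝ f (‖x‖⁻¹ • x)‖ ≤ max C 0 := by
    refine (hC _ ?_).trans (le_max_left _ _)
    rw [mem_sphere_zero_iff_norm, norm_smul, norm_inv, norm_norm, inv_mul_cancel₀ hn.ne']
  rw [pdr, h2, ← Real.norm_eq_abs]
  show ‖‖x‖⁻¹ * (fderiv ℝ f (‖x‖⁻¹ • x)) (EuclideanSpace.single (i, A) (1 : ℝ))‖ ≤ _
  rw [norm_mul, norm_inv, norm_norm, div_eq_mul_inv, mul_comm]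
  refine mul_le_mul_of_nonneg_right ?_ (inv_nonneg.2 hn.le)
  refine (ContinuousLinearMap.le_opNorm _ _).trans ?_
  simpa using h3

/-! the smooth step -/

lemma st_deriv_bound : ∃ K₀, 0 ≤ K₀ ∧ (∀ s : ℝ, |deriv Real.smoothTransition s| ≤ K₀) ∧
    ∀ s : ℝ, (s < 0 ∨ 1 < s) → deriv Real.smoothTransition s = 0 := by
  have h0 : ∀ s : ℝ, (s < 0 ∨ 1 < s) → deriv Real.smoothTransition s = 0 := by
    intro s hs
    rcases hs with h | h
    · have : Real.smoothTransition =ᶠ[𝓝 s] fun _ => 0 := by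
        filter_upwards [isOpen_Iio.mem_nhds h] with y hy
        exact Real.smoothTransition.zero_of_nonpos (le_of_lt hy)
      rw [this.deriv_eq]
      simp
    · have : Real.smoothTransition =ᶠ[𝓝 s] fun _ => 1 := by
        filter_upwards [isOpen_Ioi.mem_nhds h] with y hy
        exact Real.smoothTransition.one_of_one_le (le_of_lt hy)
      rw [this.deriv_eq]
      simp
  have hc : Continuous (deriv Real.smoothTransition) :=
    (Real.smoothTransition.contDiff (n := 1)).continuous_deriv (by simp)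
  have hs : HasCompactSupport (deriv Real.smoothTransition) := by
    refine HasCompactSupport.intro (isCompact_Icc (a := (0 : ℝ)) (b := 1)) fun s hs => ?_
    rw [Set.mem_Icc, not_and_or, not_le, not_le] at hs
    exact h0 s hs
  obtain ⟨C, hC⟩ := hs.exists_bound_of_continuous hc
  exact ⟨C, (norm_nonneg _).trans (hC 0), hC, h0⟩

lemma st_diff (s : ℝ) : DifferentiableAt ℝ Real.smoothTransition s :=
  (Real.smoothTransition.contDiff (n := 1)).differentiable (by simp) s

lemma pdr_comp {φ : ℝ → ℝ} {f : X3 → ℝ} {x : X3} (hφ : DifferentiableAt ℝ φ (f x))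
    (hf : DifferentiableAt ℝ f x) (i : Fin 9) (A : Fin 3) :
    pdr i A (fun y => φ (f y)) x = deriv φ (f x) * pdr i A f x := by
  have h1 : HasFDerivAt (fun y => φ (f y)) (deriv φ (f x) • fderiv ℝ f x) x :=
    hφ.hasDerivAt.comp_hasFDerivAt x hf.hasFDerivAt
  rw [pdr, h1.fderiv]
  rfl

lemma pdr_mul_le {f g : X3 → ℝ} {x : X3} (hf : DifferentiableAt ℝ f x)
    (hg : DifferentiableAt ℝ g x) (h1 : |f x| ≤ 1) (h2 : |g x| ≤ 1) (i : Fin 9) (A : Fin 3) :
    |pdr i A (fun y => f y * g y) x| ≤ |pdr i A f x| + |pdr i A g x| := by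
  have h : pdr i A (fun y => f y * g y) x = f x * pdr i A g x + g x * pdr i A f x := by
    unfold pdr
    rw [fderiv_fun_mul hf hg]
    rfl
  rw [h]
  refine (abs_add_le _ _).trans ?_
  rw [abs_mul, abs_mul]
  have a1 := mul_le_mul_of_nonneg_right h1 (abs_nonneg (pdr i A g x))
  have a2 := mul_le_mul_of_nonneg_right h2 (abs_nonneg (pdr i A f x))
  linarith

end Vale.Agent.P353.U
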