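import Vale.Agent.P353.U.OutB

/-! # P353, D-Out, part C: the cutoff `χ` -/

set_option linter.all false

open MeasureTheory Filter Topology
open scoped ContDiff

namespace Vale.Agent.P353.U

variable {F : Type*} [NormedAddCommGroup F] [InnerProductSpace ℂ F]

/-- `ρ6²/ρ²` -/
noncomputable def q2 (x : X3) : ℝ := rho6sq x / ‖x‖ ^ 2

/-- `V/ρ⁴` -/
noncomputable def q4 (S : Setup F) (x : X3) : ℝ := S.V x / ‖x‖ ^ 4

/-- closed region containing the support of the cutoff -/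
def Rg (S : Setup F) (a b δ ε : ℝ) : Set X3 :=
  {x | (a ≤ ‖x‖ ∧ ‖x‖ ^ 2 ≤ 2 * b ^ 2) ∧ (δ ^ 2 * ‖x‖ ^ 2 ≤ rho6sq x ∧
    2 * S.V x ≤ ε ^ 2 * ‖x‖ ^ 4)}

/-- the cutoff -/
noncomputable def ct (S : Setup F) (a b δ ε : ℝ) (x : X3) : ℝ :=
  (Real.smoothTransition (‖x‖ ^ 2 / a ^ 2 - 1) *
    (1 - Real.smoothTransition (‖x‖ ^ 2 / b ^ 2 - 1))) *
  (Real.smoothTransition (q2 x / δ ^ 2 - 1) *
    (1 - Real.smoothTransition (4 / ε ^ 2 * q4 S x - 1)))

lemma st_ne {s : ℝ} (h : Real.smoothTransition s ≠ 0) : 0 < s := by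
  by_contra h'
  exact h (Real.smoothTransition.zero_of_nonpos (not_lt.1 h'))

lemma st_ne' {s : ℝ} (h : 1 - Real.smoothTransition s ≠ 0) : s < 1 := by
  by_contra h'
  exact h (by rw [Real.smoothTransition.one_of_one_le (not_lt.1 h'), sub_self])

lemma st_abs (s : ℝ) : |Real.smoothTransition s| ≤ 1 := by
  rw [abs_of_nonneg (Real.smoothTransition.nonneg s)]
  exact Real.smoothTransition.le_one s

lemma st_abs' (s : ℝ) : |1 - Real.smoothTransition s| ≤ 1 := by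
  rw [abs_le]
  constructor <;> linarith [Real.smoothTransition.nonneg s, Real.smoothTransition.le_one s]

section

variable {S : Setup F} {a b δ ε : ℝ}

lemma ct_zero (ha : 0 < a) {x : X3} (hx : ‖x‖ ≤ a) : ct S a b δ ε x = 0 := by
  unfold ct
  rw [Real.smoothTransition.zero_of_nonpos, zero_mul, zero_mul]
  rw [sub_nonpos, div_le_one (by positivity)]
  exact pow_le_pow_left₀ (norm_nonneg _) hx 2

lemma ct_supp (ha : 0 < a) (hb : 0 < b) (hδ : 0 < δ) (hε : 0 < ε) {x : X3}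
    (hx : ct S a b δ ε x ≠ 0) : x ∈ Rg S a b δ ε := by
  have ha' : a < ‖x‖ := by
    by_contra h
    exact hx (ct_zero ha (not_lt.1 h))
  have hn : 0 < ‖x‖ := ha.trans ha'
  unfold ct at hx
  have h1 := left_ne_zero_of_mul hx
  have h2 := right_ne_zero_of_mul hx
  have h3 := st_ne' (right_ne_zero_of_mul h1)
  have h4 := st_ne (left_ne_zero_of_mul h2)
  have h5 := st_ne' (right_ne_zero_of_mul h2)
  refine ⟨⟨ha'.le, ?_⟩, ?_, ?_⟩
  · have : ‖x‖ ^ 2 / b ^ 2 < 2 := by linarith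
    rw [div_lt_iff₀ (by positivity)] at this
    exact this.le
  · have : 1 < q2 x / δ ^ 2 := by linarith
    rw [lt_div_iff₀ (by positivity), q2, lt_div_iff₀ (by positivity)] at this
    linarith
  · have h6 : 4 / ε ^ 2 * q4 S x < 2 := by linarith
    rw [q4] at h6
    have h7 : 4 / ε ^ 2 * (S.V x / ‖x‖ ^ 4) = 4 * S.V x / (ε ^ 2 * ‖x‖ ^ 4) := by
      field_simp
    rw [h7, div_lt_iff₀ (by positivity)] at h6
    linarith

lemma Rg_closed : IsClosed (Rg S a b δ ε) := by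
  have hV := out_V_cont S
  have h6 := out_rho6_cont
  refine IsClosed.inter (IsClosed.inter ?_ ?_) (IsClosed.inter ?_ ?_)
  · exact isClosed_le continuous_const continuous_norm
  · exact isClosed_le (continuous_norm.pow 2) continuous_const
  · exact isClosed_le (continuous_const.mul (continuous_norm.pow 2)) h6
  · exact isClosed_le (continuous_const.mul hV) (continuous_const.mul (continuous_norm.pow 4))

lemma ct_ev (ha : 0 < a) (hb : 0 < b) (hδ : 0 < δ) (hε : 0 < ε) {x : X3}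
    (hx : x ∉ Rg S a b δ ε) : ct S a b δ ε =ᶠ[𝓝 x] fun _ => 0 := by
  filter_upwards [(Rg_closed (S := S) (a := a) (b := b) (δ := δ) (ε := ε)).isOpen_compl.mem_nhds hx]
    with y hy
  by_contra h
  exact hy (ct_supp ha hb hδ hε h)

lemma Rg_ne (ha : 0 < a) {x : X3} (hx : x ∈ Rg S a b δ ε) : x ≠ 0 := by
  rintro rfl
  have := hx.1.1
  rw [norm_zero] at this
  linarith

lemma Rg_pos (ha : 0 < a) (hδ : 0 < δ) {x : X3} (hx : x ∈ Rg S a b δ ε) : 0 < rho6sq x := by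
  have hn : 0 < ‖x‖ := norm_pos_iff.2 (Rg_ne ha hx)
  have := hx.2.1
  have h2 : 0 < δ ^ 2 * ‖x‖ ^ 2 := by positivity
  linarith

lemma cd_rho6 : ContDiff ℝ ∞ rho6sq := by
  unfold rho6sq
  refine ContDiff.sum fun i _ => ContDiff.sum fun A _ => ?_
  split_ifs
  · exact (Setup.contDiff_coord (i, A)).pow 2
  · exact contDiff_const

lemma cd_q2 {x : X3} (hx : x ≠ 0) : ContDiffAt ℝ ∞ q2 x := by
  unfold q2
  refine ContDiffAt.div cd_rho6.contDiffAt (contDiff_norm_sq ℝ).contDiffAt ?_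
  exact pow_ne_zero _ (norm_ne_zero_iff.2 hx)

lemma cd_q4 (S : Setup F) {x : X3} (hx : x ≠ 0) : ContDiffAt ℝ ∞ (q4 S) x := by
  have : q4 S = fun x : X3 => S.V x / (‖x‖ ^ 2) ^ 2 := by
    funext x
    rw [q4, ← pow_mul]
  rw [this]
  refine ContDiffAt.div (contDiff_V S).contDiffAt ((contDiff_norm_sq ℝ).contDiffAt.pow 2) ?_
  exact pow_ne_zero _ (pow_ne_zero _ (norm_ne_zero_iff.2 hx))

lemma cd_st : ContDiff ℝ ∞ Real.smoothTransition := Real.smoothTransition.contDiff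

lemma cd_ct (ha : 0 < a) (hb : 0 < b) (hδ : 0 < δ) (hε : 0 < ε) : ContDiff ℝ ∞ (ct S a b δ ε) := by
  rw [contDiff_iff_contDiffAt]
  intro x
  by_cases hx : x ∈ Rg S a b δ ε
  · have h0 := Rg_ne ha hx
    have hn : ContDiffAt ℝ ∞ (fun y : X3 => ‖y‖ ^ 2) x := (contDiff_norm_sq ℝ).contDiffAt
    unfold ct
    refine ContDiffAt.mul (ContDiffAt.mul ?_ (contDiffAt_const.sub ?_))
      (ContDiffAt.mul ?_ (contDiffAt_const.sub ?_))
    · exact cd_st.contDiffAt.comp x ((hn.div_const _).sub contDiffAt_const)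
    · exact cd_st.contDiffAt.comp x ((hn.div_const _).sub contDiffAt_const)
    · exact cd_st.contDiffAt.comp x (((cd_q2 h0).div_const _).sub contDiffAt_const)
    · exact cd_st.contDiffAt.comp x ((contDiffAt_const.mul (cd_q4 S h0)).sub contDiffAt_const)
  · exact contDiffAt_const.congr_of_eventuallyEq (ct_ev ha hb hδ hε hx)

lemma ct_hcs (ha : 0 < a) (hb : 0 < b) (hδ : 0 < δ) (hε : 0 < ε) :
    HasCompactSupport (ct S a b δ ε) := by
  refine HasCompactSupport.intro (isCompact_closedBall (0 : X3) (2 * b)) fun x hx => ?_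
  by_contra h
  have h1 := (ct_supp ha hb hδ hε h).1.2
  apply hx
  rw [Metric.mem_closedBall, dist_zero_right]
  refine le_of_sq_le_sq ?_ (by positivity)
  nlinarith [sq_nonneg b]

lemma HI_q2 {x : X3} (hx : x ≠ 0) : HI q2 x :=
  (HI_rho6 x).div ((HI_norm hx).pow 2) (pow_ne_zero _ (norm_ne_zero_iff.2 hx))

lemma HI_q4 (S : Setup F) {x : X3} (hx : x ≠ 0) : HI (q4 S) x :=
  (HI_V S x).div ((HI_norm hx).pow 4) (pow_ne_zero _ (norm_ne_zero_iff.2 hx))

lemma HI_ct (ha : 0 < a) (hb : 0 < b) (hδ : 0 < δ) (hε : 0 < ε) (x : X3) :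
    HI (ct S a b δ ε) x := by
  by_cases hx : x ∈ Rg S a b δ ε
  · have h0 := Rg_ne ha hx
    unfold ct
    refine HI.mul (HI.mul ?_ ((HI.const 1 x).sub ?_)) (HI.mul ?_ ((HI.const 1 x).sub ?_))
    · exact HI.comp (((HI_norm h0).pow 2).div (HI.const _ x) (by positivity) |>.sub (HI.const 1 x))
        (st_diff _)
    · exact HI.comp (((HI_norm h0).pow 2).div (HI.const _ x) (by positivity) |>.sub (HI.const 1 x))
        (st_diff _)
    · exact HI.comp ((HI_q2 h0).div (HI.const _ x) (by positivity) |>.sub (HI.const 1 x))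
        (st_diff _)
    · exact HI.comp (((HI.const _ x).mul (HI_q4 S h0)).sub (HI.const 1 x)) (st_diff _)
  · exact (HI.const 0 x).congr (ct_ev ha hb hδ hε hx)

lemma ct_abs (x : X3) : |ct S a b δ ε x| ≤ 1 := by
  unfold ct
  rw [abs_mul, abs_mul, abs_mul]
  have h1 := mul_le_one₀ (st_abs (‖x‖ ^ 2 / a ^ 2 - 1)) (abs_nonneg _)
    (st_abs' (‖x‖ ^ 2 / b ^ 2 - 1))
  have h2 := mul_le_one₀ (st_abs (q2 x / δ ^ 2 - 1)) (abs_nonneg _)
    (st_abs' (4 / ε ^ 2 * q4 S x - 1))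
  exact mul_le_one₀ h1 (mul_nonneg (abs_nonneg _) (abs_nonneg _)) h2

lemma ct_one (ha : 0 < a) (hb : 0 < b) (hδ : 0 < δ) (hε : 0 < ε) {x : X3} (h1 : 2 * a ^ 2 ≤ ‖x‖ ^ 2)
    (h2 : ‖x‖ ^ 2 ≤ b ^ 2) (h3 : 2 * δ ^ 2 * ‖x‖ ^ 2 ≤ rho6sq x)
    (h4 : 4 * S.V x ≤ ε ^ 2 * ‖x‖ ^ 4) : ct S a b δ ε x = 1 := by
  have hn : 0 < ‖x‖ ^ 2 := by
    have : 0 < a ^ 2 := by positivity
    linarith
  have hn' : 0 < ‖x‖ := by
    by_contra h
    have : ‖x‖ = 0 := le_antisymm (not_lt.1 h) (norm_nonneg _)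
    rw [this] at hn
    simp at hn
  unfold ct
  rw [Real.smoothTransition.one_of_one_le, Real.smoothTransition.zero_of_nonpos,
    Real.smoothTransition.one_of_one_le, Real.smoothTransition.zero_of_nonpos]
  · norm_num
  · have h7 : 4 / ε ^ 2 * (S.V x / ‖x‖ ^ 4) = 4 * S.V x / (ε ^ 2 * ‖x‖ ^ 4) := by
      field_simp
    rw [q4, h7, sub_nonpos, div_le_one (by positivity)]
    exact h4
  · have : 2 ≤ q2 x / δ ^ 2 := by
      rw [le_div_iff₀ (by positivity), q2, le_div_iff₀ (by positivity)]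
      exact h3
    linarith
  · rw [sub_nonpos, div_le_one (by positivity)]
    exact h2
  · have : 2 ≤ ‖x‖ ^ 2 / a ^ 2 := by
      rw [le_div_iff₀ (by positivity)]
      exact h1
    linarith

end

/-! ### gradient -/

lemma pdr_st_le {K₀ : ℝ} (hK : ∀ s : ℝ, |deriv Real.smoothTransition s| ≤ K₀)
    (h0 : ∀ s : ℝ, (s < 0 ∨ 1 < s) → deriv Real.smoothTransition s = 0) {f : X3 → ℝ} {x : X3}
    (hf : DifferentiableAt ℝ f x) (i : Fin 9) (A : Fin 3) {L : ℝ} (hL0 : 0 ≤ L)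
    (hL : 0 ≤ f x → f x ≤ 1 → |pdr i A f x| ≤ L) :
    |pdr i A (fun y => Real.smoothTransition (f y)) x| ≤ K₀ * L := by
  have hK0 : 0 ≤ K₀ := (abs_nonneg _).trans (hK 0)
  rw [pdr_comp (st_diff _) hf, abs_mul]
  by_cases h : 0 ≤ f x ∧ f x ≤ 1
  · exact mul_le_mul (hK _) (hL h.1 h.2) (abs_nonneg _) hK0
  · rw [h0 (f x) (by
      rw [not_and_or, not_le, not_le] at h
      exact h), abs_zero, zero_mul]
    positivity

lemma pdr_one_sub {g : X3 → ℝ} {x : X3} (i : Fin 9) (A : Fin 3) :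
    |pdr i A (fun y => 1 - g y) x| = |pdr i A g x| := by
  unfold pdr
  rw [fderiv_const_sub]
  show |-(fderiv ℝ g x) _| = _
  rw [abs_neg]

lemma pdr_normsq (i : Fin 9) (A : Fin 3) (c : ℝ) (x : X3) :
    pdr i A (fun y : X3 => ‖y‖ ^ 2 / c - 1) x = 2 * x (i, A) / c := by
  have h2 : HasFDerivAt (fun y : X3 => ‖y‖ ^ 2) (2 • (innerSL ℝ x)) x :=
    (hasStrictFDerivAt_norm_sq x).hasFDerivAt
  have h3 : HasFDerivAt (fun y : X3 => ‖y‖ ^ 2 / c - 1) (c⁻¹ • (2 • (innerSL ℝ x))) x := by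
    have := (h2.mul_const c⁻¹).sub_const 1
    simpa only [div_eq_mul_inv] using this
  rw [pdr, h3.fderiv]
  simp only [_root_.smul_apply, innerSL_apply_apply, smul_eq_mul]
  have : inner ℝ x (EuclideanSpace.single (i, A) (1 : ℝ)) = x (i, A) := by
    simp [EuclideanSpace.inner_single_right]
  rw [this]
  simp
  ring

lemma coord_le (x : X3) (p : Fin 9 × Fin 3) : |x p| ≤ ‖x‖ := by
  rw [← Real.norm_eq_abs]
  exact PiLp.norm_apply_le x p

/-- bound for the radial factor -/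
lemma rad_grad {a : ℝ} (ha : 0 < a) (x : X3) (i : Fin 9) (A : Fin 3)
    (h0 : 0 ≤ ‖x‖ ^ 2 / a ^ 2 - 1) (h1 : ‖x‖ ^ 2 / a ^ 2 - 1 ≤ 1) :
    |pdr i A (fun y : X3 => ‖y‖ ^ 2 / a ^ 2 - 1) x| ≤
      if a ≤ ‖x‖ ∧ ‖x‖ ≤ 2 * a then 4 / a else 0 := by
  have e0 : a ^ 2 ≤ ‖x‖ ^ 2 := by
    have : 1 ≤ ‖x‖ ^ 2 / a ^ 2 := by linarith
    rw [le_div_iff₀ (by positivity)] at this
    linarith
  have e1 : ‖x‖ ^ 2 ≤ 2 * a ^ 2 := by
    have : ‖x‖ ^ 2 / a ^ 2 ≤ 2 := by linarith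
    rwa [div_le_iff₀ (by positivity)] at this
  have e2 : a ≤ ‖x‖ := le_of_sq_le_sq e0 (norm_nonneg _)
  have e3 : ‖x‖ ≤ 2 * a := by
    refine le_of_sq_le_sq ?_ (by positivity)
    nlinarith [sq_nonneg a]
  rw [if_pos ⟨e2, e3⟩, pdr_normsq, abs_div, abs_mul, abs_two, abs_of_pos (show 0 < a ^ 2 by positivity)]
  rw [div_le_div_iff₀ (by positivity) ha]
  have := coord_le x (i, A)
  nlinarith [abs_nonneg (x (i, A))]

/-- the gradient bound, with constants `K₀` (step), `Cq` (homogeneous functions) -/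
noncomputable def gB (S : Setup F) (Cq a b δ ε : ℝ) (x : X3) : ℝ :=
  ((if a ≤ ‖x‖ ∧ ‖x‖ ≤ 2 * a then 4 / a else 0) + (if b ≤ ‖x‖ ∧ ‖x‖ ≤ 2 * b then 4 / b else 0)) +
  ((if rho6sq x ≤ 2 * δ ^ 2 * ‖x‖ ^ 2 then Cq / (δ ^ 2 * ‖x‖) else 0) +
    (if ε ^ 2 * ‖x‖ ^ 4 ≤ 4 * S.V x then 4 * Cq / (ε ^ 2 * ‖x‖) else 0))

lemma gB_nonneg (S : Setup F) {Cq a b δ ε : ℝ} (hC : 0 ≤ Cq) (ha : 0 < a) (hb : 0 < b)
    (hδ : 0 < δ) (hε : 0 < ε) (x : X3) : 0 ≤ gB S Cq a b δ ε x := by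
  unfold gB
  refine add_nonneg (add_nonneg ?_ ?_) (add_nonneg ?_ ?_) <;> split_ifs <;> positivity

theorem exists_gB (S : Setup F) : ∃ K₀ Cq : ℝ, 0 ≤ K₀ ∧ 0 ≤ Cq ∧ ∀ a b δ ε : ℝ, 0 < a → 0 < b →
    0 < δ → 0 < ε → ∀ i A (x : X3), |pdr i A (ct S a b δ ε) x| ≤ K₀ * gB S Cq a b δ ε x := by
  obtain ⟨K₀, hK0, hK, h0⟩ := st_deriv_bound
  obtain ⟨C2, hC2, h2⟩ := homog_grad (f := q2) (fun x hx => (cd_q2 hx).of_le (by simp)) (by
    intro t ht x
    rw [q2, q2, out_rho6_smul, norm_smul, Real.norm_of_nonneg ht.le, mul_pow,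
      mul_div_mul_left _ _ (by positivity)])
  obtain ⟨C4, hC4, h4⟩ := homog_grad (f := q4 S) (fun x hx => (cd_q4 S hx).of_le (by simp)) (by
    intro t ht x
    rw [q4, q4, S.V_smul, norm_smul, Real.norm_of_nonneg ht.le, mul_pow,
      mul_div_mul_left _ _ (by positivity)])
  refine ⟨K₀, C2 + C4, hK0, by positivity, fun a b δ ε ha hb hδ hε i A x => ?_⟩
  by_cases hx : x ∈ Rg S a b δ ε
  · have hx0 := Rg_ne ha hx
    have hn : 0 < ‖x‖ := norm_pos_iff.2 hx0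
    have dn : DifferentiableAt ℝ (fun y : X3 => ‖y‖ ^ 2) x :=
      ((contDiff_norm_sq ℝ (n := 1)).differentiable (by simp)) x
    have d1 : DifferentiableAt ℝ (fun y : X3 => ‖y‖ ^ 2 / a ^ 2 - 1) x := by
      simpa only [div_eq_mul_inv] using (dn.mul_const (a ^ 2)⁻¹).sub_const 1
    have d3 : DifferentiableAt ℝ (fun y : X3 => ‖y‖ ^ 2 / b ^ 2 - 1) x := by
      simpa only [div_eq_mul_inv] using (dn.mul_const (b ^ 2)⁻¹).sub_const 1
    have dq2 : DifferentiableAt ℝ q2 x := (cd_q2 hx0).differentiableAt (by simp)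
    have dq4 : DifferentiableAt ℝ (q4 S) x := (cd_q4 S hx0).differentiableAt (by simp)
    have d2 : DifferentiableAt ℝ (fun y : X3 => q2 y / δ ^ 2 - 1) x := by
      simpa only [div_eq_mul_inv] using (dq2.mul_const (δ ^ 2)⁻¹).sub_const 1
    have d4 : DifferentiableAt ℝ (fun y : X3 => 4 / ε ^ 2 * q4 S y - 1) x :=
      (dq4.const_mul _).sub_const 1
    have s1 : DifferentiableAt ℝ (fun y : X3 => Real.smoothTransition (‖y‖ ^ 2 / a ^ 2 - 1)) x :=
      DifferentiableAt.comp x (st_diff _) d1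
    have s3 : DifferentiableAt ℝ (fun y : X3 => 1 - Real.smoothTransition (‖y‖ ^ 2 / b ^ 2 - 1)) x :=
      (DifferentiableAt.comp x (st_diff _) d3).const_sub 1
    have s2 : DifferentiableAt ℝ (fun y : X3 => Real.smoothTransition (q2 y / δ ^ 2 - 1)) x :=
      DifferentiableAt.comp x (st_diff _) d2
    have s4 : DifferentiableAt ℝ (fun y : X3 => 1 - Real.smoothTransition (4 / ε ^ 2 * q4 S y - 1)) x :=
      (DifferentiableAt.comp x (st_diff _) d4).const_sub 1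
    have b1 : |pdr i A (fun y : X3 => Real.smoothTransition (‖y‖ ^ 2 / a ^ 2 - 1)) x| ≤
        K₀ * (if a ≤ ‖x‖ ∧ ‖x‖ ≤ 2 * a then 4 / a else 0) :=
      pdr_st_le hK h0 d1 i A (by split_ifs <;> positivity) (rad_grad ha x i A)
    have b3 : |pdr i A (fun y : X3 => 1 - Real.smoothTransition (‖y‖ ^ 2 / b ^ 2 - 1)) x| ≤
        K₀ * (if b ≤ ‖x‖ ∧ ‖x‖ ≤ 2 * b then 4 / b else 0) := by
      rw [pdr_one_sub]
      exact pdr_st_le hK h0 d3 i A (by split_ifs <;> positivity) (rad_grad hb x i A)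
    have b2 : |pdr i A (fun y : X3 => Real.smoothTransition (q2 y / δ ^ 2 - 1)) x| ≤
        K₀ * (if rho6sq x ≤ 2 * δ ^ 2 * ‖x‖ ^ 2 then (C2 + C4) / (δ ^ 2 * ‖x‖) else 0) := by
      refine pdr_st_le hK h0 d2 i A (by split_ifs <;> positivity) fun e0 e1 => ?_
      have e2 : rho6sq x ≤ 2 * δ ^ 2 * ‖x‖ ^ 2 := by
        have : q2 x / δ ^ 2 ≤ 2 := by linarith
        rwa [div_le_iff₀ (by positivity), q2, div_le_iff₀ (by positivity)] at this
      rw [if_pos e2]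
      have e3 : pdr i A (fun y : X3 => q2 y / δ ^ 2 - 1) x = pdr i A q2 x / δ ^ 2 := by
        unfold pdr
        rw [fderiv_sub_const]
        simp only [div_eq_mul_inv]
        rw [fderiv_mul_const dq2]
        show (δ ^ 2)⁻¹ * (fderiv ℝ q2 x) (EuclideanSpace.single (i, A) (1 : ℝ)) = _
        ring
      rw [e3, abs_div, abs_of_pos (show 0 < δ ^ 2 by positivity), div_le_iff₀ (by positivity)]
      refine (h2 x hx0 i A).trans ?_
      have e4 : (C2 + C4) / (δ ^ 2 * ‖x‖) * δ ^ 2 = (C2 + C4) / ‖x‖ := by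
        field_simp
      rw [e4]
      exact div_le_div_of_nonneg_right (by linarith) hn.le
    have b4 : |pdr i A (fun y : X3 => 1 - Real.smoothTransition (4 / ε ^ 2 * q4 S y - 1)) x| ≤
        K₀ * (if ε ^ 2 * ‖x‖ ^ 4 ≤ 4 * S.V x then 4 * (C2 + C4) / (ε ^ 2 * ‖x‖) else 0) := by
      rw [pdr_one_sub]
      refine pdr_st_le hK h0 d4 i A (by split_ifs <;> positivity) fun e0 e1 => ?_
      have e2 : ε ^ 2 * ‖x‖ ^ 4 ≤ 4 * S.V x := by
        have e5 : 1 ≤ 4 / ε ^ 2 * q4 S x := by linarith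
        have h7 : 4 / ε ^ 2 * (S.V x / ‖x‖ ^ 4) = 4 * S.V x / (ε ^ 2 * ‖x‖ ^ 4) := by
          field_simp
        rw [q4, h7, le_div_iff₀ (by positivity)] at e5
        linarith
      rw [if_pos e2]
      have e3 : pdr i A (fun y : X3 => 4 / ε ^ 2 * q4 S y - 1) x = 4 / ε ^ 2 * pdr i A (q4 S) x := by
        unfold pdr
        rw [fderiv_sub_const, fderiv_const_mul dq4]
        rfl
      rw [e3, abs_mul, abs_of_pos (show 0 < 4 / ε ^ 2 by positivity)]
      have e5 := mul_le_mul_of_nonneg_left (h4 x hx0 i A) (show 0 ≤ 4 / ε ^ 2 by positivity)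
      refine e5.trans ?_
      have e4 : 4 * (C2 + C4) / (ε ^ 2 * ‖x‖) = 4 / ε ^ 2 * ((C2 + C4) / ‖x‖) := by
        field_simp
      rw [e4]
      exact mul_le_mul_of_nonneg_left (div_le_div_of_nonneg_right (by linarith) hn.le)
        (by positivity)
    have p13 := pdr_mul_le s1 s3 (st_abs _) (st_abs' _) i A
    have p24 := pdr_mul_le s2 s4 (st_abs _) (st_abs' _) i A
    have m13 : |Real.smoothTransition (‖x‖ ^ 2 / a ^ 2 - 1) *
        (1 - Real.smoothTransition (‖x‖ ^ 2 / b ^ 2 - 1))| ≤ 1 := by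
      rw [abs_mul]; exact mul_le_one₀ (st_abs _) (abs_nonneg _) (st_abs' _)
    have m24 : |Real.smoothTransition (q2 x / δ ^ 2 - 1) *
        (1 - Real.smoothTransition (4 / ε ^ 2 * q4 S x - 1))| ≤ 1 := by
      rw [abs_mul]; exact mul_le_one₀ (st_abs _) (abs_nonneg _) (st_abs' _)
    have pall := pdr_mul_le (s1.mul s3) (s2.mul s4) m13 m24 i A
    have heq : ct S a b δ ε = fun y : X3 => (Real.smoothTransition (‖y‖ ^ 2 / a ^ 2 - 1) *
        (1 - Real.smoothTransition (‖y‖ ^ 2 / b ^ 2 - 1))) *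
        (Real.smoothTransition (q2 y / δ ^ 2 - 1) *
        (1 - Real.smoothTransition (4 / ε ^ 2 * q4 S y - 1))) := rfl
    rw [heq]
    refine pall.trans ?_
    unfold gB
    rw [mul_add, mul_add, mul_add]
    exact add_le_add (p13.trans (add_le_add b1 b3)) (p24.trans (add_le_add b2 b4))
  · have h1 : pdr i A (ct S a b δ ε) x = 0 := by
      rw [pdr, (ct_ev ha hb hδ hε hx).fderiv_eq]
      simp
    rw [h1, abs_zero]
    exact mul_nonneg hK0 (gB_nonneg S (by positivity) ha hb hδ hε x)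

end Vale.Agent.P353.U
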