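import Vale.Agent.P353.U.OutC
import Vale.Agent.P353.Loc

/-! # P353, D-Out, part D: the outer state and pointwise bounds -/

set_option linter.all false

open MeasureTheory Filter Topology
open scoped ContDiff

namespace Vale.Agent.P353.U

variable {F : Type*} [NormedAddCommGroup F] [InnerProductSpace ℂ F]

/-! ### products with invariant functions -/

lemma fd_rsmul {φ : X3 → ℝ} {v : X3 → F} {x : X3} (hφ : DifferentiableAt ℝ φ x)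
    (hv : DifferentiableAt ℝ v x) (ξ : X3) :
    fderiv ℝ (fun y => ((φ y : ℝ) : ℂ) • v y) x ξ =
      ((fderiv ℝ φ x ξ : ℝ) : ℂ) • v x + ((φ x : ℝ) : ℂ) • fderiv ℝ v x ξ := by
  have hc : DifferentiableAt ℝ (fun y => ((φ y : ℝ) : ℂ)) x :=
    Complex.ofRealCLM.differentiableAt.comp x hφ
  rw [fderiv_fun_smul hc hv]
  have := fderiv_ofReal_comp hφ ξ
  simp only [_root_.add_apply, _root_.smul_apply, ContinuousLinearMap.smulRight_apply, this]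
  rw [add_comm]

lemma G_HI (S : Setup F) (C : Fin 3) {φ : X3 → ℝ} {v : X3 → F} {x : X3} (hφ : HI φ x)
    (hv : DifferentiableAt ℝ v x) :
    S.G C (fun y => ((φ y : ℝ) : ℂ) • v y) x = ((φ x : ℝ) : ℂ) • S.G C v x := by
  rw [Setup.G, Setup.G, ← fderiv_kk, ← fderiv_kk, fd_rsmul hφ.1 hv, hφ.2 _ (Or.inl ⟨C, rfl⟩)]
  rw [Complex.ofReal_zero, zero_smul, zero_add, map_smul, smul_add,
    smul_comm (-Complex.I) ((φ x : ℝ) : ℂ)]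

lemma J_HI (S : Setup F) {k l : Fin 9} (hkl : Same k l) {φ : X3 → ℝ} {v : X3 → F} {x : X3}
    (hφ : HI φ x) (hv : DifferentiableAt ℝ v x) :
    S.J k l (fun y => ((φ y : ℝ) : ℂ) • v y) x = ((φ x : ℝ) : ℂ) • S.J k l v x := by
  rw [Setup.J, Setup.J, ← fderiv_jj, ← fderiv_jj, fd_rsmul hφ.1 hv,
    hφ.2 _ (Or.inr ⟨k, l, hkl, rfl⟩)]
  rw [Complex.ofReal_zero, zero_smul, zero_add, map_smul, smul_add,
    smul_comm (-Complex.I) ((φ x : ℝ) : ℂ)]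

/-! ### the weight `φ_m` -/

lemma cd_ph (S : Setup F) (m : ℝ) {x : X3} (hx : x ≠ 0) : ContDiffAt ℝ ∞ (S.ph m) x := by
  unfold Setup.ph
  have hn : ContDiffAt ℝ ∞ (fun y : X3 => ‖y‖) x := contDiffAt_norm ℝ hx
  have hw : ContDiff ℝ ∞ (fun y : X3 => ∑ i, ∑ A, aw i * y (i, A) ^ 2) :=
    ContDiff.sum fun i _ => ContDiff.sum fun A _ =>
      contDiff_const.mul ((Setup.contDiff_coord (i, A)).pow 2)
  refine (hn.pow 3).mul (ContDiffAt.exp ?_)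
  refine ContDiffAt.sub (ContDiffAt.neg ?_) (contDiffAt_const.mul hw.contDiffAt)
  exact (contDiff_V S).contDiffAt.div (contDiffAt_const.mul hn)
    (mul_ne_zero S.κ_pos.ne' (norm_ne_zero_iff.2 hx))

lemma HI_ph (S : Setup F) (m : ℝ) {x : X3} (hx : x ≠ 0) : HI (S.ph m) x := by
  unfold Setup.ph
  refine ((HI_norm hx).pow 3).mul (HI.comp (φ := Real.exp) ?_ Real.differentiable_exp.differentiableAt)
  refine HI.sub ?_ ((HI.const _ x).mul (HI_aw x))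
  have h1 : HI (fun y : X3 => S.V y / (S.κ * ‖y‖)) x :=
    (HI_V S x).div ((HI.const _ x).mul (HI_norm hx))
      (mul_ne_zero S.κ_pos.ne' (norm_ne_zero_iff.2 hx))
  exact h1.comp (φ := fun s => -s) differentiable_neg.differentiableAt

lemma ww_ge (x : X3) : ‖x‖ ^ 2 ≤ ∑ i, ∑ A, aw i * x (i, A) ^ 2 := by
  rw [normsq_eq_Qw, Qw]
  refine Finset.sum_le_sum fun i _ => Finset.sum_le_sum fun A _ => ?_
  refine mul_le_mul_of_nonneg_right ?_ (sq_nonneg _)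
  unfold aw
  split_ifs <;> norm_num

lemma ww_le (x : X3) : ∑ i, ∑ A, aw i * x (i, A) ^ 2 ≤ 2 * ‖x‖ ^ 2 := by
  rw [normsq_eq_Qw, Qw, Finset.mul_sum]
  refine Finset.sum_le_sum fun i _ => ?_
  rw [Finset.mul_sum]
  refine Finset.sum_le_sum fun A _ => ?_
  rw [one_mul]
  refine mul_le_mul_of_nonneg_right ?_ (sq_nonneg _)
  unfold aw
  split_ifs <;> norm_num

/-- `e^{-V/(κρ)}` -/
noncomputable def oEE (S : Setup F) (x : X3) : ℝ := Real.exp (-(2 * (1 / (2 * S.κ)) * S.V x / ‖x‖))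

lemma oEE_eq (S : Setup F) (x : X3) : oEE S x = Real.exp (-(S.V x / (S.κ * ‖x‖))) := by
  unfold oEE
  congr 2
  have := S.κ_pos
  by_cases h : ‖x‖ = 0
  · rw [h]; simp
  · field_simp

lemma oEE_pos (S : Setup F) (x : X3) : 0 < oEE S x := Real.exp_pos _

lemma oEE_le_one (S : Setup F) (x : X3) : oEE S x ≤ 1 := by
  rw [oEE_eq, Real.exp_le_one_iff, neg_nonpos]
  exact div_nonneg (S.V_nonneg x) (mul_nonneg S.κ_pos.le (norm_nonneg _))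

lemma ph_nonneg (S : Setup F) (m : ℝ) (x : X3) : 0 ≤ S.ph m x := by
  unfold Setup.ph; positivity

lemma ph_sq (S : Setup F) (m : ℝ) (x : X3) : S.ph m x ^ 2 =
    ‖x‖ ^ 6 * oEE S x ^ 2 * Real.exp (-(m * ∑ i, ∑ A, aw i * x (i, A) ^ 2)) := by
  rw [oEE_eq, Setup.ph, mul_pow, ← Real.exp_nat_mul, ← Real.exp_nat_mul, mul_assoc, ← Real.exp_add]
  congr 1
  · ring
  · congr 1
    push_cast
    ring

lemma ph_sq_le (S : Setup F) {m : ℝ} (hm : 0 ≤ m) (x : X3) :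
    S.ph m x ^ 2 ≤ ‖x‖ ^ 6 * oEE S x ^ 2 * Real.exp (-(m * ‖x‖ ^ 2)) := by
  rw [ph_sq]
  refine mul_le_mul_of_nonneg_left ?_ (by positivity)
  rw [Real.exp_le_exp, neg_le_neg_iff]
  exact mul_le_mul_of_nonneg_left (ww_ge x) hm

lemma ph_sq_le' (S : Setup F) {m : ℝ} (hm : 0 ≤ m) (x : X3) :
    S.ph m x ^ 2 ≤ ‖x‖ ^ 6 * oEE S x ^ 2 := by
  refine (ph_sq_le S hm x).trans ?_
  refine mul_le_of_le_one_right (by have := oEE_pos S x; positivity) ?_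
  rw [Real.exp_le_one_iff, neg_nonpos]
  positivity

lemma ph_sq_ge (S : Setup F) {m : ℝ} (hm : 0 ≤ m) (x : X3) :
    ‖x‖ ^ 6 * oEE S x ^ 2 * Real.exp (-(2 * m * ‖x‖ ^ 2)) ≤ S.ph m x ^ 2 := by
  rw [ph_sq]
  refine mul_le_mul_of_nonneg_left ?_ (by positivity)
  rw [Real.exp_le_exp, neg_le_neg_iff]
  refine (mul_le_mul_of_nonneg_left (ww_le x) hm).trans (le_of_eq ?_)
  ring

lemma VE_le (S : Setup F) {x : X3} (hx : x ≠ 0) : S.V x * oEE S x ≤ S.κ * ‖x‖ := by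
  have hn : 0 < ‖x‖ := norm_pos_iff.2 hx
  have hκ := S.κ_pos
  rw [oEE_eq, Real.exp_neg, ← div_eq_mul_inv, div_le_iff₀ (Real.exp_pos _)]
  have h1 := Real.add_one_le_exp (S.V x / (S.κ * ‖x‖))
  have h2 : S.V x = S.κ * ‖x‖ * (S.V x / (S.κ * ‖x‖)) := by field_simp
  calc S.V x = S.κ * ‖x‖ * (S.V x / (S.κ * ‖x‖)) := h2
    _ ≤ S.κ * ‖x‖ * Real.exp (S.V x / (S.κ * ‖x‖)) := by
      refine mul_le_mul_of_nonneg_left (by linarith) (by positivity)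

lemma V3E_le (S : Setup F) {x : X3} (hx : x ≠ 0) :
    S.V x ^ 3 * oEE S x ≤ 6 * S.κ ^ 3 * ‖x‖ ^ 3 := by
  have hn : 0 < ‖x‖ := norm_pos_iff.2 hx
  have hκ := S.κ_pos
  rw [oEE_eq, Real.exp_neg, ← div_eq_mul_inv, div_le_iff₀ (Real.exp_pos _)]
  have h0 : 0 ≤ S.V x / (S.κ * ‖x‖) := div_nonneg (S.V_nonneg x) (by positivity)
  have h1 := Real.pow_div_factorial_le_exp (S.V x / (S.κ * ‖x‖)) h0 3
  have h3 : ((Nat.factorial 3 : ℕ) : ℝ) = 6 := by norm_num [Nat.factorial]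
  rw [h3, div_le_iff₀ (by norm_num)] at h1
  have h2 : S.V x ^ 3 = S.κ ^ 3 * ‖x‖ ^ 3 * (S.V x / (S.κ * ‖x‖)) ^ 3 := by field_simp
  calc S.V x ^ 3 = S.κ ^ 3 * ‖x‖ ^ 3 * (S.V x / (S.κ * ‖x‖)) ^ 3 := h2
    _ ≤ S.κ ^ 3 * ‖x‖ ^ 3 * (Real.exp (S.V x / (S.κ * ‖x‖)) * 6) := by
      refine mul_le_mul_of_nonneg_left h1 (by positivity)
    _ = _ := by ring

/-- the quantity of D-Est -/
noncomputable def tt (S : Setup F) (m : ℝ) (x : X3) : ℝ :=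
  (S.V x) ^ (3 / 2 : ℝ) / ‖x‖ ^ 4 + Real.sqrt (S.V x) / ‖x‖ ^ 3 + m * Real.sqrt (S.V x) / ‖x‖

lemma tt_sq (S : Setup F) (m : ℝ) (x : X3) : tt S m x ^ 2 ≤
    3 * (S.V x ^ 3 / ‖x‖ ^ 8 + S.V x / ‖x‖ ^ 6 + m ^ 2 * S.V x / ‖x‖ ^ 2) := by
  have hV := S.V_nonneg x
  have h1 : ((S.V x) ^ (3 / 2 : ℝ)) ^ 2 = S.V x ^ 3 := by
    rw [← Real.rpow_natCast, ← Real.rpow_mul hV, ← Real.rpow_natCast (S.V x) 3]
    norm_num
  have h2 : Real.sqrt (S.V x) ^ 2 = S.V x := Real.sq_sqrt hV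
  have e1 : S.V x ^ 3 / ‖x‖ ^ 8 = ((S.V x) ^ (3 / 2 : ℝ) / ‖x‖ ^ 4) ^ 2 := by
    rw [div_pow, h1, ← pow_mul]
  have e2 : S.V x / ‖x‖ ^ 6 = (Real.sqrt (S.V x) / ‖x‖ ^ 3) ^ 2 := by
    rw [div_pow, h2, ← pow_mul]
  have e3 : m ^ 2 * S.V x / ‖x‖ ^ 2 = (m * Real.sqrt (S.V x) / ‖x‖) ^ 2 := by
    rw [div_pow, mul_pow, h2]
  rw [e1, e2, e3]
  unfold tt
  nlinarith [sq_nonneg ((S.V x) ^ (3 / 2 : ℝ) / ‖x‖ ^ 4 - Real.sqrt (S.V x) / ‖x‖ ^ 3),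
    sq_nonneg ((S.V x) ^ (3 / 2 : ℝ) / ‖x‖ ^ 4 - m * Real.sqrt (S.V x) / ‖x‖),
    sq_nonneg (Real.sqrt (S.V x) / ‖x‖ ^ 3 - m * Real.sqrt (S.V x) / ‖x‖)]

lemma ph_tt (S : Setup F) {m : ℝ} (hm : 0 ≤ m) {x : X3} (hx : x ≠ 0) :
    S.ph m x ^ 2 * tt S m x ^ 2 ≤
      3 * oEE S x * (6 * S.κ ^ 3 * ‖x‖ + S.κ * ‖x‖ + S.κ * m ^ 2 * ‖x‖ ^ 5) := by
  have hn : 0 < ‖x‖ := norm_pos_iff.2 hx
  have hE := oEE_pos S x
  have hV := S.V_nonneg x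
  have hκ := S.κ_pos
  have a1 := VE_le S hx
  have a3 := V3E_le S hx
  calc S.ph m x ^ 2 * tt S m x ^ 2
      ≤ (‖x‖ ^ 6 * oEE S x ^ 2) * (3 * (S.V x ^ 3 / ‖x‖ ^ 8 + S.V x / ‖x‖ ^ 6 +
        m ^ 2 * S.V x / ‖x‖ ^ 2)) :=
        mul_le_mul (ph_sq_le' S hm x) (tt_sq S m x) (sq_nonneg _) (by positivity)
    _ = 3 * oEE S x * ((S.V x ^ 3 * oEE S x) / ‖x‖ ^ 2 + S.V x * oEE S x +
        m ^ 2 * ‖x‖ ^ 4 * (S.V x * oEE S x)) := by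
        field_simp
    _ ≤ 3 * oEE S x * ((6 * S.κ ^ 3 * ‖x‖ ^ 3) / ‖x‖ ^ 2 + S.κ * ‖x‖ +
        m ^ 2 * ‖x‖ ^ 4 * (S.κ * ‖x‖)) := by
        refine mul_le_mul_of_nonneg_left ?_ (by positivity)
        refine add_le_add (add_le_add ?_ a1) ?_
        · exact div_le_div_of_nonneg_right a3 (by positivity)
        · exact mul_le_mul_of_nonneg_left a1 (by positivity)
    _ = _ := by
        field_simp

/-! ### bounds for the gradient terms -/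

section

variable (S : Setup F) {Cq a b δ ε m : ℝ}

lemma shl_EE (a b : ℝ) (P : Set X3) {x : X3} (h1 : a ≤ ‖x‖) (h2 : ‖x‖ ≤ b) (h3 : x ∈ P) :
    shl S (2 * (1 / (2 * S.κ))) a b P x = oEE S x :=
  shl_of_mem S _ a b P h1 h2 h3

lemma g1_bd (ha : 0 < a) (hm : 0 ≤ m) (x : X3) :
    (if a ≤ ‖x‖ ∧ ‖x‖ ≤ 2 * a then 4 / a else 0) ^ 2 * S.ph m x ^ 2 ≤
      1024 * a ^ 4 * Real.exp (-(m * a ^ 2)) *
        shl S (2 * (1 / (2 * S.κ))) a (2 * a) Set.univ x := by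
  have hE := oEE_pos S x
  by_cases h : a ≤ ‖x‖ ∧ ‖x‖ ≤ 2 * a
  · rw [if_pos h, shl_EE S a (2 * a) Set.univ h.1 h.2 (Set.mem_univ _)]
    have h1 : S.ph m x ^ 2 ≤ (2 * a) ^ 6 * oEE S x * Real.exp (-(m * a ^ 2)) := by
      refine (ph_sq_le S hm x).trans ?_
      have e1 : ‖x‖ ^ 6 ≤ (2 * a) ^ 6 := pow_le_pow_left₀ (norm_nonneg _) h.2 6
      have e2 : oEE S x ^ 2 ≤ oEE S x := by
        rw [sq]; exact mul_le_of_le_one_left hE.le (oEE_le_one S x)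
      have e3 : Real.exp (-(m * ‖x‖ ^ 2)) ≤ Real.exp (-(m * a ^ 2)) := by
        rw [Real.exp_le_exp, neg_le_neg_iff]
        exact mul_le_mul_of_nonneg_left (pow_le_pow_left₀ ha.le h.1 2) hm
      gcongr
    calc (4 / a) ^ 2 * S.ph m x ^ 2
        ≤ (4 / a) ^ 2 * ((2 * a) ^ 6 * oEE S x * Real.exp (-(m * a ^ 2))) :=
          mul_le_mul_of_nonneg_left h1 (by positivity)
      _ = _ := by field_simp; ring
  · rw [if_neg h, zero_pow two_ne_zero, zero_mul]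
    exact mul_nonneg (by positivity) (shl_nonneg _ _ _ _ _ _)

lemma g2_bd (ha : 0 < a) (hb : 0 < b) (hδ : 0 < δ) (hm : 0 ≤ m) (x : X3)
    (h1 : a ≤ ‖x‖) (h2 : ‖x‖ ≤ 2 * b) :
    (if rho6sq x ≤ 2 * δ ^ 2 * ‖x‖ ^ 2 then Cq / (δ ^ 2 * ‖x‖) else 0) ^ 2 * S.ph m x ^ 2 ≤
      16 * Cq ^ 2 * b ^ 4 / δ ^ 4 *
        shl S (2 * (1 / (2 * S.κ))) a (2 * b) {x | rho6sq x ≤ (2 * δ) ^ 2 * ‖x‖ ^ 2} x := by
  have hE := oEE_pos S x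
  have hn : 0 < ‖x‖ := ha.trans_le h1
  by_cases h : rho6sq x ≤ 2 * δ ^ 2 * ‖x‖ ^ 2
  · have hP : x ∈ {x : X3 | rho6sq x ≤ (2 * δ) ^ 2 * ‖x‖ ^ 2} := by
      show rho6sq x ≤ (2 * δ) ^ 2 * ‖x‖ ^ 2
      have : 0 ≤ δ ^ 2 * ‖x‖ ^ 2 := by positivity
      nlinarith
    rw [if_pos h, shl_EE S a (2 * b) _ h1 h2 hP]
    have h3 : S.ph m x ^ 2 ≤ ‖x‖ ^ 6 * oEE S x := by
      refine (ph_sq_le' S hm x).trans ?_
      have e2 : oEE S x ^ 2 ≤ oEE S x := by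
        rw [sq]; exact mul_le_of_le_one_left hE.le (oEE_le_one S x)
      gcongr
    calc (Cq / (δ ^ 2 * ‖x‖)) ^ 2 * S.ph m x ^ 2
        ≤ (Cq / (δ ^ 2 * ‖x‖)) ^ 2 * (‖x‖ ^ 6 * oEE S x) :=
          mul_le_mul_of_nonneg_left h3 (by positivity)
      _ = Cq ^ 2 / δ ^ 4 * ‖x‖ ^ 4 * oEE S x := by field_simp
      _ ≤ Cq ^ 2 / δ ^ 4 * (2 * b) ^ 4 * oEE S x := by
          have e1 : ‖x‖ ^ 4 ≤ (2 * b) ^ 4 := pow_le_pow_left₀ (norm_nonneg _) h2 4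
          gcongr
      _ = _ := by ring
  · rw [if_neg h, zero_pow two_ne_zero, zero_mul]
    exact mul_nonneg (by positivity) (shl_nonneg _ _ _ _ _ _)

lemma g4_bd (ha : 0 < a) (hb : 0 < b) (hε : 0 < ε) (hm : 0 ≤ m) (x : X3)
    (h1 : a ≤ ‖x‖) (h2 : ‖x‖ ≤ 2 * b) :
    (if ε ^ 2 * ‖x‖ ^ 4 ≤ 4 * S.V x then 4 * Cq / (ε ^ 2 * ‖x‖) else 0) ^ 2 * S.ph m x ^ 2 ≤
      128 * Cq ^ 2 * S.κ / ε ^ 6 * b *
        shl S (2 * (1 / (2 * S.κ))) a (2 * b) Set.univ x := by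
  have hE := oEE_pos S x
  have hn : 0 < ‖x‖ := ha.trans_le h1
  have hx : x ≠ 0 := norm_pos_iff.1 hn
  have hκ := S.κ_pos
  by_cases h : ε ^ 2 * ‖x‖ ^ 4 ≤ 4 * S.V x
  · rw [if_pos h, shl_EE S a (2 * b) _ h1 h2 (Set.mem_univ _)]
    have e0 : ‖x‖ ^ 4 ≤ 4 * S.V x / ε ^ 2 := by
      rw [le_div_iff₀ (by positivity)]
      linarith
    calc (4 * Cq / (ε ^ 2 * ‖x‖)) ^ 2 * S.ph m x ^ 2
        ≤ (4 * Cq / (ε ^ 2 * ‖x‖)) ^ 2 * (‖x‖ ^ 6 * oEE S x ^ 2) :=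
          mul_le_mul_of_nonneg_left (ph_sq_le' S hm x) (by positivity)
      _ = 16 * Cq ^ 2 / ε ^ 4 * oEE S x ^ 2 * ‖x‖ ^ 4 := by field_simp; ring
      _ ≤ 16 * Cq ^ 2 / ε ^ 4 * oEE S x ^ 2 * (4 * S.V x / ε ^ 2) := by gcongr
      _ = 64 * Cq ^ 2 / ε ^ 6 * oEE S x * (S.V x * oEE S x) := by field_simp; ring
      _ ≤ 64 * Cq ^ 2 / ε ^ 6 * oEE S x * (S.κ * (2 * b)) := by
          refine mul_le_mul_of_nonneg_left ((VE_le S hx).trans ?_) (by positivity)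
          exact mul_le_mul_of_nonneg_left h2 hκ.le
      _ = _ := by ring
  · rw [if_neg h, zero_pow two_ne_zero, zero_mul]
    exact mul_nonneg (by positivity) (shl_nonneg _ _ _ _ _ _)

end

end Vale.Agent.P353.U
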