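import Vale.Agent.P353.Loc
import Vale.Agent.P353.U.StmtA
import Vale.Agent.P353.U.StmtB

/-! # P353, uniqueness: tools for B4 (weighted estimate `‖X u‖ ≤ C ‖(1 + ∑Q²) u‖`) -/

open MeasureTheory Filter Topology
open scoped ContDiff

namespace Vale.Agent.P353.U

open Setup

variable {F : Type*} [NormedAddCommGroup F] [InnerProductSpace ℂ F] (S : Setup F)

section basic

lemma rinv_contDiff_MM (β : Fin 16) : ContDiff ℝ ∞ (S.MM β) := by
  unfold Setup.MM
  exact ContDiff.sum fun i _ => ContDiff.sum fun A _ =>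
    (contDiff_ofReal (contDiff_const.mul (contDiff_coord _))).smul contDiff_const

lemma rinv_MM_symm (β : Fin 16) (x : X3) (v w : F) :
    inner ℂ (S.MM β x v) w = inner ℂ v (S.MM β x w) := by
  have h : ∀ i (α γ : Fin 16), ((S.g i * S.Gam) α γ).im = 0 := fun i =>
    Setup.mul_im_zero (S.g_im i) S.Gam_real
  simp only [Setup.MM, _root_.sum_apply, _root_.smul_apply, sum_inner, inner_sum,
    inner_smul_left, inner_smul_right, Complex.conj_ofReal, S.vec_symm _ (h _)]

variable (m : ℝ)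

lemma rinv_contDiff_Qm (β : Fin 16) {u : X3 → F} (hu : ContDiff ℝ ∞ u) :
    ContDiff ℝ ∞ (S.Qm m β u) := by
  unfold Setup.Qm
  exact (S.contDiff_Q β hu).add ((contDiff_clm_apply' (rinv_contDiff_MM S β) hu).const_smul _)

lemma rinv_Tst_Qm (β : Fin 16) {u : X3 → F} (hu : Tst u) : Tst (S.Qm m β u) := by
  have h1 : Tst (fun x => ((m : ℂ) • S.MM β x) (u x)) :=
    Tst.clm ((rinv_contDiff_MM S β).const_smul (m : ℂ)) hu
  exact (hu.Q S β).add h1

lemma rinv_Qm_symm (β : Fin 16) {u v : X3 → F} (hu : Tst u) (hv : ContDiff ℝ ∞ v) :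
    ∫ x, inner ℂ (S.Qm m β u x) (v x) = ∫ x, inner ℂ (u x) (S.Qm m β v x) := by
  have h1 : Tst (fun x => S.MM β x (u x)) := Tst.clm (rinv_contDiff_MM S β) hu
  have h2 : ContDiff ℝ ∞ (fun x => S.MM β x (v x)) :=
    contDiff_clm_apply' (rinv_contDiff_MM S β) hv
  simp only [Setup.Qm, inner_add_left, inner_add_right, inner_smul_left, inner_smul_right,
    Complex.conj_ofReal]
  rw [integral_add ((hu.Q S β).inner_int hv.continuous)
      ((h1.inner_int hv.continuous).const_mul _),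
    integral_add (hu.inner_int (S.contDiff_Q β hv).continuous)
      ((hu.inner_int h2.continuous).const_mul _), Q_symm S β u v hu hv]
  congr 1
  simp only [rinv_MM_symm]

lemma rinv_Qm_add (β : Fin 16) {u v : X3 → F} {x : X3} (hu : DifferentiableAt ℝ u x)
    (hv : DifferentiableAt ℝ v x) :
    S.Qm m β (fun y => u y + v y) x = S.Qm m β u x + S.Qm m β v x := by
  simp only [Setup.Qm, Setup.Q, pd_add hu hv, map_add, Finset.sum_add_distrib, smul_add]
  abel

lemma rinv_Qm_smul (β : Fin 16) (c : ℂ) {u : X3 → F} {x : X3} (hu : DifferentiableAt ℝ u x) :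
    S.Qm m β (fun y => c • u y) x = c • S.Qm m β u x := by
  have h : ∀ i A, pd i A (fun y => c • u y) x = c • pd i A u x := by
    intro i A
    have := pd_clm (i := i) (A := A) (x := x) (c • (1 : F →L[ℂ] F)) hu
    simpa using this
  simp only [Setup.Qm, Setup.Q, h, map_smul, smul_add, Finset.smul_sum]
  simp only [smul_comm c]

/-- commutator of `Q` with a coordinate -/
noncomputable def cop (p : Fin 9 × Fin 3) (β : Fin 16) : F →L[ℂ] F :=
  (-Complex.I) • S.vec (S.g p.1) p.2 β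

lemma rinv_Qm_coord (β : Fin 16) (p : Fin 9 × Fin 3) {u : X3 → F} {x : X3}
    (hu : DifferentiableAt ℝ u x) :
    S.Qm m β (fun y => ((y p : ℝ) : ℂ) • u y) x =
      ((x p : ℝ) : ℂ) • S.Qm m β u x + cop S p β (u x) := by
  have h1 := Q_smul S β (fun y : X3 => y p) u x ((contDiff_coord p).differentiable (by simp) x) hu
  have h2 : ∀ i A, pdr i A (fun y : X3 => y p) x = if p = (i, A) then 1 else 0 := by
    intro i A
    have hL : (fun y : X3 => y p) = (EuclideanSpace.proj (𝕜 := ℝ) p : X3 →L[ℝ] ℝ) := rfl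
    rw [pdr, hL, ContinuousLinearMap.fderiv]
    by_cases hpq : p = (i, A)
    · simp [hpq]
    · simp [hpq]
  have h3 : ∑ i, ∑ A, ((pdr i A (fun y : X3 => y p) x : ℝ) : ℂ) • S.vec (S.g i) A β (u x) =
      S.vec (S.g p.1) p.2 β (u x) := by
    rw [Finset.sum_eq_single p.1, Finset.sum_eq_single p.2]
    · simp [h2]
    · intro A _ hA
      have : p ≠ (p.1, A) := fun h => hA (by rw [h])
      simp [h2, this]
    · intro h; exact absurd (Finset.mem_univ _) h
    · intro i _ hi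
      refine Finset.sum_eq_zero fun A _ => ?_
      have : p ≠ (i, A) := fun h => hi (by rw [h])
      simp [h2, this]
    · intro h; exact absurd (Finset.mem_univ _) h
  simp only [Setup.Qm]
  rw [h1, h3]
  have h4 : cop S p β (u x) = -(Complex.I • S.vec (S.g p.1) p.2 β (u x)) := by
    simp [cop]
  rw [h4, map_smul, smul_add, smul_comm (m : ℂ)]
  abel

end basic

section est

variable (m : ℝ)

lemma rinv_Tst_sum {ι : Type*} (s : Finset ι) {f : ι → X3 → F} (h : ∀ i ∈ s, Tst (f i)) :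
    Tst (fun x => ∑ i ∈ s, f i x) := by
  classical
  induction s using Finset.induction_on with
  | empty =>
    simp only [Finset.sum_empty]
    exact ⟨contDiff_const, (HasCompactSupport.zero : HasCompactSupport (0 : X3 → F))⟩
  | insert a s ha ih =>
    simp only [Finset.sum_insert ha]
    exact (h a (Finset.mem_insert_self a s)).add
      (ih fun i hi => h i (Finset.mem_insert_of_mem hi))

lemma rinv_Tst_csmul (c : ℂ) {u : X3 → F} (hu : Tst u) : Tst (fun x => c • u x) := by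
  have := Tst.clm (T := fun _ : X3 => c • (1 : F →L[ℂ] F)) contDiff_const hu
  simpa using this

/-- `∑ Q²` -/
noncomputable def TT (u : X3 → F) (x : X3) : F := ∑ β, S.Qm m β (S.Qm m β u) x

/-- `1 + ∑ Q²` -/
noncomputable def LQ (u : X3 → F) (x : X3) : F := u x + ∑ β, S.Qm m β (S.Qm m β u) x

lemma rinv_Tst_TT {u : X3 → F} (hu : Tst u) : Tst (TT S m u) :=
  rinv_Tst_sum _ fun β _ => rinv_Tst_Qm S m β (rinv_Tst_Qm S m β hu)

lemma rinv_Tst_LQ {u : X3 → F} (hu : Tst u) : Tst (LQ S m u) :=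
  hu.add (rinv_Tst_TT S m hu)

lemma rinv_inner_self_int (v : X3 → F) : ∫ x, inner ℂ (v x) (v x) = ((nsq v : ℝ) : ℂ) := by
  rw [nsq, ← integral_complex_ofReal]
  refine integral_congr_ae (Filter.Eventually.of_forall fun x => ?_)
  simp only [inner_self_eq_norm_sq_to_K]
  norm_cast

lemma rinv_TT_inner {u v : X3 → F} (hu : Tst u) (hv : Tst v) :
    ∫ x, inner ℂ (v x) (TT S m u x) = ∑ β, ∫ x, inner ℂ (S.Qm m β v x) (S.Qm m β u x) := by
  simp only [TT, inner_sum]
  rw [integral_finsetSum _ fun β _ => hv.inner_int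
    (rinv_Tst_Qm S m β (rinv_Tst_Qm S m β hu)).1.continuous]
  refine Finset.sum_congr rfl fun β _ => ?_
  rw [rinv_Qm_symm S m β hv (rinv_Tst_Qm S m β hu).1]

lemma rinv_form_eq {u : X3 → F} (hu : Tst u) :
    (∫ x, inner ℂ (u x) (TT S m u x)).re = ∑ β, nsq (S.Qm m β u) := by
  rw [rinv_TT_inner S m hu hu, Complex.re_sum]
  refine Finset.sum_congr rfl fun β _ => ?_
  rw [rinv_inner_self_int, Complex.ofReal_re]

lemma rinv_re_int {u v : X3 → F} (hu : Tst u) (hv : Tst v) :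
    Integrable (fun x => (inner ℂ (u x) (v x)).re) := by
  simpa using (hu.inner_int hv.1.continuous).re

lemma rinv_re_integral {u v : X3 → F} (hu : Tst u) (hv : Tst v) :
    (∫ x, inner ℂ (u x) (v x)).re = ∫ x, (inner ℂ (u x) (v x)).re := by
  have := (integral_re (𝕜 := ℂ) (hu.inner_int hv.1.continuous))
  simpa using this.symm

lemma rinv_re_inner_le {u v : X3 → F} (hu : Tst u) (hv : Tst v) :
    (∫ x, inner ℂ (u x) (v x)).re ≤ Real.sqrt (nsq u) * Real.sqrt (nsq v) :=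
  (Complex.re_le_norm _).trans (cs_inner hu.memLp hv.memLp)

lemma rinv_form_le {u : X3 → F} (hu : Tst u) :
    ∑ β, nsq (S.Qm m β u) ≤ (nsq u + nsq (TT S m u)) / 2 := by
  rw [← rinv_form_eq S m hu]
  refine (rinv_re_inner_le hu (rinv_Tst_TT S m hu)).trans ?_
  have h1 := Real.sq_sqrt (nsq_nonneg u)
  have h2 := Real.sq_sqrt (nsq_nonneg (TT S m u))
  nlinarith [sq_nonneg (Real.sqrt (nsq u) - Real.sqrt (nsq (TT S m u)))]

lemma rinv_LQ_ge {u : X3 → F} (hu : Tst u) :
    nsq u + nsq (TT S m u) ≤ nsq (LQ S m u) := by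
  have hT := rinv_Tst_TT S m hu
  have h1 : nsq (LQ S m u) = nsq u + 2 * (∫ x, inner ℂ (u x) (TT S m u x)).re +
      nsq (TT S m u) := by
    have hI : Integrable (fun x => ‖u x‖ ^ 2 + 2 * (inner ℂ (u x) (TT S m u x)).re) :=
      hu.norm_sq_int.add ((rinv_re_int hu hT).const_mul 2)
    rw [rinv_re_integral hu hT, ← integral_const_mul]
    unfold nsq
    rw [← integral_add hu.norm_sq_int ((rinv_re_int hu hT).const_mul 2),
      ← integral_add hI hT.norm_sq_int]
    refine integral_congr_ae (Filter.Eventually.of_forall fun x => ?_)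
    exact norm_add_sq (𝕜 := ℂ) (u x) (TT S m u x)
  rw [h1, rinv_form_eq S m hu]
  have : 0 ≤ ∑ β, nsq (S.Qm m β u) := Finset.sum_nonneg fun β _ => nsq_nonneg _
  linarith

/-- multiplication by a coordinate -/
noncomputable def cm (p : Fin 9 × Fin 3) (u : X3 → F) (x : X3) : F := ((x p : ℝ) : ℂ) • u x

lemma rinv_Tst_cm (p : Fin 9 × Fin 3) {u : X3 → F} (hu : Tst u) : Tst (cm p u) :=
  Tst.rsmul (contDiff_coord p) hu

lemma rinv_pt (β : Fin 16) (p : Fin 9 × Fin 3) {u : X3 → F} (hu : Tst u) (x : X3) :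
    ‖S.Qm m β (cm p u) x‖ ^ 2 = (inner ℂ (S.Qm m β (cm p (cm p u)) x) (S.Qm m β u x)).re +
      ‖cop S p β (u x)‖ ^ 2 := by
  have h1 : S.Qm m β (cm p u) x = ((x p : ℝ) : ℂ) • S.Qm m β u x + cop S p β (u x) :=
    rinv_Qm_coord S m β p (hu.diff x)
  have h2 : S.Qm m β (cm p (cm p u)) x = ((x p : ℝ) : ℂ) • S.Qm m β (cm p u) x +
      cop S p β (cm p u x) := rinv_Qm_coord S m β p ((rinv_Tst_cm p hu).diff x)
  rw [h2, h1]
  have h3 : cop S p β (cm p u x) = ((x p : ℝ) : ℂ) • cop S p β (u x) := by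
    rw [cm, map_smul]
  rw [h3]
  generalize S.Qm m β u x = q
  generalize cop S p β (u x) = c
  rw [← re_inner_self, inner_add_left, inner_add_right, inner_add_right]
  simp only [inner_add_left, inner_smul_left, inner_smul_right, Complex.conj_ofReal,
    smul_add, Complex.add_re, re_inner_self, Complex.re_ofReal_mul]
  have h4 : (inner ℂ q c).re = (inner ℂ c q).re := by
    rw [← inner_conj_symm, Complex.conj_re]
  rw [h4]
  ring

lemma rinv_form_cm (p : Fin 9 × Fin 3) {u : X3 → F} (hu : Tst u) :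
    ∑ β, nsq (S.Qm m β (cm p u)) = (∫ x, inner ℂ (cm p (cm p u) x) (TT S m u x)).re +
      ∑ β, nsq (fun x => cop S p β (u x)) := by
  have hpp := rinv_Tst_cm p (rinv_Tst_cm p hu)
  rw [rinv_TT_inner S m hu hpp, Complex.re_sum, ← Finset.sum_add_distrib]
  refine Finset.sum_congr rfl fun β _ => ?_
  have hq := rinv_Tst_Qm S m β hu
  have hc : Tst (fun x => cop S p β (u x)) :=
    Tst.clm (T := fun _ : X3 => cop S p β) contDiff_const hu
  rw [rinv_re_integral (rinv_Tst_Qm S m β hpp) hq]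
  unfold nsq
  rw [← integral_add (rinv_re_int (rinv_Tst_Qm S m β hpp) hq) hc.norm_sq_int]
  exact integral_congr_ae (Filter.Eventually.of_forall fun x => rinv_pt S m β p hu x)

lemma rinv_coord_sq_le (p : Fin 9 × Fin 3) (x : X3) : (x p) ^ 2 ≤ ‖x‖ ^ 2 := by
  have h := PiLp.norm_apply_le x p
  rw [Real.norm_eq_abs] at h
  calc (x p) ^ 2 = |x p| ^ 2 := (sq_abs _).symm
    _ ≤ ‖x‖ ^ 2 := pow_le_pow_left₀ (abs_nonneg _) h 2

lemma rinv_norm_cm (p : Fin 9 × Fin 3) (u : X3 → F) (x : X3) :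
    ‖cm p u x‖ ^ 2 = (x p) ^ 2 * ‖u x‖ ^ 2 := by
  rw [cm, norm_smul, mul_pow, Complex.norm_real, Real.norm_eq_abs, sq_abs]

lemma rinv_nsq_cm_le (p : Fin 9 × Fin 3) {u : X3 → F} (hu : Tst u) :
    nsq (cm p u) ≤ ∫ x, ‖x‖ ^ 2 * ‖u x‖ ^ 2 := by
  refine integral_mono_of_nonneg (Filter.Eventually.of_forall fun x => by positivity)
    (hu.mul_norm_sq_int (by fun_prop)) (Filter.Eventually.of_forall fun x => ?_)
  simp only
  rw [rinv_norm_cm]
  exact mul_le_mul_of_nonneg_right (rinv_coord_sq_le p x) (by positivity)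

lemma rinv_pd_cm (p : Fin 9 × Fin 3) (j : Fin 9) (B : Fin 3) {u : X3 → F} (hu : Tst u) (x : X3) :
    pd j B (cm p u) x = ((if p = (j, B) then (1 : ℝ) else 0 : ℝ) : ℂ) • u x +
      cm p (pd j B u) x := by
  have hL : (fun y : X3 => y p) = (EuclideanSpace.proj (𝕜 := ℝ) p : X3 →L[ℝ] ℝ) := rfl
  have h1 : pd j B (cm p u) x = ((pdr j B (fun y : X3 => y p) x : ℝ) : ℂ) • u x +
      ((x p : ℝ) : ℂ) • pd j B u x :=
    pd_rsmul ((contDiff_coord p).differentiable (by simp) x) (hu.diff x)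
  have h2 : pdr j B (fun y : X3 => y p) x = if p = (j, B) then 1 else 0 := by
    rw [pdr, hL, ContinuousLinearMap.fderiv]
    by_cases hpq : p = (j, B)
    · simp [hpq]
    · simp [hpq]
  rw [h1, h2]
  rfl

/-- the weighted estimate -/
lemma rinv_weighted (h0 : CoerStmt S) (hm : 0 < m) : ∃ K : ℝ, 0 ≤ K ∧ ∀ u : X3 → F, Tst u →
    ∀ (p : Fin 9 × Fin 3) (j : Fin 9) (B : Fin 3),
      nsq (cm p (pd j B u)) ≤ K * nsq (LQ S m u) := by
  obtain ⟨c, C, hc, hC, h⟩ := h0 m m hm
  set D : ℝ := ∑ p, ∑ β, ‖cop S p β‖ ^ 2 with hD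
  have hD0 : 0 ≤ D := Finset.sum_nonneg fun _ _ => Finset.sum_nonneg fun _ _ => by positivity
  refine ⟨2 * ((C * ((C + 1) / c) + 1 / (2 * c) + D) / c) + 2, by positivity, ?_⟩
  intro u hu p j B
  have hT := rinv_Tst_TT S m hu
  have hv := rinv_Tst_cm p hu
  have hvv := rinv_Tst_cm p hv
  have hL := rinv_LQ_ge S m hu
  set a : ℝ := ∫ x, ‖x‖ ^ 2 * ‖cm p u x‖ ^ 2 with ha
  have ha0 : 0 ≤ a := integral_nonneg fun x => by positivity
  have hu0 := nsq_nonneg u
  have hT0 := nsq_nonneg (TT S m u)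
  -- the first moment
  have e1 := h m le_rfl le_rfl u hu
  have e2 := rinv_form_le S m hu
  have e3 : 0 ≤ ∑ i, ∑ A, nsq (pd i A u) :=
    Finset.sum_nonneg fun _ _ => Finset.sum_nonneg fun _ _ => nsq_nonneg _
  have e4 := rinv_nsq_cm_le p hu
  have e5 : nsq (cm p u) ≤ ((C + 1) / c) * (nsq u + nsq (TT S m u)) := by
    rw [div_mul_eq_mul_div, le_div_iff₀ hc]
    nlinarith
  -- the second moment
  have f1 := h m le_rfl le_rfl (cm p u) hv
  rw [rinv_form_cm S m p hu] at f1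
  have f2 := rinv_re_inner_le hvv hT
  have f3 : Real.sqrt (nsq (cm p (cm p u))) ≤ Real.sqrt a :=
    Real.sqrt_le_sqrt (rinv_nsq_cm_le p hv)
  have f4 : ∑ β, nsq (fun x => cop S p β (u x)) ≤ D * nsq u := by
    have g1 : ∀ β, nsq (fun x => cop S p β (u x)) ≤ ‖cop S p β‖ ^ 2 * nsq u := fun β =>
      nsq_le_of hu.memLp fun x => (cop S p β).le_opNorm _
    refine (Finset.sum_le_sum fun β _ => g1 β).trans ?_
    rw [← Finset.sum_mul]
    refine mul_le_mul_of_nonneg_right ?_ hu0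
    exact Finset.single_le_sum (f := fun p => ∑ β, ‖cop S p β‖ ^ 2)
      (fun p _ => Finset.sum_nonneg fun _ _ => by positivity) (Finset.mem_univ p)
  have f5 : Real.sqrt a * Real.sqrt (nsq (TT S m u)) ≤
      c * a / 2 + 1 / (2 * c) * nsq (TT S m u) := by
    have g1 := Real.sq_sqrt ha0
    have g2 := Real.sq_sqrt hT0
    have g3 : 0 ≤ (c * Real.sqrt a - Real.sqrt (nsq (TT S m u))) ^ 2 / (2 * c) := by positivity
    have g4 : (c * Real.sqrt a - Real.sqrt (nsq (TT S m u))) ^ 2 / (2 * c) =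
        c * (Real.sqrt a) ^ 2 / 2 + 1 / (2 * c) * (Real.sqrt (nsq (TT S m u))) ^ 2 -
          Real.sqrt a * Real.sqrt (nsq (TT S m u)) := by
      field_simp
      ring
    rw [g1, g2] at g4
    linarith
  have f6 : Real.sqrt (nsq (cm p (cm p u))) * Real.sqrt (nsq (TT S m u)) ≤
      Real.sqrt a * Real.sqrt (nsq (TT S m u)) :=
    mul_le_mul_of_nonneg_right f3 (Real.sqrt_nonneg _)
  have f7 : nsq (pd j B (cm p u)) ≤ ∑ i, ∑ A, nsq (pd i A (cm p u)) :=
    (Finset.single_le_sum (f := fun A => nsq (pd j A (cm p u))) (fun A _ => nsq_nonneg _)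
      (Finset.mem_univ B)).trans
      (Finset.single_le_sum (f := fun i => ∑ A, nsq (pd i A (cm p u)))
        (fun i _ => Finset.sum_nonneg fun _ _ => nsq_nonneg _) (Finset.mem_univ j))
  have f8 : nsq (pd j B (cm p u)) ≤
      ((C * ((C + 1) / c) + 1 / (2 * c) + D) / c) * (nsq u + nsq (TT S m u)) := by
    rw [div_mul_eq_mul_div, le_div_iff₀ hc]
    have g1 : C * nsq (cm p u) ≤ C * (((C + 1) / c) * (nsq u + nsq (TT S m u))) :=
      mul_le_mul_of_nonneg_left e5 hC
    have g2 : c * nsq (pd j B (cm p u)) ≤ c * ∑ i, ∑ A, nsq (pd i A (cm p u)) :=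
      mul_le_mul_of_nonneg_left f7 hc.le
    have g3 : 1 / (2 * c) * nsq (TT S m u) ≤ 1 / (2 * c) * (nsq u + nsq (TT S m u)) :=
      mul_le_mul_of_nonneg_left (by linarith) (by positivity)
    have g4 : D * nsq u ≤ D * (nsq u + nsq (TT S m u)) :=
      mul_le_mul_of_nonneg_left (by linarith) hD0
    have g5 : 0 ≤ c * a := mul_nonneg hc.le ha0
    have g6 : c * (a + ∑ i, ∑ A, nsq (pd i A (cm p u))) =
      c * a + c * ∑ i, ∑ A, nsq (pd i A (cm p u)) := by ring
    rw [g6] at f1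
    have g7 : (C * ((C + 1) / c) + 1 / (2 * c) + D) * (nsq u + nsq (TT S m u)) =
      C * (((C + 1) / c) * (nsq u + nsq (TT S m u))) +
        1 / (2 * c) * (nsq u + nsq (TT S m u)) + D * (nsq u + nsq (TT S m u)) := by ring
    rw [g7]
    linarith
  -- conclusion
  have hpd := hv.pd j B
  have k1 : nsq (cm p (pd j B u)) ≤ 2 * nsq (pd j B (cm p u)) + 2 * nsq u := by
    have g1 : cm p (pd j B u) = fun x => pd j B (cm p u) x +
        -((((if p = (j, B) then (1 : ℝ) else 0 : ℝ) : ℂ) • u x)) := by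
      funext x
      rw [rinv_pd_cm p j B hu x]
      abel
    have hw : Tst (fun x => -((((if p = (j, B) then (1 : ℝ) else 0 : ℝ) : ℂ) • u x))) :=
      (rinv_Tst_csmul _ hu).neg
    rw [g1]
    refine (nsq_add_le hpd.memLp hw.memLp).trans ?_
    have g2 : nsq (fun x => -((((if p = (j, B) then (1 : ℝ) else 0 : ℝ) : ℂ) • u x))) ≤
        1 ^ 2 * nsq u := by
      refine nsq_le_of hu.memLp fun x => ?_
      rw [norm_neg, norm_smul]
      refine mul_le_mul_of_nonneg_right ?_ (norm_nonneg _)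
      split_ifs <;> simp
    linarith
  have k2 : nsq u + nsq (TT S m u) ≤ nsq (LQ S m u) := hL
  have k3 : 0 ≤ (C * ((C + 1) / c) + 1 / (2 * c) + D) / c := by positivity
  have k4 : ((C * ((C + 1) / c) + 1 / (2 * c) + D) / c) * (nsq u + nsq (TT S m u)) ≤
      ((C * ((C + 1) / c) + 1 / (2 * c) + D) / c) * nsq (LQ S m u) :=
    mul_le_mul_of_nonneg_left k2 k3
  nlinarith

end est

end Vale.Agent.P353.U
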