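import Vale.Agent.P353.U.RInvA

/-! # P353, uniqueness, B4: the resolvent preserves weak invariance -/

open MeasureTheory Filter Topology
open scoped ContDiff

namespace Vale.Agent.P353.U

open Setup

variable {F : Type*} [NormedAddCommGroup F] [InnerProductSpace ℂ F] (S : Setup F)

section abs

variable (m : ℝ)

lemma rinv_LQ_add {u v : X3 → F} (hu : Tst u) (hv : Tst v) (x : X3) :
    LQ S m (fun y => u y + v y) x = LQ S m u x + LQ S m v x := by
  have h : ∀ β, S.Qm m β (fun y => u y + v y) = fun y => S.Qm m β u y + S.Qm m β v y :=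
    fun β => funext fun y => rinv_Qm_add S m β (hu.diff y) (hv.diff y)
  simp only [LQ, h]
  rw [← sub_eq_zero]
  have h2 : ∀ β, S.Qm m β (fun y => S.Qm m β u y + S.Qm m β v y) x =
      S.Qm m β (S.Qm m β u) x + S.Qm m β (S.Qm m β v) x := fun β =>
    rinv_Qm_add S m β ((rinv_Tst_Qm S m β hu).diff x) ((rinv_Tst_Qm S m β hv).diff x)
  simp only [h2, Finset.sum_add_distrib]
  abel

lemma rinv_LQ_smul (c : ℂ) {u : X3 → F} (hu : Tst u) (x : X3) :
    LQ S m (fun y => c • u y) x = c • LQ S m u x := by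
  have h : ∀ β, S.Qm m β (fun y => c • u y) = fun y => c • S.Qm m β u y :=
    fun β => funext fun y => rinv_Qm_smul S m β c (hu.diff y)
  have h2 : ∀ β, S.Qm m β (fun y => c • S.Qm m β u y) x = c • S.Qm m β (S.Qm m β u) x :=
    fun β => rinv_Qm_smul S m β c ((rinv_Tst_Qm S m β hu).diff x)
  simp only [LQ, h, h2, smul_add, Finset.smul_sum]

lemma rinv_LQ_sub {u v : X3 → F} (hu : Tst u) (hv : Tst v) (x : X3) :
    LQ S m (fun y => u y - v y) x = LQ S m u x - LQ S m v x := by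
  have h1 : (fun y => u y - v y) = fun y => u y + (-1 : ℂ) • v y := by
    funext y; rw [neg_smul, one_smul, sub_eq_add_neg]
  rw [h1, rinv_LQ_add S m hu (rinv_Tst_csmul _ hv), rinv_LQ_smul S m _ hv, neg_smul, one_smul,
    sub_eq_add_neg]

lemma rinv_LQ_symm {u v : X3 → F} (hu : Tst u) (hv : Tst v) :
    ∫ x, inner ℂ (LQ S m u x) (v x) = ∫ x, inner ℂ (u x) (LQ S m v x) := by
  have h1 : ∀ {a b : X3 → F}, Tst a → Tst b →
      ∫ x, inner ℂ (a x) (LQ S m b x) = (∫ x, inner ℂ (a x) (b x)) +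
        ∑ β, ∫ x, inner ℂ (S.Qm m β a x) (S.Qm m β b x) := by
    intro a b ha hb
    rw [← rinv_TT_inner S m hb ha, ← integral_add (ha.inner_int hb.1.continuous)
      (ha.inner_int (rinv_Tst_TT S m hb).1.continuous)]
    simp only [LQ, TT, inner_add_right]
  have h2 : ∀ {a b : X3 → F}, ∫ x, inner ℂ (a x) (b x) =
      (starRingEnd ℂ) (∫ x, inner ℂ (b x) (a x)) := by
    intro a b
    rw [← integral_conj]
    simp only [inner_conj_symm]
  rw [h2, h1 hv hu, h1 hu hv, map_add, map_sum, ← h2]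
  simp only [← h2]

end abs

section lim

variable [CompleteSpace F]

omit [CompleteSpace F] in
lemma rinv_nsq_sub_eq {f g : X3 → F} (hf : MemLp f 2 (volume : Measure X3))
    (hg : MemLp g 2 (volume : Measure X3)) :
    ‖hf.toLp f - hg.toLp g‖ = Real.sqrt (nsq (fun x => f x - g x)) := by
  rw [← MemLp.toLp_sub, norm_toLp]
  rfl

lemma rinv_lim {h : ℕ → X3 → F} {g : X3 → F} (hg : L2t h g) {f : ℕ → X3 → F}
    (hf : ∀ n, MemLp (f n) 2 (volume : Measure X3)) {K : ℝ} (hK0 : 0 ≤ K)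
    (hK : ∀ n k, nsq (fun x => f n x - f k x) ≤ K * nsq (fun x => h n x - h k x)) :
    ∃ z : X3 → F, L2t f z := by
  have h1 : CauchySeq (fun n => (hf n).toLp (f n)) := by
    have h2 := hg.lim_toLp.cauchySeq
    rw [Metric.cauchySeq_iff] at h2 ⊢
    intro ε hε
    obtain ⟨N, hN⟩ := h2 (ε / (Real.sqrt K + 1)) (by positivity)
    refine ⟨N, fun n hn k hk => ?_⟩
    have h3 := hN n hn k hk
    rw [dist_eq_norm, rinv_nsq_sub_eq] at h3 ⊢
    have h4 : Real.sqrt (nsq (fun x => f n x - f k x)) ≤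
        Real.sqrt K * Real.sqrt (nsq (fun x => h n x - h k x)) := by
      rw [← Real.sqrt_mul hK0]
      exact Real.sqrt_le_sqrt (hK n k)
    have h5 : Real.sqrt K * Real.sqrt (nsq (fun x => h n x - h k x)) ≤
        Real.sqrt K * (ε / (Real.sqrt K + 1)) :=
      mul_le_mul_of_nonneg_left h3.le (Real.sqrt_nonneg _)
    have h6 : Real.sqrt K * (ε / (Real.sqrt K + 1)) < ε := by
      have := Real.sqrt_nonneg K
      rw [← mul_div_assoc, div_lt_iff₀ (by positivity)]
      nlinarith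
    linarith
  obtain ⟨Z, hZ⟩ := cauchySeq_tendsto_of_complete h1
  refine ⟨Z, ⟨hf, Lp.memLp Z, ?_⟩⟩
  have h7 : ∀ n, nsq (fun x => f n x - Z x) = ‖(hf n).toLp (f n) - Z‖ ^ 2 := by
    intro n
    have h8 := rinv_nsq_sub_eq (hf n) (Lp.memLp Z)
    rw [Lp.toLp_coeFn] at h8
    rw [h8, Real.sq_sqrt (nsq_nonneg _)]
  simp only [h7]
  have h9 := (tendsto_iff_norm_sub_tendsto_zero.1 hZ).pow 2
  simpa using h9

variable {S} {m : ℝ}

lemma rinv_dense (h2 : ESAStmt S) (hm : 0 < m) (f : Lp F 2 (volume : Measure X3)) :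
    ∃ η : ℕ → X3 → F, (∀ n, Tst (η n)) ∧ L2t (fun n => LQ S m (η n)) f := by
  let M : Submodule ℂ (Lp F 2 (volume : Measure X3)) :=
    { carrier := {v | ∃ (η : X3 → F) (h : Tst η), v = (rinv_Tst_LQ S m h).memLp.toLp (LQ S m η)}
      zero_mem' := by
        have h0 : Tst (fun _ : X3 => (0 : F)) :=
          ⟨contDiff_const, (HasCompactSupport.zero : HasCompactSupport (0 : X3 → F))⟩
        refine ⟨_, h0, ?_⟩
        have h1 : LQ S m (fun _ : X3 => (0 : F)) = 0 := by
          funext x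
          have := rinv_LQ_smul S m 0 h0 x
          simpa using this
        rw [eq_comm, ← MemLp.toLp_zero (MemLp.zero' (p := 2) (μ := (volume : Measure X3)))]
        congr 1
      add_mem' := by
        rintro a b ⟨η, h, rfl⟩ ⟨η', h', rfl⟩
        refine ⟨_, h.add h', ?_⟩
        rw [← MemLp.toLp_add]
        congr 1
        funext x
        exact (rinv_LQ_add S m h h' x).symm
      smul_mem' := by
        rintro c a ⟨η, h, rfl⟩
        refine ⟨_, rinv_Tst_csmul c h, ?_⟩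
        rw [← MemLp.toLp_const_smul]
        congr 1
        funext x
        exact (rinv_LQ_smul S m c h x).symm }
  have hM : M.topologicalClosure = ⊤ := by
    rw [Submodule.topologicalClosure_eq_top_iff, Submodule.eq_bot_iff]
    intro v hv
    have h3 : nsq v = 0 := by
      refine h2 m hm v (Lp.memLp v) fun ζ hζ => ?_
      have h4 := (Submodule.mem_orthogonal M v).1 hv _ ⟨ζ, hζ, rfl⟩
      rw [MeasureTheory.L2.inner_def] at h4
      rw [← h4]
      refine integral_congr_ae ?_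
      filter_upwards [(rinv_Tst_LQ S m hζ).memLp.coeFn_toLp] with x hx
      rw [hx]
      rfl
    have h5 := norm_toLp (Lp.memLp v)
    rw [Lp.toLp_coeFn, h3, Real.sqrt_zero] at h5
    exact norm_eq_zero.1 h5
  have hf : f ∈ (M.topologicalClosure : Set (Lp F 2 (volume : Measure X3))) := by
    rw [hM]; trivial
  rw [Submodule.topologicalClosure_coe, mem_closure_iff_seq_limit] at hf
  obtain ⟨g, hg, hlim⟩ := hf
  choose η hη hgη using hg
  refine ⟨η, hη, ⟨fun n => (rinv_Tst_LQ S m (hη n)).memLp, Lp.memLp f, ?_⟩⟩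
  have h7 : ∀ n, nsq (fun x => LQ S m (η n) x - f x) = ‖g n - f‖ ^ 2 := by
    intro n
    have h8 := rinv_nsq_sub_eq (rinv_Tst_LQ S m (hη n)).memLp (Lp.memLp f)
    rw [Lp.toLp_coeFn, ← hgη n] at h8
    rw [h8, Real.sq_sqrt (nsq_nonneg _)]
  simp only [h7]
  have h9 := (tendsto_iff_norm_sub_tendsto_zero.1 hlim).pow 2
  simpa using h9

/-- what is used of the generators -/
structure XData (S : Setup F) (m : ℝ) (X : (X3 → F) → X3 → F) : Prop where
  tst : ∀ {u}, Tst u → Tst (X u)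
  symm : ∀ {u v}, Tst u → Tst v → ∫ x, inner ℂ (X u x) (v x) = ∫ x, inner ℂ (u x) (X v x)
  sub : ∀ {u v}, Tst u → Tst v → ∀ x, X (fun y => u y - v y) x = X u x - X v x
  comm : ∀ {u}, Tst u → X (LQ S m u) = LQ S m (X u)
  bd : ∃ K : ℝ, 0 ≤ K ∧ ∀ u, Tst u → nsq (X u) ≤ K * nsq (LQ S m u)

omit [CompleteSpace F] in
lemma rinv_nsq_LQ_sub {u v : X3 → F} (hu : Tst u) (hv : Tst v) :
    nsq (LQ S m (fun y => u y - v y)) = nsq (fun x => LQ S m u x - LQ S m v x) := by
  congr 1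
  funext x
  exact rinv_LQ_sub S m hu hv x

theorem rinv_main (h2 : ESAStmt S) (hm : 0 < m) {X : (X3 → F) → X3 → F} (hX : XData S m X)
    {f w : Lp F 2 (volume : Measure X3)}
    (hw : ∀ ζ, Tst ζ → ∫ x, inner ℂ (LQ S m ζ x) (w x) = ∫ x, inner ℂ (ζ x) (f x))
    (hf : ∀ ζ, Tst ζ → ∫ x, inner ℂ (X ζ x) (f x) = 0) :
    ∀ ζ, Tst ζ → ∫ x, inner ℂ (X ζ x) (w x) = 0 := by
  obtain ⟨η, hη, hηf⟩ := rinv_dense h2 hm f
  -- `η n → w'`
  obtain ⟨w', hw'⟩ := rinv_lim hηf (f := η) (fun n => (hη n).memLp) zero_le_one (fun n k => by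
    have h3 := rinv_LQ_ge S m ((hη n).sub (hη k))
    rw [rinv_nsq_LQ_sub (hη n) (hη k)] at h3
    have h4 := nsq_nonneg (TT S m (fun x => η n x - η k x))
    linarith)
  have hw'1 : ∀ ζ, Tst ζ → ∫ x, inner ℂ (LQ S m ζ x) (w' x) = ∫ x, inner ℂ (ζ x) (f x) := by
    intro ζ hζ
    have h3 := (rinv_Tst_LQ S m hζ).L2t_const.lim_inner hw'
    have h4 := hζ.L2t_const.lim_inner hηf
    refine tendsto_nhds_unique h3 (h4.congr fun n => ?_)
    exact (rinv_LQ_symm S m hζ (hη n)).symm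
  have hww : nsq (fun x => w' x - w x) = 0 := by
    refine h2 m hm _ (hw'.mem'.sub (Lp.memLp w)) fun ζ hζ => ?_
    have hL := rinv_Tst_LQ S m hζ
    have h3 : ∫ x, inner ℂ (LQ S m ζ x) (w' x - w x) =
        (∫ x, inner ℂ (LQ S m ζ x) (w' x)) - ∫ x, inner ℂ (LQ S m ζ x) (w x) := by
      rw [← integral_sub (integrable_inner_memLp hL.memLp hw'.mem')
        (integrable_inner_memLp hL.memLp (Lp.memLp w))]
      simp only [inner_sub_right]
    change ∫ x, inner ℂ (LQ S m ζ x) (w' x - w x) = 0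
    rw [h3, hw'1 ζ hζ, hw ζ hζ, sub_self]
  have hηw : L2t η w := by
    refine ⟨fun n => (hη n).memLp, Lp.memLp w, ?_⟩
    have h3 : ∀ n, nsq (fun x => η n x - w x) ≤ 2 * nsq (fun x => η n x - w' x) := by
      intro n
      have h4 := nsq_add_le ((hη n).memLp.sub hw'.mem') (hw'.mem'.sub (Lp.memLp w))
      have h5 : (fun x => η n x - w x) = fun x => (η n - w') x + (w' - ⇑w) x := by
        funext x
        simp only [Pi.sub_apply]
        abel
      rw [h5]
      refine h4.trans ?_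
      have h6 : nsq (w' - ⇑w) = 0 := hww
      rw [h6, mul_zero, add_zero]
      exact le_rfl
    refine squeeze_zero (fun n => nsq_nonneg _) h3 ?_
    simpa using hw'.lim.const_mul 2
  -- `X η n → z`
  obtain ⟨K, hK0, hK⟩ := hX.bd
  obtain ⟨z, hz⟩ := rinv_lim hηf (f := fun n => X (η n)) (fun n => (hX.tst (hη n)).memLp) hK0
    (fun n k => by
      have h3 := hK _ ((hη n).sub (hη k))
      rw [rinv_nsq_LQ_sub (hη n) (hη k)] at h3
      refine le_trans (le_of_eq ?_) h3
      congr 1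
      funext x
      exact (hX.sub (hη n) (hη k) x).symm)
  have hz0 : nsq z = 0 := by
    refine h2 m hm _ hz.mem' fun ζ hζ => ?_
    have hL := rinv_Tst_LQ S m hζ
    change ∫ x, inner ℂ (LQ S m ζ x) (z x) = 0
    have h3 := hL.L2t_const.lim_inner hz
    have h4 := (hX.tst hL).L2t_const.lim_inner hηw
    have h5 : ∫ x, inner ℂ (LQ S m ζ x) (z x) = ∫ x, inner ℂ (X (LQ S m ζ) x) (w x) :=
      tendsto_nhds_unique h3 (h4.congr fun n => hX.symm hL (hη n))
    rw [h5, hX.comm hζ, hw _ (hX.tst hζ), hf ζ hζ]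
  intro ζ hζ
  have h3 := hζ.L2t_const.lim_inner hz
  have h4 := (hX.tst hζ).L2t_const.lim_inner hηw
  have h5 : ∫ x, inner ℂ (ζ x) (z x) = ∫ x, inner ℂ (X ζ x) (w x) :=
    tendsto_nhds_unique h3 (h4.congr fun n => hX.symm hζ (hη n))
  rw [← h5]
  have h6 := cs_inner hζ.memLp hz.mem'
  have h7 : ∫ x, ‖z x‖ ^ 2 = 0 := hz0
  rw [h7, Real.sqrt_zero, mul_zero] at h6
  exact norm_le_zero_iff.1 h6

end lim

end Vale.Agent.P353.U
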