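import Vale.Agent.P353.U.StmtD
import Vale.Agent.P353.U.A2
import Vale.Agent.P353.U.NZero

/-! # P353, uniqueness for `N = 2`: smoothness and homogeneity of `om`, `vv` (task D-sm, part 1) -/

open MeasureTheory Filter Topology
open scoped ContDiff

namespace Vale.Agent.P353

variable {F : Type*} [NormedAddCommGroup F] [InnerProductSpace ℂ F]

/-! ### the real functions -/

lemma sm_contDiff_rho6sq : ContDiff ℝ ∞ rho6sq := by
  unfold rho6sq
  refine ContDiff.sum fun i _ => ContDiff.sum fun A _ => ?_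
  split_ifs
  · exact (Setup.contDiff_coord _).pow 2
  · exact contDiff_const

lemma sm_contDiff_Gr (A B : Fin 3) : ContDiff ℝ ∞ (fun x => Gr x A B) := by
  unfold Gr
  exact ContDiff.sum fun i _ => (Setup.contDiff_coord _).mul (Setup.contDiff_coord _)

lemma sm_normsq (x : X3) : ‖x‖ ^ 2 = ∑ i, ∑ A, x (i, A) ^ 2 := by
  rw [EuclideanSpace.norm_sq_eq, Fintype.sum_prod_type]
  simp

lemma sm_rho6sq_nonneg (x : X3) : 0 ≤ rho6sq x := by
  unfold rho6sq
  refine Finset.sum_nonneg fun i _ => Finset.sum_nonneg fun A _ => ?_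
  split_ifs
  · positivity
  · exact le_rfl

lemma sm_ne_zero {x : X3} (hx : 0 < rho6sq x) : x ≠ 0 := by
  rintro rfl
  simp [rho6sq] at hx

lemma sm_open : IsOpen {x : X3 | 0 < rho6sq x} :=
  isOpen_lt continuous_const sm_contDiff_rho6sq.continuous

lemma sm_norm {x : X3} (hx : 0 < rho6sq x) : ContDiffAt ℝ ∞ (fun x : X3 => ‖x‖) x :=
  contDiffAt_norm ℝ (sm_ne_zero hx)

lemma sm_contDiffAt_xh {x : X3} (hx : 0 < rho6sq x) : ContDiffAt ℝ ∞ xh x := by
  have h0 : ‖x‖ ≠ 0 := norm_ne_zero_iff.2 (sm_ne_zero hx)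
  rw [contDiffAt_euclidean]
  intro p
  have e : (fun y => xh y p) = fun y : X3 => (∑ B, Gr y p.2 B * y (p.1, B)) / ‖y‖ ^ 2 := rfl
  rw [e]
  refine ContDiffAt.div ?_ ((sm_norm hx).pow 2) (pow_ne_zero 2 h0)
  exact (ContDiff.sum fun B _ => (sm_contDiff_Gr _ _).mul (Setup.contDiff_coord _)).contDiffAt

/-! ### `ρ6(x̂) > 0` -/

lemma sm_xh_apply (x : X3) (i : Fin 9) (A : Fin 3) :
    xh x (i, A) = (∑ B, Gr x A B * x (i, B)) / ‖x‖ ^ 2 := rfl

lemma sm_rho6_xh {x : X3} (hx : 0 < rho6sq x) : 0 < rho6sq (xh x) := by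
  rcases (sm_rho6sq_nonneg (xh x)).lt_or_eq with h | h
  · exact h
  exfalso
  have h0 : ‖x‖ ≠ 0 := norm_ne_zero_iff.2 (sm_ne_zero hx)
  have h1 : ∀ i : Fin 9, 3 ≤ i.val → ∀ A, ∑ B, Gr x A B * x (i, B) = 0 := by
    intro i hi A
    have h2 : ∀ j ∈ Finset.univ, ∀ C ∈ (Finset.univ : Finset (Fin 3)),
        (if 3 ≤ (j : Fin 9).val then xh x (j, C) ^ 2 else 0) = 0 := by
      have h3 : ∀ j ∈ (Finset.univ : Finset (Fin 9)), 0 ≤
          ∑ C : Fin 3, (if 3 ≤ j.val then xh x (j, C) ^ 2 else 0) := fun j _ =>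
        Finset.sum_nonneg fun C _ => by split_ifs <;> positivity
      have h4 := (Finset.sum_eq_zero_iff_of_nonneg h3).1 h.symm
      intro j hj
      exact (Finset.sum_eq_zero_iff_of_nonneg fun C _ => by split_ifs <;> positivity).1 (h4 j hj)
    have h5 := h2 i (Finset.mem_univ _) A (Finset.mem_univ _)
    rw [if_pos hi, sm_xh_apply] at h5
    have h6 := pow_eq_zero_iff (two_ne_zero) |>.1 h5
    rcases div_eq_zero_iff.1 h6 with h7 | h7
    · exact h7
    · exact absurd h7 (pow_ne_zero 2 h0)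
  have h8 : ∀ i : Fin 9, 3 ≤ i.val → ∀ A, x (i, A) = 0 := by
    intro i hi
    have h9 : ∑ j, (∑ A, x (i, A) * x (j, A)) ^ 2 = 0 := by
      have e : ∑ j, (∑ A, x (i, A) * x (j, A)) ^ 2 =
          ∑ A, x (i, A) * ∑ B, Gr x A B * x (i, B) := by
        simp only [Gr, Fin.sum_univ_three, Finset.sum_mul, Finset.mul_sum,
          ← Finset.sum_add_distrib]
        exact Finset.sum_congr rfl fun j _ => by ring
      rw [e]
      exact Finset.sum_eq_zero fun A _ => by rw [h1 i hi A, mul_zero]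
    have h10 := (Finset.sum_eq_zero_iff_of_nonneg fun j _ => sq_nonneg _).1 h9 i
      (Finset.mem_univ _)
    have h11 := pow_eq_zero_iff (two_ne_zero) |>.1 h10
    have h12 := (Finset.sum_eq_zero_iff_of_nonneg fun A _ => mul_self_nonneg _).1 h11
    intro A
    exact mul_self_eq_zero.1 (h12 A (Finset.mem_univ _))
  apply hx.ne'
  unfold rho6sq
  refine Finset.sum_eq_zero fun i _ => Finset.sum_eq_zero fun A _ => ?_
  split_ifs with hi
  · rw [h8 i hi A]; norm_num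
  · rfl

/-! ### homogeneity -/

lemma sm_rho6sq_smul (t : ℝ) (x : X3) : rho6sq (t • x) = t ^ 2 * rho6sq x := by
  unfold rho6sq
  simp only [Finset.mul_sum]
  refine Finset.sum_congr rfl fun i _ => Finset.sum_congr rfl fun A _ => ?_
  split_ifs
  · rw [PiLp.smul_apply, smul_eq_mul, mul_pow]
  · rw [mul_zero]

lemma sm_norm_smul {t : ℝ} (ht : 0 < t) (x : X3) : ‖t • x‖ = t * ‖x‖ := by
  rw [norm_smul, Real.norm_of_nonneg ht.le]

lemma sm_Gr_smul (t : ℝ) (x : X3) (A B : Fin 3) : Gr (t • x) A B = t ^ 2 * Gr x A B := by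
  unfold Gr
  simp only [Finset.mul_sum, PiLp.smul_apply, smul_eq_mul]
  exact Finset.sum_congr rfl fun i _ => by ring

lemma sm_xh_smul {t : ℝ} (ht : 0 < t) (x : X3) : xh (t • x) = t • xh x := by
  ext ⟨i, A⟩
  rw [PiLp.smul_apply, sm_xh_apply, sm_xh_apply, sm_norm_smul ht, smul_eq_mul]
  simp only [sm_Gr_smul, PiLp.smul_apply, smul_eq_mul]
  have e : ∑ B, t ^ 2 * Gr x A B * (t * x (i, B)) = t ^ 2 * (t * ∑ B, Gr x A B * x (i, B)) := by
    simp only [Finset.mul_sum]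
    exact Finset.sum_congr rfl fun B _ => by ring
  rw [e, mul_pow, mul_div_mul_left _ _ (pow_ne_zero 2 ht.ne'), mul_div_assoc]

/-! ### the cone -/

lemma sm_cone_apply (n : Fin 3 → ℝ) (y : Fin 9 → ℝ) (i : Fin 9) (A : Fin 3) :
    cone n y (i, A) = y i * n A := rfl

lemma sm_cone_normsq {n : Fin 3 → ℝ} (hn : ∑ A, n A ^ 2 = 1) (y : Fin 9 → ℝ) :
    ‖cone n y‖ ^ 2 = ∑ i, y i ^ 2 := by
  rw [sm_normsq]
  refine Finset.sum_congr rfl fun i _ => ?_
  simp only [sm_cone_apply, mul_pow, ← Finset.mul_sum, hn, mul_one]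

lemma sm_cone_Gr (n : Fin 3 → ℝ) (y : Fin 9 → ℝ) (A B : Fin 3) :
    Gr (cone n y) A B = (∑ i, y i ^ 2) * (n A * n B) := by
  simp only [Gr, sm_cone_apply, Finset.sum_mul]
  exact Finset.sum_congr rfl fun i _ => by ring

lemma sm_xh_cone {n : Fin 3 → ℝ} (hn : ∑ A, n A ^ 2 = 1) (y : Fin 9 → ℝ) (h : cone n y ≠ 0) :
    xh (cone n y) = cone n y := by
  have h0 : ‖cone n y‖ ^ 2 ≠ 0 := pow_ne_zero 2 (norm_ne_zero_iff.2 h)
  ext ⟨i, A⟩
  rw [sm_xh_apply, div_eq_iff h0, sm_cone_normsq hn]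
  simp only [sm_cone_Gr, sm_cone_apply]
  have e : ∑ B, (∑ i, y i ^ 2) * (n A * n B) * (y i * n B) =
      (∑ i, y i ^ 2) * n A * y i * ∑ B, n B ^ 2 := by
    rw [Finset.mul_sum]
    exact Finset.sum_congr rfl fun B _ => by ring
  rw [e, hn]
  ring

/-! ### decomposition of `Z` -/

namespace Setup

variable (S : Setup F)

/-- summand of `zP1` -/
noncomputable def zP1a (a : Fin 9) (x : X3) : F →L[ℂ] F := ∑ A, ∑ B, ∑ C,
      (if 3 ≤ a.val then (eps A C B : ℂ) * (x (a, C) : ℂ) else 0) • S.bilb (S.g a) A B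

/-- linear part -/
noncomputable def zP1 (x : X3) : F →L[ℂ] F := ∑ a, S.zP1a a x

/-- summand of `zP2` -/
noncomputable def zP2a (a i : Fin 9) (x y : X3) : F →L[ℂ] F := ∑ A, ∑ B,
      (if 3 ≤ a.val ∧ i.val < 3 then
        (if A = B then ∑ D, (x (a, D) : ℂ) * (y (i, D) : ℂ) else 0) -
          (x (a, A) : ℂ) * (y (i, B) : ℂ) else 0) • S.bilb (S.g a * S.g i) A B

/-- quadratic part, polarised -/
noncomputable def zP2 (x y : X3) : F →L[ℂ] F := ∑ a, ∑ i, S.zP2a a i x y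

lemma ZZ_eq (x : X3) : S.ZZ x = ((‖x‖ ^ 2 / (2 * rho6sq x) : ℝ) : ℂ) •
    ((Complex.I * ((1 / ‖x‖ : ℝ) : ℂ)) • S.zP1 x - ((1 / ‖x‖ ^ 2 : ℝ) : ℂ) • S.zP2 x x) := by
  unfold ZZ
  refine congrArg (HSMul.hSMul _) (congrArg₂ HSub.hSub (congrArg (HSMul.hSMul _) ?_)
    (congrArg (HSMul.hSMul _) ?_))
  · unfold zP1 zP1a
    refine Finset.sum_congr rfl fun a _ => Finset.sum_congr rfl fun A _ =>
      Finset.sum_congr rfl fun B _ => Finset.sum_congr rfl fun C _ => ?_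
    rfl
  · unfold zP2 zP2a
    refine Finset.sum_congr rfl fun a _ => Finset.sum_congr rfl fun A _ =>
      Finset.sum_congr rfl fun B _ => Finset.sum_congr rfl fun C _ => ?_
    rfl

lemma zP1_smul (t : ℝ) (x : X3) : S.zP1 (t • x) = (t : ℂ) • S.zP1 x := by
  unfold zP1 zP1a
  simp only [Finset.smul_sum, smul_smul]
  refine Finset.sum_congr rfl fun a _ => Finset.sum_congr rfl fun A _ =>
    Finset.sum_congr rfl fun B _ => Finset.sum_congr rfl fun C _ => ?_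
  congr 1
  split_ifs
  · rw [PiLp.smul_apply, smul_eq_mul]; push_cast; ring
  · rw [mul_zero]

lemma zP1_add (x y : X3) : S.zP1 (x + y) = S.zP1 x + S.zP1 y := by
  unfold zP1 zP1a
  simp only [← Finset.sum_add_distrib]
  refine Finset.sum_congr rfl fun a _ => Finset.sum_congr rfl fun A _ =>
    Finset.sum_congr rfl fun B _ => Finset.sum_congr rfl fun C _ => ?_
  rw [← add_smul]
  congr 1
  split_ifs
  · rw [PiLp.add_apply]; push_cast; ring
  · rw [add_zero]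

lemma zP2_smul_left (t : ℝ) (x y : X3) : S.zP2 (t • x) y = (t : ℂ) • S.zP2 x y := by
  unfold zP2 zP2a
  simp only [Finset.smul_sum, smul_smul]
  refine Finset.sum_congr rfl fun a _ => Finset.sum_congr rfl fun i _ =>
    Finset.sum_congr rfl fun A _ => Finset.sum_congr rfl fun B _ => ?_
  congr 1
  by_cases h : 3 ≤ a.val ∧ i.val < 3
  · rw [if_pos h, if_pos h]
    by_cases h' : A = B
    · rw [if_pos h', if_pos h']
      simp only [PiLp.smul_apply, smul_eq_mul, Complex.ofReal_mul, mul_sub, Finset.mul_sum]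
      simp only [mul_assoc]
    · rw [if_neg h', if_neg h', PiLp.smul_apply, smul_eq_mul]
      push_cast
      ring
  · rw [if_neg h, if_neg h, mul_zero]

lemma zP2_smul_right (t : ℝ) (x y : X3) : S.zP2 x (t • y) = (t : ℂ) • S.zP2 x y := by
  unfold zP2 zP2a
  simp only [Finset.smul_sum, smul_smul]
  refine Finset.sum_congr rfl fun a _ => Finset.sum_congr rfl fun i _ =>
    Finset.sum_congr rfl fun A _ => Finset.sum_congr rfl fun B _ => ?_
  congr 1
  by_cases h : 3 ≤ a.val ∧ i.val < 3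
  · rw [if_pos h, if_pos h]
    by_cases h' : A = B
    · rw [if_pos h', if_pos h']
      simp only [PiLp.smul_apply, smul_eq_mul, Complex.ofReal_mul, mul_sub, Finset.mul_sum]
      congr 1
      · exact Finset.sum_congr rfl fun D _ => by ring
      · ring
    · rw [if_neg h', if_neg h', PiLp.smul_apply, smul_eq_mul]
      push_cast
      ring
  · rw [if_neg h, if_neg h, mul_zero]

lemma zP2_add_left (x x' y : X3) : S.zP2 (x + x') y = S.zP2 x y + S.zP2 x' y := by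
  unfold zP2 zP2a
  simp only [← Finset.sum_add_distrib]
  refine Finset.sum_congr rfl fun a _ => Finset.sum_congr rfl fun i _ =>
    Finset.sum_congr rfl fun A _ => Finset.sum_congr rfl fun B _ => ?_
  rw [← add_smul]
  congr 1
  by_cases h : 3 ≤ a.val ∧ i.val < 3
  · rw [if_pos h, if_pos h, if_pos h]
    by_cases h' : A = B
    · rw [if_pos h', if_pos h', if_pos h']
      simp only [PiLp.add_apply, Complex.ofReal_add, add_mul, Finset.sum_add_distrib]
      ring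
    · rw [if_neg h', if_neg h', if_neg h', PiLp.add_apply]
      push_cast
      ring
  · rw [if_neg h, if_neg h, if_neg h, add_zero]

lemma zP2_add_right (x y y' : X3) : S.zP2 x (y + y') = S.zP2 x y + S.zP2 x y' := by
  unfold zP2 zP2a
  simp only [← Finset.sum_add_distrib]
  refine Finset.sum_congr rfl fun a _ => Finset.sum_congr rfl fun i _ =>
    Finset.sum_congr rfl fun A _ => Finset.sum_congr rfl fun B _ => ?_
  rw [← add_smul]
  congr 1
  by_cases h : 3 ≤ a.val ∧ i.val < 3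
  · rw [if_pos h, if_pos h, if_pos h]
    by_cases h' : A = B
    · rw [if_pos h', if_pos h', if_pos h']
      simp only [PiLp.add_apply, Complex.ofReal_add, mul_add, Finset.sum_add_distrib]
      ring
    · rw [if_neg h', if_neg h', if_neg h', PiLp.add_apply]
      push_cast
      ring
  · rw [if_neg h, if_neg h, if_neg h, add_zero]

lemma zP1_contDiff : ContDiff ℝ ∞ S.zP1 := by
  unfold zP1 zP1a
  refine ContDiff.sum fun a _ => ContDiff.sum fun A _ => ContDiff.sum fun B _ =>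
    ContDiff.sum fun C _ => ?_
  have h : ContDiff ℝ ∞ (fun x : X3 => (if 3 ≤ a.val then (eps A C B : ℂ) * (x (a, C) : ℂ)
      else 0)) := by
    split_ifs
    · exact contDiff_const.mul (contDiff_ofReal (contDiff_coord _))
    · exact contDiff_const
  exact h.smul contDiff_const

lemma zP2_contDiff : ContDiff ℝ ∞ (fun x => S.zP2 x x) := by
  unfold zP2 zP2a
  refine ContDiff.sum fun a _ => ContDiff.sum fun i _ => ContDiff.sum fun A _ =>
    ContDiff.sum fun B _ => ?_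
  have hc : ∀ p : Fin 9 × Fin 3, ContDiff ℝ ∞ (fun x : X3 => (x p : ℂ)) := fun p =>
    contDiff_ofReal (contDiff_coord p)
  have hk : ContDiff ℝ ∞ (fun x : X3 => (if 3 ≤ a.val ∧ i.val < 3 then
        (if A = B then ∑ D, (x (a, D) : ℂ) * (x (i, D) : ℂ) else 0) -
          (x (a, A) : ℂ) * (x (i, B) : ℂ) else 0)) := by
    by_cases h : 3 ≤ a.val ∧ i.val < 3
    · simp only [if_pos h]
      refine ContDiff.sub ?_ ((hc _).mul (hc _))
      split_ifs
      · exact ContDiff.sum fun D _ => (hc _).mul (hc _)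
      · exact contDiff_const
    · simp only [if_neg h]
      exact contDiff_const
  exact hk.smul contDiff_const

lemma sm_ofReal {φ : X3 → ℝ} {x : X3} (h : ContDiffAt ℝ ∞ φ x) :
    ContDiffAt ℝ ∞ (fun x => ((φ x : ℝ) : ℂ)) x :=
  (Complex.ofRealCLM.contDiff.contDiffAt (x := φ x)).comp x h

lemma sm_sub_op {f g : X3 → F →L[ℂ] F} {x : X3} (hf : ContDiffAt ℝ ∞ f x)
    (hg : ContDiffAt ℝ ∞ g x) : ContDiffAt ℝ ∞ (fun x => f x - g x) x := hf.sub hg

lemma sm_smul_op {c : X3 → ℂ} {f : X3 → F →L[ℂ] F} {x : X3} (hc : ContDiffAt ℝ ∞ c x)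
    (hf : ContDiffAt ℝ ∞ f x) : ContDiffAt ℝ ∞ (fun x => c x • f x) x := hc.smul hf

lemma sm_sub_vec {f g : X3 → F} {x : X3} (hf : ContDiffAt ℝ ∞ f x)
    (hg : ContDiffAt ℝ ∞ g x) : ContDiffAt ℝ ∞ (fun x => f x - g x) x := hf.sub hg

lemma sm_smul_vec {c : X3 → ℂ} {f : X3 → F} {x : X3} (hc : ContDiffAt ℝ ∞ c x)
    (hf : ContDiffAt ℝ ∞ f x) : ContDiffAt ℝ ∞ (fun x => c x • f x) x := hc.smul hf

lemma ZZ_contDiffAt {x : X3} (hx : 0 < rho6sq x) : ContDiffAt ℝ ∞ S.ZZ x := by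
  have h0 : ‖x‖ ≠ 0 := norm_ne_zero_iff.2 (sm_ne_zero hx)
  have e : S.ZZ = fun x => ((‖x‖ ^ 2 / (2 * rho6sq x) : ℝ) : ℂ) •
    ((Complex.I * ((1 / ‖x‖ : ℝ) : ℂ)) • S.zP1 x - ((1 / ‖x‖ ^ 2 : ℝ) : ℂ) • S.zP2 x x) :=
    funext S.ZZ_eq
  rw [e]
  have h1 : ContDiffAt ℝ ∞ (fun x : X3 => ((‖x‖ ^ 2 / (2 * rho6sq x) : ℝ) : ℂ)) x :=
    sm_ofReal (((sm_norm hx).pow 2).div (contDiffAt_const.mul sm_contDiff_rho6sq.contDiffAt)
      (by positivity))
  have h2 : ContDiffAt ℝ ∞ (fun x : X3 => Complex.I * ((1 / ‖x‖ : ℝ) : ℂ)) x :=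
    contDiffAt_const.mul (sm_ofReal (contDiffAt_const.div (sm_norm hx) h0))
  have h3 : ContDiffAt ℝ ∞ (fun x : X3 => ((1 / ‖x‖ ^ 2 : ℝ) : ℂ)) x :=
    sm_ofReal (contDiffAt_const.div ((sm_norm hx).pow 2) (pow_ne_zero 2 h0))
  exact sm_smul_op h1 (sm_sub_op (sm_smul_op h2 S.zP1_contDiff.contDiffAt)
    (sm_smul_op h3 S.zP2_contDiff.contDiffAt))

lemma sm_clm_apply {T : X3 → F →L[ℂ] F} {u : X3 → F} {x : X3} (hT : ContDiffAt ℝ ∞ T x)
    (hu : ContDiffAt ℝ ∞ u x) : ContDiffAt ℝ ∞ (fun x => T x (u x)) x := by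
  have hB : IsBoundedBilinearMap ℝ (fun p : (F →L[ℂ] F) × F => p.1 p.2) := by
    have h := (isBoundedBilinearMap_apply (𝕜 := ℂ) (E := F) (F := F))
    refine ⟨fun a b c => by simp, fun c a b => ?_, fun a b c => by simp, fun c a b => ?_, ?_⟩
    · simp
    · simp
    · obtain ⟨C, hC, hb⟩ := h.bound
      exact ⟨C, hC, hb⟩
  exact hB.contDiff.contDiffAt.comp x (hT.prodMk hu)

lemma sm_exp_contDiff [CompleteSpace F] :
    ContDiff ℝ ∞ (NormedSpace.exp : (F →L[ℂ] F) → (F →L[ℂ] F)) := by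
  rw [contDiff_iff_contDiffAt]
  intro x
  exact ((NormedSpace.exp_analytic (𝕂 := ℂ) x).contDiffAt (n := ∞)).restrict_scalars ℝ

lemma om_contDiffAt [CompleteSpace F] (Ω : F) {x : X3} (hx : 0 < rho6sq x) :
    ContDiffAt ℝ ∞ (S.om Ω) x := by
  have h0 : ‖x‖ ≠ 0 := norm_ne_zero_iff.2 (sm_ne_zero hx)
  have e : S.om Ω = fun x => (((rho6sq x / ‖x‖ ^ 2) ^ 2 / 16 : ℝ) : ℂ) •
    (NormedSpace.exp (S.ZZ x)) Ω := rfl
  rw [e]
  refine sm_smul_vec (sm_ofReal (ContDiffAt.div_const (ContDiffAt.pow (ContDiffAt.div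
    sm_contDiff_rho6sq.contDiffAt ((sm_norm hx).pow 2) (pow_ne_zero 2 h0)) 2) 16)) ?_
  exact sm_clm_apply (sm_exp_contDiff.contDiffAt.comp x (S.ZZ_contDiffAt hx)) contDiffAt_const

lemma vv_contDiffAt [CompleteSpace F] (Ω : F) {x : X3} (hx : 0 < rho6sq x) :
    ContDiffAt ℝ ∞ (S.vv Ω) x := by
  have h0 : ‖x‖ ≠ 0 := norm_ne_zero_iff.2 (sm_ne_zero hx)
  have e : S.vv Ω = fun x => S.om Ω (xh x) - ((1 / (2 * S.κ * ‖x‖) : ℝ) : ℂ) •
    S.Fx (x - xh x) (S.om Ω (xh x)) := rfl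
  rw [e]
  have h1 : ContDiffAt ℝ ∞ (fun x => S.om Ω (xh x)) x :=
    (S.om_contDiffAt Ω (sm_rho6_xh hx)).comp x (sm_contDiffAt_xh hx)
  refine sm_sub_vec h1 (sm_smul_vec (sm_ofReal (contDiffAt_const.div (contDiffAt_const.mul
    (sm_norm hx)) ?_)) ?_)
  · have := S.κ_pos
    positivity
  · refine sm_clm_apply ?_ h1
    exact (contDiff_Fx S).contDiffAt.comp x (contDiffAt_id.sub (sm_contDiffAt_xh hx))

lemma ZZ_smul {t : ℝ} (ht : 0 < t) (x : X3) : S.ZZ (t • x) = S.ZZ x := by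
  rw [S.ZZ_eq, S.ZZ_eq, sm_norm_smul ht, sm_rho6sq_smul, S.zP1_smul, S.zP2_smul_left,
    S.zP2_smul_right]
  have h1 : (t * ‖x‖) ^ 2 / (2 * (t ^ 2 * rho6sq x)) = ‖x‖ ^ 2 / (2 * rho6sq x) := by
    rw [mul_pow, mul_left_comm 2, mul_div_mul_left _ _ (pow_ne_zero 2 ht.ne')]
  have h2 : 1 / (t * ‖x‖) = t⁻¹ * (1 / ‖x‖) := by
    rw [one_div, one_div, mul_inv]
  have h3 : 1 / (t * ‖x‖) ^ 2 = (t⁻¹ * t⁻¹) * (1 / ‖x‖ ^ 2) := by
    rw [one_div, one_div, mul_pow, mul_inv, sq t, mul_inv]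
  have ht' : (t : ℂ) ≠ 0 := by exact_mod_cast ht.ne'
  rw [h1, h2, h3]
  congr 2
  · rw [smul_smul]
    congr 1
    push_cast
    field_simp
  · rw [smul_smul, smul_smul]
    congr 1
    push_cast
    field_simp

lemma om_smul (Ω : F) {t : ℝ} (ht : 0 < t) (x : X3) : S.om Ω (t • x) = S.om Ω x := by
  unfold om
  rw [S.ZZ_smul ht, sm_norm_smul ht, sm_rho6sq_smul, mul_pow,
    mul_div_mul_left _ _ (pow_ne_zero 2 ht.ne')]

lemma Fx_smul_op (t : ℝ) (x : X3) : S.Fx (t • x) = (t : ℂ) • S.Fx x := by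
  unfold Fx
  rw [smul_comm]
  congr 1
  simp only [Finset.smul_sum, smul_smul]
  refine Finset.sum_congr rfl fun a _ => Finset.sum_congr rfl fun A _ =>
    Finset.sum_congr rfl fun B _ => Finset.sum_congr rfl fun C _ => ?_
  congr 1
  rw [PiLp.smul_apply, smul_eq_mul]
  push_cast
  ring

lemma vv_smul (Ω : F) {t : ℝ} (ht : 0 < t) (x : X3) : S.vv Ω (t • x) = S.vv Ω x := by
  unfold vv
  have ht' : (t : ℂ) ≠ 0 := by exact_mod_cast ht.ne'
  rw [sm_xh_smul ht, S.om_smul Ω ht, sm_norm_smul ht, ← smul_sub, S.Fx_smul_op]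
  congr 1
  rw [_root_.smul_apply, smul_smul]
  congr 1
  have h : 1 / (2 * S.κ * (t * ‖x‖)) = t⁻¹ * (1 / (2 * S.κ * ‖x‖)) := by
    rw [one_div, one_div, ← mul_assoc, mul_comm (2 * S.κ) t, mul_assoc, mul_inv]
  rw [h]
  push_cast
  field_simp

end Setup

end Vale.Agent.P353
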