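import Vale.Agent.P353.U.Sm1

/-! # P353, uniqueness for `N = 2`: covariance of `om`, `vv` (task D-sm, part 2): analysis -/

open MeasureTheory Filter Topology
open scoped ContDiff

namespace Vale.Agent.P353

variable {F : Type*} [NormedAddCommGroup F] [InnerProductSpace ℂ F]

/-! ### derivatives along lines -/

section line

variable {G : Type*} [NormedAddCommGroup G] [NormedSpace ℝ G]

/-- `d` is the derivative of `f` at `x` in direction `v` -/
def Dl (f : X3 → G) (x v : X3) (d : G) : Prop :=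
  HasDerivAt (fun t : ℝ => f (x + t • v)) d 0

lemma Dl.unique {f : X3 → G} {x v : X3} {d d' : G} (h : Dl f x v d) (h' : Dl f x v d') :
    d = d' := HasDerivAt.unique h h'

lemma sm_line (x v : X3) : HasDerivAt (fun t : ℝ => x + t • v) v 0 := by
  simpa using ((hasDerivAt_id (0 : ℝ)).smul_const v).const_add x

lemma sm_x0 (x v : X3) : x + (0 : ℝ) • v = x := by simp

lemma Dl.of_diff {f : X3 → G} {x : X3} (v : X3) (hf : DifferentiableAt ℝ f x) :
    Dl f x v (fderiv ℝ f x v) := by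
  have h3 : HasFDerivAt f (fderiv ℝ f x) (x + (0 : ℝ) • v) := by
    rw [sm_x0]
    exact hf.hasFDerivAt
  exact h3.comp_hasDerivAt (0 : ℝ) (sm_line x v)

lemma Dl.comp {f : X3 → G} {g : X3 → X3} {x v w : X3} (hf : DifferentiableAt ℝ f (g x))
    (hg : Dl g x v w) : Dl (fun y => f (g y)) x v (fderiv ℝ f (g x) w) := by
  have h3 : HasFDerivAt f (fderiv ℝ f (g x)) (g (x + (0 : ℝ) • v)) := by
    rw [sm_x0]
    exact hf.hasFDerivAt
  exact h3.comp_hasDerivAt (0 : ℝ) hg

lemma Dl.sub {f g : X3 → G} {x v : X3} {a b : G} (hf : Dl f x v a) (hg : Dl g x v b) :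
    Dl (fun y => f y - g y) x v (a - b) := HasDerivAt.fun_sub hf hg

lemma Dl.coord (x v : X3) (p : Fin 9 × Fin 3) : Dl (fun y : X3 => y p) x v (v p) := by
  have h := Dl.of_diff (f := fun y : X3 => y p) (x := x) v
    ((Setup.contDiff_coord p).differentiable (by simp) x)
  have e : fderiv ℝ (fun y : X3 => y p) x v = v p := by
    have hL : (fun y : X3 => y p) = (EuclideanSpace.proj (𝕜 := ℝ) p : X3 →L[ℝ] ℝ) := rfl
    rw [hL, ContinuousLinearMap.fderiv]
    rfl
  rwa [e] at h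

lemma Dl.mul {f g : X3 → ℝ} {x v : X3} {a b : ℝ} (hf : Dl f x v a) (hg : Dl g x v b) :
    Dl (fun y => f y * g y) x v (a * g x + f x * b) := by
  have h := HasDerivAt.fun_mul hf hg
  rwa [sm_x0] at h

lemma Dl.sum {ι : Type*} {s : Finset ι} {f : ι → X3 → G} {x v : X3} {a : ι → G}
    (hf : ∀ i ∈ s, Dl (f i) x v (a i)) : Dl (fun y => ∑ i ∈ s, f i y) x v (∑ i ∈ s, a i) :=
  HasDerivAt.fun_sum hf

lemma Dl.normsq {x v : X3} (h : inner ℝ x v = 0) : Dl (fun y : X3 => ‖y‖ ^ 2) x v 0 := by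
  have h1 := (sm_line x v).norm_sq
  rw [sm_x0, h, mul_zero] at h1
  exact h1

lemma Dl.norm {x v : X3} (hx : x ≠ 0) (h : inner ℝ x v = 0) : Dl (fun y : X3 => ‖y‖) x v 0 := by
  have h0 : ‖x‖ ^ 2 ≠ 0 := pow_ne_zero 2 (norm_ne_zero_iff.2 hx)
  have h1 : HasDerivAt (fun t : ℝ => ‖x + t • v‖ ^ 2) 0 0 := Dl.normsq h
  have h2 := HasDerivAt.sqrt h1 (by rwa [sm_x0])
  rw [zero_div] at h2
  have e : (fun t : ℝ => Real.sqrt (‖x + t • v‖ ^ 2)) = fun t : ℝ => ‖x + t • v‖ := by
    funext t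
    rw [Real.sqrt_sq (norm_nonneg _)]
  rw [e] at h2
  exact h2

lemma Dl.rho {x v : X3}
    (h : ∑ i : Fin 9, ∑ A : Fin 3, (if 3 ≤ i.val then x (i, A) * v (i, A) else 0) = 0) :
    Dl rho6sq x v 0 := by
  have h1 : Dl rho6sq x v
      (∑ i : Fin 9, ∑ A : Fin 3, (if 3 ≤ i.val then 2 * (x (i, A) * v (i, A)) else 0)) := by
    unfold rho6sq
    refine Dl.sum fun i _ => Dl.sum fun A _ => ?_
    split_ifs
    · have h2 := (Dl.coord x v (i, A)).mul (Dl.coord x v (i, A))
      have e : (fun y : X3 => y (i, A) ^ 2) = fun y : X3 => y (i, A) * y (i, A) := by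
        funext y; ring
      rw [e]
      convert h2 using 1
      ring
    · exact hasDerivAt_const _ _
  have e : ∑ i : Fin 9, ∑ A : Fin 3, (if 3 ≤ i.val then 2 * (x (i, A) * v (i, A)) else 0) = 0 := by
    have e1 : ∀ (i : Fin 9) (A : Fin 3), (if 3 ≤ i.val then 2 * (x (i, A) * v (i, A)) else 0) =
        2 * (if 3 ≤ i.val then x (i, A) * v (i, A) else 0) := by
      intro i A
      split_ifs
      · rfl
      · rw [mul_zero]
    simp only [e1, ← Finset.mul_sum, h, mul_zero]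
  rwa [e] at h1

/-- derivative of a quotient of two functions with derivative zero -/
lemma Dl.div_zero {f g : X3 → ℝ} {x v : X3} (hf : Dl f x v 0) (hg : Dl g x v 0) (h : g x ≠ 0) :
    Dl (fun y => f y / g y) x v 0 := by
  have h1 := HasDerivAt.fun_div hf hg (by rwa [sm_x0])
  simp only [zero_mul, mul_zero, sub_zero, zero_div] at h1
  exact h1

lemma Dl.const (c : G) (x v : X3) : Dl (fun _ => c) x v 0 := hasDerivAt_const _ _

lemma Dl.mul_zero' {f g : X3 → ℝ} {x v : X3} (hf : Dl f x v 0) (hg : Dl g x v 0) :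
    Dl (fun y => f y * g y) x v 0 := by
  have h := hf.mul hg
  simpa using h

lemma Dl.pow_zero' {f : X3 → ℝ} {x v : X3} (hf : Dl f x v 0) (n : ℕ) :
    Dl (fun y => f y ^ n) x v 0 := by
  have h := HasDerivAt.fun_pow hf n
  rw [mul_zero] at h
  exact h

lemma Dl.ofReal {f : X3 → ℝ} {x v : X3} (hf : Dl f x v 0) :
    Dl (fun y => ((f y : ℝ) : ℂ)) x v 0 := by
  have h := HasDerivAt.ofReal_comp hf
  rwa [Complex.ofReal_zero] at h

lemma Dl.of_xh {x v w : X3} (hx : 0 < rho6sq x) (hi : inner ℝ x v = 0)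
    (h : ∀ i A, ∑ B, ((∑ j, (v (j, A) * x (j, B) + x (j, A) * v (j, B))) * x (i, B) +
      Gr x A B * v (i, B)) = w (i, A)) : Dl xh x v ((1 / ‖x‖ ^ 2) • w) := by
  have h0 : ‖x‖ ^ 2 ≠ 0 := pow_ne_zero 2 (norm_ne_zero_iff.2 (sm_ne_zero hx))
  have h1 := Dl.of_diff (f := xh) (x := x) v ((sm_contDiffAt_xh hx).differentiableAt (by simp))
  have e : fderiv ℝ xh x v = (1 / ‖x‖ ^ 2) • w := by
    ext ⟨i, A⟩
    have h2 : Dl (fun y => (xh y) (i, A)) x v
        ((fderiv ℝ xh x v) (i, A)) := by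
      have h3 := ((EuclideanSpace.proj (𝕜 := ℝ) (i, A) : X3 →L[ℝ] ℝ)).hasFDerivAt
        (x := xh (x + (0 : ℝ) • v))
      exact h3.comp_hasDerivAt (0 : ℝ) h1
    have h4 : Dl (fun y => (xh y) (i, A)) x v ((1 / ‖x‖ ^ 2) * w (i, A)) := by
      have hG : ∀ B, Dl (fun y => Gr y A B) x v
          (∑ j, (v (j, A) * x (j, B) + x (j, A) * v (j, B))) := by
        intro B
        unfold Gr
        exact Dl.sum fun j _ => (Dl.coord x v (j, A)).mul (Dl.coord x v (j, B))
      have hN : Dl (fun y => ∑ B, Gr y A B * y (i, B)) x v (w (i, A)) := by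
        rw [← h i A]
        exact Dl.sum fun B _ => (hG B).mul (Dl.coord x v (i, B))
      have h5 := HasDerivAt.fun_div hN (Dl.normsq hi) (by rwa [sm_x0])
      simp only [mul_zero, sub_zero] at h5
      have e2 : w (i, A) * ‖x + (0 : ℝ) • v‖ ^ 2 / (‖x + (0 : ℝ) • v‖ ^ 2) ^ 2 =
          (1 / ‖x‖ ^ 2) * w (i, A) := by
        rw [sm_x0]
        field_simp
      rw [e2] at h5
      exact h5
    rw [h2.unique h4, PiLp.smul_apply, smul_eq_mul]
  rwa [e] at h1

end line

lemma Dl.csmul {G : Type*} [NormedAddCommGroup G] [NormedSpace ℂ G] {c : X3 → ℂ} {f : X3 → G}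
    {x v : X3} {a : G} (hc : Dl c x v 0) (hf : Dl f x v a) :
    Dl (fun y => c y • f y) x v (c x • a) := by
  have h := HasDerivAt.fun_smul hc hf
  rw [sm_x0, zero_smul, add_zero] at h
  exact h

lemma Dl.clm {T : X3 → F →L[ℂ] F} {u : X3 → F} {x v : X3} {T' : F →L[ℂ] F} {u' : F}
    (hT : Dl T x v T') (hu : Dl u x v u') :
    Dl (fun y => T y (u y)) x v (T' (u x) + T x u') := by
  have hB : IsBoundedBilinearMap ℝ (fun p : (F →L[ℂ] F) × F => p.1 p.2) := by
    have h := (isBoundedBilinearMap_apply (𝕜 := ℂ) (E := F) (F := F))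
    refine ⟨fun a b c => by simp, fun c a b => ?_, fun a b c => by simp, fun c a b => ?_, ?_⟩
    · simp
    · simp
    · obtain ⟨C, hC, hb⟩ := h.bound
      exact ⟨C, hC, hb⟩
  have h1 := hB.hasFDerivAt (T (x + (0 : ℝ) • v), u (x + (0 : ℝ) • v))
  have h2 := HasDerivAt.prodMk hT hu
  have h3 := h1.comp_hasDerivAt (0 : ℝ) h2
  rw [sm_x0] at h3
  have e : T' (u x) + T x u' = (hB.deriv (T x, u x)) (T', u') := by
    rw [IsBoundedBilinearMap.deriv_apply]
    exact add_comm _ _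
  rw [e]
  exact h3

/-- derivative of `exp` of a commuting family -/
lemma Dl.exp [CompleteSpace F] {Z : X3 → F →L[ℂ] F} {x v : X3} {Z' : F →L[ℂ] F}
    (hZ : Dl Z x v Z') (hc : ∀ y, Commute (Z y) (Z x)) :
    Dl (fun y => NormedSpace.exp (Z y)) x v (Z' * NormedSpace.exp (Z x)) := by
  let _ : NormedAlgebra ℚ (F →L[ℂ] F) := NormedAlgebra.restrictScalars ℚ ℂ _
  have e : (fun t : ℝ => NormedSpace.exp (Z (x + t • v))) =
      fun t : ℝ => NormedSpace.exp (Z (x + t • v) - Z x) * NormedSpace.exp (Z x) := by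
    funext t
    rw [← NormedSpace.exp_add_of_commute, sub_add_cancel]
    exact (hc _).sub_left (Commute.refl _)
  have h1 : HasDerivAt (fun t : ℝ => Z (x + t • v) - Z x) Z' 0 := HasDerivAt.sub_const (Z x) hZ
  have h2 : HasFDerivAt (NormedSpace.exp : (F →L[ℂ] F) → (F →L[ℂ] F))
      ((1 : (F →L[ℂ] F) →L[ℂ] (F →L[ℂ] F)).restrictScalars ℝ) (Z (x + (0 : ℝ) • v) - Z x) := by
    rw [sm_x0, sub_self]
    exact (hasFDerivAt_exp_zero (𝕂 := ℂ) (𝔸 := F →L[ℂ] F)).restrictScalars ℝ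
  have h3 : HasDerivAt (fun t : ℝ => NormedSpace.exp (Z (x + t • v) - Z x)) Z' 0 := by
    have h5 := HasFDerivAt.comp_hasDerivAt (x := (0 : ℝ)) (f := fun t : ℝ => Z (x + t • v) - Z x)
      h2 h1
    exact h5
  have h4 := hasDerivAt_mul_op h3 (hasDerivAt_const (0 : ℝ) (NormedSpace.exp (Z x)))
  rw [mul_zero, zero_add] at h4
  unfold Dl
  rw [e]
  exact h4

/-- commutator with an exponential -/
lemma sm_exp_comm [CompleteSpace F] {Z T K : F →L[ℂ] F} (hK : T * Z - Z * T = K)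
    (hKZ : Commute K Z) :
    T * NormedSpace.exp Z = NormedSpace.exp Z * T + K * NormedSpace.exp Z := by
  let _ : NormedAlgebra ℚ (F →L[ℂ] F) := NormedAlgebra.restrictScalars ℚ ℂ _
  have hof : ∀ t : ℝ, HasDerivAt (fun s : ℝ => (s : ℂ)) 1 t := fun t =>
    Complex.ofRealCLM.hasDerivAt
  have hb : ∀ t : ℝ, HasDerivAt (fun s : ℝ => NormedSpace.exp ((s : ℂ) • Z))
      (Z * NormedSpace.exp ((t : ℂ) • Z)) t := by
    intro t
    have h3 := HasDerivAt.scomp t (hasDerivAt_exp_smul_const' (𝕂 := ℂ) Z (t : ℂ)) (hof t)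
    rw [one_smul] at h3
    exact h3
  have ha : ∀ t : ℝ, HasDerivAt (fun s : ℝ => NormedSpace.exp ((s : ℂ) • (-Z)))
      ((-Z) * NormedSpace.exp ((t : ℂ) • (-Z))) t := by
    intro t
    have h3 := HasDerivAt.scomp t (hasDerivAt_exp_smul_const' (𝕂 := ℂ) (-Z) (t : ℂ)) (hof t)
    rw [one_smul] at h3
    exact h3
  have hab : ∀ t : ℝ, NormedSpace.exp ((t : ℂ) • (-Z)) * NormedSpace.exp ((t : ℂ) • Z) = 1 := by
    intro t
    rw [← NormedSpace.exp_add_of_commute, smul_neg, neg_add_cancel, NormedSpace.exp_zero]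
    exact (((Commute.refl Z).neg_left).smul_left _).smul_right _
  have hφ : ∀ t : ℝ, HasDerivAt (fun s : ℝ => NormedSpace.exp ((s : ℂ) • (-Z)) * T *
      NormedSpace.exp ((s : ℂ) • Z)) K t := by
    intro t
    have h := hasDerivAt_mul_op (hasDerivAt_mul_op (ha t) (hasDerivAt_const t T)) (hb t)
    refine h.congr_deriv ?_
    have c1 : (-Z) * NormedSpace.exp ((t : ℂ) • (-Z)) = NormedSpace.exp ((t : ℂ) • (-Z)) * (-Z) := by
      have : Commute (-Z) (NormedSpace.exp ((t : ℂ) • (-Z))) :=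
        ((Commute.refl (-Z)).smul_right _).exp_right
      exact this
    have c2 : NormedSpace.exp ((t : ℂ) • (-Z)) * K = K * NormedSpace.exp ((t : ℂ) • (-Z)) := by
      have : Commute K (NormedSpace.exp ((t : ℂ) • (-Z))) :=
        ((hKZ.neg_right).smul_right _).exp_right
      exact this.symm
    calc NormedSpace.exp ((t : ℂ) • (-Z)) * T * (Z * NormedSpace.exp ((t : ℂ) • Z)) +
          (NormedSpace.exp ((t : ℂ) • (-Z)) * 0 + (-Z) * NormedSpace.exp ((t : ℂ) • (-Z)) * T) *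
            NormedSpace.exp ((t : ℂ) • Z)
        = NormedSpace.exp ((t : ℂ) • (-Z)) * (T * Z - Z * T) * NormedSpace.exp ((t : ℂ) • Z) := by
          rw [c1]; noncomm_ring
      _ = K * (NormedSpace.exp ((t : ℂ) • (-Z)) * NormedSpace.exp ((t : ℂ) • Z)) := by
          rw [hK, c2, mul_assoc]
      _ = K := by rw [hab, mul_one]
  have hψ : ∀ t : ℝ, HasDerivAt (fun s : ℝ => NormedSpace.exp ((s : ℂ) • (-Z)) * T *
      NormedSpace.exp ((s : ℂ) • Z) - s • K) 0 t := by
    intro t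
    have h := HasDerivAt.fun_sub (hφ t) ((hasDerivAt_id t).smul_const K)
    rw [one_smul, sub_self] at h
    exact h
  have hc := is_const_of_deriv_eq_zero (fun s => (hψ s).differentiableAt)
    (fun s => (hψ s).deriv) 1 0
  simp only [Complex.ofReal_one, one_smul, Complex.ofReal_zero, zero_smul, NormedSpace.exp_zero,
    one_mul, mul_one, sub_zero] at hc
  have h1 : NormedSpace.exp (-Z) * T * NormedSpace.exp Z = T + K := sub_eq_iff_eq_add.1 hc
  have h2 : NormedSpace.exp Z * NormedSpace.exp (-Z) = 1 := by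
    rw [← NormedSpace.exp_add_of_commute, add_neg_cancel, NormedSpace.exp_zero]
    exact (Commute.refl Z).neg_right
  have h3 : K * NormedSpace.exp Z = NormedSpace.exp Z * K := by
    have : Commute K (NormedSpace.exp Z) := hKZ.exp_right
    exact this
  calc T * NormedSpace.exp Z = (NormedSpace.exp Z * NormedSpace.exp (-Z)) * (T *
        NormedSpace.exp Z) := by rw [h2, one_mul]
    _ = NormedSpace.exp Z * (NormedSpace.exp (-Z) * T * NormedSpace.exp Z) := by
        simp only [mul_assoc]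
    _ = NormedSpace.exp Z * T + K * NormedSpace.exp Z := by rw [h1, mul_add, h3]

end Vale.Agent.P353
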