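import Vale.Agent.P353.U.Sm2

/-! # P353, uniqueness for `N = 2`: covariance of `om`, `vv` (task D-sm, part 3): algebra -/

open MeasureTheory Filter Topology
open scoped ContDiff

namespace Vale.Agent.P353

variable {F : Type*} [NormedAddCommGroup F] [InnerProductSpace ℂ F]

namespace Setup

variable (S : Setup F)

/-! ### the algebra generated by the `b b` -/

lemma sm_bm_anti (A B : Fin 3) (α β : Fin 16) :
    S.bm A α * S.bm B β = -(S.bm B β * S.bm A α) := by
  have h := S.vec_anti S.n0Pb S.n0Pb A B α β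
  rw [S.n0_Pb_transpose, S.n0_Pb_Pa, ← S.n0_bm, ← S.n0_bm] at h
  have h2 : (if A = B then (0 : Matrix (Fin 16) (Fin 16) ℂ) α β • (1 : F →L[ℂ] F) else 0) = 0 := by
    split_ifs
    · rw [Matrix.zero_apply, zero_smul]
    · rfl
  rw [h2] at h
  exact eq_neg_of_add_eq_zero_left h

/-- span of the products `b b` -/
noncomputable def bspan : Submodule ℂ (F →L[ℂ] F) :=
  Submodule.span ℂ (Set.range fun p : (Fin 3 × Fin 16) × (Fin 3 × Fin 16) =>
    S.bm p.1.1 p.1.2 * S.bm p.2.1 p.2.2)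

lemma bspan_comm {X Y : F →L[ℂ] F} (hX : X ∈ S.bspan) (hY : Y ∈ S.bspan) : Commute X Y := by
  have h1 : ∀ p : (Fin 3 × Fin 16) × (Fin 3 × Fin 16), ∀ Y ∈ S.bspan,
      Commute (S.bm p.1.1 p.1.2 * S.bm p.2.1 p.2.2) Y := by
    intro p Y hY
    refine Submodule.span_induction (p := fun Y _ =>
      Commute (S.bm p.1.1 p.1.2 * S.bm p.2.1 p.2.2) Y) ?_ ?_ ?_ ?_ hY
    · rintro _ ⟨q, rfl⟩
      have e : ∀ a b c d : F →L[ℂ] F, a * c = -(c * a) → a * d = -(d * a) → b * c = -(c * b) →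
          b * d = -(d * b) → Commute (a * b) (c * d) := by
        intro a b c d h1 h2 h3 h4
        have : a * b * (c * d) = c * d * (a * b) := by
          calc a * b * (c * d) = a * (b * c) * d := by simp only [mul_assoc]
            _ = -(a * c * (b * d)) := by rw [h3]; simp only [mul_assoc, mul_neg, neg_mul]
            _ = -(c * (a * d) * b) := by
                rw [h1, h4]; simp only [mul_assoc, mul_neg, neg_mul, neg_neg]
            _ = c * d * (a * b) := by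
                rw [h2]; simp only [mul_assoc, mul_neg, neg_mul, neg_neg]
        exact this
      exact e _ _ _ _ (S.sm_bm_anti _ _ _ _) (S.sm_bm_anti _ _ _ _) (S.sm_bm_anti _ _ _ _)
        (S.sm_bm_anti _ _ _ _)
    · exact Commute.zero_right _
    · intro a b _ _ ha hb
      exact ha.add_right hb
    · intro c a _ ha
      exact ha.smul_right c
  refine Submodule.span_induction (p := fun X _ => Commute X Y) ?_ ?_ ?_ ?_ hX
  · rintro _ ⟨p, rfl⟩
    exact h1 p Y hY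
  · exact Commute.zero_left _
  · intro a b _ _ ha hb
    exact ha.add_left hb
  · intro c a _ ha
    exact ha.smul_left c

lemma bilb_mem (N : Matrix (Fin 16) (Fin 16) ℂ) (A B : Fin 3) : S.bilb N A B ∈ S.bspan := by
  unfold bilb
  exact Submodule.sum_mem _ fun α _ => Submodule.sum_mem _ fun β _ =>
    Submodule.smul_mem _ _ (Submodule.subset_span ⟨((A, α), (B, β)), rfl⟩)

lemma zP1_mem (x : X3) : S.zP1 x ∈ S.bspan := by
  unfold zP1 zP1a
  exact Submodule.sum_mem _ fun _ _ => Submodule.sum_mem _ fun _ _ => Submodule.sum_mem _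
    fun _ _ => Submodule.sum_mem _ fun _ _ => Submodule.smul_mem _ _ (S.bilb_mem _ _ _)

lemma zP2_mem (x y : X3) : S.zP2 x y ∈ S.bspan := by
  unfold zP2 zP2a
  exact Submodule.sum_mem _ fun _ _ => Submodule.sum_mem _ fun _ _ => Submodule.sum_mem _
    fun _ _ => Submodule.sum_mem _ fun _ _ => Submodule.smul_mem _ _ (S.bilb_mem _ _ _)

lemma bilb_eq (N : Matrix (Fin 16) (Fin 16) ℂ) (A B : Fin 3) :
    S.bilb N A B = S.bil (S.n0Pa * (N * S.n0Pb)) A B := by
  rw [← S.n0_Pb_transpose, ← S.sum_vec_mul_vec]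
  unfold bilb
  refine Finset.sum_congr rfl fun α _ => ?_
  rw [S.vec_mul, Finset.mul_sum]
  refine Finset.sum_congr rfl fun β _ => ?_
  rw [S.n0_bm, S.n0_bm, mul_smul_comm]

lemma sm_bilb_add (N M : Matrix (Fin 16) (Fin 16) ℂ) (A B : Fin 3) :
    S.bilb (N + M) A B = S.bilb N A B + S.bilb M A B := by
  rw [bilb_eq, bilb_eq, bilb_eq, add_mul, mul_add, S.bil_add]

lemma sm_bilb_sub (N M : Matrix (Fin 16) (Fin 16) ℂ) (A B : Fin 3) :
    S.bilb (N - M) A B = S.bilb N A B - S.bilb M A B := by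
  rw [bilb_eq, bilb_eq, bilb_eq, sub_mul, mul_sub, S.bil_sub]

lemma sm_bilb_smul (c : ℂ) (N : Matrix (Fin 16) (Fin 16) ℂ) (A B : Fin 3) :
    S.bilb (c • N) A B = c • S.bilb N A B := by
  rw [bilb_eq, bilb_eq, Matrix.smul_mul, Matrix.mul_smul, S.bil_smul]

lemma sm_bilb_ite (c : Prop) [Decidable c] (N : Matrix (Fin 16) (Fin 16) ℂ) (A B : Fin 3) :
    S.bilb (if c then N else 0) A B = if c then S.bilb N A B else 0 := by
  split_ifs
  · rfl
  · rw [bilb_eq, zero_mul, mul_zero, S.bil_zero]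

/-! ### commutators -/

lemma sm_comm_mul (T x y : F →L[ℂ] F) :
    T * (x * y) - x * y * T = (T * x - x * T) * y + x * (T * y - y * T) := by
  noncomm_ring

lemma sm_cS_bil (C : Fin 3) (M : Matrix (Fin 16) (Fin 16) ℂ) (A B : Fin 3) :
    S.cS C * S.bil M A B - S.bil M A B * S.cS C = Complex.I •
      (∑ E, (eps C A E : ℂ) • S.bil M E B + ∑ E, (eps C B E : ℂ) • S.bil M A E) := by
  have e : ∀ A B : Fin 3, S.bil M A B = ∑ α, S.vec 1 A α * S.vec M B α := by
    intro A B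
    unfold CS.bil
    exact Finset.sum_congr rfl fun α _ => by rw [S.vec_one]
  rw [e, Finset.mul_sum, Finset.sum_mul, ← Finset.sum_sub_distrib]
  have h1 : ∀ α, S.cS C * (S.vec 1 A α * S.vec M B α) - S.vec 1 A α * S.vec M B α * S.cS C =
      Complex.I • (∑ E, (eps C A E : ℂ) • (S.vec 1 E α * S.vec M B α) +
        ∑ E, (eps C B E : ℂ) • (S.vec 1 A α * S.vec M E α)) := by
    intro α
    rw [sm_comm_mul, U.comm_cS, U.comm_cS, smul_mul_assoc, mul_smul_comm, ← smul_add,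
      Finset.sum_mul, Finset.mul_sum]
    simp only [smul_mul_assoc, mul_smul_comm]
  rw [Finset.sum_congr rfl fun α _ => h1 α, ← Finset.smul_sum, Finset.sum_add_distrib]
  congr 2
  · rw [Finset.sum_comm]
    exact Finset.sum_congr rfl fun E _ => by rw [e, Finset.smul_sum]
  · rw [Finset.sum_comm]
    exact Finset.sum_congr rfl fun E _ => by rw [e, Finset.smul_sum]

lemma sm_cS_bilb (C : Fin 3) (M : Matrix (Fin 16) (Fin 16) ℂ) (A B : Fin 3) :
    S.cS C * S.bilb M A B - S.bilb M A B * S.cS C = Complex.I •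
      (∑ E, (eps C A E : ℂ) • S.bilb M E B + ∑ E, (eps C B E : ℂ) • S.bilb M A E) := by
  simp only [bilb_eq]
  exact S.sm_cS_bil C _ A B

lemma sm_Sk_bil (k l : Fin 9) (M : Matrix (Fin 16) (Fin 16) ℂ) (A B : Fin 3) :
    S.Skl k l * S.bil M A B - S.bil M A B * S.Skl k l =
      (Complex.I / 2) • S.bil (M * S.g2 k l - S.g2 k l * M) A B := by
  have e : ∀ A B : Fin 3, S.bil M A B = ∑ α, S.vec 1 A α * S.vec M B α := by
    intro A B
    unfold CS.bil
    exact Finset.sum_congr rfl fun α _ => by rw [S.vec_one]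
  rw [e, Finset.mul_sum, Finset.sum_mul, ← Finset.sum_sub_distrib]
  have h1 : ∀ α, S.Skl k l * (S.vec 1 A α * S.vec M B α) -
      S.vec 1 A α * S.vec M B α * S.Skl k l =
      (Complex.I / 2) • (S.vec (1 * S.g2 k l) A α * S.vec M B α +
        S.vec 1 A α * S.vec (M * S.g2 k l) B α) := by
    intro α
    rw [sm_comm_mul, U.comm_Sk, U.comm_Sk, smul_mul_assoc, mul_smul_comm, ← smul_add]
  rw [Finset.sum_congr rfl fun α _ => h1 α, ← Finset.smul_sum, Finset.sum_add_distrib,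
    S.sum_vec_mul_vec, S.sum_vec_mul_vec, ← S.bil_add, one_mul, S.g2_transpose',
    Matrix.transpose_one, one_mul, neg_mul, neg_add_eq_sub]

lemma sm_Sk_bilb {k l : Fin 9} (h : Same k l) (N : Matrix (Fin 16) (Fin 16) ℂ) (A B : Fin 3) :
    S.Skl k l * S.bilb N A B - S.bilb N A B * S.Skl k l =
      (Complex.I / 2) • S.bilb (N * S.g2 k l - S.g2 k l * N) A B := by
  have hG := S.Gam_comm_g2 h
  have ha : S.g2 k l * S.n0Pa = S.n0Pa * S.g2 k l := by
    unfold n0Pa
    rw [Matrix.mul_smul, Matrix.smul_mul, mul_sub, sub_mul, mul_one, one_mul, Matrix.mul_smul,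
      Matrix.smul_mul, hG]
  have hb : S.g2 k l * S.n0Pb = S.n0Pb * S.g2 k l := by
    unfold n0Pb
    rw [Matrix.mul_smul, Matrix.smul_mul, mul_add, add_mul, mul_one, one_mul, Matrix.mul_smul,
      Matrix.smul_mul, hG]
  rw [bilb_eq, bilb_eq, S.sm_Sk_bil]
  congr 2
  calc S.n0Pa * (N * S.n0Pb) * S.g2 k l - S.g2 k l * (S.n0Pa * (N * S.n0Pb))
      = S.n0Pa * (N * (S.n0Pb * S.g2 k l)) - (S.g2 k l * S.n0Pa) * (N * S.n0Pb) := by
        simp only [mul_assoc]
    _ = S.n0Pa * ((N * S.g2 k l - S.g2 k l * N) * S.n0Pb) := by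
        rw [← hb, ha, sub_mul, mul_sub]
        simp only [mul_assoc]

/-! ### gauge covariance of `P1`, `P2`, `F` -/

lemma eps_P1 {M : Type*} [AddCommGroup M] [Module ℂ M] (b : Fin 3 → Fin 3 → M) (ξ : Fin 3 → ℂ)
    (C : Fin 3) :
    ∑ A, ∑ B, ∑ D, ((eps A D B : ℂ) * ξ D) • (∑ E, (eps C A E : ℂ) • b E B +
      ∑ E, (eps C B E : ℂ) • b A E) =
    ∑ A, ∑ B, ∑ D, ((eps A D B : ℂ) * (∑ E, (eps C E D : ℂ) * ξ E)) • b A B := by
  simp only [Fin.sum_univ_three]
  fin_cases C <;> simp [eps] <;> module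

lemma eps_FX {M : Type*} [AddCommGroup M] [Module ℂ M] (b : Fin 3 → Fin 3 → M) (ξ : Fin 3 → ℂ)
    (C : Fin 3) :
    ∑ A, ∑ B, ∑ D, ((eps A B D : ℂ) * ξ D) • (∑ E, (eps C A E : ℂ) • b E B +
      ∑ E, (eps C B E : ℂ) • b A E) =
    ∑ A, ∑ B, ∑ D, ((eps A B D : ℂ) * (∑ E, (eps C E D : ℂ) * ξ E)) • b A B := by
  simp only [Fin.sum_univ_three]
  fin_cases C <;> simp [eps] <;> module

lemma eps_P2 {M : Type*} [AddCommGroup M] [Module ℂ M] (b : Fin 3 → Fin 3 → M)
    (ξ η : Fin 3 → ℂ) (C : Fin 3) :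
    ∑ A, ∑ B, ((if A = B then ∑ D, ξ D * η D else 0) - ξ A * η B) •
      (∑ E, (eps C A E : ℂ) • b E B + ∑ E, (eps C B E : ℂ) • b A E) =
    ∑ A, ∑ B, ((if A = B then ∑ D, (∑ E, (eps C E D : ℂ) * ξ E) * η D else 0) -
      (∑ E, (eps C E A : ℂ) * ξ E) * η B) • b A B +
    ∑ A, ∑ B, ((if A = B then ∑ D, ξ D * (∑ E, (eps C E D : ℂ) * η E) else 0) -
      ξ A * (∑ E, (eps C E B : ℂ) * η E)) • b A B := by
  simp only [Fin.sum_univ_three]
  fin_cases C <;> simp [eps] <;> module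

end Setup

end Vale.Agent.P353
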