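import Vale.Agent.P353.U.Sm3

/-! # P353, uniqueness for `N = 2`: covariance of `om`, `vv` (task D-sm, part 4) -/

open MeasureTheory Filter Topology
open scoped ContDiff

namespace Vale.Agent.P353

section gen

variable {F : Type*} [NormedAddCommGroup F] [InnerProductSpace ℂ F]

lemma sm_lin3 {ι κ μ : Type*} [Fintype ι] [Fintype κ] [Fintype μ] (T : F →L[ℂ] F) (b d : ι → κ → F →L[ℂ] F)
    (c : ι → κ → μ → ℂ) (hb : ∀ A B, T * b A B - b A B * T = Complex.I • d A B) :
    T * (∑ A, ∑ B, ∑ D, c A B D • b A B) - (∑ A, ∑ B, ∑ D, c A B D • b A B) * T =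
      Complex.I • ∑ A, ∑ B, ∑ D, c A B D • d A B := by
  simp only [Finset.mul_sum, Finset.sum_mul, ← Finset.sum_sub_distrib, mul_smul_comm,
    smul_mul_assoc, ← smul_sub, hb, Finset.smul_sum]
  simp only [smul_comm _ Complex.I]

lemma sm_lin2 {ι κ : Type*} [Fintype ι] [Fintype κ] (T : F →L[ℂ] F) (b d : ι → κ → F →L[ℂ] F)
    (c : ι → κ → ℂ) (hb : ∀ A B, T * b A B - b A B * T = Complex.I • d A B) :
    T * (∑ A, ∑ B, c A B • b A B) - (∑ A, ∑ B, c A B • b A B) * T =
      Complex.I • ∑ A, ∑ B, c A B • d A B := by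
  simp only [Finset.mul_sum, Finset.sum_mul, ← Finset.sum_sub_distrib, mul_smul_comm,
    smul_mul_assoc, ← smul_sub, hb, Finset.smul_sum]
  simp only [smul_comm _ Complex.I]

lemma sm_lin1 {ι : Type*} [Fintype ι] (T : F →L[ℂ] F) (b d : ι → F →L[ℂ] F)
    (hb : ∀ a, T * b a - b a * T = Complex.I • d a) :
    T * (∑ a, b a) - (∑ a, b a) * T = Complex.I • ∑ a, d a := by
  simp only [Finset.mul_sum, Finset.sum_mul, ← Finset.sum_sub_distrib, hb, Finset.smul_sum]

lemma sm_lin_smul (T X Y : F →L[ℂ] F) (c : ℂ) (h : T * X - X * T = Complex.I • Y) :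
    T * (c • X) - (c • X) * T = Complex.I • (c • Y) := by
  rw [mul_smul_comm, smul_mul_assoc, ← smul_sub, h, smul_comm]

lemma sm_lin_if (T : F →L[ℂ] F) (X Y : F →L[ℂ] F) (c : Prop) [Decidable c]
    (h : c → T * X - X * T = Complex.I • Y) :
    T * (if c then X else 0) - (if c then X else 0) * T = Complex.I • (if c then Y else 0) := by
  split_ifs with hc
  · exact h hc
  · rw [mul_zero, zero_mul, sub_zero, smul_zero]

/-- the commutator of a linear combination over `Fin 9` -/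
lemma sm_lin9 {ι : Type*} [Fintype ι] (T : F →L[ℂ] F) (b d : ι → F →L[ℂ] F) (c : ι → ℂ)
    (hb : ∀ a, T * b a - b a * T = Complex.I • d a) :
    T * (∑ a, c a • b a) - (∑ a, c a • b a) * T = Complex.I • ∑ a, c a • d a := by
  simp only [Finset.mul_sum, Finset.sum_mul, ← Finset.sum_sub_distrib, mul_smul_comm,
    smul_mul_assoc, ← smul_sub, hb, Finset.smul_sum]
  simp only [smul_comm _ Complex.I]

/-- a sum with two Kronecker symbols -/
lemma sm_sum_kl {M : Type*} [AddCommGroup M] [Module ℂ M] {k l : Fin 9} (y : Fin 9 → ℂ)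
    (X : Fin 9 → M) (s : Fin 9 → Prop) [DecidablePred s] (hs : s k ↔ s l) :
    ∑ a, (if s a then y a else 0) • ((if a = k then X l else 0) - (if a = l then X k else 0)) =
    ∑ a, (if s a then ((if a = l then y k else 0) - (if a = k then y l else 0)) else 0) •
      X a := by
  have e1 : ∑ a, (if s a then y a else 0) • ((if a = k then X l else 0) -
      (if a = l then X k else 0)) =
      (if s k then y k else 0) • X l - (if s l then y l else 0) • X k := by
    simp only [smul_sub, Finset.sum_sub_distrib, smul_ite, smul_zero]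
    rw [Finset.sum_ite_eq' , Finset.sum_ite_eq']
    simp
  have e2 : ∀ a, (if s a then ((if a = l then y k else 0) - (if a = k then y l else 0)) else 0) •
      X a = (if a = l then (if s l then y k else 0) • X l else 0) -
        (if a = k then (if s k then y l else 0) • X k else 0) := by
    intro a
    by_cases h1 : a = l
    · subst h1
      by_cases h2 : a = k
      · subst h2
        simp
      · by_cases h3 : s a
        · simp [h2, h3]
        · simp [h2, h3]
    · by_cases h2 : a = k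
      · subst h2
        by_cases h3 : s a
        · simp [h1, h3]
        · simp [h1, h3]
      · simp [h1, h2]
  rw [e1, Finset.sum_congr rfl fun a _ => e2 a, Finset.sum_sub_distrib, Finset.sum_ite_eq',
    Finset.sum_ite_eq', if_pos (Finset.mem_univ _), if_pos (Finset.mem_univ _)]
  by_cases h : s k
  · rw [if_pos h, if_pos h, if_pos (hs.1 h), if_pos (hs.1 h)]
  · rw [if_neg h, if_neg h, if_neg fun h' => h (hs.2 h'), if_neg fun h' => h (hs.2 h')]

end gen

variable {F : Type*} [NormedAddCommGroup F] [InnerProductSpace ℂ F]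

namespace Setup

variable (S : Setup F)

/-! ### gauge rotations -/

lemma sm_gauge_rot (C : Fin 3) (x : X3) (i : Fin 9) :
    ∑ A, x (i, A) * (U.gLc C x) (i, A) = 0 := by
  simp only [U.gLc_apply, Fin.sum_univ_three]
  fin_cases C <;> simp [eps] <;> ring

lemma sm_gauge_inn (C : Fin 3) (x : X3) : inner ℝ x (U.gLc C x) = 0 := by
  rw [PiLp.inner_apply, Fintype.sum_prod_type]
  refine Finset.sum_eq_zero fun i _ => ?_
  rw [← sm_gauge_rot C x i]
  refine Finset.sum_congr rfl fun A _ => ?_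
  simp [mul_comm]

lemma sm_gauge_rho (C : Fin 3) (x : X3) :
    ∑ i : Fin 9, ∑ A : Fin 3, (if 3 ≤ i.val then x (i, A) * (U.gLc C x) (i, A) else 0) = 0 := by
  refine Finset.sum_eq_zero fun i _ => ?_
  split_ifs
  · exact sm_gauge_rot C x i
  · exact Finset.sum_const_zero

lemma sm_gauge_xh (C : Fin 3) (x : X3) (i : Fin 9) (A : Fin 3) :
    ∑ B, ((∑ j, ((U.gLc C x) (j, A) * x (j, B) + x (j, A) * (U.gLc C x) (j, B))) * x (i, B) +
      Gr x A B * (U.gLc C x) (i, B)) =
      (U.gLc C (WithLp.toLp 2 fun p => ∑ B, Gr x p.2 B * x (p.1, B))) (i, A) := by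
  have h1 : ∀ B, ∑ j, ((U.gLc C x) (j, A) * x (j, B) + x (j, A) * (U.gLc C x) (j, B)) =
      ∑ E, ((eps C E A : ℝ) * Gr x E B + (eps C E B : ℝ) * Gr x A E) := by
    intro B
    simp only [U.gLc_apply, Gr, Finset.mul_sum, Finset.sum_mul, Finset.sum_add_distrib]
    congr 1
    · rw [Finset.sum_comm]
      exact Finset.sum_congr rfl fun E _ => Finset.sum_congr rfl fun j _ => by ring
    · rw [Finset.sum_comm]
      exact Finset.sum_congr rfl fun E _ => Finset.sum_congr rfl fun j _ => by ring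
  have key : ∀ (G : Fin 3 → Fin 3 → ℝ) (ξ : Fin 3 → ℝ),
      ∑ B, ((∑ E, ((eps C E A : ℝ) * G E B + (eps C E B : ℝ) * G A E)) * ξ B +
        G A B * ∑ E, (eps C E B : ℝ) * ξ E) =
      ∑ E, (eps C E A : ℝ) * ∑ B, G E B * ξ B := by
    intro G ξ
    simp only [Fin.sum_univ_three]
    fin_cases C <;> fin_cases A <;> simp [eps] <;> ring
  have h2 := key (fun A B => Gr x A B) (fun B => x (i, B))
  rw [Finset.sum_congr rfl fun B _ => by rw [h1 B, U.gLc_apply], h2, U.gLc_apply]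

lemma sm_gl_gauge (C : Fin 3) (x : X3) (j : Fin 9) (D : Fin 3) :
    (((U.gLc C x) (j, D) : ℝ) : ℂ) = ∑ E, (eps C E D : ℂ) * (x (j, E) : ℂ) := by
  rw [U.gLc_apply]
  push_cast
  rfl

lemma zP1_sum (x : X3) : S.zP1 x = ∑ a, S.zP1a a x := rfl

lemma zP2_sum (x y : X3) : S.zP2 x y = ∑ a, ∑ i, S.zP2a a i x y := rfl

/-- summand of `F` -/
noncomputable def Fxa (a : Fin 9) (x : X3) : F →L[ℂ] F :=
  ∑ A, ∑ B, ∑ C, ((eps A B C : ℂ) * (x (a, C) : ℂ)) • S.bil (S.g a) A B

lemma Fx_sum (x : X3) : S.Fx x = (Complex.I / 2 * (S.κ : ℂ)) • ∑ a, S.Fxa a x := by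
  unfold Fx
  refine congrArg _ (Finset.sum_congr rfl fun q _ => ?_)
  unfold Fxa
  refine Finset.sum_congr rfl fun A _ => Finset.sum_congr rfl fun B _ =>
    Finset.sum_congr rfl fun C _ => ?_
  rfl

lemma zP1a_gauge (C : Fin 3) (x : X3) (a : Fin 9) :
    S.cS C * S.zP1a a x - S.zP1a a x * S.cS C = Complex.I • S.zP1a a (U.gLc C x) := by
  have h1 : ∀ y : X3, S.zP1a a y = ∑ A, ∑ B, ∑ D, (fun A B D => (if 3 ≤ a.val then
      (eps A D B : ℂ) * (y (a, D) : ℂ) else 0)) A B D • (fun A B => S.bilb (S.g a) A B) A B :=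
    fun y => rfl
  rw [h1 x, sm_lin3 _ _ _ _ fun A B => S.sm_cS_bilb C (S.g a) A B, h1]
  refine congrArg _ ?_
  by_cases ha : 3 ≤ a.val
  · simp only [if_pos ha, sm_gl_gauge]
    exact eps_P1 (fun A B => S.bilb (S.g a) A B) (fun D => (x (a, D) : ℂ)) C
  · simp only [if_neg ha, zero_smul, Finset.sum_const_zero]

lemma sm_gauge_P1 (C : Fin 3) (x : X3) :
    S.cS C * S.zP1 x - S.zP1 x * S.cS C = Complex.I • S.zP1 (U.gLc C x) := by
  rw [zP1_sum, zP1_sum]
  exact sm_lin1 (S.cS C) (fun a => S.zP1a a x) (fun a => S.zP1a a (U.gLc C x))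
    fun a => S.zP1a_gauge C x a

lemma zP2a_gauge (C : Fin 3) (x : X3) (a i : Fin 9) :
    S.cS C * S.zP2a a i x x - S.zP2a a i x x * S.cS C =
      Complex.I • (S.zP2a a i (U.gLc C x) x + S.zP2a a i x (U.gLc C x)) := by
  have h1 : ∀ y z : X3, S.zP2a a i y z = ∑ A, ∑ B, (fun A B => (if 3 ≤ a.val ∧ i.val < 3 then
        (if A = B then ∑ D, (y (a, D) : ℂ) * (z (i, D) : ℂ) else 0) -
          (y (a, A) : ℂ) * (z (i, B) : ℂ) else 0)) A B •
            (fun A B => S.bilb (S.g a * S.g i) A B) A B :=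
    fun y z => rfl
  rw [h1 x x, sm_lin2 _ _ _ _ fun A B => S.sm_cS_bilb C (S.g a * S.g i) A B, h1, h1]
  refine congrArg _ ?_
  by_cases ha : 3 ≤ a.val ∧ i.val < 3
  · simp only [if_pos ha, sm_gl_gauge]
    exact eps_P2 (fun A B => S.bilb (S.g a * S.g i) A B) (fun D => (x (a, D) : ℂ))
      (fun D => (x (i, D) : ℂ)) C
  · simp only [if_neg ha, zero_smul, Finset.sum_const_zero, add_zero]

lemma sm_gauge_P2 (C : Fin 3) (x : X3) :
    S.cS C * S.zP2 x x - S.zP2 x x * S.cS C =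
      Complex.I • (S.zP2 (U.gLc C x) x + S.zP2 x (U.gLc C x)) := by
  rw [zP2_sum, zP2_sum, zP2_sum, ← Finset.sum_add_distrib]
  refine sm_lin1 (S.cS C) (fun a => ∑ i, S.zP2a a i x x) (fun a => ∑ i, S.zP2a a i (U.gLc C x) x +
    ∑ i, S.zP2a a i x (U.gLc C x)) fun a => ?_
  rw [← Finset.sum_add_distrib]
  exact sm_lin1 (S.cS C) (fun i => S.zP2a a i x x) (fun i => S.zP2a a i (U.gLc C x) x +
    S.zP2a a i x (U.gLc C x)) fun i => S.zP2a_gauge C x a i

lemma Fxa_gauge (C : Fin 3) (x : X3) (a : Fin 9) :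
    S.cS C * S.Fxa a x - S.Fxa a x * S.cS C = Complex.I • S.Fxa a (U.gLc C x) := by
  have h1 : ∀ y : X3, S.Fxa a y = ∑ A, ∑ B, ∑ D, (fun A B D =>
      (eps A B D : ℂ) * (y (a, D) : ℂ)) A B D • (fun A B => S.bil (S.g a) A B) A B :=
    fun y => rfl
  rw [h1 x, sm_lin3 _ _ _ _ fun A B => S.sm_cS_bil C (S.g a) A B, h1]
  refine congrArg _ ?_
  simp only [sm_gl_gauge]
  exact eps_FX (fun A B => S.bil (S.g a) A B) (fun D => (x (a, D) : ℂ)) C

lemma sm_gauge_FX (C : Fin 3) (x : X3) :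
    S.cS C * S.Fx x - S.Fx x * S.cS C = Complex.I • S.Fx (U.gLc C x) := by
  rw [Fx_sum, Fx_sum]
  exact sm_lin_smul _ _ _ _ (sm_lin1 (S.cS C) (fun a => S.Fxa a x)
    (fun a => S.Fxa a (U.gLc C x)) fun a => S.Fxa_gauge C x a)

/-! ### rotations -/

lemma sm_same {k l : Fin 9} (h : Same k l) : 3 ≤ k.val ↔ 3 ≤ l.val := by
  have := h.2
  omega

lemma sm_gl (k l i : Fin 9) (A : Fin 3) (x : X3) :
    ((((-(LL k l)) x) (i, A) : ℝ) : ℂ) =
      (if i = l then (x (k, A) : ℂ) else 0) - (if i = k then (x (l, A) : ℂ) else 0) := by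
  have h := U.neg_LL_apply k l i A x
  have e : ((-(LL k l)) x) (i, A) = (-(LL k l x)) (i, A) := rfl
  rw [e, h, Complex.ofReal_sub]
  split_ifs <;> simp

lemma sm_Sk_g {k l : Fin 9} (h : Same k l) (a : Fin 9) (A B : Fin 3) :
    S.Skl k l * S.bilb (S.g a) A B - S.bilb (S.g a) A B * S.Skl k l =
      Complex.I • ((if a = k then S.bilb (S.g l) A B else 0) -
        (if a = l then S.bilb (S.g k) A B else 0)) := by
  rw [S.sm_Sk_bilb h, U.g_g2_comm, S.sm_bilb_smul, smul_smul, S.sm_bilb_sub, S.sm_bilb_ite,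
    S.sm_bilb_ite, div_mul_cancel₀ _ (two_ne_zero)]

lemma sm_Sk_g' (k l : Fin 9) (a : Fin 9) (A B : Fin 3) :
    S.Skl k l * S.bil (S.g a) A B - S.bil (S.g a) A B * S.Skl k l =
      Complex.I • ((if a = k then S.bil (S.g l) A B else 0) -
        (if a = l then S.bil (S.g k) A B else 0)) := by
  have e : ∀ (c : Prop) [Decidable c] (N : Matrix (Fin 16) (Fin 16) ℂ),
      S.bil (if c then N else 0) A B = if c then S.bil N A B else 0 := by
    intro c _ N
    split_ifs
    · rfl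
    · rw [S.bil_zero]
  rw [S.sm_Sk_bil, U.g_g2_comm, S.bil_smul, smul_smul, S.bil_sub, e, e,
    div_mul_cancel₀ _ (two_ne_zero)]

lemma sm_Sk_gg {k l : Fin 9} (h : Same k l) (a i : Fin 9) (A B : Fin 3) :
    S.Skl k l * S.bilb (S.g a * S.g i) A B - S.bilb (S.g a * S.g i) A B * S.Skl k l =
      Complex.I • (((if a = k then S.bilb (S.g l * S.g i) A B else 0) -
        (if a = l then S.bilb (S.g k * S.g i) A B else 0)) +
        ((if i = k then S.bilb (S.g a * S.g l) A B else 0) -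
        (if i = l then S.bilb (S.g a * S.g k) A B else 0))) := by
  have e1 : S.g a * S.g i * S.g2 k l - S.g2 k l * (S.g a * S.g i) =
      (S.g a * S.g2 k l - S.g2 k l * S.g a) * S.g i +
        S.g a * (S.g i * S.g2 k l - S.g2 k l * S.g i) := by
    noncomm_ring
  have e2 : ∀ (c : Prop) [Decidable c] (N M : Matrix (Fin 16) (Fin 16) ℂ),
      (if c then N else 0) * M = if c then N * M else 0 := by
    intro c _ N M
    split_ifs <;> simp
  have e3 : ∀ (c : Prop) [Decidable c] (N M : Matrix (Fin 16) (Fin 16) ℂ),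
      M * (if c then N else 0) = if c then M * N else 0 := by
    intro c _ N M
    split_ifs <;> simp
  rw [S.sm_Sk_bilb h, e1, U.g_g2_comm, U.g_g2_comm, Matrix.smul_mul, Matrix.mul_smul, ← smul_add,
    sub_mul, mul_sub, e2, e2, e3, e3, S.sm_bilb_smul, smul_smul, S.sm_bilb_add, S.sm_bilb_sub,
    S.sm_bilb_sub, S.sm_bilb_ite, S.sm_bilb_ite, S.sm_bilb_ite, S.sm_bilb_ite,
    div_mul_cancel₀ _ (two_ne_zero)]

lemma sm_rot_inn (k l : Fin 9) (x : X3) : inner ℝ x ((-(LL k l)) x) = 0 := by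
  have h := LL_inner k l x x
  have e : inner ℝ x ((-(LL k l)) x) = - inner ℝ x (LL k l x) := by
    rw [← inner_neg_right]; rfl
  rw [real_inner_comm] at h
  rw [e]
  linarith

lemma sm_rot_rho {k l : Fin 9} (hkl : Same k l) (x : X3) :
    ∑ i : Fin 9, ∑ A : Fin 3, (if 3 ≤ i.val then x (i, A) * ((-(LL k l)) x) (i, A) else 0) = 0 := by
  have e : ∀ i A, ((-(LL k l)) x) (i, A) =
      (if i = l then x (k, A) else 0) - (if i = k then x (l, A) else 0) :=
    fun i A => U.neg_LL_apply k l i A x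
  simp only [e]
  rw [Finset.sum_comm]
  refine Finset.sum_eq_zero fun A _ => ?_
  have e2 : ∀ i : Fin 9, (if 3 ≤ i.val then x (i, A) * ((if i = l then x (k, A) else 0) -
      (if i = k then x (l, A) else 0)) else 0) =
      (if i = l then (if 3 ≤ l.val then x (l, A) * x (k, A) else 0) else 0) -
      (if i = k then (if 3 ≤ k.val then x (k, A) * x (l, A) else 0) else 0) := by
    intro i
    by_cases h1 : i = l
    · subst h1
      by_cases h2 : i = k
      · subst h2
        simp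
      · by_cases h3 : 3 ≤ i.val
        · simp [h2, h3]
        · simp [h2, h3]
    · by_cases h2 : i = k
      · subst h2
        by_cases h3 : 3 ≤ i.val
        · simp [h1, h3]
        · simp [h1, h3]
      · simp [h1, h2]
  rw [Finset.sum_congr rfl fun i _ => e2 i, Finset.sum_sub_distrib, Finset.sum_ite_eq',
    Finset.sum_ite_eq', if_pos (Finset.mem_univ _), if_pos (Finset.mem_univ _)]
  by_cases h : 3 ≤ k.val
  · rw [if_pos h, if_pos ((sm_same hkl).1 h)]
    ring
  · rw [if_neg h, if_neg fun h' => h ((sm_same hkl).2 h'), sub_zero]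

lemma sm_rot_xh (k l : Fin 9) (x : X3) (i : Fin 9) (A : Fin 3) :
    ∑ B, ((∑ j, (((-(LL k l)) x) (j, A) * x (j, B) + x (j, A) * ((-(LL k l)) x) (j, B))) *
      x (i, B) + Gr x A B * ((-(LL k l)) x) (i, B)) =
      ((-(LL k l)) (WithLp.toLp 2 fun p => ∑ B, Gr x p.2 B * x (p.1, B))) (i, A) := by
  have e : ∀ (x : X3) i A, ((-(LL k l)) x) (i, A) =
      (if i = l then x (k, A) else 0) - (if i = k then x (l, A) else 0) :=
    fun x i A => U.neg_LL_apply k l i A x
  have h1 : ∀ B, ∑ j, (((-(LL k l)) x) (j, A) * x (j, B) +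
      x (j, A) * ((-(LL k l)) x) (j, B)) = 0 := by
    intro B
    simp only [e, sub_mul, mul_sub, ite_mul, zero_mul, mul_ite, mul_zero,
      Finset.sum_add_distrib, Finset.sum_sub_distrib, Finset.sum_ite_eq', Finset.mem_univ,
      if_true]
    ring
  simp only [h1, zero_mul, zero_add]
  simp only [e]
  simp only [mul_sub, mul_ite, mul_zero, Finset.sum_sub_distrib]
  refine congrArg₂ _ ?_ ?_
  · split_ifs
    · rfl
    · exact Finset.sum_const_zero
  · split_ifs
    · rfl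
    · exact Finset.sum_const_zero

lemma zP1_swap (y : X3) : S.zP1 y = ∑ A, ∑ B, ∑ C, ∑ a : Fin 9,
    (if 3 ≤ a.val then (eps A C B : ℂ) * (y (a, C) : ℂ) else 0) • S.bilb (S.g a) A B := by
  unfold zP1 zP1a
  rw [Finset.sum_comm]
  refine Finset.sum_congr rfl fun A _ => ?_
  rw [Finset.sum_comm]
  refine Finset.sum_congr rfl fun B _ => ?_
  rw [Finset.sum_comm]

/-- the kernel of `P2` -/
noncomputable def kk (A B : Fin 3) (y z : X3) (a i : Fin 9) : ℂ :=
  (if A = B then ∑ D, (y (a, D) : ℂ) * (z (i, D) : ℂ) else 0) - (y (a, A) : ℂ) * (z (i, B) : ℂ)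

lemma zP2_swap (y z : X3) : S.zP2 y z = ∑ A, ∑ B, ∑ a : Fin 9, ∑ i : Fin 9,
    (if 3 ≤ a.val ∧ i.val < 3 then kk A B y z a i else 0) • S.bilb (S.g a * S.g i) A B := by
  unfold zP2 zP2a kk
  rw [Finset.sum_congr rfl fun a _ => Finset.sum_comm (s := (Finset.univ : Finset (Fin 9)))]
  rw [Finset.sum_comm]
  refine Finset.sum_congr rfl fun A _ => ?_
  rw [Finset.sum_congr rfl fun a _ => Finset.sum_comm (s := (Finset.univ : Finset (Fin 9)))]
  rw [Finset.sum_comm]

lemma kk_left (k l : Fin 9) (A B : Fin 3) (x z : X3) (a i : Fin 9) :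
    kk A B ((-(LL k l)) x) z a i = (if a = l then kk A B x z k i else 0) -
      (if a = k then kk A B x z l i else 0) := by
  unfold kk
  simp only [sm_gl]
  by_cases h1 : a = l
  · subst h1
    by_cases h2 : a = k
    · subst h2
      simp
    · by_cases h3 : A = B <;> simp [h2, h3]
  · by_cases h2 : a = k
    · subst h2
      by_cases h3 : A = B
      · simp [h1, h3]; ring
      · simp [h1, h3]
    · by_cases h3 : A = B <;> simp [h1, h2, h3]

lemma kk_right (k l : Fin 9) (A B : Fin 3) (x z : X3) (a i : Fin 9) :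
    kk A B z ((-(LL k l)) x) a i = (if i = l then kk A B z x a k else 0) -
      (if i = k then kk A B z x a l else 0) := by
  unfold kk
  simp only [sm_gl]
  by_cases h1 : i = l
  · subst h1
    by_cases h2 : i = k
    · subst h2
      simp
    · by_cases h3 : A = B <;> simp [h2, h3]
  · by_cases h2 : i = k
    · subst h2
      by_cases h3 : A = B
      · simp [h1, h3]; ring
      · simp [h1, h3]
    · by_cases h3 : A = B <;> simp [h1, h2, h3]

lemma sm_rot_P1 {k l : Fin 9} (hkl : Same k l) (x : X3) :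
    S.Skl k l * S.zP1 x - S.zP1 x * S.Skl k l = Complex.I • S.zP1 ((-(LL k l)) x) := by
  rw [zP1_swap, zP1_swap]
  refine sm_lin1 _ _ _ fun A => sm_lin1 _ _ _ fun B => sm_lin1 _ _ _ fun C => ?_
  rw [sm_lin9 _ _ _ _ fun a => S.sm_Sk_g hkl a A B]
  refine congrArg _ ?_
  rw [sm_sum_kl (fun a => (eps A C B : ℂ) * (x (a, C) : ℂ)) (fun a => S.bilb (S.g a) A B)
    (fun a => 3 ≤ a.val) (sm_same hkl)]
  refine Finset.sum_congr rfl fun a _ => congrArg (· • _) ?_
  rw [sm_gl, mul_sub, mul_ite, mul_ite, mul_zero]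

lemma sm_rot_P2 {k l : Fin 9} (hkl : Same k l) (x : X3) :
    S.Skl k l * S.zP2 x x - S.zP2 x x * S.Skl k l =
      Complex.I • (S.zP2 ((-(LL k l)) x) x + S.zP2 x ((-(LL k l)) x)) := by
  rw [zP2_swap, zP2_swap, zP2_swap, ← Finset.sum_add_distrib]
  refine sm_lin1 _ _ _ fun A => ?_
  rw [← Finset.sum_add_distrib]
  refine sm_lin1 _ _ _ fun B => ?_
  rw [sm_lin2 _ _ _ _ fun a i => S.sm_Sk_gg hkl a i A B]
  refine congrArg _ ?_
  simp only [smul_add, Finset.sum_add_distrib]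
  refine congrArg₂ _ ?_ ?_
  · rw [Finset.sum_comm]
    conv_rhs => rw [Finset.sum_comm]
    refine Finset.sum_congr rfl fun i _ => ?_
    rw [sm_sum_kl (fun a => kk A B x x a i) (fun a => S.bilb (S.g a * S.g i) A B)
      (fun a => 3 ≤ a.val ∧ i.val < 3) (and_congr_left fun _ => sm_same hkl)]
    refine Finset.sum_congr rfl fun a _ => congrArg (· • _) ?_
    rw [kk_left]
  · refine Finset.sum_congr rfl fun a _ => ?_
    have hs : (3 ≤ a.val ∧ k.val < 3) ↔ (3 ≤ a.val ∧ l.val < 3) :=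
      and_congr_right fun _ => hkl.2
    rw [sm_sum_kl (fun i => kk A B x x a i) (fun i => S.bilb (S.g a * S.g i) A B)
      (fun i => 3 ≤ a.val ∧ i.val < 3) hs]
    refine Finset.sum_congr rfl fun i _ => congrArg (· • _) ?_
    rw [kk_right]

lemma sm_rot_FX (k l : Fin 9) (x : X3) :
    S.Skl k l * S.Fx x - S.Fx x * S.Skl k l = Complex.I • S.Fx ((-(LL k l)) x) := by
  have e : ∀ y : X3, S.Fx y = (Complex.I / 2 * (S.κ : ℂ)) • ∑ A, ∑ B, ∑ C, ∑ q : Fin 9,
      ((eps A B C : ℂ) * (y (q, C) : ℂ)) • S.bil (S.g q) A B := by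
    intro y
    rw [Fx_sum]
    refine congrArg _ ?_
    unfold Fxa
    rw [Finset.sum_comm]
    refine Finset.sum_congr rfl fun A _ => ?_
    rw [Finset.sum_comm]
    refine Finset.sum_congr rfl fun B _ => ?_
    rw [Finset.sum_comm]
  rw [e, e]
  refine sm_lin_smul _ _ _ _ ?_
  refine sm_lin1 _ _ _ fun A => sm_lin1 _ _ _ fun B => sm_lin1 _ _ _ fun C => ?_
  rw [sm_lin9 _ _ _ _ fun a => S.sm_Sk_g' k l a A B]
  refine congrArg _ ?_
  have h := sm_sum_kl (k := k) (l := l) (fun a => (eps A B C : ℂ) * (x (a, C) : ℂ))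
    (fun a => S.bil (S.g a) A B) (fun _ => True) Iff.rfl
  simp only [if_true] at h
  rw [h]
  refine Finset.sum_congr rfl fun a _ => congrArg (· • _) ?_
  rw [sm_gl, mul_sub, mul_ite, mul_ite, mul_zero]

/-- infinitesimal covariance of the building blocks -/
structure SmC (L : X3 →L[ℝ] X3) (T : F →L[ℂ] F) : Prop where
  inn : ∀ x, inner ℝ x (L x) = 0
  rho : ∀ x, ∑ i : Fin 9, ∑ A : Fin 3, (if 3 ≤ i.val then x (i, A) * (L x) (i, A) else 0) = 0
  xh : ∀ x i A, ∑ B, ((∑ j, ((L x) (j, A) * x (j, B) + x (j, A) * (L x) (j, B))) * x (i, B) +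
      Gr x A B * (L x) (i, B)) =
      (L (WithLp.toLp 2 fun p => ∑ B, Gr x p.2 B * x (p.1, B))) (i, A)
  P1 : ∀ x, T * S.zP1 x - S.zP1 x * T = Complex.I • S.zP1 (L x)
  P2 : ∀ x, T * S.zP2 x x - S.zP2 x x * T = Complex.I • (S.zP2 (L x) x + S.zP2 x (L x))
  FX : ∀ x, T * S.Fx x - S.Fx x * T = Complex.I • S.Fx (L x)

theorem smC_gauge (C : Fin 3) : S.SmC (U.gLc C) (S.cS C) where
  inn := sm_gauge_inn C
  rho := sm_gauge_rho C
  xh := sm_gauge_xh C
  P1 := S.sm_gauge_P1 C
  P2 := S.sm_gauge_P2 C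
  FX := S.sm_gauge_FX C

theorem smC_rot {k l : Fin 9} (h : Same k l) : S.SmC (-(LL k l)) (S.Skl k l) where
  inn := sm_rot_inn k l
  rho := sm_rot_rho h
  xh := sm_rot_xh k l
  P1 := S.sm_rot_P1 h
  P2 := S.sm_rot_P2 h
  FX := S.sm_rot_FX k l

end Setup

end Vale.Agent.P353
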