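import Vale.Agent.P353.U.StmtB
import Vale.Agent.P353.U.Sym

/-! # P353, uniqueness for `N = 2`: weak `L²` eigenfunctions are in the form domain (B6) -/

open MeasureTheory Filter Topology
open scoped ContDiff

namespace Vale.Agent.P353.U

variable {F : Type*} [NormedAddCommGroup F] [InnerProductSpace ℂ F]

omit [InnerProductSpace ℂ F] in
/-- an `L²` function with zero norm vanishes almost everywhere -/
lemma ae_eq_of_nsq_sub {f g : X3 → F} (hf : MemLp f 2 (volume : Measure X3))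
    (hg : MemLp g 2 (volume : Measure X3)) (h : nsq (fun x => f x - g x) = 0) :
    f =ᵐ[(volume : Measure X3)] g := by
  have hi : Integrable (fun x => ‖f x - g x‖ ^ 2) := memLp_norm_sq_int (hf.sub hg)
  have h0 := (integral_eq_zero_iff_of_nonneg (fun x => by positivity) hi).1 h
  filter_upwards [h0] with x hx
  have hx' : ‖f x - g x‖ ^ 2 = 0 := hx
  exact sub_eq_zero.1 (norm_eq_zero.1 (pow_eq_zero_iff two_ne_zero |>.1 hx'))

omit [InnerProductSpace ℂ F] in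
lemma nsq_congr_ae {f g : X3 → F} (h : f =ᵐ[(volume : Measure X3)] g) : nsq f = nsq g := by
  unfold nsq
  refine integral_congr_ae ?_
  filter_upwards [h] with x hx
  rw [hx]

omit [InnerProductSpace ℂ F] in
/-- `L²` convergence only depends on the class of the limit -/
lemma L2t_congr_ae {u : ℕ → X3 → F} {f g : X3 → F} (h : L2t u f) (hg : MemLp g 2 (volume : Measure X3))
    (hfg : f =ᵐ[(volume : Measure X3)] g) : L2t u g := by
  refine ⟨h.mem, hg, ?_⟩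
  refine h.lim.congr fun n => ?_
  refine nsq_congr_ae ?_
  filter_upwards [hfg] with x hx
  rw [hx]

lemma Str_congr_ae {S : Setup F} {m : ℝ} {f g : X3 → F} {Φ : Fin 16 → X3 → F} (h : S.Str m f Φ)
    (hg : MemLp g 2 (volume : Measure X3)) (hfg : f =ᵐ[(volume : Measure X3)] g) :
    S.Str m g Φ := by
  obtain ⟨u, hu, h1, h2⟩ := h
  exact ⟨u, hu, L2t_congr_ae h1 hg hfg, h2⟩

/-- the weak equation of `R f`, in very weak form -/
lemma res_weak {S : Setup F} {m : ℝ} {w f : X3 → F} {Φ : Fin 16 → X3 → F} (hStr : S.Str m w Φ)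
    (hw : MemLp w 2 (volume : Measure X3))
    (h : ∀ ζ, Setup.Tst ζ → (∫ x, inner ℂ (ζ x) (w x)) +
      ∑ β, ∫ x, inner ℂ (S.Qm m β ζ x) (Φ β x) = ∫ x, inner ℂ (ζ x) (f x))
    {ζ : X3 → F} (hζ : Setup.Tst ζ) :
    (∫ x, inner ℂ (ζ x) (w x)) + ∫ x, inner ℂ (∑ β, S.Qm m β (S.Qm m β ζ) x) (w x) =
      ∫ x, inner ℂ (ζ x) (f x) := by
  have hQQ : ∀ β, Setup.Tst (S.Qm m β (S.Qm m β ζ)) := fun β => (hζ.Qm S m β).Qm S m β
  rw [← h ζ hζ]
  congr 1
  simp only [sum_inner]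
  rw [integral_finsetSum _ fun β _ => integrable_inner_memLp (hQQ β).memLp hw]
  refine Finset.sum_congr rfl fun β _ => ?_
  exact hStr.wQ β (S.Qm m β ζ) (hζ.Qm S m β)

/-- **B6** -/
theorem we (S : Setup F) (h1 : ResStmt S) (h2 : ESAStmt S) : WEStmt S := by
  intro m e hm Ψ hΨ hE
  obtain ⟨R, hR⟩ := h1 m
  obtain ⟨Φ, hStr, hweak, hen⟩ := hR.2 (((1 + e : ℝ) : ℂ) • hΨ.toLp Ψ)
  have hf : ∀ᵐ x : X3, ((((1 + e : ℝ) : ℂ) • hΨ.toLp Ψ : Lp F 2 (volume : Measure X3)) : X3 → F) x =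
      ((1 + e : ℝ) : ℂ) • Ψ x := by
    filter_upwards [Lp.coeFn_smul ((1 + e : ℝ) : ℂ) (hΨ.toLp Ψ), hΨ.coeFn_toLp] with x hx hy
    rw [hx, Pi.smul_apply, hy]
  generalize hw : R (((1 + e : ℝ) : ℂ) • hΨ.toLp Ψ) = w at hStr hweak hen
  have hwm : MemLp (w : X3 → F) 2 (volume : Measure X3) := Lp.memLp w
  have hz : nsq (fun x => Ψ x - w x) = 0 := by
    refine h2 m hm (fun x => Ψ x - w x) (hΨ.sub hwm) fun ζ hζ => ?_
    have hQQ : ∀ β, Setup.Tst (S.Qm m β (S.Qm m β ζ)) := fun β => (hζ.Qm S m β).Qm S m β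
    have hS : Setup.Tst (fun x => ∑ β, S.Qm m β (S.Qm m β ζ) x) := Setup.Tst.sum _ hQQ
    have e1 := res_weak hStr hwm hweak hζ
    have e2 := hE ζ hζ
    have e3 : ∫ x, inner ℂ (ζ x) (((((1 + e : ℝ) : ℂ) • hΨ.toLp Ψ :
        Lp F 2 (volume : Measure X3)) : X3 → F) x) = ((1 + e : ℝ) : ℂ) * ∫ x, inner ℂ (ζ x) (Ψ x) := by
      rw [← integral_const_mul]
      refine integral_congr_ae ?_
      filter_upwards [hf] with x hx
      rw [hx, inner_smul_right]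
    rw [e3] at e1
    have i1 := integrable_inner_memLp hζ.memLp hΨ
    have i2 := integrable_inner_memLp hζ.memLp hwm
    have i3 := integrable_inner_memLp hS.memLp hΨ
    have i4 := integrable_inner_memLp hS.memLp hwm
    have e4 : ∀ x, inner ℂ (ζ x + ∑ β, S.Qm m β (S.Qm m β ζ) x) (Ψ x - w x) =
        (inner ℂ (ζ x) (Ψ x) - inner ℂ (ζ x) (w x)) +
        (inner ℂ (∑ β, S.Qm m β (S.Qm m β ζ) x) (Ψ x) -
          inner ℂ (∑ β, S.Qm m β (S.Qm m β ζ) x) (w x)) := by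
      intro x
      rw [inner_add_left, inner_sub_right, inner_sub_right]
    have i5 : Integrable (fun x => inner ℂ (ζ x) (Ψ x) - inner ℂ (ζ x) (w x)) := i1.sub i2
    have i6 : Integrable (fun x => inner ℂ (∑ β, S.Qm m β (S.Qm m β ζ) x) (Ψ x) -
        inner ℂ (∑ β, S.Qm m β (S.Qm m β ζ) x) (w x)) := i3.sub i4
    simp only [e4]
    rw [integral_add i5 i6, integral_sub i1 i2, integral_sub i3 i4, e2]
    push_cast at e1
    linear_combination -e1
  have hae : (w : X3 → F) =ᵐ[(volume : Measure X3)] Ψ := (ae_eq_of_nsq_sub hΨ hwm hz).symm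
  have hStr' : S.Str m Ψ Φ := Str_congr_ae hStr hΨ hae
  refine ⟨Φ, hStr', fun β => hStr'.wQ β, ?_⟩
  have hwψ : w = hΨ.toLp Ψ := by
    refine Lp.ext ?_
    filter_upwards [hae, hΨ.coeFn_toLp] with x hx hy
    rw [hx, hy]
  rw [nsq_congr_ae hae, hwψ, inner_smul_right, inner_self_eq_norm_sq_to_K, norm_toLp hΨ] at hen
  have h5 : (((1 + e : ℝ) : ℂ) * ((Real.sqrt (nsq Ψ) : ℂ) ^ 2)).re = (1 + e) * nsq Ψ := by
    have h6 : ((Real.sqrt (nsq Ψ) : ℂ) ^ 2) = ((nsq Ψ : ℝ) : ℂ) := by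
      rw [← Complex.ofReal_pow, Real.sq_sqrt (nsq_nonneg Ψ)]
    rw [h6, ← Complex.ofReal_mul, Complex.ofReal_re]
  have h7 : nsq Ψ + ∑ β, nsq (Φ β) = (1 + e) * nsq Ψ := by
    rw [← h5]; exact hen
  linarith

end Vale.Agent.P353.U
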